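import Mathlib
import Crest.Agent.R236.ARec
import Crest.Agent.R236.AAuer
import Crest.Agent.R236.AInvB
import Crest.Agent.R236.AUlim

-- ▼ part R236/AClass
section

/-! Row 236, Part A: the class `ClassR`, its normalisation and compactness. (helper499) -/

set_option autoImplicit false
set_option linter.unusedSectionVars false
set_option linter.style.haveILetI false
open scoped ContDiff Topology
open Set Filter

noncomputable section

namespace Crest.Agent.R236.A

/-- the linear scaling `(t,y,z) ↦ (B t, y/τ, z/λ)` -/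
def Phi {m D : ℕ} (B : EE m ≃L[ℝ] EE m) (tau lam : ℝ) (ht : tau ≠ 0) (hl : lam ≠ 0) :
    (EE m × EE D × ℝ) ≃L[ℝ] (EE m × EE D × ℝ) :=
  (LinearEquiv.prodCongr B.toLinearEquiv
    (LinearEquiv.prodCongr (LinearEquiv.smulOfNeZero ℝ (EE D) tau⁻¹ (inv_ne_zero ht))
      (LinearEquiv.smulOfNeZero ℝ ℝ lam⁻¹ (inv_ne_zero hl)))).toContinuousLinearEquiv

lemma Phi_apply {m D : ℕ} (B : EE m ≃L[ℝ] EE m) (tau lam : ℝ) (ht : tau ≠ 0) (hl : lam ≠ 0)
    (X : EE m × EE D × ℝ) :
    Phi B tau lam ht hl X = (B X.1, tau⁻¹ • X.2.1, lam⁻¹ * X.2.2) := by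
  rfl

namespace ConeData
variable {D : ℕ} {R : Set (EE D)} {l : EE D →L[ℝ] ℝ} {e : EE D} {c0 : ℝ}

lemma e_mem (h : ConeData R l e c0) : e ∈ R := interior_subset h.e_int

lemma norm_le (h : ConeData R l e c0) {v : EE D} (hv : v ∈ R) {s : ℝ} (hs : l v ≤ s) :
    ‖v‖ ≤ s / c0 := by
  rw [le_div_iff₀ h.c0_pos]
  have := h.l_ge v hv
  linarith [mul_comm c0 ‖v‖]

lemma l_nonneg (h : ConeData R l e c0) {v : EE D} (hv : v ∈ R) : 0 ≤ l v :=
  (mul_nonneg h.c0_pos.le (norm_nonneg v)).trans (h.l_ge v hv)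

lemma eq_zero (h : ConeData R l e c0) {v : EE D} (hv : v ∈ R) (hl : l v ≤ 0) : v = 0 := by
  have h1 := h.norm_le hv hl
  rw [zero_div] at h1
  exact norm_le_zero_iff.1 h1

lemma eq_zero_of_neg (h : ConeData R l e c0) {v : EE D} (hv : v ∈ R) (hv' : -v ∈ R) : v = 0 := by
  refine h.eq_zero hv ?_
  have := h.l_nonneg hv'
  rw [map_neg] at this
  linarith

/-- a functional which is `≤ 0` on `R` and `0` at `e` vanishes -/
lemma funct_zero (h : ConeData R l e c0) (f : EE D →ₗ[ℝ] ℝ) (hf : ∀ v ∈ R, f v ≤ 0)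
    (he : f e = 0) : f = 0 := by
  have h1 := h.e_int
  rw [mem_interior_iff_mem_nhds, Metric.mem_nhds_iff] at h1
  obtain ⟨δ, hδ, hb⟩ := h1
  ext v
  by_contra hv
  have hv0 : v ≠ 0 := by
    rintro rfl
    exact hv (by simp)
  have hn : 0 < ‖v‖ := norm_pos_iff.2 hv0
  set s : ℝ := δ / (2 * ‖v‖) with hs
  have hs0 : 0 < s := by positivity
  have hsv : ‖s • v‖ < δ := by
    rw [norm_smul, Real.norm_of_nonneg hs0.le, hs]
    have : δ / (2 * ‖v‖) * ‖v‖ = δ / 2 := by field_simp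
    rw [this]; linarith
  have m1 : e + s • v ∈ R := hb (by simpa [Metric.mem_ball, dist_eq_norm] using hsv)
  have m2 : e - s • v ∈ R := hb (by
    rw [Metric.mem_ball, dist_eq_norm]
    have : e - s • v - e = -(s • v) := by abel
    rw [this, norm_neg]; exact hsv)
  have e1 := hf _ m1
  have e2 := hf _ m2
  rw [map_add, he, map_smul, smul_eq_mul, zero_add] at e1
  rw [map_sub, he, map_smul, smul_eq_mul, zero_sub] at e2
  apply hv
  have : s * f v = 0 := by linarith
  simpa [hs0.ne'] using this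

end ConeData

section box
variable {m D : ℕ} (l : EE D →L[ℝ] ℝ) (tau lam : ℝ)

lemma isClosed_l : IsClosed {X : EE m × EE D × ℝ | l X.2.1 ≤ tau} :=
  isClosed_le (l.continuous.comp (continuous_fst.comp continuous_snd)) continuous_const
lemma isClosed_z : IsClosed {X : EE m × EE D × ℝ | X.2.2 ≤ lam} :=
  isClosed_le (continuous_snd.comp continuous_snd) continuous_const
lemma isOpen_l : IsOpen {X : EE m × EE D × ℝ | l X.2.1 < tau} :=
  isOpen_lt (l.continuous.comp (continuous_fst.comp continuous_snd)) continuous_const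
lemma isOpen_z : IsOpen {X : EE m × EE D × ℝ | X.2.2 < lam} :=
  isOpen_lt (continuous_snd.comp continuous_snd) continuous_const
lemma convex_l : Convex ℝ {X : EE m × EE D × ℝ | l X.2.1 ≤ tau} := by
  intro a ha b hb s t hs ht hst
  have ha' : l a.2.1 ≤ tau := ha
  have hb' : l b.2.1 ≤ tau := hb
  have h1 : l (s • a + t • b).2.1 = s * l a.2.1 + t * l b.2.1 := by simp
  change l (s • a + t • b).2.1 ≤ tau
  rw [h1]
  have h2 := mul_le_mul_of_nonneg_left ha' hs
  have h3 := mul_le_mul_of_nonneg_left hb' ht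
  have h4 : s * tau + t * tau = tau := by rw [← add_mul, hst, one_mul]
  linarith
lemma convex_z : Convex ℝ {X : EE m × EE D × ℝ | X.2.2 ≤ lam} := by
  intro a ha b hb s t hs ht hst
  have ha' : a.2.2 ≤ lam := ha
  have hb' : b.2.2 ≤ lam := hb
  have h1 : (s • a + t • b).2.2 = s * a.2.2 + t * b.2.2 := by simp
  change (s • a + t • b).2.2 ≤ lam
  rw [h1]
  have h2 := mul_le_mul_of_nonneg_left ha' hs
  have h3 := mul_le_mul_of_nonneg_left hb' ht
  have h4 : s * lam + t * lam = lam := by rw [← add_mul, hst, one_mul]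
  linarith
end box

namespace ClassR
variable {n m D : ℕ} {R : Set (EE D)} {C : Set (EE m × EE D × ℝ)}
variable {l : EE D →L[ℝ] ℝ} {e : EE D} {c0 : ℝ}

lemma zero_mem (h : ClassR n R C) (cd : ConeData R l e c0) : (0 : EE m × EE D × ℝ) ∈ C := by
  have := h.sub 0 cd.R_zero 0 le_rfl
  exact this

lemma closed (h : ClassR n R C) : IsClosed C := h.good.appr.1
lemma convex (h : ClassR n R C) : Convex ℝ C := h.good.appr.2.1

lemma smul_mem (h : ClassR n R C) (cd : ConeData R l e c0) {X : EE m × EE D × ℝ} (hX : X ∈ C)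
    {s : ℝ} (h0 : 0 ≤ s) (h1 : s ≤ 1) : s • X ∈ C :=
  h.convex.smul_mem_of_zero_mem (h.zero_mem cd) hX ⟨h0, h1⟩

lemma rec_mem (h : ClassR n R C) (cd : ConeData R l e c0) {y : EE D} (hy : y ∈ R) {z : ℝ}
    (hz : 0 ≤ z) : ((0 : EE m), y, z) ∈ Rec C := by
  refine mem_rec_of_ray h.closed h.convex (x0 := 0) fun t ht => ?_
  have := h.sub (t • y) (cd.R_smul y hy t ht) (t * z) (mul_nonneg ht hz)
  have e1 : (0 : EE m × EE D × ℝ) + t • ((0 : EE m), y, z) = ((0 : EE m), t • y, t * z) := by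
    ext <;> simp
  rw [e1]; exact this

lemma rec_sub (h : ClassR n R C) (cd : ConeData R l e c0) {v : EE m × EE D × ℝ}
    (hv : v ∈ Rec C) : v ∈ C := by
  have := hv 0 (h.zero_mem cd) 1 zero_le_one
  simpa using this

lemma add_mem (h : ClassR n R C) (cd : ConeData R l e c0) {X : EE m × EE D × ℝ} (hX : X ∈ C)
    {y : EE D} (hy : y ∈ R) {z : ℝ} (hz : 0 ≤ z) : X + ((0 : EE m), y, z) ∈ C := by
  have := h.rec_mem cd hy hz X hX 1 zero_le_one
  simpa using this

/-- `RecD (D+1)` from one more recession direction -/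
lemma recD_succ (h : ClassR n R C) (cd : ConeData R l e c0) {V' : Type*} [AddCommGroup V']
    [Module ℝ V'] (f : (EE m × EE D × ℝ) →ₗ[ℝ] V') (hf : ∀ y, f ((0 : EE m), y, 0) = 0)
    {x : EE m × EE D × ℝ} (hx : x ∈ Rec C) (hfx : f x ≠ 0)
    {ξ : (EE m × EE D × ℝ) →L[ℝ] ℝ} (hξ : ξ ≠ 0) {X0 : EE m × EE D × ℝ} (hX0 : X0 ∈ C)
    (hmax : ∀ X ∈ C, ξ X ≤ ξ X0) (hξR : ∀ y, ξ ((0 : EE m), y, 0) = 0) (hξx : ξ x = 0) :
    RecD (D + 1) C := by
  obtain ⟨r, hr, hl⟩ := exists_basis_of_int ⟨e, cd.e_int⟩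
  refine ⟨ξ, hξ, X0, hX0, hmax, Fin.cons x (fun i => ((0 : EE m), r i, (0 : ℝ))), ?_, ?_⟩
  · refine linInd_cons ?_ f (fun i => hf _) hfx
    let g : EE D →ₗ[ℝ] EE m × EE D × ℝ := (LinearMap.inr ℝ (EE m) (EE D × ℝ)).comp
      (LinearMap.inl ℝ (EE D) ℝ)
    have : (fun i => ((0 : EE m), r i, (0 : ℝ))) = g ∘ r := by
      funext i; rfl
    rw [this]
    refine hl.map' g ?_
    rw [LinearMap.ker_eq_bot]
    intro a b hab
    have := congrArg (fun X : EE m × EE D × ℝ => X.2.1) hab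
    exact this
  · intro i
    refine Fin.cases ?_ (fun j => ?_) i
    · simpa using ⟨hx, hξx⟩
    · simpa using ⟨h.rec_mem cd (hr j) le_rfl, hξR _⟩

/-- the only recession directions with `l ≤ 0`, `z ≤ 0` vanish, if `D` is maximal -/
lemma rec_eq_zero (h : ClassR n R C) (cd : ConeData R l e c0) (hmax : ¬ RecD (D + 1) C)
    {v : EE m × EE D × ℝ} (hv : v ∈ Rec C) (hl : l v.2.1 ≤ 0) (hz : v.2.2 ≤ 0) : v = 0 := by
  have hvC := h.rec_sub cd hv
  obtain ⟨h1, h2⟩ := h.le v hvC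
  have h3 : v.2.1 = 0 := cd.eq_zero h1 hl
  have h4 : v.2.2 = 0 := le_antisymm hz h2
  by_contra hne
  have h5 : v.1 ≠ 0 := by
    intro h6
    apply hne
    ext1
    · exact h6
    · ext1
      · exact h3
      · exact h4
  apply hmax
  refine h.recD_succ cd (LinearMap.fst ℝ (EE m) (EE D × ℝ)) (fun y => by simp) hv (by simpa using h5)
    (ξ := -((ContinuousLinearMap.snd ℝ (EE D) ℝ).comp (ContinuousLinearMap.snd ℝ (EE m) (EE D × ℝ))))
    ?_ (X0 := 0) (h.zero_mem cd) ?_ (fun y => by simp) (by simp [h4])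
  · intro h7
    have := congrArg (fun g : (EE m × EE D × ℝ) →L[ℝ] ℝ => g ((0 : EE m), (0 : EE D), (1 : ℝ))) h7
    simp at this
  · intro X hX
    have := (h.le X hX).2
    simpa using this

/-- the boxes `{l ≤ τ, z ≤ λ}` are compact -/
lemma isCompact_box (h : ClassR n R C) (cd : ConeData R l e c0) (hmax : ¬ RecD (D + 1) C)
    {tau lam : ℝ} (ht : 0 ≤ tau) (hla : 0 ≤ lam) :
    IsCompact {X | X ∈ C ∧ l X.2.1 ≤ tau ∧ X.2.2 ≤ lam} := by
  have hcl : IsClosed {X : EE m × EE D × ℝ | X ∈ C ∧ l X.2.1 ≤ tau ∧ X.2.2 ≤ lam} := by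
    exact h.closed.inter ((isClosed_l l tau).inter (isClosed_z lam))
  have hcv : Convex ℝ {X : EE m × EE D × ℝ | X ∈ C ∧ l X.2.1 ≤ tau ∧ X.2.2 ≤ lam} := by
    exact h.convex.inter ((convex_l l tau).inter (convex_z lam))
  refine isCompact_of_no_rec hcl hcv fun v hv => ?_
  have h0 : (0 : EE m × EE D × ℝ) ∈ {X : EE m × EE D × ℝ | X ∈ C ∧ l X.2.1 ≤ tau ∧ X.2.2 ≤ lam} :=
    ⟨h.zero_mem cd, by simpa using ht, by simpa using hla⟩
  have hr : v ∈ Rec C := by
    refine mem_rec_of_ray h.closed h.convex (x0 := 0) fun t ht' => ?_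
    exact (hv 0 h0 t ht').1
  have hall : ∀ t : ℝ, 0 ≤ t → t * l v.2.1 ≤ tau ∧ t * v.2.2 ≤ lam := by
    intro t ht'
    have := (hv 0 h0 t ht').2
    simpa using this
  refine h.rec_eq_zero cd hmax hr ?_ ?_
  · by_contra hpos
    push Not at hpos
    have := (hall ((tau + 1) / l v.2.1) (by positivity)).1
    rw [div_mul_cancel₀ _ hpos.ne'] at this
    linarith
  · by_contra hpos
    push Not at hpos
    have := (hall ((lam + 1) / v.2.2) (by positivity)).2
    rw [div_mul_cancel₀ _ hpos.ne'] at this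
    linarith

/-- Auerbach normalisation of the `T`-projection of the box -/
lemma exists_norm (hA : AuerbachStmt) (h : ClassR n R C) (cd : ConeData R l e c0)
    (hmax : ¬ RecD (D + 1) C) {tau lam : ℝ} (ht : 0 < tau) (hla : 0 < lam) :
    ∃ B : EE m ≃L[ℝ] EE m, Norm1 l (Phi B tau lam ht.ne' hla.ne' '' C) := by
  set K : Set (EE m × EE D × ℝ) := {X | X ∈ C ∧ l X.2.1 ≤ tau ∧ X.2.2 ≤ lam} with hK
  have hKc : IsCompact K := h.isCompact_box cd hmax ht.le hla.le
  have hKcv : Convex ℝ K := by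
    exact h.convex.inter ((convex_l l tau).inter (convex_z lam))
  have hint : (interior (Prod.fst '' K)).Nonempty := by
    obtain ⟨Q, hQ⟩ := h.good.int
    -- points s • Q
    have hlim : Tendsto (fun s : ℝ => s • Q) (𝓝[>] 0) (𝓝 0) := by
      have : Tendsto (fun s : ℝ => s • Q) (𝓝 0) (𝓝 ((0 : ℝ) • Q)) :=
        (continuous_id.smul continuous_const).tendsto 0
      rw [zero_smul] at this
      exact this.mono_left nhdsWithin_le_nhds
    have hopen : IsOpen {X : EE m × EE D × ℝ | l X.2.1 < tau ∧ X.2.2 < lam} := by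
      exact (isOpen_l l tau).inter (isOpen_z lam)
    have h1 : ∀ᶠ s : ℝ in 𝓝[>] 0, s • Q ∈ {X : EE m × EE D × ℝ | l X.2.1 < tau ∧ X.2.2 < lam} :=
      hlim (hopen.mem_nhds (by simpa using ⟨ht, hla⟩))
    have h2 : ∀ᶠ s : ℝ in 𝓝[>] 0, s < 1 := by
      have : ∀ᶠ s : ℝ in 𝓝 0, s < 1 := eventually_lt_nhds zero_lt_one
      exact this.filter_mono nhdsWithin_le_nhds
    have h3 : ∀ᶠ s : ℝ in 𝓝[>] 0, 0 < s := eventually_mem_nhdsWithin
    obtain ⟨s, hs1, hs2, hs3⟩ := (h1.and (h2.and h3)).exists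
    have h4 : s • Q ∈ interior C := by
      have := h.convex.openSegment_interior_closure_subset_interior hQ
        (subset_closure (h.zero_mem cd))
      apply this
      refine ⟨s, 1 - s, hs3, by linarith, by ring, by simp⟩
    have ho : IsOpen (interior C ∩ {X : EE m × EE D × ℝ | l X.2.1 < tau ∧ X.2.2 < lam}) :=
      isOpen_interior.inter hopen
    refine ⟨(s • Q).1, ?_⟩
    refine interior_maximal ?_ (isOpenMap_fst _ ho) ⟨s • Q, ⟨h4, hs1⟩, rfl⟩
    rintro _ ⟨X, ⟨hX1, hX2⟩, rfl⟩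
    exact ⟨X, ⟨interior_subset hX1, hX2.1.le, hX2.2.le⟩, rfl⟩
  obtain ⟨B, hB1, hB2⟩ := hA m (Prod.fst '' K) (hKc.image continuous_fst)
    (hKcv.linear_image (LinearMap.fst ℝ (EE m) (EE D × ℝ)))
    ⟨0, ⟨h.zero_mem cd, by simpa using ht.le, by simpa using hla.le⟩, rfl⟩ hint
  refine ⟨B, ?_, ?_⟩
  · rintro _ ⟨X, hX, rfl⟩ h1 h2 i
    rw [Phi_apply] at h1 h2 ⊢
    refine hB2 _ ⟨X.1, ⟨X, ⟨hX, ?_, ?_⟩, rfl⟩, rfl⟩ i
    · simp only [map_smul, smul_eq_mul] at h1
      rwa [inv_mul_le_iff₀ ht, mul_one] at h1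
    · simp only at h2
      rwa [inv_mul_le_iff₀ hla, mul_one] at h2
  · intro i
    obtain ⟨x, ⟨X, hX, rfl⟩, hx⟩ := hB1 i
    refine ⟨Phi B tau lam ht.ne' hla.ne' X, ⟨X, hX.1, rfl⟩, ?_, ?_, ?_⟩
    · rw [Phi_apply]
      simp only [map_smul, smul_eq_mul]
      rw [inv_mul_le_iff₀ ht, mul_one]; exact hX.2.1
    · rw [Phi_apply]
      simp only
      rw [inv_mul_le_iff₀ hla, mul_one]; exact hX.2.2
    · rw [Phi_apply]
      exact hx

lemma image (hgood : ∀ A : (EE m × EE D × ℝ) ≃ᵃ[ℝ] (EE m × EE D × ℝ), Good n (A '' C))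
    (h : ClassR n R C) (cd : ConeData R l e c0) (B : EE m ≃L[ℝ] EE m)
    {tau lam : ℝ} (ht : 0 < tau) (hla : 0 < lam) :
    ClassR n R (Phi B tau lam ht.ne' hla.ne' '' C) := by
  refine ⟨?_, ?_, ?_⟩
  · exact hgood (Phi B tau lam ht.ne' hla.ne').toLinearEquiv.toAffineEquiv
  · intro y hy z hz
    refine ⟨((0 : EE m), tau • y, lam * z), h.sub _ (cd.R_smul y hy tau ht.le) _ (by positivity), ?_⟩
    rw [Phi_apply]
    simp only [map_zero, smul_smul, inv_mul_cancel₀ ht.ne', one_smul]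
    rw [← mul_assoc, inv_mul_cancel₀ hla.ne', one_mul]
  · rintro _ ⟨X, hX, rfl⟩
    rw [Phi_apply]
    exact ⟨cd.R_smul _ (h.le X hX).1 _ (by positivity), by
      have := (h.le X hX).2
      simp only
      positivity⟩

end ClassR

end Crest.Agent.R236.A
end
end

-- ▼ part R236/ALemX
section

/-! Row 236, Part A: the class `ClassR` is closed under ultralimits; Lemma X. (helper499) -/

set_option autoImplicit false
set_option linter.unusedSectionVars false
set_option linter.style.haveILetI false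
open scoped ContDiff Topology
open Set Filter

noncomputable section

namespace Crest.Agent.R236.A

variable {n m D : ℕ} {R : Set (EE D)} {l : EE D →L[ℝ] ℝ} {e : EE D} {c0 : ℝ}

lemma tendsto_fst' {U : Ultrafilter ℕ} {x : ℕ → EE m × EE D × ℝ} {a : EE m × EE D × ℝ}
    (h : Tendsto x U (𝓝 a)) : Tendsto (fun j => (x j).1) U (𝓝 a.1) :=
  (continuous_fst.tendsto a).comp h
lemma tendsto_y {U : Ultrafilter ℕ} {x : ℕ → EE m × EE D × ℝ} {a : EE m × EE D × ℝ}
    (h : Tendsto x U (𝓝 a)) : Tendsto (fun j => (x j).2.1) U (𝓝 a.2.1) :=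
  ((continuous_fst.comp continuous_snd).tendsto a).comp h
lemma tendsto_z {U : Ultrafilter ℕ} {x : ℕ → EE m × EE D × ℝ} {a : EE m × EE D × ℝ}
    (h : Tendsto x U (𝓝 a)) : Tendsto (fun j => (x j).2.2) U (𝓝 a.2.2) :=
  ((continuous_snd.comp continuous_snd).tendsto a).comp h

/-- points of a normalised box are bounded -/
lemma norm_box_le {C : Set (EE m × EE D × ℝ)} (h : ClassR n R C) (cd : ConeData R l e c0)
    (hN : Norm1 l C) {X : EE m × EE D × ℝ} (hX : X ∈ C) (h1 : l X.2.1 ≤ 1) (h2 : X.2.2 ≤ 1) :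
    ‖X‖ ≤ max (m : ℝ) (max (1 / c0) 1) := by
  rw [Prod.norm_def, Prod.norm_def]
  refine max_le_max ?_ (max_le_max ?_ ?_)
  · have hi := hN.cube X hX h1 h2
    rw [EuclideanSpace.norm_eq]
    rcases Nat.eq_zero_or_pos m with hm | hm
    · subst hm
      simp
    rw [Real.sqrt_le_left (by positivity)]
    calc ∑ i, ‖X.1 i‖ ^ 2 ≤ ∑ _i : Fin m, (1 : ℝ) := by
          refine Finset.sum_le_sum fun i _ => ?_
          have := hi i
          rw [Real.norm_eq_abs]
          have h0 := abs_nonneg (X.1 i)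
          nlinarith
      _ = (m : ℝ) := by simp
      _ ≤ (m : ℝ) ^ 2 := by
          have : (1 : ℝ) ≤ m := by exact_mod_cast hm
          nlinarith
  · exact cd.norm_le (h.le X hX).1 h1
  · rw [Real.norm_of_nonneg (h.le X hX).2]; exact h2

/-- normalised classes are closed under ultralimits -/
theorem ulim_classR {U : Ultrafilter ℕ} {C : ℕ → Set (EE m × EE D × ℝ)}
    (h : ∀ j, ClassR n R (C j)) (cd : ConeData R l e c0) (hN : ∀ j, Norm1 l (C j)) :
    ClassR n R (ulim U C) := by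
  have hcl : ∀ j, IsClosed (C j) := fun j => (h j).closed
  have hsub : ∀ y ∈ R, ∀ z : ℝ, 0 ≤ z → ((0 : EE m), y, z) ∈ ulim U C := fun y hy z hz =>
    mem_ulim_of_tendsto (x := fun _ => ((0 : EE m), y, z))
      (Eventually.of_forall fun j => (h j).sub y hy z hz) tendsto_const_nhds
  have hle : ∀ X ∈ ulim U C, X.2.1 ∈ R ∧ 0 ≤ X.2.2 := by
    intro X hX
    obtain ⟨x, hx, hl⟩ := exists_seq_of_mem_ulim hcl hX
    refine ⟨cd.R_closed.mem_of_tendsto (tendsto_y hl) ?_,
      ge_of_tendsto (tendsto_z hl) ?_⟩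
    · filter_upwards [hx] with j hj using ((h j).le _ hj).1
    · filter_upwards [hx] with j hj using ((h j).le _ hj).2
  have hcube : ∀ X ∈ ulim U C, l X.2.1 ≤ 1 → X.2.2 ≤ 1 → ∀ i, |X.1 i| ≤ 1 := by
    intro X hX h1 h2 i
    obtain ⟨x, hx, hl⟩ := exists_seq_of_mem_ulim hcl hX
    let ρ : ℕ → ℝ := fun j => max 1 (max (l (x j).2.1) (x j).2.2)
    have hρ : Tendsto ρ U (𝓝 1) := by
      have a1 : Tendsto (fun j => l (x j).2.1) U (𝓝 (l X.2.1)) :=
        (l.continuous.tendsto _).comp (tendsto_y hl)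
      have a2 := (tendsto_const_nhds (x := (1 : ℝ)) (f := (U : Filter ℕ))).max
        (a1.max (tendsto_z hl))
      have a3 : max 1 (max (l X.2.1) X.2.2) = 1 := max_eq_left (max_le h1 h2)
      rw [a3] at a2
      exact a2
    have a4 : Tendsto (fun j => |(x j).1 i|) U (𝓝 |X.1 i|) := by
      have : Tendsto (fun j => (x j).1 i) U (𝓝 (X.1 i)) :=
        ((EuclideanSpace.proj (𝕜 := ℝ) i).continuous.tendsto X.1).comp (tendsto_fst' hl)
      exact this.abs
    refine le_of_tendsto_of_tendsto a4 hρ ?_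
    filter_upwards [hx] with j hj
    have hρ1 : 1 ≤ ρ j := le_max_left _ _
    have hρ0 : 0 < ρ j := by linarith
    have a5 : (ρ j)⁻¹ • x j ∈ C j := (h j).smul_mem cd hj (inv_nonneg.2 hρ0.le) (inv_le_one_of_one_le₀ hρ1)
    have a6 := (hN j).cube _ a5 (by
      simp only [Prod.smul_snd, Prod.smul_fst, map_smul, smul_eq_mul]
      rw [inv_mul_le_iff₀ hρ0, mul_one]
      exact (le_max_left _ _).trans (le_max_right _ _)) (by
      simp only [Prod.smul_snd, smul_eq_mul]
      rw [inv_mul_le_iff₀ hρ0, mul_one]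
      exact (le_max_right _ _).trans (le_max_right _ _)) i
    have a7 : |((ρ j)⁻¹ • x j).1 i| = (ρ j)⁻¹ * |(x j).1 i| := by
      simp only [Prod.smul_fst, PiLp.smul_apply, smul_eq_mul, abs_mul]
      rw [abs_of_pos (inv_pos.2 hρ0)]
    rw [a7, inv_mul_le_iff₀ hρ0, mul_one] at a6
    exact a6
  have hconv : Convex ℝ (ulim U C) := convex_ulim fun j => (h j).convex
  have hcl' : IsClosed (ulim U C) := isClosed_ulim
  have h0 : (0 : EE m × EE D × ℝ) ∈ ulim U C := hsub 0 cd.R_zero 0 le_rfl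
  have hsimp : ∀ i, ∃ X ∈ ulim U C, X.1 = EuclideanSpace.single i (1 : ℝ) := by
    intro i
    choose x hx hx1 hx2 hx3 using fun j => (hN j).simp i
    obtain ⟨a, _, hla⟩ := exists_limit (U := U) (x := x) (Eventually.of_forall fun j =>
      norm_box_le (h j) cd (hN j) (hx j) (hx1 j) (hx2 j))
    refine ⟨a, mem_ulim_of_tendsto (Eventually.of_forall hx) hla, ?_⟩
    refine tendsto_nhds_unique (tendsto_fst' hla) ?_
    exact tendsto_const_nhds.congr fun j => (hx3 j).symm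
  refine ⟨⟨appr_ulim fun j => (h j).good.appr, ?_, ?_⟩, hsub, hle⟩
  · -- interior
    refine int_of_span hconv h0 ?_
    have k1 : ∀ y : EE D, ((0 : EE m), y, (0 : ℝ)) ∈ Submodule.span ℝ (ulim U C) := by
      obtain ⟨r, hr, hl⟩ := exists_basis_of_int ⟨e, cd.e_int⟩
      have hs : Submodule.span ℝ (range r) = ⊤ :=
        hl.span_eq_top_of_card_eq_finrank' (by simp)
      intro y
      let g : EE D →ₗ[ℝ] EE m × EE D × ℝ := (LinearMap.inr ℝ (EE m) (EE D × ℝ)).comp
        (LinearMap.inl ℝ (EE D) ℝ)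
      have hy : y ∈ Submodule.span ℝ (range r) := by rw [hs]; trivial
      have : Submodule.span ℝ (range r) ≤ (Submodule.span ℝ (ulim U C)).comap g := by
        rw [Submodule.span_le]
        rintro _ ⟨i, rfl⟩
        exact Submodule.subset_span (hsub _ (hr i) 0 le_rfl)
      exact this hy
    have k2 : ∀ z : ℝ, ((0 : EE m), (0 : EE D), z) ∈ Submodule.span ℝ (ulim U C) := by
      intro z
      have : ((0 : EE m), (0 : EE D), z) = z • ((0 : EE m), (0 : EE D), (1 : ℝ)) := by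
        ext <;> simp
      rw [this]
      exact Submodule.smul_mem _ _ (Submodule.subset_span (hsub 0 cd.R_zero 1 zero_le_one))
    have k3 : ∀ i, (EuclideanSpace.single i (1 : ℝ), (0 : EE D), (0 : ℝ)) ∈
        Submodule.span ℝ (ulim U C) := by
      intro i
      obtain ⟨X, hX, hX1⟩ := hsimp i
      have : (EuclideanSpace.single i (1 : ℝ), (0 : EE D), (0 : ℝ)) =
          X - ((0 : EE m), X.2.1, (0 : ℝ)) - ((0 : EE m), (0 : EE D), X.2.2) := by
        rw [← hX1]
        ext <;> simp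
      rw [this]
      exact Submodule.sub_mem _ (Submodule.sub_mem _ (Submodule.subset_span hX) (k1 _)) (k2 _)
    have k4 : ∀ t : EE m, (t, (0 : EE D), (0 : ℝ)) ∈ Submodule.span ℝ (ulim U C) := by
      intro t
      let g : EE m →ₗ[ℝ] EE m × EE D × ℝ := LinearMap.inl ℝ (EE m) (EE D × ℝ)
      have h1 : g t ∈ Submodule.span ℝ (ulim U C) := by
        rw [← sum_single t, map_sum]
        refine Submodule.sum_mem _ fun i _ => ?_
        rw [map_smul]
        exact Submodule.smul_mem _ _ (k3 i)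
      exact h1
    rw [eq_top_iff]
    intro X _
    have : X = (X.1, (0 : EE D), (0 : ℝ)) + ((0 : EE m), X.2.1, (0 : ℝ)) +
        ((0 : EE m), (0 : EE D), X.2.2) := by
      ext <;> simp
    rw [this]
    exact Submodule.add_mem _ (Submodule.add_mem _ (k4 _) (k1 _)) (k2 _)
  · -- pointed
    intro v hv hv'
    have hv1 : ∀ t : ℝ, 0 ≤ t → t • v ∈ ulim U C := fun t ht => by
      have := hv 0 h0 t ht
      rwa [zero_add] at this
    have hv2 : -v ∈ ulim U C := by
      have := hv' 0 h0 1 zero_le_one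
      simpa using this
    have hv3 : v ∈ ulim U C := by simpa using hv1 1 zero_le_one
    have z0 : v.2.2 = 0 := by
      have a := (hle _ hv3).2
      have b := (hle _ hv2).2
      simp only [Prod.snd_neg] at b
      linarith
    have y0 : v.2.1 = 0 := by
      refine cd.eq_zero_of_neg (hle _ hv3).1 ?_
      have := (hle _ hv2).1
      simpa using this
    have t0 : v.1 = 0 := by
      ext i
      by_contra hne
      have hpos : 0 < |v.1 i| := abs_pos.2 (by simpa using hne)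
      have h3 := hcube ((2 / |v.1 i|) • v) (hv1 _ (by positivity)) (by simp [y0]) (by simp [z0]) i
      have : ((2 / |v.1 i|) • v).1 i = (2 / |v.1 i|) * v.1 i := by simp
      rw [this, abs_mul, abs_of_nonneg (by positivity : 0 ≤ 2 / |v.1 i|),
        div_mul_cancel₀ _ hpos.ne'] at h3
      linarith
    ext1
    · exact t0
    · ext1
      · exact y0
      · exact z0

/-- Lemma X for normalised elements of the class -/
theorem lemX (cd : ConeData R l e c0)
    (hmax : ∀ C : Set (EE m × EE D × ℝ), Good n C → ¬ RecD (D + 1) C) :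
    ∃ L c : ℝ, 1 ≤ L ∧ 0 < c ∧ ∀ C : Set (EE m × EE D × ℝ), ClassR n R C → Norm1 l C →
      ∀ X ∈ C, l X.2.1 ≤ 1 → X.2.2 ≤ 1 → ∀ w : EE m, ‖w‖ ≤ c → X + (w, L • e, L) ∈ C := by
  by_contra hcon
  push Not at hcon
  have hex : ∀ j : ℕ, ∃ (C : Set (EE m × EE D × ℝ)) (X : EE m × EE D × ℝ) (w : EE m),
      ClassR n R C ∧ Norm1 l C ∧ X ∈ C ∧ l X.2.1 ≤ 1 ∧ X.2.2 ≤ 1 ∧ ‖w‖ ≤ 1 / ((j : ℝ) + 1) ∧
      X + (w, ((j : ℝ) + 1) • e, (j : ℝ) + 1) ∉ C := by
    intro j
    obtain ⟨C, h1, h2, X, h3, h4, h5, w, h6, h7⟩ := hcon ((j : ℝ) + 1) (1 / ((j : ℝ) + 1))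
      (by linarith [(Nat.cast_nonneg j : (0 : ℝ) ≤ j)]) (by positivity)
    exact ⟨C, X, w, h1, h2, h3, h4, h5, h6, h7⟩
  choose C X w hC hN hX hX1 hX2 hw hnot using hex
  -- separation
  have hsep : ∀ j, ∃ ξ : (EE m × EE D × ℝ) →L[ℝ] ℝ, ‖ξ‖ = 1 ∧ ∀ Y ∈ C j, ξ Y ≤
      ξ (X j + (w j, ((j : ℝ) + 1) • e, (j : ℝ) + 1)) := by
    intro j
    obtain ⟨f, s, hf1, hf2⟩ := geometric_hahn_banach_closed_point (hC j).convex (hC j).closed (hnot j)
    have hf0 : f ≠ 0 := by
      rintro rfl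
      have := hf1 _ (hX j)
      simp only [zero_apply] at this hf2
      linarith
    have hn : 0 < ‖f‖ := norm_pos_iff.2 hf0
    refine ⟨‖f‖⁻¹ • f, ?_, fun Y hY => ?_⟩
    · rw [norm_smul, norm_inv, norm_norm, inv_mul_cancel₀ hn.ne']
    · have h1 := hf1 Y hY
      simp only [smul_apply, smul_eq_mul]
      exact mul_le_mul_of_nonneg_left (by linarith) (inv_nonneg.2 hn.le)
  choose ξ hξn hξ using hsep
  -- signs on the recession cone
  have hrec : ∀ j, ∀ v ∈ Rec (C j), ξ j v ≤ 0 := by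
    intro j v hv
    by_contra hpos
    push Not at hpos
    set M : ℝ := ξ j (X j + (w j, ((j : ℝ) + 1) • e, (j : ℝ) + 1)) - ξ j (X j) with hM
    have hM0 : 0 ≤ M := by have := hξ j _ (hX j); linarith
    have h1 := hξ j _ (hv _ (hX j) ((M + 1) / ξ j v) (by positivity))
    rw [map_add, map_smul, smul_eq_mul, div_mul_cancel₀ _ hpos.ne'] at h1
    linarith
  have hRle : ∀ j, ∀ y ∈ R, ∀ z : ℝ, 0 ≤ z → ξ j ((0 : EE m), y, z) ≤ 0 := fun j y hy z hz =>
    hrec j _ ((hC j).rec_mem cd hy hz)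
  let U : Ultrafilter ℕ := Filter.hyperfilter ℕ
  have hU : (U : Filter ℕ) ≤ atTop := by
    rw [← Nat.cofinite_eq_atTop]; exact Filter.hyperfilter_le_cofinite
  have hsmall : Tendsto (fun j : ℕ => 1 / ((j : ℝ) + 1)) U (𝓝 0) :=
    tendsto_one_div_add_atTop_nhds_zero_nat.mono_left hU
  -- the limits
  have hfd : FiniteDimensional ℝ ((EE m × EE D × ℝ) →L[ℝ] ℝ) := inferInstance
  obtain ⟨ζ, _, hζ⟩ := exists_limit (U := U) (x := ξ) (R := 1)
    (Eventually.of_forall fun j => (hξn j).le)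
  obtain ⟨Z, _, hZ⟩ := exists_limit (U := U) (x := X) (Eventually.of_forall fun j =>
    norm_box_le (hC j) cd (hN j) (hX j) (hX1 j) (hX2 j))
  have hζn : ‖ζ‖ = 1 := by
    refine tendsto_nhds_unique hζ.norm ?_
    exact tendsto_const_nhds.congr fun j => (hξn j).symm
  have happ : ∀ {x : ℕ → EE m × EE D × ℝ} {a : EE m × EE D × ℝ}, Tendsto x U (𝓝 a) →
      Tendsto (fun j => ξ j (x j)) U (𝓝 (ζ a)) := by
    intro x a hx
    have := (isBoundedBilinearMap_apply (𝕜 := ℝ) (E := EE m × EE D × ℝ) (F := ℝ)).continuous.tendsto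
      (ζ, a)
    exact this.comp (hζ.prodMk_nhds hx)
  -- key decomposition
  have hdec : ∀ j, ξ j (X j + (w j, ((j : ℝ) + 1) • e, (j : ℝ) + 1)) =
      ξ j (X j) + ξ j (w j, 0, 0) + ((j : ℝ) + 1) * ξ j (0, e, 1) := by
    intro j
    have : X j + (w j, ((j : ℝ) + 1) • e, (j : ℝ) + 1) =
        X j + (w j, 0, 0) + ((j : ℝ) + 1) • ((0 : EE m), e, (1 : ℝ)) := by
      ext <;> simp
    rw [this, map_add, map_add, map_smul, smul_eq_mul]
  have hwle : ∀ j, ξ j (w j, 0, 0) ≤ 1 / ((j : ℝ) + 1) := by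
    intro j
    have h1 : ‖ξ j (w j, 0, 0)‖ ≤ ‖ξ j‖ * ‖((w j, 0, 0) : EE m × EE D × ℝ)‖ := (ξ j).le_opNorm _
    rw [hξn j, one_mul] at h1
    have h2 : ‖((w j, 0, 0) : EE m × EE D × ℝ)‖ = ‖w j‖ := by
      rw [Prod.norm_def, Prod.norm_def]; simp
    rw [h2] at h1
    exact (le_abs_self _).trans (h1.trans (hw j))
  have hee : ∀ j, ξ j (0, e, 1) ≤ 0 := fun j => hRle j e cd.e_mem 1 zero_le_one
  have hele : ∀ j : ℕ, -(1 / ((j : ℝ) + 1)) ≤ ξ j (0, e, 1) := by
    intro j
    have h1 := hξ j _ (hX j)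
    rw [hdec] at h1
    have h2 := hwle j
    have h3 : (0 : ℝ) ≤ (j : ℝ) := Nat.cast_nonneg j
    have h4 : -(1 / ((j : ℝ) + 1)) ≤ ((j : ℝ) + 1) * ξ j (0, e, 1) := by linarith
    have h5 : ((j : ℝ) + 1) * ξ j (0, e, 1) ≤ ξ j (0, e, 1) := by
      have := hee j
      nlinarith
    linarith
  -- ζ vanishes on `(0, e, 1)`
  have hζe1 : ζ (0, e, 1) = 0 := by
    have h1 : Tendsto (fun j => ξ j (0, e, 1)) U (𝓝 (ζ (0, e, 1))) := happ tendsto_const_nhds
    have h2 : Tendsto (fun j : ℕ => -(1 / ((j : ℝ) + 1))) U (𝓝 0) := by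
      simpa using hsmall.neg
    exact tendsto_nhds_unique h1 (tendsto_of_tendsto_of_tendsto_of_le_of_le h2 tendsto_const_nhds
      hele hee)
  have hζR : ∀ y ∈ R, ∀ z : ℝ, 0 ≤ z → ζ ((0 : EE m), y, z) ≤ 0 := by
    intro y hy z hz
    refine le_of_tendsto (happ (x := fun _ => ((0 : EE m), y, z)) tendsto_const_nhds) ?_
    exact Eventually.of_forall fun j => hRle j y hy z hz
  have hsplit : ζ ((0 : EE m), e, (1 : ℝ)) = ζ ((0 : EE m), e, (0 : ℝ)) +
      ζ ((0 : EE m), (0 : EE D), (1 : ℝ)) := by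
    rw [← map_add]; congr 1; ext <;> simp
  have hζe : ζ ((0 : EE m), e, (0 : ℝ)) = 0 := by
    have a := hζR e cd.e_mem 0 le_rfl
    have b := hζR 0 cd.R_zero 1 zero_le_one
    linarith
  have hζz : ζ ((0 : EE m), (0 : EE D), (1 : ℝ)) = 0 := by linarith
  let g : EE D →ₗ[ℝ] EE m × EE D × ℝ := (LinearMap.inr ℝ (EE m) (EE D × ℝ)).comp
    (LinearMap.inl ℝ (EE D) ℝ)
  have hζY : ∀ y : EE D, ζ ((0 : EE m), y, (0 : ℝ)) = 0 := by
    have h1 : (ζ : (EE m × EE D × ℝ) →ₗ[ℝ] ℝ).comp g = 0 := by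
      refine cd.funct_zero _ (fun v hv => ?_) ?_
      · exact hζR v hv 0 le_rfl
      · exact hζe
    intro y
    exact congrArg (fun f : EE D →ₗ[ℝ] ℝ => f y) h1
  -- the limit set
  have hlim : ClassR n R (ulim U C) := ulim_classR (U := U) hC cd hN
  have hZC : Z ∈ ulim U C := mem_ulim_of_tendsto (Eventually.of_forall hX) hZ
  have hζmax : ∀ Y ∈ ulim U C, ζ Y ≤ ζ Z := by
    refine le_of_ulim (fun j => (hC j).closed) hζ (s := fun j => ξ j (X j) + 1 / ((j : ℝ) + 1))
      ?_ ?_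
    · have := (happ hZ).add hsmall
      simpa using this
    · refine Eventually.of_forall fun j Y hY => ?_
      have h1 := hξ j Y hY
      rw [hdec] at h1
      have h2 := hwle j
      have h3 := hee j
      have h4 : (0 : ℝ) ≤ (j : ℝ) := Nat.cast_nonneg j
      have h5 : ((j : ℝ) + 1) * ξ j (0, e, 1) ≤ 0 := mul_nonpos_of_nonneg_of_nonpos (by linarith) h3
      linarith
  refine hmax _ hlim.good ?_
  refine hlim.recD_succ cd ((LinearMap.snd ℝ (EE D) ℝ).comp (LinearMap.snd ℝ (EE m) (EE D × ℝ)))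
    (fun y => by simp) (x := ((0 : EE m), (0 : EE D), (1 : ℝ)))
    (hlim.rec_mem cd cd.R_zero zero_le_one) (by simp) (ξ := ζ) ?_ hZC hζmax hζY hζz
  rintro rfl
  simp at hζn

/-- A5 + A6 (modulo the invariance lemmas and the Auerbach lemma) -/
theorem a6_of (hA : AuerbachStmt)
    (hG : ∀ (n m D : ℕ) (C : Set (EE m × EE D × ℝ)) (A : (EE m × EE D × ℝ) ≃ᵃ[ℝ] (EE m × EE D × ℝ)),
      Good n C → Good n (A '' C))
    (hH : ∀ (n m D d : ℕ) (C : Set (EE m × EE D × ℝ)), m + D = n → Good n C → RecD d C →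
      HasRec n d) : A6Stmt := by
  intro n m D R l e c0 C hdim hD hmax cd hC
  have hmax' : ∀ C : Set (EE m × EE D × ℝ), Good n C → ¬ RecD (D + 1) C :=
    fun C' h1 h2 => hmax (hH n m D (D + 1) C' hdim h1 h2)
  obtain ⟨L, c, hL, hc, hX⟩ := lemX (m := m) cd hmax'
  set L' : ℝ := max L (m + 1) with hL'
  have hLL : L ≤ L' := le_max_left _ _
  refine ⟨L', c, ⟨hdim, hD, cd, hC.good.appr, hC.good.int, hC.sub,
    fun X hXC y hy z hz => hC.add_mem cd hXC hy hz, hC.le, hL.trans hLL, hc, ?_⟩⟩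
  intro lam tau hlam htau
  obtain ⟨B, hB⟩ := hC.exists_norm hA cd (hmax' C hC.good) htau hlam
  have hC' : ClassR n R (Phi B tau lam htau.ne' hlam.ne' '' C) :=
    hC.image (fun A => hG n m D C A hC.good) cd B htau hlam
  refine ⟨B, fun X hXC h1 h2 => ?_⟩
  have m1 : l (Phi B tau lam htau.ne' hlam.ne' X).2.1 ≤ 1 := by
    rw [Phi_apply]
    simp only [map_smul, smul_eq_mul]
    rw [inv_mul_le_iff₀ htau, mul_one]; exact h1
  have m2 : (Phi B tau lam htau.ne' hlam.ne' X).2.2 ≤ 1 := by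
    rw [Phi_apply]
    simp only
    rw [inv_mul_le_iff₀ hlam, mul_one]; exact h2
  refine ⟨?_, fun w hw => ?_⟩
  · have h3 := hB.cube _ ⟨X, hXC, rfl⟩ m1 m2
    rw [Phi_apply] at h3
    simp only at h3
    refine le_trans ?_ (le_max_right L ((m : ℝ) + 1))
    rw [EuclideanSpace.norm_eq, Real.sqrt_le_left (by positivity)]
    calc ∑ i, ‖(B X.1) i‖ ^ 2 ≤ ∑ _i : Fin m, (1 : ℝ) := by
          refine Finset.sum_le_sum fun i _ => ?_
          have := h3 i
          rw [Real.norm_eq_abs]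
          have h0 := abs_nonneg ((B X.1) i)
          nlinarith
      _ = (m : ℝ) := by simp
      _ ≤ ((m : ℝ) + 1) ^ 2 := by
          have : (0 : ℝ) ≤ m := Nat.cast_nonneg m
          nlinarith
  · obtain ⟨Y, hY, hYe⟩ := hX _ hC' hB _ ⟨X, hXC, rfl⟩ m1 m2 (B w) hw
    have hYX : Y = X + (w, (L * tau) • e, L * lam) := by
      apply (Phi B tau lam htau.ne' hlam.ne').injective
      rw [hYe, map_add]
      congr 1
      rw [Phi_apply]
      ext1
      · rfl
      · ext1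
        · simp only [smul_smul]
          congr 1
          field_simp
        · simp only
          field_simp
    rw [hYX] at hY
    have h4 := hC.add_mem cd hY (cd.R_smul e cd.e_mem ((L' - L) * tau)
      (mul_nonneg (by linarith) htau.le)) (mul_nonneg (by linarith : (0 : ℝ) ≤ L' - L) hlam.le)
    have h5 : X + (w, (L * tau) • e, L * lam) + ((0 : EE m), ((L' - L) * tau) • e, (L' - L) * lam) =
        X + (w, (L' * tau) • e, L' * lam) := by
      rw [add_assoc]
      congr 1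
      ext1
      · simp
      · ext1
        · simp only [Prod.mk_add_mk]
          rw [← add_smul]; congr 1; ring
        · simp only [Prod.mk_add_mk]; ring
    rw [h5] at h4
    exact h4

end Crest.Agent.R236.A
end
end

-- ▼ part R236/AA6
section

/-! Row 236, Part A: A6Stmt. (helper499) -/

set_option autoImplicit false
open scoped ContDiff Topology
open Set Filter

noncomputable section

namespace Crest.Agent.R236.A

theorem a6 : A6Stmt := a6_of auerbachStmt (fun _ _ _ _ A h => h.image' A)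
  (fun n m D d _ hd h hr => hasRec_of' (by
    simp only [Module.finrank_prod, finrank_euclideanSpace, Fintype.card_fin,
      Module.finrank_self]
    omega) h hr)

end Crest.Agent.R236.A
end
end

-- ▼ part R236/A3

/-! Row 236, Part A3: failure of balancedness gives a limit with a supporting hyperplane containing
a recession direction. (helper117) -/

set_option autoImplicit false
open scoped Topology ContDiff
open Crest.GeometryTopology.CoordMetric Crest.GeometryTopology.AffineMaximal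
open Set Filter

noncomputable section

namespace Crest.Agent.R236.A

/-- normalised cap with a direction in which it is badly balanced -/
structure PreA3 (n : ℕ) (θ : ℝ) (C : Set (EE n × ℝ)) (ξ : EE n →L[ℝ] ℝ) : Prop where
  appr : Appr n C
  zero : (0 : EE n × ℝ) ∈ C
  nonneg : ∀ X ∈ C, 0 ≤ X.2
  up : ((0 : EE n), (1 : ℝ)) ∈ Rec C
  cube : ∀ X ∈ C, X.2 ≤ 1 → ∀ i, |X.1 i| ≤ 1
  simp : ∀ i, (EuclideanSpace.single i (1 : ℝ), (1 : ℝ)) ∈ C
  norm : ‖ξ‖ = 1
  small : ∀ X ∈ C, X.2 ≤ 1 → ξ X.1 ≤ θ * Real.sqrt n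

lemma norm_le_sqrt {n : ℕ} (x : EE n) (h : ∀ i, |x i| ≤ 1) : ‖x‖ ≤ Real.sqrt n := by
  rw [EuclideanSpace.norm_eq]
  apply Real.sqrt_le_sqrt
  calc ∑ i, ‖x i‖ ^ 2 ≤ ∑ _i : Fin n, (1 : ℝ) := by
        refine Finset.sum_le_sum fun i _ => ?_
        rw [Real.norm_eq_abs]
        have := h i
        have h0 := abs_nonneg (x i)
        nlinarith
    _ = n := by simp

/-- the linear part of the normalising map -/
def preLin {n : ℕ} (B : EE n ≃L[ℝ] EE n) (D : EE n →L[ℝ] ℝ) (h : ℝ) (hh : h ≠ 0) :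
    (EE n × ℝ) ≃ₗ[ℝ] (EE n × ℝ) where
  toFun p := (B p.1, h⁻¹ * (p.2 - D p.1))
  map_add' p q := by
    ext1
    · simp
    · simp; ring
  map_smul' c p := by
    ext1
    · simp
    · simp; ring
  invFun q := (B.symm q.1, h * q.2 + D (B.symm q.1))
  left_inv p := by
    ext1
    · simp
    · simp only [ContinuousLinearEquiv.symm_apply_apply]; field_simp; ring
  right_inv q := by
    ext1
    · simp
    · simp only; field_simp; ring

/-- the normalising affine map -/
def preAff {n : ℕ} (B : EE n ≃L[ℝ] EE n) (D : EE n →L[ℝ] ℝ) (h : ℝ) (hh : h ≠ 0)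
    (p₀ : EE n × ℝ) : (EE n × ℝ) ≃ᵃ[ℝ] (EE n × ℝ) :=
  (AffineEquiv.constVAdd ℝ (EE n × ℝ) (-p₀)).trans (preLin B D h hh).toAffineEquiv

lemma preAff_symm_apply {n : ℕ} (B : EE n ≃L[ℝ] EE n) (D : EE n →L[ℝ] ℝ) (h : ℝ) (hh : h ≠ 0)
    (p₀ X : EE n × ℝ) :
    (preAff B D h hh p₀).symm X = (p₀.1 + B.symm X.1, p₀.2 + (h * X.2 + D (B.symm X.1))) := by
  rw [AffineEquiv.symm_apply_eq]
  simp only [preAff, AffineEquiv.trans_apply, AffineEquiv.constVAdd_apply, vadd_eq_add,
    LinearEquiv.coe_toAffineEquiv]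
  simp only [preLin, LinearEquiv.coe_mk, LinearMap.coe_mk, AddHom.coe_mk]
  ext1
  · simp
  · simp
    field_simp

/-- exact images of epigraphs are approximable -/
lemma appr_image {n : ℕ} {Ω : Set (EE n)} {u : EE n → ℝ} (hs : SOL Ω u)
    (A : (EE n × ℝ) ≃ᵃ[ℝ] (EE n × ℝ)) : Appr n (A.symm ⁻¹' epi Ω u) := by
  have hcont : Continuous A.symm := A.symm.toAffineMap.continuous_of_finiteDimensional
  have himg : A '' epi Ω u = A.symm ⁻¹' epi Ω u := by
    ext X
    constructor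
    · rintro ⟨p, hp, rfl⟩
      simpa using hp
    · intro hX
      exact ⟨A.symm X, hX, by simp⟩
  refine ⟨hs.closed.preimage hcont, ?_, ?_⟩
  · have h1 : Convex ℝ (epi Ω u) := hs.sc.convexOn.convex_epigraph
    exact h1.affine_preimage A.symm.toAffineMap
  · intro R ε hR hε
    refine ⟨Ω, u, A, hs, ?_, ?_⟩
    · intro x hx _
      exact ⟨x, by rw [himg]; exact hx, by simpa using hε⟩
    · intro y hy _
      exact ⟨y, by rw [himg] at hy; exact hy, by simpa using hε⟩

theorem pre_of_not_bal {n : ℕ} (hB : ¬ BAL n) {θ : ℝ} (hθ : 0 < θ) :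
    ∃ C ξ, PreA3 n θ C ξ := by
  have h1 : ∃ (Ω : Set (EE n)) (u : EE n → ℝ), SOL Ω u ∧ ∃ x0 ∈ Ω, ∃ h : ℝ, 0 < h ∧ ∃ x ∈ Ω,
      u x ≤ u x0 + fderiv ℝ u x0 (x - x0) + h ∧ ¬ (x0 - θ • (x - x0) ∈ Ω ∧
      u (x0 - θ • (x - x0)) ≤ u x0 + fderiv ℝ u x0 (-(θ • (x - x0))) + h) := by
    by_contra hcon
    apply hB
    refine ⟨θ, hθ, fun Ω u hs x0 hx0 h hh x hx hle => ?_⟩
    by_contra hc
    exact hcon ⟨Ω, u, hs, x0, hx0, h, hh, x, hx, hle, hc⟩
  obtain ⟨Ω, u, hs, x0, hx0, h, hh, x, hx, hle, hbad⟩ := h1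
  set D := fderiv ℝ u x0 with hD
  set S : Set (EE n) := {v | x0 + v ∈ Ω ∧ u (x0 + v) ≤ u x0 + D v + h} with hSdef
  have hScomp : IsCompact S := by
    have h2 := (hs.cap x0 hx0 h).image (continuous_id.sub continuous_const :
      Continuous fun y : EE n => y - x0)
    convert h2 using 1
    ext v
    simp only [hSdef, mem_ofPred_eq, mem_image]
    constructor
    · rintro ⟨hv1, hv2⟩
      exact ⟨x0 + v, ⟨hv1, by simpa using hv2⟩, by simp⟩
    · rintro ⟨y, ⟨hy1, hy2⟩, rfl⟩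
      refine ⟨by simpa using hy1, ?_⟩
      simpa using hy2
  have hSconv : Convex ℝ S := by
    intro v hv w hw a b ha hb hab
    have hc := hs.sc.convexOn.2 hv.1 hw.1 ha hb hab
    have hm := hs.sc.convex hv.1 hw.1 ha hb hab
    have he : a • (x0 + v) + b • (x0 + w) = x0 + (a • v + b • w) := by
      have : x0 = (a + b) • x0 := by rw [hab, one_smul]
      conv_rhs => rw [this]
      module
    rw [he] at hc hm
    refine ⟨hm, hc.trans ?_⟩
    have h2 := mul_le_mul_of_nonneg_left hv.2 ha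
    have h3 := mul_le_mul_of_nonneg_left hw.2 hb
    simp only [map_add, map_smul, smul_eq_mul]
    have hb' : b = 1 - a := by linarith
    subst hb'
    linarith
  have hS0 : (0 : EE n) ∈ S := by
    refine ⟨by simpa using hx0, ?_⟩
    simp only [add_zero, map_zero]; linarith
  have hSint : (interior S).Nonempty := by
    refine ⟨0, mem_interior_iff_mem_nhds.mpr ?_⟩
    have hc1 : ContinuousAt (fun v : EE n => x0 + v) 0 := by fun_prop
    have hΩ : ∀ᶠ v in 𝓝 (0 : EE n), x0 + v ∈ Ω :=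
      hc1.eventually_mem (by simpa using hs.sc.isOpen.mem_nhds hx0)
    have hcu : ContinuousAt (fun v : EE n => u (x0 + v) - (u x0 + D v + h)) 0 := by
      have h4 : ContinuousAt (fun v : EE n => u (x0 + v)) 0 := by
        have h5 : ContinuousAt u (x0 + 0) := by
          simpa using (hs.sc.differentiableAt hx0).continuousAt
        exact ContinuousAt.comp (f := fun v : EE n => x0 + v) h5 hc1
      exact h4.sub (by fun_prop)
    have h6 : ∀ᶠ v in 𝓝 (0 : EE n), u (x0 + v) - (u x0 + D v + h) < 0 :=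
      hcu.eventually_lt_const (by simp [hh])
    filter_upwards [hΩ, h6] with v hv1 hv2
    exact ⟨hv1, by linarith⟩
  obtain ⟨B, hB1, hB2⟩ := auerbachStmt n S hScomp hSconv hS0 hSint
  -- the bad point
  have hxS : x - x0 ∈ S := by
    refine ⟨by simpa using hx, ?_⟩
    simpa using hle
  have hpS : -(θ • (x - x0)) ∉ S := by
    intro hc
    apply hbad
    obtain ⟨hc1, hc2⟩ := hc
    rw [← sub_eq_add_neg] at hc1 hc2
    exact ⟨hc1, hc2⟩
  have hBS : IsCompact (B '' S) := hScomp.image B.continuous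
  have hBSc : Convex ℝ (B '' S) := hSconv.linear_image (B : EE n →L[ℝ] EE n).toLinearMap
  have hpBS : B (-(θ • (x - x0))) ∉ B '' S := by
    rintro ⟨y, hy, hyy⟩
    exact hpS (B.injective hyy ▸ hy)
  obtain ⟨f, s, hf1, hf2⟩ := geometric_hahn_banach_closed_point hBSc hBS.isClosed hpBS
  have hf0 : f ≠ 0 := by
    rintro rfl
    have := hf1 _ ⟨0, hS0, rfl⟩
    simp at this hf2
    linarith
  have hfn : 0 < ‖f‖ := norm_pos_iff.mpr hf0
  refine ⟨(preAff B D h hh.ne' (x0, u x0)).symm ⁻¹' epi Ω u, ‖f‖⁻¹ • f, ?_⟩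
  have hmem : ∀ X : EE n × ℝ, X ∈ (preAff B D h hh.ne' (x0, u x0)).symm ⁻¹' epi Ω u ↔
      (x0 + B.symm X.1 ∈ Ω ∧ u (x0 + B.symm X.1) ≤ u x0 + (h * X.2 + D (B.symm X.1))) := by
    intro X
    rw [mem_preimage, preAff_symm_apply]
    rfl
  have hle1 : ∀ X ∈ (preAff B D h hh.ne' (x0, u x0)).symm ⁻¹' epi Ω u, X.2 ≤ 1 → X.1 ∈ B '' S := by
    intro X hX h1
    rw [hmem] at hX
    refine ⟨B.symm X.1, ⟨hX.1, hX.2.trans ?_⟩, by simp⟩
    nlinarith
  refine ⟨appr_image hs _, ?_, ?_, ?_, ?_, ?_, ?_, ?_⟩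
  · rw [hmem]
    simpa using hx0
  · intro X hX
    rw [hmem] at hX
    have h2 := hs.sc.tangent_le hx0 hX.1
    rw [← hD] at h2
    simp only [add_sub_cancel_left] at h2
    have h3 : 0 ≤ h * X.2 := by linarith [hX.2]
    exact nonneg_of_mul_nonneg_right h3 hh
  · intro X hX t ht
    rw [hmem] at hX ⊢
    simp only [Prod.fst_add, Prod.smul_fst, smul_zero, add_zero, Prod.snd_add, Prod.smul_snd,
      smul_eq_mul, mul_one]
    refine ⟨hX.1, hX.2.trans ?_⟩
    nlinarith
  · intro X hX h1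
    exact hB2 _ (hle1 X hX h1)
  · intro i
    obtain ⟨v, hv, hvi⟩ := hB1 i
    rw [hmem]
    simp only
    rw [← hvi, B.symm_apply_apply]
    exact ⟨hv.1, hv.2.trans (by linarith)⟩
  · rw [norm_smul, norm_inv, norm_norm, inv_mul_cancel₀ hfn.ne']
  · intro X hX h1
    have h2 := hf1 _ (hle1 X hX h1)
    have h3 : f (B (-(θ • (x - x0)))) ≤ θ * (‖f‖ * Real.sqrt n) := by
      rw [map_neg, map_smul, map_neg, map_smul, smul_eq_mul]
      have h4 : ‖f (B (x - x0))‖ ≤ ‖f‖ * ‖B (x - x0)‖ := f.le_opNorm _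
      have h5 : ‖B (x - x0)‖ ≤ Real.sqrt n := norm_le_sqrt _ (hB2 _ ⟨_, hxS, rfl⟩)
      have h6 : |f (B (x - x0))| ≤ ‖f‖ * Real.sqrt n :=
        (Real.norm_eq_abs _ ▸ h4).trans (mul_le_mul_of_nonneg_left h5 hfn.le)
      have h7 := neg_abs_le (f (B (x - x0)))
      nlinarith
    rw [smul_apply, smul_eq_mul, inv_mul_le_iff₀ hfn]
    linarith

/-- a convex set containing `0` and spanning has interior points -/
lemma interior_nonempty_of_span {W : Type*} [NormedAddCommGroup W] [NormedSpace ℝ W]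
    [FiniteDimensional ℝ W] {C : Set W} (hC : Convex ℝ C) (h0 : (0 : W) ∈ C)
    (hsp : Submodule.span ℝ C = ⊤) : (interior C).Nonempty := by
  rw [hC.interior_nonempty_iff_affineSpan_eq_top]
  have h1 : (affineSpan ℝ (insert 0 C) : Set W) = Submodule.span ℝ C := affineSpan_insert_zero C
  rw [insert_eq_of_mem h0, hsp] at h1
  rw [← AffineSubspace.coe_eq_univ_iff, h1]
  rfl

theorem a3 : A3Stmt := by
  intro n hn hB
  have hθ : ∀ j : ℕ, (0:ℝ) < 1 / (j + 1) := fun j => by positivity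
  choose C ξ hP using fun j : ℕ => pre_of_not_bal hB (hθ j)
  let U : Ultrafilter ℕ := hyperfilter ℕ
  have hU : (U : Filter ℕ) ≤ atTop := by
    rw [← Nat.cofinite_eq_atTop]
    exact hyperfilter_le_cofinite
  have hcl : ∀ j, IsClosed (C j) := fun j => (hP j).appr.1
  obtain ⟨ζ, -, hζ⟩ := exists_limit (U := U) (x := ξ) (R := 1)
    (Eventually.of_forall fun j => (hP j).norm.le)
  have hζn : ‖ζ‖ = 1 := by
    have h1 : Tendsto (fun j => ‖ξ j‖) U (𝓝 ‖ζ‖) := hζ.norm
    have h2 : (fun j => ‖ξ j‖) = fun _ => (1:ℝ) := funext fun j => (hP j).norm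
    rw [h2] at h1
    exact tendsto_nhds_unique h1 tendsto_const_nhds |>.symm ▸ rfl
  have hθ0 : Tendsto (fun j : ℕ => 1 / ((j:ℝ) + 1) * Real.sqrt n) U (𝓝 0) := by
    have h1 : Tendsto (fun j : ℕ => 1 / ((j:ℝ) + 1)) U (𝓝 0) :=
      tendsto_one_div_add_atTop_nhds_zero_nat.mono_left hU
    simpa using h1.mul_const (Real.sqrt n)
  -- properties of the limit
  have hzero : (0 : EE n × ℝ) ∈ ulim U C :=
    mem_ulim_of_tendsto (Eventually.of_forall fun j => (hP j).zero) tendsto_const_nhds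
  have hconv : Convex ℝ (ulim U C) := convex_ulim fun j => (hP j).appr.2.1
  have hup : ((0 : EE n), (1 : ℝ)) ∈ Rec (ulim U C) :=
    rec_ulim hcl (Eventually.of_forall fun j => (hP j).up) tendsto_const_nhds
  have hsimp : ∀ i, ((EuclideanSpace.single i (1:ℝ) : EE n), (1 : ℝ)) ∈ ulim U C := fun i =>
    mem_ulim_of_tendsto (Eventually.of_forall fun j => (hP j).simp i) tendsto_const_nhds
  have hnonneg : ∀ X ∈ ulim U C, 0 ≤ X.2 := by
    intro X hX
    obtain ⟨x, hx, hl⟩ := exists_seq_of_mem_ulim hcl hX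
    have h1 : Tendsto (fun j => (x j).2) U (𝓝 X.2) := (continuous_snd.tendsto X).comp hl
    exact ge_of_tendsto h1 (hx.mono fun j hj => (hP j).nonneg _ hj)
  have hcube : ∀ X ∈ ulim U C, X.2 < 1 → ∀ i, |X.1 i| ≤ 1 := by
    intro X hX hX1 i
    obtain ⟨x, hx, hl⟩ := exists_seq_of_mem_ulim hcl hX
    have h1 : Tendsto (fun j => (x j).2) U (𝓝 X.2) := (continuous_snd.tendsto X).comp hl
    have h2 : ∀ᶠ j in (U : Filter ℕ), (x j).2 < 1 := h1.eventually_lt_const hX1
    have h3 : Tendsto (fun j => |(x j).1 i|) U (𝓝 |X.1 i|) := by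
      have hc : Continuous fun X : EE n × ℝ => |X.1 i| := by fun_prop
      exact (hc.tendsto X).comp hl
    refine le_of_tendsto h3 ?_
    filter_upwards [hx, h2] with j hj1 hj2
    exact (hP j).cube _ hj1 hj2.le i
  have hsmall : ∀ X ∈ ulim U C, X.2 < 1 → ζ X.1 ≤ 0 := by
    intro X hX hX1
    obtain ⟨x, hx, hl⟩ := exists_seq_of_mem_ulim hcl hX
    have h1 : Tendsto (fun j => (x j).2) U (𝓝 X.2) := (continuous_snd.tendsto X).comp hl
    have h2 : ∀ᶠ j in (U : Filter ℕ), (x j).2 < 1 := h1.eventually_lt_const hX1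
    have h3 : Tendsto (fun j => ξ j (x j).1) U (𝓝 (ζ X.1)) := by
      have hb := (isBoundedBilinearMap_apply (𝕜 := ℝ) (E := EE n) (F := ℝ)).continuous.tendsto
        (ζ, X.1)
      exact hb.comp (hζ.prodMk_nhds ((continuous_fst.tendsto X).comp hl))
    refine le_of_tendsto_of_tendsto h3 hθ0 ?_
    filter_upwards [hx, h2] with j hj1 hj2
    exact (hP j).small _ hj1 hj2.le
  have hscale : ∀ X ∈ ulim U C, ∀ s : ℝ, 0 ≤ s → s ≤ 1 → s • X ∈ ulim U C := by
    intro X hX s hs0 hs1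
    have := hconv hX hzero hs0 (sub_nonneg.mpr hs1) (by ring)
    simpa using this
  refine ⟨ulim U C, ⟨appr_ulim fun j => (hP j).appr, ?_, ?_⟩, ?_⟩
  · -- interior
    apply interior_nonempty_of_span hconv hzero
    rw [eq_top_iff]
    intro X _
    have h01 : ((0 : EE n), (1 : ℝ)) ∈ ulim U C := by
      have := hup 0 hzero 1 zero_le_one
      simpa using this
    have hm : ∀ p ∈ ulim U C, p ∈ Submodule.span ℝ (ulim U C) := fun p hp =>
      Submodule.subset_span hp
    have hX : X = ∑ i, X.1 i • (((EuclideanSpace.single i (1:ℝ) : EE n), (1 : ℝ)) -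
        ((0 : EE n), (1:ℝ))) + X.2 • ((0 : EE n), (1:ℝ)) := by
      have h1 : ∀ i, X.1 i • (((EuclideanSpace.single i (1:ℝ) : EE n), (1 : ℝ)) -
        ((0 : EE n), (1:ℝ))) = (X.1 i • (EuclideanSpace.single i (1:ℝ) : EE n), (0:ℝ)) := by
        intro i
        ext1
        · simp
        · simp
      simp_rw [h1]
      ext1
      · simp only [Prod.fst_add, Prod.smul_fst, smul_zero, add_zero, Prod.fst_sum]
        exact (sum_single X.1).symm
      · simp [Prod.snd_sum]
    rw [hX]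
    refine Submodule.add_mem _ (Submodule.sum_mem _ fun i _ => Submodule.smul_mem _ _
      (Submodule.sub_mem _ (hm _ (hsimp i)) (hm _ h01))) (Submodule.smul_mem _ _ (hm _ h01))
  · -- no lines
    intro v hv hv'
    have h1 : ∀ t : ℝ, 0 ≤ t → t • v ∈ ulim U C := fun t ht => by
      simpa using hv 0 hzero t ht
    have h2 : ∀ t : ℝ, 0 ≤ t → t • (-v) ∈ ulim U C := fun t ht => by
      simpa using hv' 0 hzero t ht
    have hv2 : v.2 = 0 := by
      have h3 := hnonneg _ (h1 1 zero_le_one)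
      have h4 := hnonneg _ (h2 1 zero_le_one)
      simp only [one_smul, Prod.snd_neg] at h3 h4
      linarith
    have hv1 : ∀ i, v.1 i = 0 := by
      intro i
      by_contra hne
      have hpos : 0 < |v.1 i| := abs_pos.mpr hne
      have h3 := hcube _ (h1 (2 / |v.1 i|) (by positivity)) (by simp [hv2]) i
      simp only [Prod.smul_fst, PiLp.smul_apply, smul_eq_mul, abs_mul, abs_div, abs_abs,
        Nat.abs_ofNat] at h3
      rw [div_mul_cancel₀ _ hpos.ne'] at h3
      norm_num at h3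
    ext1
    · ext i; simpa using hv1 i
    · simpa using hv2
  · -- the supporting functional
    refine ⟨ζ.comp (ContinuousLinearMap.fst ℝ (EE n) ℝ), ?_, 0, hzero, ?_, fun _ => (0, 1), ?_, ?_⟩
    · intro h0
      have h1 : ζ = 0 := by
        ext x
        have := congrArg (fun g => g (x, (0:ℝ))) h0
        simpa using this
      rw [h1, norm_zero] at hζn
      exact zero_ne_one hζn
    · intro X hX
      simp only [ContinuousLinearMap.comp_apply, ContinuousLinearMap.coe_fst',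
        map_zero]
      have hX2 := hnonneg X hX
      have h1 : (0:ℝ) < 1 / (X.2 + 2) := by positivity
      have h2 : 1 / (X.2 + 2) ≤ 1 := by
        rw [div_le_one (by positivity)]; linarith
      have h3 := hsmall _ (hscale X hX (1 / (X.2 + 2)) h1.le h2) (by
        simp only [Prod.smul_snd, smul_eq_mul]
        rw [div_mul_eq_mul_div, one_mul, div_lt_one (by positivity)]
        linarith)
      simp only [Prod.smul_fst, map_smul, smul_eq_mul] at h3
      exact nonpos_of_mul_nonpos_right h3 h1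
    · rw [linearIndependent_unique_iff]
      intro h
      have := congrArg Prod.snd h
      simp at this
    · intro i
      exact ⟨hup, by simp⟩

end Crest.Agent.R236.A
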