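import Mathlib
import Crest.Prelude.Def_AffineMaximal

/-! Row 236, P1: completeness of the graph metric gives compact sections. (helper724) -/

set_option autoImplicit false
open scoped ContDiff Topology
open Crest.GeometryTopology.CoordMetric Crest.GeometryTopology.AffineMaximal
open Set Filter MeasureTheory

noncomputable section

namespace Crest.Agent.R236

/-- smooth locally strongly convex function on an open convex set. -/
structure SC {n : ℕ} (Ω : Set (EuclideanSpace ℝ (Fin n))) (u : EuclideanSpace ℝ (Fin n) → ℝ) :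
    Prop where
  isOpen : IsOpen Ω
  convex : Convex ℝ Ω
  smooth : ContDiffOn ℝ ∞ u Ω
  posDef : ∀ x ∈ Ω, (hessianMat u x).PosDef

namespace SC

variable {n : ℕ} {Ω : Set (EuclideanSpace ℝ (Fin n))} {u : EuclideanSpace ℝ (Fin n) → ℝ}

lemma contDiffAt (h : SC Ω u) {x : EuclideanSpace ℝ (Fin n)} (hx : x ∈ Ω) :
    ContDiffAt ℝ ∞ u x := h.smooth.contDiffAt (h.isOpen.mem_nhds hx)

lemma differentiableAt (h : SC Ω u) {x : EuclideanSpace ℝ (Fin n)} (hx : x ∈ Ω) :
    DifferentiableAt ℝ u x := (h.contDiffAt hx).differentiableAt (by simp)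

lemma contDiffAt_fderiv (h : SC Ω u) {x : EuclideanSpace ℝ (Fin n)} (hx : x ∈ Ω) :
    ContDiffAt ℝ ∞ (fderiv ℝ u) x := (h.contDiffAt hx).fderiv_right (m := ∞) (by simp)

lemma differentiableAt_fderiv (h : SC Ω u) {x : EuclideanSpace ℝ (Fin n)} (hx : x ∈ Ω) :
    DifferentiableAt ℝ (fderiv ℝ u) x := (h.contDiffAt_fderiv hx).differentiableAt (by simp)

end SC

/-- the coordinate Hessian in terms of the second Fréchet derivative -/
lemma hessianMat_eq {n : ℕ} {u : EuclideanSpace ℝ (Fin n) → ℝ} {x : EuclideanSpace ℝ (Fin n)}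
    (hd : DifferentiableAt ℝ (fderiv ℝ u) x) (i j : Fin n) :
    hessianMat u x i j = fderiv ℝ (fderiv ℝ u) x (EuclideanSpace.single i 1)
      (EuclideanSpace.single j 1) := by
  unfold hessianMat pderiv
  rw [fderiv_clm_apply hd (differentiableAt_const _)]
  simp

lemma sum_single {n : ℕ} (v : EuclideanSpace ℝ (Fin n)) :
    ∑ i, v i • (EuclideanSpace.single i (1:ℝ)) = v := by
  ext j
  simp [Pi.single_apply]

lemma fderiv2_eq {n : ℕ} {u : EuclideanSpace ℝ (Fin n) → ℝ} {x : EuclideanSpace ℝ (Fin n)}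
    (hd : DifferentiableAt ℝ (fderiv ℝ u) x) (v w : EuclideanSpace ℝ (Fin n)) :
    fderiv ℝ (fderiv ℝ u) x v w = ∑ i, ∑ j, hessianMat u x i j * v i * w j := by
  have h1 : ∀ B : EuclideanSpace ℝ (Fin n) →L[ℝ] EuclideanSpace ℝ (Fin n) →L[ℝ] ℝ,
      B v w = ∑ i, ∑ j, B (EuclideanSpace.single i 1) (EuclideanSpace.single j 1) * v i * w j := by
    intro B
    conv_lhs => rw [← sum_single v]
    rw [map_sum]
    simp only [map_smul, sum_apply, smul_apply, smul_eq_mul]
    refine Finset.sum_congr rfl fun i _ => ?_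
    conv_lhs => rw [← sum_single w]
    rw [map_sum, Finset.mul_sum]
    refine Finset.sum_congr rfl fun j _ => ?_
    simp only [map_smul, smul_eq_mul]
    ring
  rw [h1]
  simp_rw [hessianMat_eq hd]

lemma fderiv2_pos {n : ℕ} {Ω : Set (EuclideanSpace ℝ (Fin n))} {u : EuclideanSpace ℝ (Fin n) → ℝ}
    (h : SC Ω u) {x : EuclideanSpace ℝ (Fin n)} (hx : x ∈ Ω) {v : EuclideanSpace ℝ (Fin n)}
    (hv : v ≠ 0) : 0 < fderiv ℝ (fderiv ℝ u) x v v := by
  rw [fderiv2_eq (h.differentiableAt_fderiv hx)]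
  have hp := (h.posDef x hx)
  have hv' : (fun i => v i) ≠ 0 := by
    intro h0
    apply hv
    ext i
    simpa using congrFun h0 i
  have := hp.dotProduct_mulVec_pos hv'
  simp only [star_trivial, dotProduct, Matrix.mulVec] at this
  refine this.trans_le (le_of_eq ?_)
  refine Finset.sum_congr rfl fun i _ => ?_
  rw [Finset.mul_sum]
  refine Finset.sum_congr rfl fun j _ => ?_
  ring

section line

variable {n : ℕ} {Ω : Set (EuclideanSpace ℝ (Fin n))} {u : EuclideanSpace ℝ (Fin n) → ℝ}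

lemma hasDerivAt_affine (x v : EuclideanSpace ℝ (Fin n)) (t : ℝ) :
    HasDerivAt (fun s : ℝ => x + s • v) v t := by
  simpa using ((hasDerivAt_id t).smul_const v).const_add x

/-- derivative of `u` along a line -/
lemma SC.hasDerivAt_line (h : SC Ω u) {x v : EuclideanSpace ℝ (Fin n)} {t : ℝ}
    (hx : x + t • v ∈ Ω) :
    HasDerivAt (fun s : ℝ => u (x + s • v)) (fderiv ℝ u (x + t • v) v) t := by
  have := (h.differentiableAt hx).hasFDerivAt.comp_hasDerivAt t (hasDerivAt_affine x v t)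
  exact this

lemma SC.hasDerivAt_line2 (h : SC Ω u) {x v : EuclideanSpace ℝ (Fin n)} {t : ℝ}
    (hx : x + t • v ∈ Ω) (w : EuclideanSpace ℝ (Fin n)) :
    HasDerivAt (fun s : ℝ => fderiv ℝ u (x + s • v) w)
      (fderiv ℝ (fderiv ℝ u) (x + t • v) v w) t := by
  have := (h.differentiableAt_fderiv hx).hasFDerivAt.comp_hasDerivAt t (hasDerivAt_affine x v t)
  exact this.clm_apply (hasDerivAt_const t w) |>.congr_deriv (by simp)

lemma SC.segment_mem (h : SC Ω u) {x y : EuclideanSpace ℝ (Fin n)} (hx : x ∈ Ω) (hy : y ∈ Ω)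
    {t : ℝ} (ht : t ∈ Icc (0:ℝ) 1) : x + t • (y - x) ∈ Ω := by
  have := h.convex hx hy (a := 1 - t) (b := t) (by linarith [ht.2]) ht.1 (by ring)
  convert this using 1
  module

/-- The slope along a segment is strictly increasing. -/
lemma SC.slope_strictMonoOn (h : SC Ω u) {x v : EuclideanSpace ℝ (Fin n)} (hv : v ≠ 0) {S : Set ℝ}
    (hS : Convex ℝ S) (hSΩ : ∀ s ∈ S, x + s • v ∈ Ω) :
    StrictMonoOn (fun s : ℝ => fderiv ℝ u (x + s • v) v) S := by
  apply strictMonoOn_of_deriv_pos hS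
  · intro s hs
    exact (h.hasDerivAt_line2 (hSΩ s hs) v).continuousAt.continuousWithinAt
  · intro s hs
    rw [(h.hasDerivAt_line2 (hSΩ s (interior_subset hs)) v).deriv]
    exact fderiv2_pos h (hSΩ s (interior_subset hs)) hv

/-- strict tangent plane inequality. -/
theorem SC.tangent_lt (h : SC Ω u) {x y : EuclideanSpace ℝ (Fin n)} (hx : x ∈ Ω) (hy : y ∈ Ω)
    (hxy : x ≠ y) : u x + fderiv ℝ u x (y - x) < u y := by
  have hv : y - x ≠ 0 := sub_ne_zero.mpr (Ne.symm hxy)
  have hmono := h.slope_strictMonoOn (x := x) hv (convex_Icc (0:ℝ) 1)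
    (fun s hs => h.segment_mem hx hy hs)
  obtain ⟨c, hc, hc'⟩ := exists_deriv_eq_slope (fun s : ℝ => u (x + s • (y - x))) (a := 0) (b := 1)
    one_pos
    (fun s hs => (h.hasDerivAt_line (h.segment_mem hx hy hs)).continuousAt.continuousWithinAt)
    (fun s hs => (h.hasDerivAt_line
      (h.segment_mem hx hy (Ioo_subset_Icc_self hs))).differentiableAt.differentiableWithinAt)
  rw [(h.hasDerivAt_line (h.segment_mem hx hy (Ioo_subset_Icc_self hc))).deriv] at hc'
  have h2 := hmono (left_mem_Icc.mpr zero_le_one) (Ioo_subset_Icc_self hc) hc.1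
  simp only [zero_smul, add_zero, one_smul, sub_zero, div_one, add_sub_cancel] at hc' h2
  linarith

theorem SC.tangent_le (h : SC Ω u) {x y : EuclideanSpace ℝ (Fin n)} (hx : x ∈ Ω) (hy : y ∈ Ω) :
    u x + fderiv ℝ u x (y - x) ≤ u y := by
  rcases eq_or_ne x y with rfl | hxy
  · simp
  · exact (h.tangent_lt hx hy hxy).le

/-- strict monotonicity of the gradient. -/
theorem SC.grad_mono (h : SC Ω u) {x y : EuclideanSpace ℝ (Fin n)} (hx : x ∈ Ω) (hy : y ∈ Ω)
    (hxy : x ≠ y) : 0 < (fderiv ℝ u y - fderiv ℝ u x) (y - x) := by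
  have h1 := h.tangent_lt hx hy hxy
  have h2 := h.tangent_lt hy hx hxy.symm
  have h3 : fderiv ℝ u y (x - y) = - fderiv ℝ u y (y - x) := by
    rw [← map_neg, neg_sub]
  rw [h3] at h2
  simp only [sub_apply]
  linarith

theorem SC.strictConvexOn (h : SC Ω u) : StrictConvexOn ℝ Ω u := by
  refine ⟨h.convex, fun x hx y hy hxy a b ha hb hab => ?_⟩
  have hz : a • x + b • y ∈ Ω := h.convex hx hy ha.le hb.le hab
  set z := a • x + b • y with hzdef
  have hxz : z ≠ x := by
    intro he
    apply hxy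
    have h1 : b • (y - x) = 0 := by
      have : a • x + b • y = x := hzdef ▸ he
      have h2 : b • (y - x) = (a • x + b • y) - (a + b) • x := by module
      rw [h2, this, hab, one_smul, sub_self]
    rw [smul_eq_zero] at h1
    rcases h1 with h1 | h1
    · exact absurd h1 hb.ne'
    · exact (sub_eq_zero.mp h1).symm
  have h1 := h.tangent_lt hz hx hxz
  have h2 := h.tangent_le hz hy
  have h3 : a * fderiv ℝ u z (x - z) + b * fderiv ℝ u z (y - z) = 0 := by
    rw [← smul_eq_mul, ← smul_eq_mul, ← map_smul, ← map_smul, ← map_add]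
    have : a • (x - z) + b • (y - z) = 0 := by
      have h4 : a • (x - z) + b • (y - z) = (a • x + b • y) - (a + b) • z := by module
      rw [h4, ← hzdef, hab, one_smul, sub_self]
    rw [this, map_zero]
  simp only [smul_eq_mul]
  have e1 : a * (u z + fderiv ℝ u z (x - z)) < a * u x := mul_lt_mul_of_pos_left h1 ha
  have e2 : b * (u z + fderiv ℝ u z (y - z)) ≤ b * u y := mul_le_mul_of_nonneg_left h2 hb.le
  have e3 : a * u z + b * u z = u z := by rw [← add_mul, hab, one_mul]
  nlinarith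

theorem SC.convexOn (h : SC Ω u) : ConvexOn ℝ Ω u := h.strictConvexOn.convexOn

theorem SC.convex_comb_le (h : SC Ω u) {x y : EuclideanSpace ℝ (Fin n)} (hx : x ∈ Ω) (hy : y ∈ Ω)
    {t : ℝ} (ht : 0 ≤ t) (ht1 : t ≤ 1) :
    u (x + t • (y - x)) ≤ (1 - t) * u x + t * u y := by
  have hc := h.convexOn.2 hx hy (sub_nonneg.mpr ht1) ht (by ring)
  have h2 : (1 - t) • x + t • y = x + t • (y - x) := by module
  rwa [h2] at hc

end line

section dist

variable {n : ℕ} {Ω : Set (EuclideanSpace ℝ (Fin n))} {u : EuclideanSpace ℝ (Fin n) → ℝ}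

lemma fderiv_eq_sum (x v : EuclideanSpace ℝ (Fin n)) :
    fderiv ℝ u x v = ∑ i, pderiv i u x * v i := by
  conv_lhs => rw [← sum_single v]
  rw [map_sum]
  refine Finset.sum_congr rfl fun i _ => ?_
  rw [map_smul, smul_eq_mul, pderiv, mul_comm]

lemma quadForm_graphMetric (x v : EuclideanSpace ℝ (Fin n)) :
    quadForm (graphMetric u) x v = ‖v‖ ^ 2 + (fderiv ℝ u x v) ^ 2 := by
  unfold quadForm graphMetric
  have h1 : ‖v‖ ^ 2 = ∑ i, ∑ j, (if i = j then (1:ℝ) else 0) * v i * v j := by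
    rw [EuclideanSpace.real_norm_sq_eq]
    refine Finset.sum_congr rfl fun i _ => ?_
    simp [pow_two]
  have h2 : (fderiv ℝ u x v) ^ 2 = ∑ i, ∑ j, (pderiv i u x * pderiv j u x) * v i * v j := by
    rw [fderiv_eq_sum, pow_two, Finset.sum_mul_sum]
    refine Finset.sum_congr rfl fun i _ => Finset.sum_congr rfl fun j _ => ?_
    ring
  rw [h1, h2, ← Finset.sum_add_distrib]
  refine Finset.sum_congr rfl fun i _ => ?_
  rw [← Finset.sum_add_distrib]
  refine Finset.sum_congr rfl fun j _ => ?_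
  ring

lemma curveLength_nonneg (g : MetricField n) (γ : ℝ → EuclideanSpace ℝ (Fin n)) :
    0 ≤ curveLength g γ :=
  intervalIntegral.integral_nonneg zero_le_one fun _ _ => Real.sqrt_nonneg _

lemma bddBelow_length (g : MetricField n) (x y : EuclideanSpace ℝ (Fin n)) :
    BddBelow (Set.range fun γ : AdmissiblePath Ω x y => curveLength g γ.1) :=
  ⟨0, by rintro _ ⟨γ, rfl⟩; exact curveLength_nonneg g _⟩

lemma SC.continuousOn_fderiv (h : SC Ω u) : ContinuousOn (fderiv ℝ u) Ω :=
  fun _ hx => (h.differentiableAt_fderiv hx).continuousAt.continuousWithinAt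

lemma SC.continuousOn (h : SC Ω u) : ContinuousOn u Ω := h.smooth.continuousOn

/-- the speed of an admissible curve is continuous on `[0,1]` -/
lemma SC.continuousOn_speed (h : SC Ω u) {γ : ℝ → EuclideanSpace ℝ (Fin n)}
    (hγ : ContDiff ℝ 1 γ) (hΩ : ∀ t ∈ Set.Icc (0:ℝ) 1, γ t ∈ Ω) :
    ContinuousOn (fun t => Real.sqrt (quadForm (graphMetric u) (γ t) (deriv γ t))) (Icc 0 1) := by
  simp_rw [quadForm_graphMetric]
  have hd : Continuous (deriv γ) := hγ.continuous_deriv le_rfl
  have h1 : ContinuousOn (fun t => fderiv ℝ u (γ t)) (Icc 0 1) :=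
    h.continuousOn_fderiv.comp hγ.continuous.continuousOn hΩ
  have h2 : ContinuousOn (fun t => fderiv ℝ u (γ t) (deriv γ t)) (Icc 0 1) :=
    h1.clm_apply hd.continuousOn
  exact (((hd.norm.pow 2).continuousOn).add (h2.pow 2)).sqrt

/-- the graph length dominates the euclidean distance -/
lemma SC.norm_le_curveLength (h : SC Ω u) {γ : ℝ → EuclideanSpace ℝ (Fin n)}
    (hγ : ContDiff ℝ 1 γ) (hΩ : ∀ t ∈ Set.Icc (0:ℝ) 1, γ t ∈ Ω) :
    ‖γ 1 - γ 0‖ ≤ curveLength (graphMetric u) γ := by
  have hd : Continuous (deriv γ) := hγ.continuous_deriv le_rfl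
  have h1 : ∫ t in (0:ℝ)..1, deriv γ t = γ 1 - γ 0 :=
    intervalIntegral.integral_deriv_eq_sub (fun t _ => hγ.differentiable one_ne_zero t)
      (hd.intervalIntegrable _ _)
  rw [← h1]
  refine (intervalIntegral.norm_integral_le_integral_norm zero_le_one).trans ?_
  unfold curveLength
  refine intervalIntegral.integral_mono_on zero_le_one (hd.norm.intervalIntegrable _ _) ?_ ?_
  · refine ContinuousOn.intervalIntegrable ?_
    rw [uIcc_of_le zero_le_one]
    exact h.continuousOn_speed hγ hΩ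
  · intro t _
    apply Real.le_sqrt_of_sq_le
    rw [quadForm_graphMetric]
    nlinarith [sq_nonneg (fderiv ℝ u (γ t) (deriv γ t))]

/-- the segment path -/
def segPath (x y : EuclideanSpace ℝ (Fin n)) : ℝ → EuclideanSpace ℝ (Fin n) :=
  fun t => x + t • (y - x)

lemma contDiff_segPath (x y : EuclideanSpace ℝ (Fin n)) : ContDiff ℝ 1 (segPath x y) := by
  unfold segPath
  fun_prop

lemma deriv_segPath (x y : EuclideanSpace ℝ (Fin n)) (t : ℝ) : deriv (segPath x y) t = y - x :=
  (hasDerivAt_affine x (y - x) t).deriv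

def SC.segAdm (h : SC Ω u) {x y : EuclideanSpace ℝ (Fin n)} (hx : x ∈ Ω) (hy : y ∈ Ω) :
    AdmissiblePath Ω x y :=
  ⟨segPath x y, contDiff_segPath x y, by simp [segPath], by simp [segPath],
    fun _ ht => h.segment_mem hx hy ht⟩

lemma SC.norm_le_riemDist (h : SC Ω u) {x y : EuclideanSpace ℝ (Fin n)} (hx : x ∈ Ω)
    (hy : y ∈ Ω) : ‖y - x‖ ≤ riemDist (graphMetric u) Ω x y := by
  have : Nonempty (AdmissiblePath Ω x y) := ⟨h.segAdm hx hy⟩
  refine le_ciInf fun γ => ?_
  have := h.norm_le_curveLength γ.2.1 γ.2.2.2.2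
  rwa [γ.2.2.1, γ.2.2.2.1] at this


/-- length of a segment on which `u` is monotone -/
lemma SC.riemDist_le (h : SC Ω u) {x y : EuclideanSpace ℝ (Fin n)} (hx : x ∈ Ω)
    (hy : y ∈ Ω) (hs : (∀ t ∈ Icc (0:ℝ) 1, 0 ≤ fderiv ℝ u (x + t • (y - x)) (y - x)) ∨
      (∀ t ∈ Icc (0:ℝ) 1, fderiv ℝ u (x + t • (y - x)) (y - x) ≤ 0)) :
    riemDist (graphMetric u) Ω x y ≤ ‖y - x‖ + |u y - u x| := by
  refine (ciInf_le (bddBelow_length _ x y) (h.segAdm hx hy)).trans ?_
  change curveLength (graphMetric u) (segPath x y) ≤ _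
  have hseg : ∀ t ∈ Icc (0:ℝ) 1, segPath x y t ∈ Ω := fun t ht => h.segment_mem hx hy ht
  have hcont : ContinuousOn (fun t : ℝ => fderiv ℝ u (x + t • (y - x)) (y - x)) (Icc 0 1) :=
    fun t ht => (h.hasDerivAt_line2 (h.segment_mem hx hy ht) _).continuousAt.continuousWithinAt
  have hint : IntervalIntegrable (fun t : ℝ => fderiv ℝ u (x + t • (y - x)) (y - x)) volume 0 1 := by
    refine ContinuousOn.intervalIntegrable ?_
    rwa [uIcc_of_le zero_le_one]
  have hFTC : ∫ t in (0:ℝ)..1, fderiv ℝ u (x + t • (y - x)) (y - x) = u y - u x := by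
    have := intervalIntegral.integral_eq_sub_of_hasDerivAt
      (f := fun s : ℝ => u (x + s • (y - x)))
      (f' := fun t : ℝ => fderiv ℝ u (x + t • (y - x)) (y - x)) (a := 0) (b := 1)
      (fun t ht => h.hasDerivAt_line (h.segment_mem hx hy (by rwa [uIcc_of_le zero_le_one] at ht)))
      hint
    simpa using this
  have habs : ∫ t in (0:ℝ)..1, |fderiv ℝ u (x + t • (y - x)) (y - x)| = |u y - u x| := by
    rcases hs with hs | hs
    · have e1 : ∫ t in (0:ℝ)..1, |fderiv ℝ u (x + t • (y - x)) (y - x)|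
          = ∫ t in (0:ℝ)..1, fderiv ℝ u (x + t • (y - x)) (y - x) := by
        refine intervalIntegral.integral_congr fun t ht => ?_
        rw [uIcc_of_le zero_le_one] at ht
        exact abs_of_nonneg (hs t ht)
      rw [e1, hFTC, abs_of_nonneg]
      rw [← hFTC]
      exact intervalIntegral.integral_nonneg zero_le_one hs
    · have e1 : ∫ t in (0:ℝ)..1, |fderiv ℝ u (x + t • (y - x)) (y - x)|
          = ∫ t in (0:ℝ)..1, - fderiv ℝ u (x + t • (y - x)) (y - x) := by
        refine intervalIntegral.integral_congr fun t ht => ?_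
        rw [uIcc_of_le zero_le_one] at ht
        exact abs_of_nonpos (hs t ht)
      rw [e1, intervalIntegral.integral_neg, hFTC, abs_of_nonpos]
      have : 0 ≤ ∫ t in (0:ℝ)..1, - fderiv ℝ u (x + t • (y - x)) (y - x) :=
        intervalIntegral.integral_nonneg zero_le_one fun t ht => neg_nonneg.mpr (hs t ht)
      rw [intervalIntegral.integral_neg, hFTC] at this
      linarith
  calc curveLength (graphMetric u) (segPath x y)
      ≤ ∫ t in (0:ℝ)..1, (‖y - x‖ + |fderiv ℝ u (x + t • (y - x)) (y - x)|) := by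
        unfold curveLength
        refine intervalIntegral.integral_mono_on zero_le_one ?_ ?_ ?_
        · refine ContinuousOn.intervalIntegrable ?_
          rw [uIcc_of_le zero_le_one]
          exact h.continuousOn_speed (contDiff_segPath x y) hseg
        · exact (intervalIntegrable_const).add hint.abs
        · intro t _
          rw [quadForm_graphMetric, deriv_segPath]
          apply Real.sqrt_le_iff.mpr
          constructor
          · positivity
          · have e1 : (fderiv ℝ u (segPath x y t)) (y - x) ^ 2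
                = |fderiv ℝ u (x + t • (y - x)) (y - x)| ^ 2 := by
              rw [sq_abs]; rfl
            rw [e1]
            nlinarith [norm_nonneg (y - x), abs_nonneg (fderiv ℝ u (x + t • (y - x)) (y - x)),
              mul_nonneg (norm_nonneg (y - x)) (abs_nonneg (fderiv ℝ u (x + t • (y - x)) (y - x)))]
    _ = ‖y - x‖ + |u y - u x| := by
        rw [intervalIntegral.integral_add intervalIntegrable_const hint.abs, habs]
        simp

end dist

section proper

variable {n : ℕ} {Ω : Set (EuclideanSpace ℝ (Fin n))} {u : EuclideanSpace ℝ (Fin n) → ℝ}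

/-- **Properness.** If the graph metric is complete then `u` is unbounded along every sequence of
`Ω` that converges to a point outside `Ω`. -/
theorem SC.not_tendsto_of_le (h : SC Ω u) (hcomp : IsCompleteOn (graphMetric u) Ω)
    {p : EuclideanSpace ℝ (Fin n)} (hp : p ∉ Ω) {C : ℝ} {y : ℕ → EuclideanSpace ℝ (Fin n)}
    (hy : ∀ k, y k ∈ Ω) (hu : ∀ k, u (y k) ≤ C) : ¬ Tendsto y atTop (𝓝 p) := by
  intro hlim
  set x₀ := y 0 with hx₀
  have hx : x₀ ∈ Ω := hy 0
  have hpc : p ∈ closure Ω := mem_closure_of_tendsto hlim (Eventually.of_forall hy)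
  set d := p - x₀ with hd
  have hd0 : d ≠ 0 := by
    intro h0
    apply hp
    have : p = x₀ := sub_eq_zero.mp h0
    rw [this]; exact hx
  -- points of the half open segment are in Ω
  have hmem : ∀ s ∈ Ico (0:ℝ) 1, x₀ + s • d ∈ Ω := by
    intro s hs
    rcases eq_or_lt_of_le hs.1 with h0 | h0
    · rw [← h0]; simpa using hx
    · have h1 := h.convex.openSegment_interior_closure_subset_interior
        (x := x₀) (y := p) (by rwa [h.isOpen.interior_eq]) hpc
      rw [h.isOpen.interior_eq] at h1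
      apply h1
      refine ⟨1 - s, s, by linarith [hs.2], h0, by ring, ?_⟩
      rw [hd]; module
  -- upper bound of u
  have hub : ∀ s ∈ Ico (0:ℝ) 1, u (x₀ + s • d) ≤ max (u x₀) C := by
    intro s hs
    have hlim' : Tendsto (fun k => x₀ + s • (y k - x₀)) atTop (𝓝 (x₀ + s • d)) :=
      ((hlim.sub_const x₀).const_smul s).const_add x₀
    have hc : ContinuousAt u (x₀ + s • d) := (h.differentiableAt (hmem s hs)).continuousAt
    refine le_of_tendsto (hc.tendsto.comp hlim') (Eventually.of_forall fun k => ?_)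
    have h1 := h.convex_comb_le hx (hy k) hs.1 hs.2.le
    simp only [Function.comp]
    refine h1.trans ?_
    have e1 : (1 - s) * u x₀ ≤ (1 - s) * max (u x₀) C :=
      mul_le_mul_of_nonneg_left (le_max_left _ _) (by linarith [hs.2])
    have e2 : s * u (y k) ≤ s * max (u x₀) C :=
      mul_le_mul_of_nonneg_left ((hu k).trans (le_max_right _ _)) hs.1
    linarith
  -- lower bound of u
  have hlb : ∀ s ∈ Ico (0:ℝ) 1, u x₀ - |fderiv ℝ u x₀ d| ≤ u (x₀ + s • d) := by
    intro s hs
    have h1 := h.tangent_le hx (hmem s hs)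
    rw [add_sub_cancel_left, map_smul, smul_eq_mul] at h1
    have h2 : -|fderiv ℝ u x₀ d| ≤ s * fderiv ℝ u x₀ d := by
      have h3 : |s * fderiv ℝ u x₀ d| ≤ |fderiv ℝ u x₀ d| := by
        rw [abs_mul, abs_of_nonneg hs.1]
        exact mul_le_of_le_one_left (abs_nonneg _) hs.2.le
      linarith [neg_abs_le (s * fderiv ℝ u x₀ d)]
    linarith
  -- slope
  have hslope := h.slope_strictMonoOn (x := x₀) hd0 (convex_Ico (0:ℝ) 1) hmem
  -- a parameter `s₀` after which the slope has constant sign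
  obtain ⟨s₀, hs₀, hsign⟩ : ∃ s₀ ∈ Ico (0:ℝ) 1,
      (∀ s ∈ Ico s₀ 1, 0 ≤ fderiv ℝ u (x₀ + s • d) d) ∨
      (∀ s ∈ Ico s₀ 1, fderiv ℝ u (x₀ + s • d) d ≤ 0) := by
    by_cases hcase : ∃ s ∈ Ico (0:ℝ) 1, 0 < fderiv ℝ u (x₀ + s • d) d
    · obtain ⟨s, hs, hpos⟩ := hcase
      refine ⟨s, hs, Or.inl fun t ht => ?_⟩
      have := hslope.monotoneOn hs ⟨hs.1.trans ht.1, ht.2⟩ ht.1
      exact hpos.le.trans this
    · push Not at hcase
      exact ⟨0, ⟨le_rfl, one_pos⟩, Or.inr fun t ht => hcase t ht⟩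
  -- distance along the segment
  have hdist : ∀ s ∈ Ico s₀ 1, ∀ t ∈ Ico s₀ 1,
      riemDist (graphMetric u) Ω (x₀ + s • d) (x₀ + t • d) ≤
        |t - s| * ‖d‖ + |u (x₀ + t • d) - u (x₀ + s • d)| := by
    intro s hs t ht
    have hs' : s ∈ Ico (0:ℝ) 1 := ⟨hs₀.1.trans hs.1, hs.2⟩
    have ht' : t ∈ Ico (0:ℝ) 1 := ⟨hs₀.1.trans ht.1, ht.2⟩
    have e : (x₀ + t • d) - (x₀ + s • d) = (t - s) • d := by module
    have key : ∀ τ ∈ Icc (0:ℝ) 1, s + τ * (t - s) ∈ Ico s₀ 1 := by
      intro τ hτ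
      constructor
      · nlinarith [hs.1, ht.1, hτ.1, hτ.2]
      · have e9 : s + τ * (t - s) = (1 - τ) * s + τ * t := by ring
        rw [e9]
        rcases eq_or_lt_of_le hτ.1 with h0 | h0
        · rw [← h0]; simpa using hs.2
        · nlinarith [hs.2, ht.2, hτ.2, mul_lt_mul_of_pos_left ht.2 h0, mul_le_mul_of_nonneg_left hs.2.le (sub_nonneg.mpr hτ.2)]
    have e2 : ∀ τ : ℝ, fderiv ℝ u ((x₀ + s • d) + τ • ((x₀ + t • d) - (x₀ + s • d)))
        ((x₀ + t • d) - (x₀ + s • d)) =
        (t - s) * fderiv ℝ u (x₀ + (s + τ * (t - s)) • d) d := by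
      intro τ
      rw [e]
      have e3 : (x₀ + s • d) + τ • ((t - s) • d) = x₀ + (s + τ * (t - s)) • d := by module
      rw [e3, map_smul, smul_eq_mul]
    have := h.riemDist_le (hmem s hs') (hmem t ht') (by
      rcases hsign with hsg | hsg
      · rcases le_total s t with hst | hst
        · left; intro τ hτ; rw [e2]
          exact mul_nonneg (by linarith) (hsg _ (key τ hτ))
        · right; intro τ hτ; rw [e2]
          exact mul_nonpos_of_nonpos_of_nonneg (by linarith) (hsg _ (key τ hτ))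
      · rcases le_total s t with hst | hst
        · right; intro τ hτ; rw [e2]
          exact mul_nonpos_of_nonneg_of_nonpos (by linarith) (hsg _ (key τ hτ))
        · left; intro τ hτ; rw [e2]
          exact mul_nonneg_of_nonpos_of_nonpos (by linarith) (hsg _ (key τ hτ)))
    rwa [e, norm_smul, Real.norm_eq_abs] at this
  -- the function g is monotone or antitone on [s₀,1)
  have hgd : ∀ s ∈ Ico s₀ 1, HasDerivAt (fun s : ℝ => u (x₀ + s • d))
      (fderiv ℝ u (x₀ + s • d) d) s := fun s hs => h.hasDerivAt_line (hmem s ⟨hs₀.1.trans hs.1, hs.2⟩)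
  set sk : ℕ → ℝ := fun k => 1 - (1 - s₀) / (k + 1) with hsk
  have hsk_mem : ∀ k, sk k ∈ Ico s₀ 1 := by
    intro k
    have h1 : 0 < 1 - s₀ := by linarith [hs₀.2]
    have h2 : (0:ℝ) < k + 1 := by positivity
    constructor
    · have : (1 - s₀) / (k + 1) ≤ 1 - s₀ := by
        apply div_le_self h1.le
        have : (0:ℝ) ≤ k := Nat.cast_nonneg k
        linarith
      simp only [hsk]; linarith
    · have : 0 < (1 - s₀) / (k + 1) := by positivity
      simp only [hsk]; linarith
  have hsk_mono : Monotone sk := by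
    intro a b hab
    simp only [hsk]
    have h1 : 0 < 1 - s₀ := by linarith [hs₀.2]
    have : (1 - s₀) / ((b:ℝ) + 1) ≤ (1 - s₀) / ((a:ℝ) + 1) := by
      gcongr
    linarith
  have hsk_lim : Tendsto sk atTop (𝓝 1) := by
    have h1 : Tendsto (fun k : ℕ => (1 - s₀) / ((k:ℝ) + 1)) atTop (𝓝 0) := by
      apply Tendsto.div_atTop tendsto_const_nhds
      exact tendsto_atTop_add_const_right _ _ tendsto_natCast_atTop_atTop
    have := h1.const_sub 1
    simpa [hsk] using this
  have hg_cauchy : CauchySeq (fun k => u (x₀ + sk k • d)) := by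
    rcases hsign with hsg | hsg
    · have hmono : MonotoneOn (fun s : ℝ => u (x₀ + s • d)) (Ico s₀ 1) := by
        apply monotoneOn_of_deriv_nonneg (convex_Ico _ _)
        · intro s hs; exact (hgd s hs).continuousAt.continuousWithinAt
        · intro s hs; exact (hgd s (interior_subset hs)).differentiableAt.differentiableWithinAt
        · intro s hs; rw [(hgd s (interior_subset hs)).deriv]; exact hsg s (interior_subset hs)
      have hm : Monotone (fun k => u (x₀ + sk k • d)) :=
        fun a b hab => hmono (hsk_mem a) (hsk_mem b) (hsk_mono hab)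
      have hb : BddAbove (range (fun k => u (x₀ + sk k • d))) :=
        ⟨max (u x₀) C, by
          rintro _ ⟨k, rfl⟩
          exact hub _ ⟨hs₀.1.trans (hsk_mem k).1, (hsk_mem k).2⟩⟩
      exact (tendsto_atTop_ciSup hm hb).cauchySeq
    · have hmono : AntitoneOn (fun s : ℝ => u (x₀ + s • d)) (Ico s₀ 1) := by
        apply antitoneOn_of_deriv_nonpos (convex_Ico _ _)
        · intro s hs; exact (hgd s hs).continuousAt.continuousWithinAt
        · intro s hs; exact (hgd s (interior_subset hs)).differentiableAt.differentiableWithinAt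
        · intro s hs; rw [(hgd s (interior_subset hs)).deriv]; exact hsg s (interior_subset hs)
      have hm : Antitone (fun k => u (x₀ + sk k • d)) :=
        fun a b hab => hmono (hsk_mem a) (hsk_mem b) (hsk_mono hab)
      have hb : BddBelow (range (fun k => u (x₀ + sk k • d))) :=
        ⟨u x₀ - |fderiv ℝ u x₀ d|, by
          rintro _ ⟨k, rfl⟩
          exact hlb _ ⟨hs₀.1.trans (hsk_mem k).1, (hsk_mem k).2⟩⟩
      exact (tendsto_atTop_ciInf hm hb).cauchySeq
  have hs_cauchy : CauchySeq sk := hsk_lim.cauchySeq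
  -- apply completeness
  obtain ⟨q, hq, hqlim⟩ := hcomp (fun k => x₀ + sk k • d)
    (fun k => hmem _ ⟨hs₀.1.trans (hsk_mem k).1, (hsk_mem k).2⟩) (by
      intro ε hε
      rw [Metric.cauchySeq_iff] at hg_cauchy hs_cauchy
      obtain ⟨N1, hN1⟩ := hg_cauchy (ε / 2) (by positivity)
      obtain ⟨N2, hN2⟩ := hs_cauchy (ε / (2 * (‖d‖ + 1))) (by positivity)
      refine ⟨max N1 N2, fun k hk l hl => ?_⟩
      have h1 := hN1 l ((le_max_left _ _).trans hl) k ((le_max_left _ _).trans hk)
      have h2 := hN2 l ((le_max_right _ _).trans hl) k ((le_max_right _ _).trans hk)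
      rw [Real.dist_eq] at h1 h2
      refine (hdist _ (hsk_mem k) _ (hsk_mem l)).trans_lt ?_
      have h3 : |sk l - sk k| * ‖d‖ ≤ ε / 2 := by
        have h4 : |sk l - sk k| * ‖d‖ ≤ ε / (2 * (‖d‖ + 1)) * (‖d‖ + 1) := by
          apply mul_le_mul h2.le (by linarith) (norm_nonneg _) (by positivity)
        have h5 : ε / (2 * (‖d‖ + 1)) * (‖d‖ + 1) = ε / 2 := by
          field_simp
        linarith
      linarith)
  -- the limit is p
  have hlim1 : Tendsto (fun k => x₀ + sk k • d) atTop (𝓝 p) := by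
    have := (hsk_lim.smul_const d).const_add x₀
    simpa [hd] using this
  have hlim2 : Tendsto (fun k => x₀ + sk k • d) atTop (𝓝 q) := by
    rw [tendsto_iff_norm_sub_tendsto_zero]
    refine squeeze_zero (fun _ => norm_nonneg _) (fun k => ?_) hqlim
    rw [norm_sub_rev]
    exact h.norm_le_riemDist (hmem _ ⟨hs₀.1.trans (hsk_mem k).1, (hsk_mem k).2⟩) hq
  exact hp (tendsto_nhds_unique hlim1 hlim2 ▸ hq)

/-- sublevel sets of `u - l` are closed in `ℝⁿ` for every continuous `l`. -/
theorem SC.isClosed_sublevel (h : SC Ω u) (hcomp : IsCompleteOn (graphMetric u) Ω)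
    {l : EuclideanSpace ℝ (Fin n) → ℝ} (hl : Continuous l) :
    IsClosed {x | x ∈ Ω ∧ u x ≤ l x} := by
  rw [← isSeqClosed_iff_isClosed]
  intro y p hy hlim
  have hl' : Tendsto (fun k => l (y k)) atTop (𝓝 (l p)) := (hl.tendsto p).comp hlim
  by_cases hp : p ∈ Ω
  · refine ⟨hp, ?_⟩
    have hc : ContinuousAt u p := (h.differentiableAt hp).continuousAt
    exact le_of_tendsto_of_tendsto (hc.tendsto.comp hlim) hl' (Eventually.of_forall fun k => (hy k).2)
  · exfalso
    obtain ⟨C, hC⟩ := hl'.bddAbove_range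
    refine h.not_tendsto_of_le hcomp hp (C := C) (fun k => (hy k).1) (fun k => ?_) hlim
    exact (hy k).2.trans (hC ⟨k, rfl⟩)

/-- linear growth of `u` above a tangent plane -/
theorem SC.exists_growth (h : SC Ω u) {x₀ : EuclideanSpace ℝ (Fin n)} (hx₀ : x₀ ∈ Ω) :
    ∃ r m : ℝ, 0 < r ∧ 0 < m ∧ Metric.closedBall x₀ r ⊆ Ω ∧
      ∀ x ∈ Ω, r ≤ ‖x - x₀‖ → m * ‖x - x₀‖ ≤ u x - u x₀ - fderiv ℝ u x₀ (x - x₀) := by
  obtain ⟨r, hr, hball⟩ := Metric.nhds_basis_closedBall.mem_iff.mp (h.isOpen.mem_nhds hx₀)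
  -- the function v on the sphere
  set v : EuclideanSpace ℝ (Fin n) → ℝ := fun x => u x - u x₀ - fderiv ℝ u x₀ (x - x₀) with hv
  have hvc : ContinuousOn v (Metric.sphere x₀ r) := by
    have h1 : ContinuousOn u (Metric.sphere x₀ r) :=
      h.continuousOn.mono (Metric.sphere_subset_closedBall.trans hball)
    have h2 : Continuous fun x : EuclideanSpace ℝ (Fin n) => fderiv ℝ u x₀ (x - x₀) := by fun_prop
    exact (h1.sub continuousOn_const).sub h2.continuousOn
  have hvpos : ∀ x ∈ Metric.sphere x₀ r, 0 < v x := by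
    intro x hx
    have hne : x₀ ≠ x := by
      intro he
      rw [← he] at hx
      simp at hx
      exact hr.ne' hx.symm
    have := h.tangent_lt hx₀ (hball (Metric.sphere_subset_closedBall hx)) hne
    simp only [hv]; linarith
  obtain ⟨m, hm, hm'⟩ : ∃ m : ℝ, 0 < m ∧ ∀ x ∈ Metric.sphere x₀ r, m ≤ v x := by
    rcases (Metric.sphere x₀ r).eq_empty_or_nonempty with he | hne
    · exact ⟨1, one_pos, by simp [he]⟩
    · obtain ⟨z, hz, hz'⟩ := (isCompact_sphere x₀ r).exists_isMinOn hne hvc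
      exact ⟨v z, hvpos z hz, fun x hx => hz' hx⟩
  refine ⟨r, m / r, hr, by positivity, hball, fun x hx hxr => ?_⟩
  have hn : 0 < ‖x - x₀‖ := hr.trans_le hxr
  set t := r / ‖x - x₀‖ with ht
  have ht0 : 0 < t := by positivity
  have ht1 : t ≤ 1 := by rw [ht, div_le_one hn]; exact hxr
  have hz : x₀ + t • (x - x₀) ∈ Metric.sphere x₀ r := by
    rw [mem_sphere_iff_norm, add_sub_cancel_left, norm_smul, Real.norm_eq_abs, abs_of_pos ht0, ht]
    field_simp
  have h1 := h.convex_comb_le hx₀ hx ht0.le ht1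
  have h3 := hm' _ hz
  simp only [hv, add_sub_cancel_left, map_smul, smul_eq_mul] at h3 h1
  have h4 : m ≤ t * (u x - u x₀ - fderiv ℝ u x₀ (x - x₀)) := by nlinarith
  have h5 : m / r * ‖x - x₀‖ = m / t := by
    rw [ht]; field_simp
  rw [h5, div_le_iff₀ ht0]
  linarith

/-- **P1.** Sections above tangent planes are compact. -/
theorem SC.section_compact (h : SC Ω u) (hcomp : IsCompleteOn (graphMetric u) Ω)
    {x₀ : EuclideanSpace ℝ (Fin n)} (hx₀ : x₀ ∈ Ω) (t : ℝ) :
    IsCompact {x | x ∈ Ω ∧ u x ≤ u x₀ + fderiv ℝ u x₀ (x - x₀) + t} := by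
  obtain ⟨r, m, hr, hm, hball, hgrow⟩ := h.exists_growth hx₀
  refine Metric.isCompact_of_isClosed_isBounded (h.isClosed_sublevel hcomp (by fun_prop)) ?_
  refine (Metric.isBounded_closedBall (x := x₀) (r := max r (t / m))).subset ?_
  rintro x ⟨hx, hxt⟩
  rw [mem_closedBall_iff_norm]
  by_cases hxr : r ≤ ‖x - x₀‖
  · have := hgrow x hx hxr
    refine le_max_of_le_right ?_
    rw [le_div_iff₀ hm]
    linarith
  · exact le_max_of_le_left (not_le.mp hxr).le

end proper

end Crest.Agent.R236
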