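import Crest.Agent.R236.BGeoDefs

/-! Row 236, Part B, B1 in the coordinates of `W = T × Y × ℝ` (statement only). (helper660) -/

set_option autoImplicit false
open scoped ContDiff Topology
open Set Filter

noncomputable section

namespace Crest.Agent.R236.B

open Crest.Agent.R236.A (EE epi SOL STRUCT IsStruct ConeData Appr)

/-- `e_P = (0, δ e, 1)` -/
def wP {D : ℕ} (m : ℕ) (e : EE D) (δ : ℝ) : WW m D := ((0 : EE m), δ • e, 1)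

/-- `e_W = (0, e, δ)` -/
def wW {D : ℕ} (m : ℕ) (e : EE D) (δ : ℝ) : WW m D := ((0 : EE m), e, δ)

/-- `z` on `W` -/
def zF (m D : ℕ) : WW m D →L[ℝ] ℝ :=
  (ContinuousLinearMap.snd ℝ (EE D) ℝ).comp (ContinuousLinearMap.snd ℝ (EE m) (EE D × ℝ))

/-- `l` on `W` -/
def lF {D : ℕ} (m : ℕ) (l : EE D →L[ℝ] ℝ) : WW m D →L[ℝ] ℝ :=
  l.comp ((ContinuousLinearMap.fst ℝ (EE D) ℝ).comp (ContinuousLinearMap.snd ℝ (EE m) (EE D × ℝ)))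

/-- `P = (z - δ l) / (1 - δ²)` -/
def pF {D : ℕ} (m : ℕ) (l : EE D →L[ℝ] ℝ) (δ : ℝ) : WW m D →L[ℝ] ℝ :=
  (1 / (1 - δ ^ 2)) • (zF m D - δ • lF m l)

/-- `W = (l - δ z) / (1 - δ²)` -/
def wF {D : ℕ} (m : ℕ) (l : EE D →L[ℝ] ℝ) (δ : ℝ) : WW m D →L[ℝ] ℝ :=
  (1 / (1 - δ ^ 2)) • (lF m l - δ • zF m D)



theorem pF_apply {m D : ℕ} (l : EE D →L[ℝ] ℝ) (δ : ℝ) (X : WW m D) :
    pF m l δ X = 1 / (1 - δ ^ 2) * (X.2.2 - δ * l X.2.1) := rfl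

theorem wF_apply {m D : ℕ} (l : EE D →L[ℝ] ℝ) (δ : ℝ) (X : WW m D) :
    wF m l δ X = 1 / (1 - δ ^ 2) * (l X.2.1 - δ * X.2.2) := rfl

/-- the approximant `C' = A '' epi` in the coordinates of `W`; `LL ≥ L2` is a second admissible
constant in (b); `e_P`, `e_W`-versions are (c) -/
structure ApxW {m D : ℕ} (l : EE D →L[ℝ] ℝ) (e : EE D) (Θ K L2 L3 LL ρ δ : ℝ) (N : ℕ) (ε0 : ℝ)
    (nr : ℝ → ℝ → Seminorm ℝ (WW m D)) (C' : Set (WW m D)) : Prop where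
  bdd : ∀ lam tau, Grid N lam tau → ∀ α β : ℝ, 1 ≤ α → α ≤ 2 → 1 ≤ β → β ≤ 2 →
    ∀ X ∈ C', α * pF m l δ X / lam + β * wF m l δ X / tau ≤ Θ →
      nr lam tau X ≤ K + 1 ∧ -(ε0 * lam) ≤ pF m l δ X ∧ -(ε0 * tau) ≤ wF m l δ X
  deep2 : ∀ lam tau, Grid N lam tau → ∀ X ∈ C', pF m l δ X / lam + wF m l δ X / tau ≤ Θ →
    ∀ v, nr lam tau v ≤ ρ / 2 → X + L2 • est m e lam tau + v ∈ C'
  deepL : ∀ lam tau, Grid N lam tau → ∀ X ∈ C', pF m l δ X / lam + wF m l δ X / tau ≤ Θ →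
    ∀ v, nr lam tau v ≤ ρ / 2 → X + LL • est m e lam tau + v ∈ C'
  deepP : ∃ S : ℝ, 0 < S ∧ ∀ lam tau, Grid N lam tau → ∀ X ∈ C',
    pF m l δ X / lam + wF m l δ X / tau ≤ Θ →
      ∀ v, nr lam tau v ≤ ρ / 2 → X + S • wP m e δ + v ∈ C'
  deepW : ∃ S : ℝ, 0 < S ∧ ∀ lam tau, Grid N lam tau → ∀ X ∈ C',
    pF m l δ X / lam + wF m l δ X / tau ≤ Θ →
      ∀ v, nr lam tau v ≤ ρ / 2 → X + S • wW m e δ + v ∈ C'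
  Qm : ∀ lam tau, Grid N lam tau → ∀ v, nr lam tau v ≤ ρ / 2 →
    L3 • est m e lam tau + v ∈ C' ∧
      pF m l δ (L3 • est m e lam tau + v) / lam + wF m l δ (L3 • est m e lam tau + v) / tau < Θ / 8

/-- B1 in `W`-coordinates -/
def ApxWStmt : Prop := ∀ (n m D : ℕ) (C : Set (WW m D)) (R : Set (EE D))
  (l : EE D →L[ℝ] ℝ) (e : EE D) (c0 L c : ℝ), IsStruct n C R l e c0 L c →
  ∀ (Θ K L2 L3 ρ : ℝ) (nr : ℝ → ℝ → Seminorm ℝ (WW m D)), 1 ≤ K → 1 ≤ L2 → 1 ≤ L3 →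
    18 * (L3 + 2) ≤ Θ → 0 < ρ → ρ ≤ 1 → ρ * ‖l‖ ≤ 1 → Geo C l e Θ K L2 L3 ρ nr →
    ∀ LL : ℝ, L2 ≤ LL → ∀ (N : ℕ) (ε0 : ℝ), 0 < ε0 →
      ∃ δ : ℝ, 0 < δ ∧ δ * 4 ^ N ≤ 1 / 8 ∧
        ∃ (Ω : Set (EE n)) (u : EE n → ℝ) (A : (EE n × ℝ) ≃ᵃ[ℝ] WW m D),
          SOL Ω u ∧ ApxW l e Θ K L2 L3 LL ρ δ N ε0 nr (A '' epi Ω u)

end Crest.Agent.R236.B
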