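import Mathlib
import Crest.Prelude.Def_AffineMaximal
import Crest.Agent.R236.P1

/-! Row 236, calculus layer, part A: pointwise calculus (Jacobi formula, symmetry of third
derivatives, divergence-free cofactors). (helper724) -/

set_option autoImplicit false
open scoped ContDiff Topology
open Crest.GeometryTopology.CoordMetric Crest.GeometryTopology.AffineMaximal
open Set Filter MeasureTheory Finset

noncomputable section

namespace Crest.Agent.R236

section det

variable {n : ℕ} {V : Type*} [NormedAddCommGroup V] [NormedSpace ℝ V]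

lemma sum_adj_col (A : Matrix (Fin n) (Fin n) ℝ) (i : Fin n) (b : Fin n → ℝ) :
    (A.updateCol i b).det = ∑ j, A.adjugate i j * b j := by
  rw [← Matrix.cramer_apply, Matrix.cramer_eq_adjugate_mulVec]
  rfl

/-- Jacobi's formula. -/
theorem hasFDerivAt_det {A : V → Matrix (Fin n) (Fin n) ℝ} {A' : Fin n → Fin n → V →L[ℝ] ℝ} {x : V}
    (hA : ∀ i j, HasFDerivAt (fun y => A y i j) (A' i j) x) :
    HasFDerivAt (fun y => (A y).det) (∑ i, ∑ j, (A x).adjugate i j • A' j i) x := by
  have h1 : ∀ y, (A y).det = ∑ σ : Equiv.Perm (Fin n), ((Equiv.Perm.sign σ : ℤ) : ℝ) * ∏ i, A y (σ i) i := by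
    intro y; rw [Matrix.det_apply']
  simp_rw [h1]
  have h2 : HasFDerivAt (fun y => ∑ σ : Equiv.Perm (Fin n), ((Equiv.Perm.sign σ : ℤ) : ℝ) * ∏ i, A y (σ i) i)
      (∑ σ : Equiv.Perm (Fin n), ((Equiv.Perm.sign σ : ℤ) : ℝ) •
        ∑ i, (∏ j ∈ univ.erase i, A x (σ j) j) • A' (σ i) i) x := by
    refine HasFDerivAt.fun_sum fun σ _ => ?_
    exact (HasFDerivAt.finsetProd (fun i _ => hA (σ i) i)).const_mul _
  refine h2.congr_fderiv ?_
  ext v
  simp only [_root_.sum_apply, smul_apply, smul_eq_mul]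
  simp_rw [← sum_adj_col (A x) _ (fun j => A' j _ v), Matrix.det_apply']
  rw [Finset.sum_comm]
  refine Finset.sum_congr rfl fun σ _ => ?_
  rw [Finset.mul_sum]
  refine Finset.sum_congr rfl fun i _ => ?_
  congr 1
  rw [← Finset.mul_prod_erase univ _ (mem_univ i)]
  simp only [Matrix.updateCol_self]
  rw [mul_comm]
  congr 1
  refine Finset.prod_congr rfl fun j hj => ?_
  rw [Matrix.updateCol_ne (ne_of_mem_erase hj)]

end det

section smooth

variable {n : ℕ} {Ω : Set (EuclideanSpace ℝ (Fin n))} {u f : EuclideanSpace ℝ (Fin n) → ℝ}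

lemma contDiffOn_pderiv (hΩ : IsOpen Ω) {m k : WithTop ℕ∞} (hf : ContDiffOn ℝ k f Ω)
    (hmk : m + 1 ≤ k) (i : Fin n) : ContDiffOn ℝ m (pderiv i f) Ω := by
  have h1 : ContDiffOn ℝ m (fderiv ℝ f) Ω := hf.fderiv_of_isOpen hΩ hmk
  exact h1.clm_apply contDiffOn_const

lemma contDiffOn_pderiv_infty (hΩ : IsOpen Ω) (hf : ContDiffOn ℝ ∞ f Ω) (i : Fin n) :
    ContDiffOn ℝ ∞ (pderiv i f) Ω := contDiffOn_pderiv hΩ hf (by simp) i


lemma contDiffOn_hess_infty (hΩ : IsOpen Ω) (hf : ContDiffOn ℝ ∞ f Ω) (i j : Fin n) :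
    ContDiffOn ℝ ∞ (fun x => hessianMat f x i j) Ω :=
  contDiffOn_pderiv_infty hΩ (contDiffOn_pderiv_infty hΩ hf j) i

/-- symmetry of the Hessian -/
lemma hess_symm {x : EuclideanSpace ℝ (Fin n)} (hf : ContDiffAt ℝ 2 f x) (i j : Fin n) :
    hessianMat f x i j = hessianMat f x j i := by
  have hd : DifferentiableAt ℝ (fderiv ℝ f) x :=
    (hf.fderiv_right (m := 1) (by norm_num)).differentiableAt (by simp)
  rw [hessianMat_eq hd, hessianMat_eq hd]
  exact (hf.isSymmSndFDerivAt (by simp)).eq _ _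

lemma hess_symm_of_isOpen (hΩ : IsOpen Ω) (hf : ContDiffOn ℝ ∞ f Ω) {x : EuclideanSpace ℝ (Fin n)}
    (hx : x ∈ Ω) (i j : Fin n) : hessianMat f x i j = hessianMat f x j i :=
  hess_symm ((hf.contDiffAt (hΩ.mem_nhds hx)).of_le (by norm_cast)) i j

lemma pderiv_congr {f g : EuclideanSpace ℝ (Fin n) → ℝ} {x : EuclideanSpace ℝ (Fin n)}
    (h : f =ᶠ[𝓝 x] g) (i : Fin n) : pderiv i f x = pderiv i g x := by
  unfold pderiv; rw [h.fderiv_eq]

lemma pderiv_congr_of_isOpen {f g : EuclideanSpace ℝ (Fin n) → ℝ} (hΩ : IsOpen Ω)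
    (h : ∀ y ∈ Ω, f y = g y) {x : EuclideanSpace ℝ (Fin n)} (hx : x ∈ Ω) (i : Fin n) :
    pderiv i f x = pderiv i g x :=
  pderiv_congr (Filter.eventually_of_mem (hΩ.mem_nhds hx) h) i

/-- symmetry of third derivatives: first two indices -/
lemma third_symm (hΩ : IsOpen Ω) (hf : ContDiffOn ℝ ∞ f Ω) {x : EuclideanSpace ℝ (Fin n)}
    (hx : x ∈ Ω) (k i j : Fin n) :
    pderiv k (fun y => hessianMat f y i j) x = pderiv i (fun y => hessianMat f y k j) x :=
  hess_symm_of_isOpen hΩ (contDiffOn_pderiv_infty hΩ hf j) hx k i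

/-- symmetry of third derivatives: last two indices -/
lemma third_symm' (hΩ : IsOpen Ω) (hf : ContDiffOn ℝ ∞ f Ω) {x : EuclideanSpace ℝ (Fin n)}
    (hx : x ∈ Ω) (k i j : Fin n) :
    pderiv k (fun y => hessianMat f y i j) x = pderiv k (fun y => hessianMat f y j i) x :=
  pderiv_congr_of_isOpen hΩ (fun _ hy => hess_symm_of_isOpen hΩ hf hy i j) hx k

/-! ### pointwise rules for `pderiv` -/

lemma pderiv_add {f g : EuclideanSpace ℝ (Fin n) → ℝ} {x : EuclideanSpace ℝ (Fin n)}
    (hf : DifferentiableAt ℝ f x) (hg : DifferentiableAt ℝ g x) (i : Fin n) :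
    pderiv i (fun y => f y + g y) x = pderiv i f x + pderiv i g x := by
  unfold pderiv; rw [fderiv_fun_add hf hg]; rfl

lemma pderiv_sub {f g : EuclideanSpace ℝ (Fin n) → ℝ} {x : EuclideanSpace ℝ (Fin n)}
    (hf : DifferentiableAt ℝ f x) (hg : DifferentiableAt ℝ g x) (i : Fin n) :
    pderiv i (fun y => f y - g y) x = pderiv i f x - pderiv i g x := by
  unfold pderiv; rw [fderiv_fun_sub hf hg]; rfl

lemma pderiv_mul {f g : EuclideanSpace ℝ (Fin n) → ℝ} {x : EuclideanSpace ℝ (Fin n)}
    (hf : DifferentiableAt ℝ f x) (hg : DifferentiableAt ℝ g x) (i : Fin n) :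
    pderiv i (fun y => f y * g y) x = f x * pderiv i g x + g x * pderiv i f x := by
  unfold pderiv; rw [fderiv_fun_mul hf hg]; rfl

lemma pderiv_const (c : ℝ) (x : EuclideanSpace ℝ (Fin n)) (i : Fin n) :
    pderiv i (fun _ => c) x = 0 := by
  unfold pderiv; simp

lemma pderiv_const_mul {f : EuclideanSpace ℝ (Fin n) → ℝ} {x : EuclideanSpace ℝ (Fin n)}
    (c : ℝ) (i : Fin n) :
    pderiv i (fun y => c * f y) x = c * pderiv i f x := by
  unfold pderiv
  rcases eq_or_ne c 0 with rfl | hc
  · simp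
  · rw [show (fun y => c * f y) = (c • f) from rfl, fderiv_const_smul_field]; rfl

lemma pderiv_sum {ι : Type*} {s : Finset ι} {F : ι → EuclideanSpace ℝ (Fin n) → ℝ}
    {x : EuclideanSpace ℝ (Fin n)} (hF : ∀ a ∈ s, DifferentiableAt ℝ (F a) x) (i : Fin n) :
    pderiv i (fun y => ∑ a ∈ s, F a y) x = ∑ a ∈ s, pderiv i (F a) x := by
  unfold pderiv; rw [fderiv_fun_sum hF, _root_.sum_apply]

/-- chain rule with a function of one real variable -/
lemma pderiv_comp {φ : ℝ → ℝ} {φ' : ℝ} {f : EuclideanSpace ℝ (Fin n) → ℝ}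
    {x : EuclideanSpace ℝ (Fin n)} (hφ : HasDerivAt φ φ' (f x)) (hf : DifferentiableAt ℝ f x)
    (i : Fin n) : pderiv i (fun y => φ (f y)) x = φ' * pderiv i f x := by
  unfold pderiv
  have := hφ.comp_hasFDerivAt x hf.hasFDerivAt
  have h2 : fderiv ℝ (fun y => φ (f y)) x = φ' • fderiv ℝ f x := this.fderiv
  rw [h2]; rfl

lemma pderiv_coord (i j : Fin n) (x : EuclideanSpace ℝ (Fin n)) :
    pderiv i (fun y => y j) x = if i = j then 1 else 0 := by
  unfold pderiv
  have h : fderiv ℝ (fun y : EuclideanSpace ℝ (Fin n) => y j) x = EuclideanSpace.proj j := by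
    exact (EuclideanSpace.proj (𝕜 := ℝ) j).hasFDerivAt.fderiv
  rw [h]
  simp [eq_comm]

end smooth

section cofac

variable {n : ℕ} {Ω : Set (EuclideanSpace ℝ (Fin n))} {u f : EuclideanSpace ℝ (Fin n) → ℝ}

/-- the cofactor field of the Hessian, `det H • H⁻¹` -/
def cof (u : EuclideanSpace ℝ (Fin n) → ℝ) (x : EuclideanSpace ℝ (Fin n)) :
    Matrix (Fin n) (Fin n) ℝ := (hessianMat u x).adjugate

namespace SC

lemma det_pos (h : SC Ω u) {x : EuclideanSpace ℝ (Fin n)} (hx : x ∈ Ω) :
    0 < (hessianMat u x).det := (h.posDef x hx).det_pos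

lemma contDiffOn_entry (h : SC Ω u) (i j : Fin n) :
    ContDiffOn ℝ ∞ (fun x => hessianMat u x i j) Ω := contDiffOn_hess_infty h.isOpen h.smooth i j

lemma hess_symm (h : SC Ω u) {x : EuclideanSpace ℝ (Fin n)} (hx : x ∈ Ω) (i j : Fin n) :
    hessianMat u x i j = hessianMat u x j i := hess_symm_of_isOpen h.isOpen h.smooth hx i j

end SC

lemma contDiffOn_det_of {A : EuclideanSpace ℝ (Fin n) → Matrix (Fin n) (Fin n) ℝ}
    {m : WithTop ℕ∞} (hA : ∀ i j, ContDiffOn ℝ m (fun x => A x i j) Ω) :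
    ContDiffOn ℝ m (fun x => (A x).det) Ω := by
  simp_rw [Matrix.det_apply']
  refine ContDiffOn.sum fun σ _ => contDiffOn_const.mul ?_
  exact contDiffOn_prod fun i _ => hA _ _

lemma contDiffOn_adjugate_of {A : EuclideanSpace ℝ (Fin n) → Matrix (Fin n) (Fin n) ℝ}
    {m : WithTop ℕ∞} (hA : ∀ i j, ContDiffOn ℝ m (fun x => A x i j) Ω) (i j : Fin n) :
    ContDiffOn ℝ m (fun x => (A x).adjugate i j) Ω := by
  simp_rw [Matrix.adjugate_apply]
  refine contDiffOn_det_of fun a b => ?_
  by_cases haj : a = j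
  · subst haj
    simp only [Matrix.updateRow_self]
    exact contDiffOn_const
  · simp only [Matrix.updateRow_ne haj]
    exact hA a b

namespace SC

lemma contDiffOn_det (h : SC Ω u) : ContDiffOn ℝ ∞ (fun x => (hessianMat u x).det) Ω :=
  contDiffOn_det_of h.contDiffOn_entry

lemma contDiffOn_cof (h : SC Ω u) (i j : Fin n) : ContDiffOn ℝ ∞ (fun x => cof u x i j) Ω :=
  contDiffOn_adjugate_of h.contDiffOn_entry i j

lemma differentiableAt_of {g : EuclideanSpace ℝ (Fin n) → ℝ} (h : SC Ω u)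
    (hg : ContDiffOn ℝ ∞ g Ω) {x : EuclideanSpace ℝ (Fin n)} (hx : x ∈ Ω) :
    DifferentiableAt ℝ g x :=
  (hg.contDiffAt (h.isOpen.mem_nhds hx)).differentiableAt (by simp)

lemma cof_eq (h : SC Ω u) {x : EuclideanSpace ℝ (Fin n)} (hx : x ∈ Ω) (i j : Fin n) :
    cof u x i j = (hessianMat u x).det * (hessianMat u x)⁻¹ i j := by
  have hd := (h.det_pos hx).ne'
  rw [cof, Matrix.inv_def, Matrix.smul_apply, smul_eq_mul, Ring.inverse_eq_inv', ← mul_assoc,
    mul_inv_cancel₀ hd, one_mul]

lemma transpose_hess (h : SC Ω u) {x : EuclideanSpace ℝ (Fin n)} (hx : x ∈ Ω) :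
    (hessianMat u x).transpose = hessianMat u x := by
  ext i j
  rw [Matrix.transpose_apply, h.hess_symm hx]

lemma cof_symm (h : SC Ω u) {x : EuclideanSpace ℝ (Fin n)} (hx : x ∈ Ω) (i j : Fin n) :
    cof u x i j = cof u x j i := by
  have h1 : (cof u x).transpose = cof u x := by
    rw [cof, Matrix.adjugate_transpose, h.transpose_hess hx]
  exact (congrFun (congrFun h1 j) i).symm ▸ rfl

lemma hess_mul_cof (u : EuclideanSpace ℝ (Fin n) → ℝ) (x : EuclideanSpace ℝ (Fin n)) (i k : Fin n) :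
    ∑ j, hessianMat u x i j * cof u x j k = if i = k then (hessianMat u x).det else 0 := by
  have h1 := congrFun (congrFun (Matrix.mul_adjugate (hessianMat u x)) i) k
  rw [Matrix.mul_apply] at h1
  rw [cof, h1]
  simp [Matrix.one_apply]

lemma cof_mul_hess (u : EuclideanSpace ℝ (Fin n) → ℝ) (x : EuclideanSpace ℝ (Fin n)) (i k : Fin n) :
    ∑ j, cof u x i j * hessianMat u x j k = if i = k then (hessianMat u x).det else 0 := by
  have h1 := congrFun (congrFun (Matrix.adjugate_mul (hessianMat u x)) i) k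
  rw [Matrix.mul_apply] at h1
  rw [cof, h1]
  simp [Matrix.one_apply]

lemma cof_posDef (h : SC Ω u) {x : EuclideanSpace ℝ (Fin n)} (hx : x ∈ Ω) : (cof u x).PosDef := by
  have h1 : cof u x = (hessianMat u x).det • (hessianMat u x)⁻¹ := by
    ext i j
    rw [h.cof_eq hx, Matrix.smul_apply, smul_eq_mul]
  rw [h1]
  exact (h.posDef x hx).inv.smul (h.det_pos hx)

/-- Jacobi's formula for the Hessian determinant -/
lemma pderiv_det (h : SC Ω u) {x : EuclideanSpace ℝ (Fin n)} (hx : x ∈ Ω) (k : Fin n) :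
    pderiv k (fun y => (hessianMat u y).det) x =
      ∑ i, ∑ j, cof u x i j * pderiv k (fun y => hessianMat u y i j) x := by
  have h1 := hasFDerivAt_det (A := hessianMat u) (x := x)
    (fun i j => (h.differentiableAt_of (h.contDiffOn_entry i j) hx).hasFDerivAt)
  rw [pderiv, h1.fderiv]
  simp only [_root_.sum_apply, smul_apply, smul_eq_mul]
  refine Finset.sum_congr rfl fun i _ => Finset.sum_congr rfl fun j _ => ?_
  rw [← pderiv, third_symm' h.isOpen h.smooth hx k j i]
  rfl

/-- the cofactor field is divergence free -/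
theorem div_cof (h : SC Ω u) {x : EuclideanSpace ℝ (Fin n)} (hx : x ∈ Ω) (j : Fin n) :
    ∑ i, pderiv i (fun y => cof u y i j) x = 0 := by
  -- notation
  set H := hessianMat u x with hH
  set C := cof u x with hC
  set D := H.det with hD
  have hDpos : 0 < D := h.det_pos hx
  set T : Fin n → Fin n → Fin n → ℝ := fun k a b => pderiv k (fun y => hessianMat u y a b) x with hT
  have hT1 : ∀ k a b, T k a b = T a k b := fun k a b => third_symm h.isOpen h.smooth hx k a b
  have hT2 : ∀ k a b, T k a b = T k b a := fun k a b => third_symm' h.isOpen h.smooth hx k a b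
  set E : Fin n → Fin n → Fin n → ℝ := fun k a b => pderiv k (fun y => cof u y a b) x with hE
  -- differentiate  ∑_b H a b * C b c = δ_{ac} D
  have hrel : ∀ k a c, ∑ b, (H a b * E k b c + C b c * T k a b) =
      if a = c then pderiv k (fun y => (hessianMat u y).det) x else 0 := by
    intro k a c
    have h1 : pderiv k (fun y => ∑ b, hessianMat u y a b * cof u y b c) x =
        ∑ b, (H a b * E k b c + C b c * T k a b) := by
      rw [pderiv_sum]
      · refine Finset.sum_congr rfl fun b _ => ?_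
        rw [pderiv_mul (h.differentiableAt_of (h.contDiffOn_entry a b) hx)
          (h.differentiableAt_of (h.contDiffOn_cof b c) hx)]
      · intro b _
        exact (h.differentiableAt_of (h.contDiffOn_entry a b) hx).mul
          (h.differentiableAt_of (h.contDiffOn_cof b c) hx)
    rw [← h1]
    simp_rw [hess_mul_cof]
    split_ifs with hac
    · rfl
    · exact pderiv_const 0 x k
  -- contract with C_{i a}, k = i
  have key : ∀ c, D * ∑ i, E i i c = ∑ i, ∑ a, C i a *
      ((if a = c then pderiv i (fun y => (hessianMat u y).det) x else 0) - ∑ b, C b c * T i a b) := by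
    intro c
    have h2 : ∀ i, ∑ a, C i a * ((if a = c then pderiv i (fun y => (hessianMat u y).det) x else 0)
        - ∑ b, C b c * T i a b) = D * E i i c := by
      intro i
      have h3 : ∀ a, ((if a = c then pderiv i (fun y => (hessianMat u y).det) x else 0)
        - ∑ b, C b c * T i a b) = ∑ b, H a b * E i b c := by
        intro a
        rw [← hrel i a c, Finset.sum_add_distrib]
        ring
      simp_rw [h3, Finset.mul_sum]
      rw [Finset.sum_comm]
      have h4 : ∀ b, ∑ a, C i a * (H a b * E i b c) = (if i = b then D else 0) * E i b c := by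
        intro b
        rw [← cof_mul_hess u x i b, Finset.sum_mul]
        refine Finset.sum_congr rfl fun a _ => ?_
        ring
      simp_rw [h4]
      simp
    simp_rw [h2]
    rw [Finset.mul_sum]
  have hz : D * ∑ i, E i i j = 0 := by
    rw [key j]
    simp_rw [mul_sub, Finset.sum_sub_distrib]
    have e1 : ∑ i, ∑ a, C i a * (if a = j then pderiv i (fun y => (hessianMat u y).det) x else 0)
        = ∑ i, C i j * ∑ a, ∑ b, C a b * T i a b := by
      refine Finset.sum_congr rfl fun i _ => ?_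
      simp only [mul_ite, mul_zero, Finset.sum_ite_eq', Finset.mem_univ, if_true]
      rw [h.pderiv_det hx]
    have e2 : ∑ i, ∑ a, C i a * ∑ b, C b j * T i a b = ∑ i, C i j * ∑ a, ∑ b, C a b * T i a b := by
      -- rename: LHS = ∑_{i,a,b} C i a C b j T i a b ; by symmetry T i a b = T b i a
      have e3 : ∑ i, ∑ a, C i a * ∑ b, C b j * T i a b = ∑ i, ∑ a, ∑ b, C b j * (C i a * T b i a) := by
        refine Finset.sum_congr rfl fun i _ => Finset.sum_congr rfl fun a _ => ?_
        rw [Finset.mul_sum]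
        refine Finset.sum_congr rfl fun b _ => ?_
        rw [hT1 b i a, hT2 i b a]
        ring
      have e4 : ∑ i, C i j * ∑ a, ∑ b, C a b * T i a b = ∑ b, ∑ i, ∑ a, C b j * (C i a * T b i a) := by
        refine Finset.sum_congr rfl fun b _ => ?_
        rw [Finset.mul_sum]
        refine Finset.sum_congr rfl fun i _ => ?_
        rw [Finset.mul_sum]
      rw [e3, e4]
      calc ∑ i, ∑ a, ∑ b, C b j * (C i a * T b i a)
          = ∑ i, ∑ b, ∑ a, C b j * (C i a * T b i a) := by
            refine Finset.sum_congr rfl fun i _ => Finset.sum_comm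
        _ = ∑ b, ∑ i, ∑ a, C b j * (C i a * T b i a) := Finset.sum_comm
    rw [e1, e2, sub_self]
  exact (mul_eq_zero.mp hz).resolve_left hDpos.ne'


lemma affineMaximalOp_eq (h : SC Ω u) {x : EuclideanSpace ℝ (Fin n)} (hx : x ∈ Ω) :
    affineMaximalOp n u x = ∑ i, ∑ j, cof u x i j * hessianMat (detPower n u) x i j := by
  unfold affineMaximalOp
  refine Finset.sum_congr rfl fun i _ => Finset.sum_congr rfl fun j _ => ?_
  rw [h.cof_eq hx]

lemma contDiffOn_rpow_det (h : SC Ω u) (a : ℝ) :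
    ContDiffOn ℝ ∞ (fun x => (hessianMat u x).det ^ a) Ω :=
  h.contDiffOn_det.rpow_const_of_ne fun _ hx => (h.det_pos hx).ne'

lemma contDiffOn_detPower (h : SC Ω u) : ContDiffOn ℝ ∞ (detPower n u) Ω :=
  h.contDiffOn_rpow_det _

/-- product rule: `div (a U ∇f) = a U^{ij} f_ij + U^{ij} a_i f_j` -/
theorem div_cof_grad (h : SC Ω u) {x : EuclideanSpace ℝ (Fin n)} (hx : x ∈ Ω)
    {a f : EuclideanSpace ℝ (Fin n) → ℝ} (ha : DifferentiableAt ℝ a x) (hf : ContDiffAt ℝ 2 f x) :
    ∑ i, pderiv i (fun y => a y * ∑ j, cof u y i j * pderiv j f y) x =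
      a x * (∑ i, ∑ j, cof u x i j * hessianMat f x i j) +
        ∑ i, ∑ j, cof u x i j * pderiv i a x * pderiv j f x := by
  have hd : ∀ j, DifferentiableAt ℝ (pderiv j f) x := by
    intro j
    have h1 : DifferentiableAt ℝ (fderiv ℝ f) x :=
      (hf.fderiv_right (m := 1) (by norm_num)).differentiableAt (by simp)
    exact h1.clm_apply (differentiableAt_const _)
  have hc : ∀ i j, DifferentiableAt ℝ (fun y => cof u y i j) x :=
    fun i j => h.differentiableAt_of (h.contDiffOn_cof i j) hx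
  have h1 : ∀ i, pderiv i (fun y => a y * ∑ j, cof u y i j * pderiv j f y) x =
      a x * ∑ j, (cof u x i j * hessianMat f x i j + pderiv j f x * pderiv i (fun y => cof u y i j) x)
      + (∑ j, cof u x i j * pderiv j f x) * pderiv i a x := by
    intro i
    have hm : ∀ j ∈ (Finset.univ : Finset (Fin n)),
        DifferentiableAt ℝ (fun y => cof u y i j * pderiv j f y) x := fun j _ => (hc i j).mul (hd j)
    rw [pderiv_mul ha (DifferentiableAt.fun_sum hm), pderiv_sum hm]
    congr 2
    refine Finset.sum_congr rfl fun j _ => ?_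
    rw [pderiv_mul (hc i j) (hd j)]
    rfl
  simp_rw [h1, Finset.sum_add_distrib, mul_add, Finset.sum_add_distrib]
  have h2 : ∑ i, a x * ∑ j, pderiv j f x * pderiv i (fun y => cof u y i j) x = 0 := by
    rw [← Finset.mul_sum, Finset.sum_comm]
    have : ∀ j, ∑ i, pderiv j f x * pderiv i (fun y => cof u y i j) x = 0 := by
      intro j
      rw [← Finset.mul_sum, h.div_cof hx, mul_zero]
    simp [this]
  rw [h2, add_zero, ← Finset.mul_sum]
  congr 1
  refine Finset.sum_congr rfl fun i _ => ?_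
  rw [Finset.sum_mul]
  refine Finset.sum_congr rfl fun j _ => ?_
  ring

end SC

end cofac

end Crest.Agent.R236
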