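import Mathlib
import Crest.Prelude.Def_AffineMaximal
import Crest.Agent.R236.P1
import Crest.Agent.R236.CalcA

/-! Row 236, C1 of 13059: Blaschke identities I1, I2, I3 (helper242). -/

set_option autoImplicit false
open scoped ContDiff Topology
open Crest.GeometryTopology.CoordMetric Crest.GeometryTopology.AffineMaximal
open Set Filter

noncomputable section

namespace Crest.Agent.R236.Bla

variable {n : ℕ} {Ω : Set (EuclideanSpace ℝ (Fin n))} {u : EuclideanSpace ℝ (Fin n) → ℝ}

/-- `ρ = det(D²u)^{-1/(n+2)}`. -/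
def rho (u : EuclideanSpace ℝ (Fin n) → ℝ) (x : EuclideanSpace ℝ (Fin n)) : ℝ :=
  (hessianMat u x).det ^ (-(1 : ℝ) / ((n : ℝ) + 2))

/-- `AA(f,g) = ρⁿ Σ cof_ij ∂_i f ∂_j g`. -/
def AA (u f g : EuclideanSpace ℝ (Fin n) → ℝ) (x : EuclideanSpace ℝ (Fin n)) : ℝ :=
  rho u x ^ n * ∑ i, ∑ j, cof u x i j * pderiv i f x * pderiv j g x

/-- the vector field `AA grad f` -/
def AAg (u f : EuclideanSpace ℝ (Fin n) → ℝ) (i : Fin n) (x : EuclideanSpace ℝ (Fin n)) : ℝ :=
  rho u x ^ n * ∑ j, cof u x i j * pderiv j f x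

/-- `Lap f = ρ div (AA grad f)`, the Laplacian of the Blaschke metric. -/
def lap (u f : EuclideanSpace ℝ (Fin n) → ℝ) (x : EuclideanSpace ℝ (Fin n)) : ℝ :=
  rho u x * ∑ i, pderiv i (AAg u f i) x

/-- `N_v = ρ (v_z - Du.v_x)`. -/
def Nv (u : EuclideanSpace ℝ (Fin n) → ℝ) (v : EuclideanSpace ℝ (Fin n) × ℝ)
    (x : EuclideanSpace ℝ (Fin n)) : ℝ :=
  rho u x * (v.2 - fderiv ℝ u x v.1)

/-- `V_Q = ρ (Q_z - u - Du.(Q_x - x))`. -/
def VQ (u : EuclideanSpace ℝ (Fin n) → ℝ) (Q : EuclideanSpace ℝ (Fin n) × ℝ)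
    (x : EuclideanSpace ℝ (Fin n)) : ℝ :=
  rho u x * (Q.2 - u x - fderiv ℝ u x (Q.1 - x))

/-- pull-back of the affine function `φ + c` on `E × ℝ` to the graph -/
def aff (u : EuclideanSpace ℝ (Fin n) → ℝ) (φ : (EuclideanSpace ℝ (Fin n) × ℝ) →L[ℝ] ℝ) (c : ℝ)
    (x : EuclideanSpace ℝ (Fin n)) : ℝ := φ (x, u x) + c

lemma rho_pos (h : SC Ω u) {x : EuclideanSpace ℝ (Fin n)} (hx : x ∈ Ω) : 0 < rho u x :=
  Real.rpow_pos_of_pos (h.det_pos hx) _

lemma contDiffOn_rho (h : SC Ω u) : ContDiffOn ℝ ∞ (rho u) Ω := h.contDiffOn_rpow_det _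

lemma rho_pow_det (h : SC Ω u) {x : EuclideanSpace ℝ (Fin n)} (hx : x ∈ Ω) :
    rho u x ^ (n + 2) * (hessianMat u x).det = 1 := by
  have hd := h.det_pos hx
  have hn : ((n : ℝ) + 2) ≠ 0 := by positivity
  unfold rho
  rw [← Real.rpow_natCast, ← Real.rpow_mul hd.le]
  have : (-(1 : ℝ) / ((n : ℝ) + 2)) * ((n + 2 : ℕ) : ℝ) = -1 := by
    push_cast; field_simp
  rw [this, Real.rpow_neg_one]
  exact inv_mul_cancel₀ hd.ne'

lemma detPower_eq (h : SC Ω u) {x : EuclideanSpace ℝ (Fin n)} (hx : x ∈ Ω) :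
    detPower n u x = rho u x ^ (n + 1) := by
  have hd := h.det_pos hx
  unfold rho detPower
  rw [← Real.rpow_natCast, ← Real.rpow_mul hd.le]
  congr 1
  push_cast
  ring

/-- `(n+2) D ρ_k = - ρ D_k` -/
lemma pd_rho (h : SC Ω u) {x : EuclideanSpace ℝ (Fin n)} (hx : x ∈ Ω) (k : Fin n) :
    ((n : ℝ) + 2) * (hessianMat u x).det * pderiv k (rho u) x =
      - (rho u x * pderiv k (fun y => (hessianMat u y).det) x) := by
  have hd := h.det_pos hx
  have hD : DifferentiableAt ℝ (fun y => (hessianMat u y).det) x :=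
    h.differentiableAt_of h.contDiffOn_det hx
  have hn : ((n : ℝ) + 2) ≠ 0 := by positivity
  have h1 : pderiv k (rho u) x = (-(1 : ℝ) / ((n : ℝ) + 2) *
      (hessianMat u x).det ^ (-(1 : ℝ) / ((n : ℝ) + 2) - 1)) *
        pderiv k (fun y => (hessianMat u y).det) x :=
    pderiv_comp (φ := fun t => t ^ (-(1 : ℝ) / ((n : ℝ) + 2)))
      (Real.hasDerivAt_rpow_const (Or.inl hd.ne')) hD k
  rw [h1, Real.rpow_sub_one hd.ne']
  unfold rho
  field_simp


/-- non-divergence form of the Laplacian -/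
theorem lap_eq (h : SC Ω u) {x : EuclideanSpace ℝ (Fin n)} (hx : x ∈ Ω)
    {f : EuclideanSpace ℝ (Fin n) → ℝ} (hf : ContDiffAt ℝ 2 f x) :
    lap u f x = rho u x * (rho u x ^ n * (∑ i, ∑ j, cof u x i j * hessianMat f x i j) +
      (n : ℝ) * rho u x ^ (n - 1) *
        ∑ i, ∑ j, cof u x i j * pderiv i (rho u) x * pderiv j f x) := by
  have hr : DifferentiableAt ℝ (rho u) x := h.differentiableAt_of (contDiffOn_rho h) hx
  have hrn : DifferentiableAt ℝ (fun y => rho u y ^ n) x := hr.pow n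
  unfold lap AAg
  rw [h.div_cof_grad hx hrn hf]
  have h2 : ∀ i, pderiv i (fun y => rho u y ^ n) x =
      ((n : ℝ) * rho u x ^ (n - 1)) * pderiv i (rho u) x := by
    intro i
    exact pderiv_comp (φ := fun t => t ^ n) (hasDerivAt_pow n _) hr i
  congr 2
  rw [Finset.mul_sum]
  refine Finset.sum_congr rfl fun i _ => ?_
  rw [Finset.mul_sum]
  refine Finset.sum_congr rfl fun j _ => ?_
  rw [h2 i]
  ring

lemma hess_mul_self (h : SC Ω u) {x : EuclideanSpace ℝ (Fin n)} (hx : x ∈ Ω)
    {f g : EuclideanSpace ℝ (Fin n) → ℝ} (hf : ContDiffOn ℝ ∞ f Ω) (hg : ContDiffOn ℝ ∞ g Ω)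
    (i j : Fin n) :
    hessianMat (fun y => f y * g y) x i j = f x * hessianMat g x i j + g x * hessianMat f x i j
      + pderiv i f x * pderiv j g x + pderiv j f x * pderiv i g x := by
  have hfd : ∀ y ∈ Ω, DifferentiableAt ℝ f y := fun y hy => h.differentiableAt_of hf hy
  have hgd : ∀ y ∈ Ω, DifferentiableAt ℝ g y := fun y hy => h.differentiableAt_of hg hy
  have hfj : DifferentiableAt ℝ (pderiv j f) x :=
    h.differentiableAt_of (contDiffOn_pderiv_infty h.isOpen hf j) hx
  have hgj : DifferentiableAt ℝ (pderiv j g) x :=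
    h.differentiableAt_of (contDiffOn_pderiv_infty h.isOpen hg j) hx
  have e1 : pderiv i (fun y => pderiv j (fun z => f z * g z) y) x =
      pderiv i (fun y => f y * pderiv j g y + g y * pderiv j f y) x :=
    pderiv_congr_of_isOpen h.isOpen (fun y hy => pderiv_mul (hfd y hy) (hgd y hy) j) hx i
  have m1 : DifferentiableAt ℝ (fun y => f y * pderiv j g y) x := (hfd x hx).mul hgj
  have m2 : DifferentiableAt ℝ (fun y => g y * pderiv j f y) x := (hgd x hx).mul hfj
  unfold hessianMat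
  rw [e1, pderiv_add m1 m2, pderiv_mul (hfd x hx) hgj, pderiv_mul (hgd x hx) hfj]
  ring

/-- the PDE in the form `ρⁿ U^{ij} ρ_ij + n ρ^{n-1} U^{ij} ρ_i ρ_j = 0` -/
theorem pde_rho (h : SC Ω u) {x : EuclideanSpace ℝ (Fin n)} (hx : x ∈ Ω)
    (hm : affineMaximalOp n u x = 0) :
    rho u x ^ n * (∑ i, ∑ j, cof u x i j * hessianMat (rho u) x i j) +
      (n : ℝ) * rho u x ^ (n - 1) *
        ∑ i, ∑ j, cof u x i j * pderiv i (rho u) x * pderiv j (rho u) x = 0 := by
  have hrs := contDiffOn_rho h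
  have hrd : ∀ y ∈ Ω, DifferentiableAt ℝ (rho u) y := fun y hy => h.differentiableAt_of hrs hy
  rw [h.affineMaximalOp_eq hx] at hm
  have hps : ContDiffOn ℝ ∞ (fun y => rho u y ^ n) Ω := hrs.pow n
  have e0 : ∀ i j, hessianMat (detPower n u) x i j =
      pderiv i (fun y => ((n : ℝ) + 1) * (rho u y ^ n * pderiv j (rho u) y)) x := by
    intro i j
    unfold hessianMat
    refine pderiv_congr_of_isOpen h.isOpen (fun y hy => ?_) hx i
    have e1 : pderiv j (detPower n u) y = pderiv j (fun z => rho u z ^ (n + 1)) y :=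
      pderiv_congr_of_isOpen h.isOpen (fun z hz => detPower_eq h hz) hy j
    rw [e1]
    have := pderiv_comp (φ := fun t : ℝ => t ^ (n + 1)) (hasDerivAt_pow (n + 1) (rho u y))
      (hrd y hy) j
    rw [this]
    push_cast
    ring
  have e2 : ∀ i j, hessianMat (detPower n u) x i j = ((n : ℝ) + 1) *
      (rho u x ^ n * hessianMat (rho u) x i j +
        (n : ℝ) * rho u x ^ (n - 1) * (pderiv i (rho u) x * pderiv j (rho u) x)) := by
    intro i j
    rw [e0, pderiv_const_mul, pderiv_mul (h.differentiableAt_of hps hx)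
      (h.differentiableAt_of (contDiffOn_pderiv_infty h.isOpen hrs j) hx)]
    have := pderiv_comp (φ := fun t : ℝ => t ^ n) (hasDerivAt_pow n (rho u x)) (hrd x hx) i
    rw [this]
    unfold hessianMat
    ring
  simp_rw [e2] at hm
  have e3 : ∑ i, ∑ j, cof u x i j * (((n : ℝ) + 1) *
      (rho u x ^ n * hessianMat (rho u) x i j +
        (n : ℝ) * rho u x ^ (n - 1) * (pderiv i (rho u) x * pderiv j (rho u) x))) =
      ((n : ℝ) + 1) * (rho u x ^ n * (∑ i, ∑ j, cof u x i j * hessianMat (rho u) x i j) +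
      (n : ℝ) * rho u x ^ (n - 1) *
        ∑ i, ∑ j, cof u x i j * pderiv i (rho u) x * pderiv j (rho u) x) := by
    simp only [Finset.mul_sum, ← Finset.sum_add_distrib]
    refine Finset.sum_congr rfl fun i _ => Finset.sum_congr rfl fun j _ => ?_
    ring
  rw [e3] at hm
  have hn : ((n : ℝ) + 1) ≠ 0 := by positivity
  exact (mul_eq_zero.mp hm).resolve_left hn

/-! ### the general lemma: `N = ρ s` with `s_j = - Σ_k u_jk w_k`, `∂_i w_k = -ε δ_ik` -/

section general

variable {s : EuclideanSpace ℝ (Fin n) → ℝ} {w : Fin n → EuclideanSpace ℝ (Fin n) → ℝ}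
  {x : EuclideanSpace ℝ (Fin n)}

lemma cof_s (hs : ∀ j, pderiv j s x = - ∑ k, hessianMat u x j k * w k x) (a : Fin n → ℝ) :
    ∑ i, ∑ j, cof u x i j * a i * pderiv j s x =
      - ((hessianMat u x).det * ∑ i, a i * w i x) := by
  have h1 : ∀ i, ∑ j, cof u x i j * a i * pderiv j s x =
      - ∑ k, (∑ j, cof u x i j * hessianMat u x j k) * (a i * w k x) := by
    intro i
    simp_rw [hs]
    rw [← Finset.sum_neg_distrib]
    simp_rw [Finset.sum_mul, mul_neg, Finset.mul_sum, ← Finset.sum_neg_distrib]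
    rw [Finset.sum_comm]
    refine Finset.sum_congr rfl fun k _ => Finset.sum_congr rfl fun j _ => ?_
    ring
  simp_rw [h1, SC.cof_mul_hess]
  simp only [ite_mul, zero_mul, Finset.sum_ite_eq, Finset.mem_univ, if_true]
  rw [Finset.sum_neg_distrib, Finset.mul_sum]

/-- (I0b): `<f, ρ s>` -/
theorem AA_rho_mul (h : SC Ω u) (hx : x ∈ Ω) {f : EuclideanSpace ℝ (Fin n) → ℝ}
    (hsd : DifferentiableAt ℝ s x)
    (hs : ∀ j, pderiv j s x = - ∑ k, hessianMat u x j k * w k x) :
    rho u x * AA u f (fun y => rho u y * s y) x =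
      rho u x ^ (n + 1) * s x *
        (∑ i, ∑ j, cof u x i j * pderiv i f x * pderiv j (rho u) x)
        - ∑ i, pderiv i f x * w i x := by
  have hr : DifferentiableAt ℝ (rho u) x := h.differentiableAt_of (contDiffOn_rho h) hx
  unfold AA
  simp_rw [pderiv_mul hr hsd]
  have e1 : ∑ i, ∑ j, cof u x i j * pderiv i f x *
      (rho u x * pderiv j s x + s x * pderiv j (rho u) x) =
      rho u x * (∑ i, ∑ j, cof u x i j * pderiv i f x * pderiv j s x) +
      s x * ∑ i, ∑ j, cof u x i j * pderiv i f x * pderiv j (rho u) x := by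
    simp only [Finset.mul_sum, ← Finset.sum_add_distrib]
    refine Finset.sum_congr rfl fun i _ => Finset.sum_congr rfl fun j _ => ?_
    ring
  rw [e1, cof_s hs (fun i => pderiv i f x)]
  have e2 := rho_pow_det h hx
  linear_combination (- ∑ i, pderiv i f x * w i x) * e2

/-- (I0a): `Lap (ρ s) = ε n`. -/
theorem lap_rho_mul (h : SC Ω u) (hx : x ∈ Ω) (hm : affineMaximalOp n u x = 0) {ε : ℝ}
    (hss : ContDiffOn ℝ ∞ s Ω) (hws : ∀ k, ContDiffOn ℝ ∞ (w k) Ω)
    (hs : ∀ y ∈ Ω, ∀ j, pderiv j s y = - ∑ k, hessianMat u y j k * w k y)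
    (hw : ∀ i k, pderiv i (w k) x = if i = k then -ε else 0) :
    lap u (fun y => rho u y * s y) x = ε * n := by
  have hrs := contDiffOn_rho h
  have hr : DifferentiableAt ℝ (rho u) x := h.differentiableAt_of hrs hx
  have hsd : DifferentiableAt ℝ s x := h.differentiableAt_of hss hx
  have hN2 : ContDiffAt ℝ 2 (fun y => rho u y * s y) x :=
    ((hrs.mul hss).contDiffAt (h.isOpen.mem_nhds hx)).of_le (by norm_cast)
  rw [lap_eq h hx hN2]
  -- second derivatives of s
  have hsij : ∀ i j, hessianMat s x i j =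
      - (∑ k, pderiv i (fun y => hessianMat u y j k) x * w k x) + ε * hessianMat u x j i := by
    intro i j
    have e1 : pderiv i (fun y => pderiv j s y) x =
        pderiv i (fun y => (-1 : ℝ) * ∑ k, hessianMat u y j k * w k y) x := by
      refine pderiv_congr_of_isOpen h.isOpen (fun y hy => ?_) hx i
      rw [hs y hy j]; ring
    have hd : ∀ k ∈ (Finset.univ : Finset (Fin n)),
        DifferentiableAt ℝ (fun y => hessianMat u y j k * w k y) x := fun k _ =>
      (h.differentiableAt_of (h.contDiffOn_entry j k) hx).mul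
        (h.differentiableAt_of (hws k) hx)
    have e0 : hessianMat s x i j = pderiv i (fun y => pderiv j s y) x := rfl
    have e2 : ∀ k, pderiv i (fun y => hessianMat u y j k * w k y) x =
        hessianMat u x j k * pderiv i (w k) x +
          w k x * pderiv i (fun y => hessianMat u y j k) x := by
      intro k
      exact pderiv_mul (h.differentiableAt_of (h.contDiffOn_entry j k) hx)
        (h.differentiableAt_of (hws k) hx) i
    rw [e0, e1, pderiv_const_mul, pderiv_sum hd]
    simp_rw [e2, hw]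
    simp only [mul_ite, mul_zero, Finset.sum_add_distrib, Finset.sum_ite_eq, Finset.mem_univ,
      if_true]
    have e3 : ∑ k, w k x * pderiv i (fun y => hessianMat u y j k) x =
        ∑ k, pderiv i (fun y => hessianMat u y j k) x * w k x := by
      refine Finset.sum_congr rfl fun k _ => ?_
      rw [mul_comm]
    rw [e3]
    ring
  have hUs : ∑ i, ∑ j, cof u x i j * hessianMat s x i j =
      - (∑ k, pderiv k (fun y => (hessianMat u y).det) x * w k x) +
        ε * (n * (hessianMat u x).det) := by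
    simp_rw [hsij, mul_add, Finset.sum_add_distrib]
    congr 1
    · have e1 : ∀ k, pderiv k (fun y => (hessianMat u y).det) x * w k x =
          ∑ i, ∑ j, cof u x i j * (pderiv i (fun y => hessianMat u y j k) x * w k x) := by
        intro k
        rw [h.pderiv_det hx, Finset.sum_mul]
        refine Finset.sum_congr rfl fun i _ => ?_
        rw [Finset.sum_mul]
        refine Finset.sum_congr rfl fun j _ => ?_
        rw [third_symm h.isOpen h.smooth hx k i j, third_symm' h.isOpen h.smooth hx i k j]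
        ring
      simp_rw [e1, mul_neg, Finset.sum_neg_distrib, Finset.mul_sum]
      congr 1
      rw [Finset.sum_comm]
      rw [Finset.sum_comm]
      have e4 : ∀ i, ∑ j, ∑ k, cof u x i j * (pderiv i (fun y => hessianMat u y j k) x * w k x) =
          ∑ k, ∑ j, cof u x i j * (pderiv i (fun y => hessianMat u y j k) x * w k x) :=
        fun i => Finset.sum_comm
      simp_rw [e4]
      exact Finset.sum_comm
    · have e2 : ∀ i, ∑ j, cof u x i j * (ε * hessianMat u x j i) = ε * (hessianMat u x).det := by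
        intro i
        have := SC.cof_mul_hess u x i i
        rw [if_pos rfl] at this
        rw [← this, Finset.mul_sum]
        refine Finset.sum_congr rfl fun j _ => ?_
        ring
      simp_rw [e2]
      simp
      ring
  have hNij : ∀ i j, hessianMat (fun y => rho u y * s y) x i j =
      rho u x * hessianMat s x i j + s x * hessianMat (rho u) x i j
      + pderiv i (rho u) x * pderiv j s x + pderiv j (rho u) x * pderiv i s x :=
    fun i j => hess_mul_self h hx hrs hss i j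
  have hNj : ∀ j, pderiv j (fun y => rho u y * s y) x =
      rho u x * pderiv j s x + s x * pderiv j (rho u) x := fun j => pderiv_mul hr hsd j
  have hP := pde_rho h hx hm
  have hc1 : ∑ i, ∑ j, cof u x i j * pderiv i (rho u) x * pderiv j s x =
      - ((hessianMat u x).det * ∑ i, pderiv i (rho u) x * w i x) :=
    cof_s (hs x hx) (fun i => pderiv i (rho u) x)
  have hc2 : ∑ i, ∑ j, cof u x i j * (pderiv j (rho u) x * pderiv i s x) =
      - ((hessianMat u x).det * ∑ i, pderiv i (rho u) x * w i x) := by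
    rw [← hc1, Finset.sum_comm]
    refine Finset.sum_congr rfl fun i _ => Finset.sum_congr rfl fun j _ => ?_
    rw [h.cof_symm hx j i]; ring
  have hA : ∑ i, ∑ j, cof u x i j * hessianMat (fun y => rho u y * s y) x i j =
      rho u x * (∑ i, ∑ j, cof u x i j * hessianMat s x i j) +
      s x * (∑ i, ∑ j, cof u x i j * hessianMat (rho u) x i j) +
      (∑ i, ∑ j, cof u x i j * pderiv i (rho u) x * pderiv j s x) +
      ∑ i, ∑ j, cof u x i j * (pderiv j (rho u) x * pderiv i s x) := by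
    simp_rw [hNij]
    simp only [Finset.mul_sum, ← Finset.sum_add_distrib]
    refine Finset.sum_congr rfl fun i _ => Finset.sum_congr rfl fun j _ => ?_
    ring
  have hB : ∑ i, ∑ j, cof u x i j * pderiv i (rho u) x * pderiv j (fun y => rho u y * s y) x =
      rho u x * (∑ i, ∑ j, cof u x i j * pderiv i (rho u) x * pderiv j s x) +
      s x * ∑ i, ∑ j, cof u x i j * pderiv i (rho u) x * pderiv j (rho u) x := by
    simp_rw [hNj]
    simp only [Finset.mul_sum, ← Finset.sum_add_distrib]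
    refine Finset.sum_congr rfl fun i _ => Finset.sum_congr rfl fun j _ => ?_
    ring
  have hDk : ∑ k, pderiv k (fun y => (hessianMat u y).det) x * w k x * rho u x =
      - (((n : ℝ) + 2) * (hessianMat u x).det * ∑ i, pderiv i (rho u) x * w i x) := by
    rw [Finset.mul_sum, ← Finset.sum_neg_distrib]
    refine Finset.sum_congr rfl fun k _ => ?_
    have := pd_rho h hx k
    linear_combination (w k x) * this
  rw [← Finset.sum_mul] at hDk
  rw [hA, hB, hUs, hc1, hc2]
  have e2 := rho_pow_det h hx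
  -- rho^(n-1) * rho * n = n * rho^n
  have hpow : (n : ℝ) * rho u x ^ (n - 1) * rho u x = n * rho u x ^ n := by
    rcases Nat.eq_zero_or_pos n with h0 | h0
    · subst h0; simp
    · rw [mul_assoc, ← pow_succ, Nat.sub_add_cancel h0]
  set D := (hessianMat u x).det
  set r := rho u x
  set S := ∑ i, pderiv i (rho u) x * w i x
  set K := ∑ k, pderiv k (fun y => (hessianMat u y).det) x * w k x
  linear_combination (r * s x) * hP - (r ^ (n + 1)) * hDk - r * D * S * hpow + ε * n * e2

end general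


section special

variable {x : EuclideanSpace ℝ (Fin n)}

/-- `s_v = v_z - Du.v_x` -/
def sv (u : EuclideanSpace ℝ (Fin n) → ℝ) (v : EuclideanSpace ℝ (Fin n) × ℝ)
    (x : EuclideanSpace ℝ (Fin n)) : ℝ := v.2 - fderiv ℝ u x v.1

/-- `s_Q = Q_z - u - Du.(Q_x - x)` -/
def sQ (u : EuclideanSpace ℝ (Fin n) → ℝ) (Q : EuclideanSpace ℝ (Fin n) × ℝ)
    (x : EuclideanSpace ℝ (Fin n)) : ℝ := Q.2 - u x - fderiv ℝ u x (Q.1 - x)

lemma Nv_eq (u : EuclideanSpace ℝ (Fin n) → ℝ) (v : EuclideanSpace ℝ (Fin n) × ℝ) :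
    Nv u v = fun x => rho u x * sv u v x := rfl

lemma VQ_eq (u : EuclideanSpace ℝ (Fin n) → ℝ) (Q : EuclideanSpace ℝ (Fin n) × ℝ) :
    VQ u Q = fun x => rho u x * sQ u Q x := rfl





lemma diff_coord (k : Fin n) (x : EuclideanSpace ℝ (Fin n)) :
    DifferentiableAt ℝ (fun y : EuclideanSpace ℝ (Fin n) => y k) x :=
  (EuclideanSpace.proj (𝕜 := ℝ) k).differentiableAt

lemma pd_sub_coord (q : ℝ) (i k : Fin n) (x : EuclideanSpace ℝ (Fin n)) :
    pderiv i (fun y => q - y k) x = if i = k then -1 else 0 := by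
  rw [pderiv_sub (f := fun _ => q) (g := fun y => y k) (differentiableAt_const _)
    (diff_coord k x), pderiv_const, pderiv_coord]
  split_ifs <;> ring

lemma contDiffOn_fderiv (h : SC Ω u) : ContDiffOn ℝ ∞ (fderiv ℝ u) Ω :=
  h.smooth.fderiv_of_isOpen h.isOpen (by simp)

lemma contDiffOn_sv (h : SC Ω u) (v : EuclideanSpace ℝ (Fin n) × ℝ) :
    ContDiffOn ℝ ∞ (sv u v) Ω :=
  contDiffOn_const.sub ((contDiffOn_fderiv h).clm_apply contDiffOn_const)

lemma contDiffOn_sQ (h : SC Ω u) (Q : EuclideanSpace ℝ (Fin n) × ℝ) :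
    ContDiffOn ℝ ∞ (sQ u Q) Ω :=
  (contDiffOn_const.sub h.smooth).sub
    ((contDiffOn_fderiv h).clm_apply (contDiffOn_const.sub contDiffOn_id))


lemma contDiffOn_VQ (h : SC Ω u) (Q : EuclideanSpace ℝ (Fin n) × ℝ) :
    ContDiffOn ℝ ∞ (VQ u Q) Ω := (contDiffOn_rho h).mul (contDiffOn_sQ h Q)

lemma contDiffOn_aff (h : SC Ω u) (φ : (EuclideanSpace ℝ (Fin n) × ℝ) →L[ℝ] ℝ) (c : ℝ) :
    ContDiffOn ℝ ∞ (aff u φ c) Ω :=
  (φ.contDiff.comp_contDiffOn (contDiffOn_id.prodMk h.smooth)).add contDiffOn_const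

lemma pd_sv (h : SC Ω u) (hx : x ∈ Ω) (v : EuclideanSpace ℝ (Fin n) × ℝ) (j : Fin n) :
    pderiv j (sv u v) x = - ∑ k, hessianMat u x j k * v.1 k := by
  have hd : ∀ k ∈ (Finset.univ : Finset (Fin n)),
      DifferentiableAt ℝ (fun y => v.1 k * pderiv k u y) x := fun k _ =>
    (h.differentiableAt_of (contDiffOn_pderiv_infty h.isOpen h.smooth k) hx).const_mul _
  have e1 : sv u v = fun y => v.2 - ∑ k, v.1 k * pderiv k u y := by
    funext y
    unfold sv
    rw [fderiv_eq_sum]
    congr 1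
    exact Finset.sum_congr rfl fun k _ => mul_comm _ _
  rw [e1, pderiv_sub (differentiableAt_const _) (DifferentiableAt.fun_sum hd), pderiv_const,
    pderiv_sum hd, zero_sub]
  congr 1
  refine Finset.sum_congr rfl fun k _ => ?_
  rw [pderiv_const_mul]
  unfold hessianMat
  ring

lemma pd_sQ (h : SC Ω u) (hx : x ∈ Ω) (Q : EuclideanSpace ℝ (Fin n) × ℝ) (j : Fin n) :
    pderiv j (sQ u Q) x = - ∑ k, hessianMat u x j k * (Q.1 k - x k) := by
  have hud : DifferentiableAt ℝ u x := h.differentiableAt_of h.smooth hx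
  have hpk : ∀ k, DifferentiableAt ℝ (pderiv k u) x := fun k =>
    h.differentiableAt_of (contDiffOn_pderiv_infty h.isOpen h.smooth k) hx
  have hck : ∀ k, DifferentiableAt ℝ (fun y : EuclideanSpace ℝ (Fin n) => Q.1 k - y k) x := by
    intro k
    exact (differentiableAt_const _).sub (diff_coord k x)
  have hd : ∀ k ∈ (Finset.univ : Finset (Fin n)),
      DifferentiableAt ℝ (fun y => pderiv k u y * (Q.1 k - y k)) x := fun k _ => (hpk k).mul (hck k)
  have e1 : sQ u Q = fun y => (Q.2 - u y) - ∑ k, pderiv k u y * (Q.1 k - y k) := by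
    funext y
    unfold sQ
    rw [fderiv_eq_sum]
    rfl
  rw [e1, pderiv_sub (f := fun y => Q.2 - u y)
      (g := fun y => ∑ k, pderiv k u y * (Q.1 k - y k))
      ((differentiableAt_const _).sub hud) (DifferentiableAt.fun_sum hd),
    pderiv_sub (f := fun _ => Q.2) (g := u) (differentiableAt_const _) hud, pderiv_const,
    pderiv_sum hd]
  have e2 : ∀ k, pderiv j (fun y => pderiv k u y * (Q.1 k - y k)) x =
      (if j = k then - pderiv k u x else 0) + hessianMat u x j k * (Q.1 k - x k) := by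
    intro k
    rw [pderiv_mul (hpk k) (hck k), pd_sub_coord]
    unfold hessianMat
    split_ifs <;> ring
  simp_rw [e2, Finset.sum_add_distrib]
  simp

/-- **(I1)** `Lap N_v = 0` -/
theorem I1 (h : SC Ω u) (hx : x ∈ Ω) (hm : affineMaximalOp n u x = 0)
    (v : EuclideanSpace ℝ (Fin n) × ℝ) : lap u (Nv u v) x = 0 := by
  have := lap_rho_mul (ε := 0) (s := sv u v) (w := fun k _ => v.1 k) h hx hm (contDiffOn_sv h v)
    (fun k => contDiffOn_const) (fun y hy j => pd_sv h hy v j)
    (fun i k => by rw [pderiv_const]; simp)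
  rw [Nv_eq, this, zero_mul]

/-- **(I3a)** `Lap V_Q = n` -/
theorem I3a (h : SC Ω u) (hx : x ∈ Ω) (hm : affineMaximalOp n u x = 0)
    (Q : EuclideanSpace ℝ (Fin n) × ℝ) : lap u (VQ u Q) x = n := by
  have hck : ∀ k, ContDiff ℝ ∞ (fun y : EuclideanSpace ℝ (Fin n) => Q.1 k - y k) := fun k =>
    contDiff_const.sub (EuclideanSpace.proj (𝕜 := ℝ) k).contDiff
  have := lap_rho_mul (ε := 1) (s := sQ u Q) (w := fun k y => Q.1 k - y k) h hx hm
    (contDiffOn_sQ h Q) (fun k => (hck k).contDiffOn) (fun y hy j => pd_sQ h hy Q j)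
    (fun i k => pd_sub_coord _ i k x)
  rw [VQ_eq, this, one_mul]

/-! ### affine functions -/

lemma aff_split (φ : (EuclideanSpace ℝ (Fin n) × ℝ) →L[ℝ] ℝ) (y : EuclideanSpace ℝ (Fin n)) (t : ℝ) :
    φ (y, t) = (∑ k, φ (EuclideanSpace.single k 1, 0) * y k) + φ (0, 1) * t := by
  have e1 : (y, t) = (∑ k, y k • (EuclideanSpace.single k (1:ℝ), (0:ℝ))) + t • ((0 : EuclideanSpace ℝ (Fin n)), (1:ℝ)) := by
    have e2 : (∑ k, y k • ((EuclideanSpace.single k (1:ℝ) : EuclideanSpace ℝ (Fin n)), (0:ℝ))) = (y, 0) := by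
      have e3 : ∀ k, y k • ((EuclideanSpace.single k (1:ℝ) : EuclideanSpace ℝ (Fin n)), (0:ℝ)) =
          (ContinuousLinearMap.inl ℝ (EuclideanSpace ℝ (Fin n)) ℝ)
            (y k • (EuclideanSpace.single k (1:ℝ))) := by
        intro k
        simp
      simp_rw [e3, ← map_sum, sum_single]
      simp
    rw [e2]
    simp
  conv_lhs => rw [e1]
  rw [map_add, map_sum, map_smul]
  simp only [map_smul, smul_eq_mul]
  congr 1
  · exact Finset.sum_congr rfl fun k _ => mul_comm _ _
  · ring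

lemma pd_aff (h : SC Ω u) (hx : x ∈ Ω) (φ : (EuclideanSpace ℝ (Fin n) × ℝ) →L[ℝ] ℝ) (c : ℝ)
    (j : Fin n) : pderiv j (aff u φ c) x =
      φ (EuclideanSpace.single j 1, 0) + φ (0, 1) * pderiv j u x := by
  have hud : DifferentiableAt ℝ u x := h.differentiableAt_of h.smooth hx
  have hck : ∀ k, DifferentiableAt ℝ (fun y : EuclideanSpace ℝ (Fin n) => y k) x := fun k =>
    diff_coord k x
  have hd : ∀ k ∈ (Finset.univ : Finset (Fin n)), DifferentiableAt ℝ
      (fun y : EuclideanSpace ℝ (Fin n) => φ (EuclideanSpace.single k 1, 0) * y k) x :=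
    fun k _ => (hck k).const_mul _
  have e1 : aff u φ c = fun y => ((∑ k, φ (EuclideanSpace.single k 1, 0) * y k) +
      φ (0, 1) * u y) + c := by
    funext y
    unfold aff
    rw [aff_split]
  rw [e1, pderiv_add (f := fun y => (∑ k, φ (EuclideanSpace.single k 1, 0) * y k) +
      φ (0, 1) * u y) (g := fun _ => c)
      ((DifferentiableAt.fun_sum hd).add (hud.const_mul _)) (differentiableAt_const _),
    pderiv_add (f := fun y => ∑ k, φ (EuclideanSpace.single k 1, 0) * y k)
      (g := fun y => φ (0, 1) * u y) (DifferentiableAt.fun_sum hd) (hud.const_mul _),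
    pderiv_const, pderiv_sum hd, pderiv_const_mul]
  simp_rw [pderiv_const_mul, pderiv_coord]
  simp

lemma hess_aff (h : SC Ω u) (hx : x ∈ Ω) (φ : (EuclideanSpace ℝ (Fin n) × ℝ) →L[ℝ] ℝ) (c : ℝ)
    (i j : Fin n) : hessianMat (aff u φ c) x i j = φ (0, 1) * hessianMat u x i j := by
  have e1 : pderiv i (fun y => pderiv j (aff u φ c) y) x =
      pderiv i (fun y => φ (EuclideanSpace.single j 1, 0) + φ (0, 1) * pderiv j u y) x :=
    pderiv_congr_of_isOpen h.isOpen (fun y hy => pd_aff h hy φ c j) hx i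
  have hpk : DifferentiableAt ℝ (pderiv j u) x :=
    h.differentiableAt_of (contDiffOn_pderiv_infty h.isOpen h.smooth j) hx
  unfold hessianMat
  rw [e1, pderiv_add (differentiableAt_const _) (hpk.const_mul _), pderiv_const, pderiv_const_mul,
    zero_add]

/-- general form of (I2)/(I3): `N lap F = n (ρ <F,N> + s φ_z + Σ F_i w_i)` -/
theorem lap_aff_mul (h : SC Ω u) (hx : x ∈ Ω) {s : EuclideanSpace ℝ (Fin n) → ℝ}
    {w : Fin n → EuclideanSpace ℝ (Fin n) → ℝ} (hsd : DifferentiableAt ℝ s x)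
    (hs : ∀ j, pderiv j s x = - ∑ k, hessianMat u x j k * w k x)
    (φ : (EuclideanSpace ℝ (Fin n) × ℝ) →L[ℝ] ℝ) (c : ℝ) :
    rho u x * s x * lap u (aff u φ c) x =
      n * (rho u x * AA u (aff u φ c) (fun y => rho u y * s y) x + s x * φ (0, 1) +
        ∑ i, pderiv i (aff u φ c) x * w i x) := by
  have hF2 : ContDiffAt ℝ 2 (aff u φ c) x :=
    ((contDiffOn_aff h φ c).contDiffAt (h.isOpen.mem_nhds hx)).of_le (by norm_cast)
  rw [lap_eq h hx hF2, AA_rho_mul h hx hsd hs]
  have e1 : ∑ i, ∑ j, cof u x i j * hessianMat (aff u φ c) x i j =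
      φ (0, 1) * (n * (hessianMat u x).det) := by
    have e2 : ∀ i, ∑ j, cof u x i j * hessianMat (aff u φ c) x i j =
        φ (0, 1) * (hessianMat u x).det := by
      intro i
      have e3 := SC.cof_mul_hess u x i i
      rw [if_pos rfl] at e3
      rw [← e3, Finset.mul_sum]
      refine Finset.sum_congr rfl fun j _ => ?_
      rw [hess_aff h hx, h.hess_symm hx i j]
      ring
    simp_rw [e2]
    simp
    ring
  have e4 : ∑ i, ∑ j, cof u x i j * pderiv i (aff u φ c) x * pderiv j (rho u) x =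
      ∑ i, ∑ j, cof u x i j * pderiv i (rho u) x * pderiv j (aff u φ c) x := by
    rw [Finset.sum_comm]
    refine Finset.sum_congr rfl fun i _ => Finset.sum_congr rfl fun j _ => ?_
    rw [h.cof_symm hx j i]; ring
  rw [e1, e4]
  have e2 := rho_pow_det h hx
  have hpow : (n : ℝ) * rho u x ^ (n - 1) * rho u x = n * rho u x ^ n := by
    rcases Nat.eq_zero_or_pos n with h0 | h0
    · subst h0; simp
    · rw [mul_assoc, ← pow_succ, Nat.sub_add_cancel h0]
  linear_combination (s x * φ (0, 1) * n) * e2 + (rho u x * s x *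
    ∑ i, ∑ j, cof u x i j * pderiv i (rho u) x * pderiv j (aff u φ c) x) * hpow

/-- **(I2)** `N_v Lap F = n (<F,N_v> + φ v)` -/
theorem I2 (h : SC Ω u) (hx : x ∈ Ω) (v : EuclideanSpace ℝ (Fin n) × ℝ)
    (φ : (EuclideanSpace ℝ (Fin n) × ℝ) →L[ℝ] ℝ) (c : ℝ) :
    Nv u v x * lap u (aff u φ c) x =
      n * (rho u x * AA u (aff u φ c) (Nv u v) x + φ v) := by
  have h1 := lap_aff_mul (w := fun k _ => v.1 k) h hx
    (h.differentiableAt_of (contDiffOn_sv h v) hx) (fun j => pd_sv h hx v j) φ c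
  have e1 : φ v = sv u v x * φ (0, 1) + ∑ i, pderiv i (aff u φ c) x * v.1 i := by
    have e2 := aff_split φ v.1 v.2
    simp_rw [pd_aff h hx, add_mul, Finset.sum_add_distrib]
    rw [show φ v = φ (v.1, v.2) from rfl, e2]
    unfold sv
    rw [fderiv_eq_sum]
    have e3 : ∑ i, φ (0, 1) * pderiv i u x * v.1 i = φ (0, 1) * ∑ i, pderiv i u x * v.1 i := by
      rw [Finset.mul_sum]; exact Finset.sum_congr rfl fun i _ => by ring
    rw [e3]
    ring
  rw [e1, ← add_assoc]
  exact h1

/-- **(I3)** `V_Q Lap F = n (<V_Q,F> + (φ Q + c - F))` -/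
theorem I3 (h : SC Ω u) (hx : x ∈ Ω) (Q : EuclideanSpace ℝ (Fin n) × ℝ)
    (φ : (EuclideanSpace ℝ (Fin n) × ℝ) →L[ℝ] ℝ) (c : ℝ) :
    VQ u Q x * lap u (aff u φ c) x =
      n * (rho u x * AA u (aff u φ c) (VQ u Q) x + (φ Q + c - aff u φ c x)) := by
  have h1 := lap_aff_mul (w := fun k y => Q.1 k - y k) h hx
    (h.differentiableAt_of (contDiffOn_sQ h Q) hx) (fun j => pd_sQ h hx Q j) φ c
  have e1 : φ Q + c - aff u φ c x = sQ u Q x * φ (0, 1) +
      ∑ i, pderiv i (aff u φ c) x * (Q.1 i - x i) := by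
    have e0 : φ Q + c - aff u φ c x = φ (Q.1 - x, Q.2 - u x) := by
      unfold aff
      have : φ Q - φ (x, u x) = φ (Q - (x, u x)) := (map_sub φ _ _).symm
      have e5 : (Q.1 - x, Q.2 - u x) = Q - (x, u x) := rfl
      rw [e5, ← this]; ring
    have e2 := aff_split φ (Q.1 - x) (Q.2 - u x)
    simp_rw [pd_aff h hx, add_mul, Finset.sum_add_distrib]
    rw [e0, e2]
    unfold sQ
    rw [fderiv_eq_sum]
    have e3 : ∑ i, φ (0, 1) * pderiv i u x * (Q.1 i - x i) =
        φ (0, 1) * ∑ i, pderiv i u x * (Q.1 - x) i := by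
      rw [Finset.mul_sum]
      refine Finset.sum_congr rfl fun i _ => ?_
      simp only [PiLp.sub_apply]
      ring
    rw [e3]
    simp only [PiLp.sub_apply]
    ring
  rw [e1, ← add_assoc]
  exact h1

end special

end Crest.Agent.R236.Bla
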