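import Mathlib
import Crest.Agent.R236.P1
import Crest.Prelude.Def_AffineMaximal
import Crest.Agent.R236.CalcA
import Crest.Agent.R236.Bla
import Crest.Agent.R236.BApxDefs

-- ▼ part R236/BCor
section

/-! Row 236, B4' (helper418): the box energy bound from the energy inequality, abstract form. -/

set_option autoImplicit false
open MeasureTheory Set

namespace Crest.Agent.R236.BCor

/-- one use of the energy inequality: lower bound of the left side, upper bound of the right side. -/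
theorem one_phi {X : Type*} [MeasurableSpace X] {μ : Measure X} {f V r A : X → ℝ} {n : ℕ}
    {c q B κ : ℝ} {G D : Set X} (hG : MeasurableSet G) (hD : MeasurableSet D) (hκ : 0 < κ)
    (hB : 0 ≤ B) {q' : ℝ} (hq' : 0 ≤ q')
    (hVG : ∀ x ∈ G, 0 < V x) (hr : ∀ x, 0 ≤ r x)
    (hVD : ∀ x ∈ D, 0 < V x)
    (hA : ∀ x, 0 ≤ A x)
    (hGf : ∀ x ∈ G, κ ≤ c - f x)
    (hfD : ∀ x, f x < c → x ∈ D)
    (hfB : ∀ x, f x < c → c - f x ≤ B)
    (hfq : ∀ x, f x < c → q - f x ≤ q')
    (hM : IntegrableOn (fun x => V x ^ (-(n : ℝ) / 2) * r x) D μ)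
    (h1 : Integrable (fun x => V x ^ (1 - (n : ℝ) / 2) * max (c - f x) 0 * A x) μ)
    (h2 : Integrable (fun x => max (c - f x) 0 ^ 3 * V x ^ (-(n : ℝ) / 2) * r x) μ)
    (h3 : Integrable (fun x => V x ^ (-(n : ℝ) / 2) * max (c - f x) 0 ^ 2 * (q - f x) * r x) μ)
    (hG1 : IntegrableOn (fun x => V x ^ (1 - (n : ℝ) / 2) * A x) G μ)
    (hE : 6 * ∫ x, V x ^ (1 - (n : ℝ) / 2) * max (c - f x) 0 * A x ∂μ ≤
      n * (1 + (n : ℝ) / 2) * (∫ x, max (c - f x) 0 ^ 3 * V x ^ (-(n : ℝ) / 2) * r x ∂μ) +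
      3 * n * ∫ x, V x ^ (-(n : ℝ) / 2) * max (c - f x) 0 ^ 2 * (q - f x) * r x ∂μ) :
    6 * κ * ∫ x in G, V x ^ (1 - (n : ℝ) / 2) * A x ∂μ ≤
      (n * (1 + (n : ℝ) / 2) * B ^ 3 + 3 * n * (B ^ 2 * q')) *
        ∫ x in D, V x ^ (-(n : ℝ) / 2) * r x ∂μ := by
  have hnn : ∀ x, 0 ≤ V x ^ (1 - (n : ℝ) / 2) * max (c - f x) 0 * A x := by
    intro x
    by_cases hx : f x < c
    · have hV := hVD x (hfD x hx)
      exact mul_nonneg (mul_nonneg (Real.rpow_nonneg hV.le _) (le_max_right _ _)) (hA x)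
    · rw [max_eq_right (by linarith)]; simp
  have e1 : κ * ∫ x in G, V x ^ (1 - (n : ℝ) / 2) * A x ∂μ ≤
      ∫ x, V x ^ (1 - (n : ℝ) / 2) * max (c - f x) 0 * A x ∂μ := by
    rw [← integral_const_mul]
    calc ∫ x in G, κ * (V x ^ (1 - (n : ℝ) / 2) * A x) ∂μ
        ≤ ∫ x in G, V x ^ (1 - (n : ℝ) / 2) * max (c - f x) 0 * A x ∂μ := by
          refine setIntegral_mono_on (hG1.const_mul κ) h1.integrableOn hG ?_
          intro x hx
          have a1 : κ ≤ max (c - f x) 0 := (hGf x hx).trans (le_max_left _ _)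
          have a2 : 0 ≤ V x ^ (1 - (n : ℝ) / 2) * A x :=
            mul_nonneg (Real.rpow_nonneg (hVG x hx).le _) (hA x)
          nlinarith
      _ ≤ ∫ x, V x ^ (1 - (n : ℝ) / 2) * max (c - f x) 0 * A x ∂μ :=
          setIntegral_le_integral h1 (Filter.Eventually.of_forall hnn)
  have hMi : Integrable (D.indicator (fun x => V x ^ (-(n : ℝ) / 2) * r x)) μ :=
    (integrable_indicator_iff hD).mpr hM
  have e2 : ∫ x, max (c - f x) 0 ^ 3 * V x ^ (-(n : ℝ) / 2) * r x ∂μ ≤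
      B ^ 3 * ∫ x in D, V x ^ (-(n : ℝ) / 2) * r x ∂μ := by
    rw [← integral_const_mul, ← integral_indicator hD]
    refine integral_mono h2 ?_ ?_
    · exact (integrable_indicator_iff hD).mpr (hM.const_mul _)
    · intro x
      by_cases hx : f x < c
      · have hxD := hfD x hx
        have hV := hVD x hxD
        simp only [indicator_of_mem hxD]
        rw [max_eq_left (by linarith), mul_assoc]
        refine mul_le_mul_of_nonneg_right ?_ (mul_nonneg (Real.rpow_nonneg hV.le _) (hr x))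
        exact pow_le_pow_left₀ (by linarith) (hfB x hx) 3
      · simp only
        rw [max_eq_right (by linarith)]
        simp only [ne_eq, OfNat.ofNat_ne_zero, not_false_eq_true, zero_pow, zero_mul]
        by_cases hxD : x ∈ D
        · rw [indicator_of_mem hxD]
          have hV := hVD x hxD
          exact mul_nonneg (pow_nonneg hB 3) (mul_nonneg (Real.rpow_nonneg hV.le _) (hr x))
        · rw [indicator_of_notMem hxD]
  have e3 : ∫ x, V x ^ (-(n : ℝ) / 2) * max (c - f x) 0 ^ 2 * (q - f x) * r x ∂μ ≤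
      B ^ 2 * q' * ∫ x in D, V x ^ (-(n : ℝ) / 2) * r x ∂μ := by
    rw [← integral_const_mul, ← integral_indicator hD]
    refine integral_mono h3 ?_ ?_
    · exact (integrable_indicator_iff hD).mpr (hM.const_mul _)
    · intro x
      by_cases hx : f x < c
      · have hxD := hfD x hx
        have hV := hVD x hxD
        simp only [indicator_of_mem hxD]
        rw [max_eq_left (by linarith)]
        have b1 : (c - f x) ^ 2 * (q - f x) ≤ B ^ 2 * q' := by
          have b2 : (c - f x) ^ 2 ≤ B ^ 2 := pow_le_pow_left₀ (by linarith) (hfB x hx) 2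
          have b3 := hfq x hx
          have b4 : 0 ≤ (c - f x) ^ 2 := sq_nonneg _
          calc (c - f x) ^ 2 * (q - f x) ≤ (c - f x) ^ 2 * q' := mul_le_mul_of_nonneg_left b3 b4
            _ ≤ B ^ 2 * q' := mul_le_mul_of_nonneg_right b2 hq'
        have b5 : 0 ≤ V x ^ (-(n : ℝ) / 2) * r x := mul_nonneg (Real.rpow_nonneg hV.le _) (hr x)
        calc V x ^ (-(n : ℝ) / 2) * (c - f x) ^ 2 * (q - f x) * r x
            = (c - f x) ^ 2 * (q - f x) * (V x ^ (-(n : ℝ) / 2) * r x) := by ring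
          _ ≤ B ^ 2 * q' * (V x ^ (-(n : ℝ) / 2) * r x) := mul_le_mul_of_nonneg_right b1 b5
      · simp only
        rw [max_eq_right (by linarith)]
        simp only [ne_eq, OfNat.ofNat_ne_zero, not_false_eq_true, zero_pow, zero_mul, mul_zero]
        by_cases hxD : x ∈ D
        · rw [indicator_of_mem hxD]
          have hV := hVD x hxD
          exact mul_nonneg (mul_nonneg (pow_nonneg hB 2) hq')
            (mul_nonneg (Real.rpow_nonneg hV.le _) (hr x))
        · rw [indicator_of_notMem hxD]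
  have hn : (0 : ℝ) ≤ n := Nat.cast_nonneg n
  have e4 : n * (1 + (n : ℝ) / 2) * (∫ x, max (c - f x) 0 ^ 3 * V x ^ (-(n : ℝ) / 2) * r x ∂μ)
      ≤ n * (1 + (n : ℝ) / 2) * (B ^ 3 * ∫ x in D, V x ^ (-(n : ℝ) / 2) * r x ∂μ) :=
    mul_le_mul_of_nonneg_left e2 (by positivity)
  have e5 : 3 * n * ∫ x, V x ^ (-(n : ℝ) / 2) * max (c - f x) 0 ^ 2 * (q - f x) * r x ∂μ
      ≤ 3 * n * (B ^ 2 * q' * ∫ x in D, V x ^ (-(n : ℝ) / 2) * r x ∂μ) :=
    mul_le_mul_of_nonneg_left e3 (by positivity)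
  calc 6 * κ * ∫ x in G, V x ^ (1 - (n : ℝ) / 2) * A x ∂μ
      = 6 * (κ * ∫ x in G, V x ^ (1 - (n : ℝ) / 2) * A x ∂μ) := by ring
    _ ≤ 6 * ∫ x, V x ^ (1 - (n : ℝ) / 2) * max (c - f x) 0 * A x ∂μ := by linarith
    _ ≤ _ := hE
    _ ≤ n * (1 + (n : ℝ) / 2) * (B ^ 3 * ∫ x in D, V x ^ (-(n : ℝ) / 2) * r x ∂μ)
        + 3 * n * (B ^ 2 * q' * ∫ x in D, V x ^ (-(n : ℝ) / 2) * r x ∂μ) := add_le_add e4 e5
    _ = _ := by ring

/-- The constant of the box energy bound. -/
noncomputable def Cbox (n : ℕ) (Θ K : ℝ) : ℝ :=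
  (26 / 3) * (n * (1 + (n : ℝ) / 2) * Θ ^ 2 + 3 * n * (Θ * (K + Θ)))

/-- box energy bound, abstract form: `p = P/λ`, `w = W/τ`, `A1 = AA(p+w,p+w)`, `A2 = AA(p+2w,p+2w)`,
`Ap = AA(p,p)`, `Aw = AA(w,w)`. -/
theorem box_abstract {X : Type*} [MeasurableSpace X] {μ : Measure X} {p w V r Ap Aw A1 A2 : X → ℝ}
    {n : ℕ} {Θ K ε q1 q2 : ℝ} (hΘ : 0 < Θ) (hε : 0 ≤ ε) (hεΘ : ε ≤ Θ / 16) (hK : 0 ≤ K)
    (hDm : MeasurableSet {x | p x + w x < Θ}) (hGm : MeasurableSet {x | p x + w x < Θ / 4})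
    (hp : ∀ x, p x + w x < Θ → -ε ≤ p x) (hw : ∀ x, p x + w x < Θ → -ε ≤ w x)
    (hV : ∀ x, p x + w x < Θ → 0 < V x) (hr : ∀ x, 0 ≤ r x)
    (hA1 : ∀ x, 0 ≤ A1 x) (hA2 : ∀ x, 0 ≤ A2 x) (hAle : ∀ x, Ap x + Aw x ≤ 10 * A1 x + 4 * A2 x)
    (hw2 : ∀ x, p x + 2 * w x < 3 * Θ / 4 → p x + w x < Θ)
    (hq1 : q1 ≤ K) (hq2 : q2 ≤ K)
    (hM : IntegrableOn (fun x => V x ^ (-(n : ℝ) / 2) * r x) {x | p x + w x < Θ} μ)
    (h11 : Integrable (fun x => V x ^ (1 - (n : ℝ) / 2) * max (3 * Θ / 4 - (p x + w x)) 0 * A1 x) μ)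
    (h12 : Integrable (fun x => max (3 * Θ / 4 - (p x + w x)) 0 ^ 3 * V x ^ (-(n : ℝ) / 2) * r x) μ)
    (h13 : Integrable (fun x => V x ^ (-(n : ℝ) / 2) * max (3 * Θ / 4 - (p x + w x)) 0 ^ 2 *
      (q1 - (p x + w x)) * r x) μ)
    (hE1 : 6 * ∫ x, V x ^ (1 - (n : ℝ) / 2) * max (3 * Θ / 4 - (p x + w x)) 0 * A1 x ∂μ ≤
      n * (1 + (n : ℝ) / 2) *
        (∫ x, max (3 * Θ / 4 - (p x + w x)) 0 ^ 3 * V x ^ (-(n : ℝ) / 2) * r x ∂μ) +
      3 * n * ∫ x, V x ^ (-(n : ℝ) / 2) * max (3 * Θ / 4 - (p x + w x)) 0 ^ 2 *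
        (q1 - (p x + w x)) * r x ∂μ)
    (h21 : Integrable (fun x => V x ^ (1 - (n : ℝ) / 2) *
      max (3 * Θ / 4 - (p x + 2 * w x)) 0 * A2 x) μ)
    (h22 : Integrable (fun x => max (3 * Θ / 4 - (p x + 2 * w x)) 0 ^ 3 *
      V x ^ (-(n : ℝ) / 2) * r x) μ)
    (h23 : Integrable (fun x => V x ^ (-(n : ℝ) / 2) * max (3 * Θ / 4 - (p x + 2 * w x)) 0 ^ 2 *
      (q2 - (p x + 2 * w x)) * r x) μ)
    (hE2 : 6 * ∫ x, V x ^ (1 - (n : ℝ) / 2) * max (3 * Θ / 4 - (p x + 2 * w x)) 0 * A2 x ∂μ ≤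
      n * (1 + (n : ℝ) / 2) *
        (∫ x, max (3 * Θ / 4 - (p x + 2 * w x)) 0 ^ 3 * V x ^ (-(n : ℝ) / 2) * r x ∂μ) +
      3 * n * ∫ x, V x ^ (-(n : ℝ) / 2) * max (3 * Θ / 4 - (p x + 2 * w x)) 0 ^ 2 *
        (q2 - (p x + 2 * w x)) * r x ∂μ)
    (hG1 : IntegrableOn (fun x => V x ^ (1 - (n : ℝ) / 2) * A1 x) {x | p x + w x < Θ / 4} μ)
    (hG2 : IntegrableOn (fun x => V x ^ (1 - (n : ℝ) / 2) * A2 x) {x | p x + w x < Θ / 4} μ)
    (hG3 : IntegrableOn (fun x => V x ^ (1 - (n : ℝ) / 2) * (Ap x + Aw x))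
      {x | p x + w x < Θ / 4} μ) :
    ∫ x in {x | p x + w x < Θ / 4}, V x ^ (1 - (n : ℝ) / 2) * (Ap x + Aw x) ∂μ ≤
      Cbox n Θ K * ∫ x in {x | p x + w x < Θ}, V x ^ (-(n : ℝ) / 2) * r x ∂μ := by
  have hVG : ∀ x ∈ {x | p x + w x < Θ / 4}, 0 < V x := fun x hx => hV x (by
    have : p x + w x < Θ / 4 := hx
    linarith)
  have hMnn : 0 ≤ ∫ x in {x | p x + w x < Θ}, V x ^ (-(n : ℝ) / 2) * r x ∂μ := by
    refine setIntegral_nonneg hDm ?_
    intro x hx
    exact mul_nonneg (Real.rpow_nonneg (hV x hx).le _) (hr x)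
  have E1 := one_phi (μ := μ) (f := fun x => p x + w x) (V := V) (r := r) (A := A1) (n := n)
    (c := 3 * Θ / 4) (q := q1) (B := Θ) (κ := Θ / 2) (q' := K + Θ) hGm hDm (by linarith) hΘ.le
    (by linarith) hVG hr (fun x hx => hV x hx) hA1
    (fun x hx => by have : p x + w x < Θ / 4 := hx; linarith)
    (fun x hx => by show p x + w x < Θ; linarith)
    (fun x hx => by
      have a := hp x (by linarith); have b := hw x (by linarith); linarith)
    (fun x hx => by
      have a := hp x (by linarith); have b := hw x (by linarith); linarith)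
    hM h11 h12 h13 hG1 hE1
  have E2 := one_phi (μ := μ) (f := fun x => p x + 2 * w x) (V := V) (r := r) (A := A2) (n := n)
    (c := 3 * Θ / 4) (q := q2) (B := Θ) (κ := Θ / 8) (q' := K + Θ) hGm hDm (by linarith) hΘ.le
    (by linarith) hVG hr (fun x hx => hV x hx) hA2
    (fun x hx => by
      have hx' : p x + w x < Θ / 4 := hx
      have a := hp x (by linarith)
      linarith)
    (fun x hx => hw2 x hx)
    (fun x hx => by
      have hx' := hw2 x hx
      have a := hp x hx'; have b := hw x hx'; linarith)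
    (fun x hx => by
      have hx' := hw2 x hx
      have a := hp x hx'; have b := hw x hx'; linarith)
    hM h21 h22 h23 hG2 hE2
  set M := ∫ x in {x | p x + w x < Θ}, V x ^ (-(n : ℝ) / 2) * r x ∂μ with hMdef
  set I1 := ∫ x in {x | p x + w x < Θ / 4}, V x ^ (1 - (n : ℝ) / 2) * A1 x ∂μ
  set I2 := ∫ x in {x | p x + w x < Θ / 4}, V x ^ (1 - (n : ℝ) / 2) * A2 x ∂μ
  have h3 : ∫ x in {x | p x + w x < Θ / 4}, V x ^ (1 - (n : ℝ) / 2) * (Ap x + Aw x) ∂μ
      ≤ 10 * I1 + 4 * I2 := by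
    have : 10 * I1 + 4 * I2 = ∫ x in {x | p x + w x < Θ / 4},
        (10 * (V x ^ (1 - (n : ℝ) / 2) * A1 x) + 4 * (V x ^ (1 - (n : ℝ) / 2) * A2 x)) ∂μ := by
      rw [integral_add (hG1.const_mul 10) (hG2.const_mul 4), integral_const_mul,
        integral_const_mul]
    rw [this]
    refine setIntegral_mono_on hG3 ((hG1.const_mul 10).add (hG2.const_mul 4)) hGm ?_
    intro x hx
    have a1 := hAle x
    have a2 : 0 ≤ V x ^ (1 - (n : ℝ) / 2) := Real.rpow_nonneg (hVG x hx).le _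
    calc V x ^ (1 - (n : ℝ) / 2) * (Ap x + Aw x)
        ≤ V x ^ (1 - (n : ℝ) / 2) * (10 * A1 x + 4 * A2 x) := mul_le_mul_of_nonneg_left a1 a2
      _ = _ := by ring
  have h4 : 10 * I1 + 4 * I2 ≤ Cbox n Θ K * M := by
    have e1 : 10 * I1 ≤ 10 / (3 * Θ) *
        ((n * (1 + (n : ℝ) / 2) * Θ ^ 3 + 3 * n * (Θ ^ 2 * (K + Θ))) * M) := by
      rw [div_mul_eq_mul_div, le_div_iff₀ (by positivity)]
      linarith
    have e2 : 4 * I2 ≤ 16 / (3 * Θ) *
        ((n * (1 + (n : ℝ) / 2) * Θ ^ 3 + 3 * n * (Θ ^ 2 * (K + Θ))) * M) := by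
      rw [div_mul_eq_mul_div, le_div_iff₀ (by positivity)]
      linarith
    have e3 : 10 / (3 * Θ) * ((n * (1 + (n : ℝ) / 2) * Θ ^ 3 + 3 * n * (Θ ^ 2 * (K + Θ))) * M)
        + 16 / (3 * Θ) * ((n * (1 + (n : ℝ) / 2) * Θ ^ 3 + 3 * n * (Θ ^ 2 * (K + Θ))) * M)
        = Cbox n Θ K * M := by
      unfold Cbox
      field_simp
      ring
    linarith
  linarith

end Crest.Agent.R236.BCor
end

-- ▼ part R236/BCor2
section

/-! Row 236, B4' (helper418): the box energy bound for a solution (affine functionals `P`, `W`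
pulled back to the graph), from the one-functional energy inequality. -/

set_option autoImplicit false
open MeasureTheory Set
open Crest.GeometryTopology.CoordMetric Crest.GeometryTopology.AffineMaximal

namespace Crest.Agent.R236.BCor

variable {n : ℕ}

/-- `Σ A i j ∂ᵢf ∂ⱼg` -/
noncomputable def bil (A : EuclideanSpace ℝ (Fin n) → Matrix (Fin n) (Fin n) ℝ)
    (f g : EuclideanSpace ℝ (Fin n) → ℝ) (x : EuclideanSpace ℝ (Fin n)) : ℝ :=
  ∑ i, ∑ j, A x i j * pderiv i f x * pderiv j g x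

/-- quadratic form of a matrix -/
theorem quad_nonneg {A : Matrix (Fin n) (Fin n) ℝ} (hA : A.PosSemidef) (v : Fin n → ℝ) :
    0 ≤ ∑ i, ∑ j, A i j * v i * v j := by
  have h := hA.dotProduct_mulVec_nonneg v
  simp only [star_trivial, dotProduct, Matrix.mulVec] at h
  refine h.trans_eq ?_
  refine Finset.sum_congr rfl fun i _ => ?_
  rw [Finset.mul_sum]
  refine Finset.sum_congr rfl fun j _ => ?_
  ring

theorem quad_ineq {A : Matrix (Fin n) (Fin n) ℝ} (hA : A.PosSemidef) (v w : Fin n → ℝ) :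
    (∑ i, ∑ j, A i j * v i * v j) + (∑ i, ∑ j, A i j * w i * w j) ≤
      10 * (∑ i, ∑ j, A i j * (v i + w i) * (v j + w j)) +
      4 * (∑ i, ∑ j, A i j * (v i + 2 * w i) * (v j + 2 * w j)) := by
  have h1 := quad_nonneg hA (fun i => 2 * v i + 3 * w i)
  have h2 := quad_nonneg hA (fun i => 3 * v i + 4 * w i)
  have key : 10 * (∑ i, ∑ j, A i j * (v i + w i) * (v j + w j)) +
      4 * (∑ i, ∑ j, A i j * (v i + 2 * w i) * (v j + 2 * w j))
      - ((∑ i, ∑ j, A i j * v i * v j) + (∑ i, ∑ j, A i j * w i * w j))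
      = (∑ i, ∑ j, A i j * (2 * v i + 3 * w i) * (2 * v j + 3 * w j)) +
        (∑ i, ∑ j, A i j * (3 * v i + 4 * w i) * (3 * v j + 4 * w j)) := by
    simp only [Finset.mul_sum, ← Finset.sum_add_distrib, ← Finset.sum_sub_distrib]
    refine Finset.sum_congr rfl fun i _ => Finset.sum_congr rfl fun j _ => ?_
    ring
  linarith

theorem pderiv_comb {P W : EuclideanSpace ℝ (Fin n) → ℝ} {x : EuclideanSpace ℝ (Fin n)}
    (hP : DifferentiableAt ℝ P x) (hW : DifferentiableAt ℝ W x) (s t : ℝ) (i : Fin n) :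
    pderiv i (fun y => s * P y + t * W y) x = s * pderiv i P x + t * pderiv i W x := by
  unfold pderiv
  rw [fderiv_fun_add (hP.const_mul s) (hW.const_mul t), fderiv_const_mul hP, fderiv_const_mul hW]
  simp

theorem bil_comb {A : EuclideanSpace ℝ (Fin n) → Matrix (Fin n) (Fin n) ℝ}
    {P W : EuclideanSpace ℝ (Fin n) → ℝ} {x : EuclideanSpace ℝ (Fin n)}
    (hA : (A x).PosSemidef)
    (hP : DifferentiableAt ℝ P x) (hW : DifferentiableAt ℝ W x) (s t : ℝ) :
    s ^ 2 * bil A P P x + t ^ 2 * bil A W W x ≤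
      10 * bil A (fun y => s * P y + t * W y) (fun y => s * P y + t * W y) x +
      4 * bil A (fun y => s * P y + (2 * t) * W y) (fun y => s * P y + (2 * t) * W y) x := by
  have h := quad_ineq hA (fun i => s * pderiv i P x) (fun i => t * pderiv i W x)
  unfold bil
  simp only [pderiv_comb hP hW]
  refine le_trans (le_of_eq ?_) (h.trans (le_of_eq ?_))
  · rw [Finset.mul_sum, Finset.mul_sum, ← Finset.sum_add_distrib, ← Finset.sum_add_distrib]
    refine Finset.sum_congr rfl fun i _ => ?_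
    rw [Finset.mul_sum, Finset.mul_sum, ← Finset.sum_add_distrib, ← Finset.sum_add_distrib]
    refine Finset.sum_congr rfl fun j _ => ?_
    ring
  · simp only [mul_assoc]

theorem bil_nonneg {A : EuclideanSpace ℝ (Fin n) → Matrix (Fin n) (Fin n) ℝ}
    {f : EuclideanSpace ℝ (Fin n) → ℝ} {x : EuclideanSpace ℝ (Fin n)} (hA : (A x).PosSemidef) :
    0 ≤ bil A f f x := quad_nonneg hA _

theorem bil_continuousOn {Ω : Set (EuclideanSpace ℝ (Fin n))} (hΩ : IsOpen Ω)
    {A : EuclideanSpace ℝ (Fin n) → Matrix (Fin n) (Fin n) ℝ}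
    (hAc : ∀ i j, ContinuousOn (fun x => A x i j) Ω)
    {f g : EuclideanSpace ℝ (Fin n) → ℝ} (hf : ContDiffOn ℝ 1 f Ω) (hg : ContDiffOn ℝ 1 g Ω) :
    ContinuousOn (bil A f g) Ω := by
  have h1 : ∀ {f : EuclideanSpace ℝ (Fin n) → ℝ}, ContDiffOn ℝ 1 f Ω → ∀ i,
      ContinuousOn (pderiv i f) Ω := fun hf i =>
    (hf.continuousOn_fderiv_of_isOpen hΩ le_rfl).clm_apply continuousOn_const
  exact continuousOn_finset_sum _ fun i _ => continuousOn_finset_sum _ fun j _ =>
    ((hAc i j).mul (h1 hf i)).mul (h1 hg j)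

/-- The one-functional energy inequality for `f` (with value `q` at the point `Q`) at level `c`. -/
structure EnIneq (Ω : Set (EuclideanSpace ℝ (Fin n)))
    (A : EuclideanSpace ℝ (Fin n) → Matrix (Fin n) (Fin n) ℝ)
    (V r f : EuclideanSpace ℝ (Fin n) → ℝ) (q c : ℝ) : Prop where
  int1 : IntegrableOn (fun x => V x ^ (1 - (n : ℝ) / 2) * max (c - f x) 0 * bil A f f x) Ω
  int2 : IntegrableOn (fun x => max (c - f x) 0 ^ 3 * V x ^ (-(n : ℝ) / 2) * r x) Ω
  int3 : IntegrableOn (fun x => V x ^ (-(n : ℝ) / 2) * max (c - f x) 0 ^ 2 * (q - f x) * r x) Ω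
  ineq : 6 * ∫ x in Ω, V x ^ (1 - (n : ℝ) / 2) * max (c - f x) 0 * bil A f f x ≤
      n * (1 + (n : ℝ) / 2) * (∫ x in Ω, max (c - f x) 0 ^ 3 * V x ^ (-(n : ℝ) / 2) * r x) +
      3 * n * ∫ x in Ω, V x ^ (-(n : ℝ) / 2) * max (c - f x) 0 ^ 2 * (q - f x) * r x

/-- indicator rewriting of an integral over `Ω` -/
theorem restr_int {Ω : Set (EuclideanSpace ℝ (Fin n))} (hΩ : MeasurableSet Ω)
    {F G : EuclideanSpace ℝ (Fin n) → ℝ} (hF : ∀ x ∈ Ω, G x = F x) (hG : ∀ x ∉ Ω, G x = 0)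
    (hi : IntegrableOn F Ω) : Integrable G ∧ ∫ x, G x = ∫ x in Ω, F x := by
  have h1 : G = Ω.indicator F := by
    ext x
    by_cases hx : x ∈ Ω
    · rw [indicator_of_mem hx, hF x hx]
    · rw [indicator_of_notMem hx, hG x hx]
  rw [h1]
  exact ⟨(integrable_indicator_iff hΩ).mpr hi, integral_indicator hΩ⟩

/-- the box energy bound -/
theorem energy_box {Ω : Set (EuclideanSpace ℝ (Fin n))} (hΩ : IsOpen Ω)
    {A : EuclideanSpace ℝ (Fin n) → Matrix (Fin n) (Fin n) ℝ}
    (hA : ∀ x ∈ Ω, (A x).PosSemidef) (hAc : ∀ i j, ContinuousOn (fun x => A x i j) Ω)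
    {P W V r : EuclideanSpace ℝ (Fin n) → ℝ} (hP : ContDiffOn ℝ 1 P Ω) (hW : ContDiffOn ℝ 1 W Ω)
    (hVc : ContinuousOn V Ω) (hrc : ContinuousOn r Ω) (hr : ∀ x ∈ Ω, 0 ≤ r x)
    {lam tau Θ K ε qP qW M0 : ℝ} (hlam : 0 < lam) (htau : 0 < tau) (hΘ : 0 < Θ) (hε : 0 ≤ ε)
    (hεΘ : ε ≤ Θ / 16) (hK : 0 ≤ K)
    (hD : IsCompact (closure {x | x ∈ Ω ∧ P x / lam + W x / tau < Θ}))
    (hDΩ : closure {x | x ∈ Ω ∧ P x / lam + W x / tau < Θ} ⊆ Ω)
    (hVD : ∀ x ∈ Ω, P x / lam + W x / tau < Θ → 0 < V x)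
    (hp : ∀ x ∈ Ω, P x / lam + W x / tau < Θ → -ε ≤ P x / lam)
    (hw : ∀ x ∈ Ω, P x / lam + W x / tau < Θ → -ε ≤ W x / tau)
    (hw2 : ∀ x ∈ Ω, P x / lam + 2 * (W x / tau) ≤ 3 * Θ / 4 → P x / lam + W x / tau < Θ)
    (hq1 : qP / lam + qW / tau ≤ K) (hq2 : qP / lam + 2 * (qW / tau) ≤ K)
    (EN : ∀ s t c : ℝ, IsCompact (closure {x | x ∈ Ω ∧ s * P x + t * W x < c}) →
      closure {x | x ∈ Ω ∧ s * P x + t * W x < c} ⊆ Ω →
      (∀ x ∈ closure {x | x ∈ Ω ∧ s * P x + t * W x < c}, 0 < V x) →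
      EnIneq Ω A V r (fun x => s * P x + t * W x) (s * qP + t * qW) c)
    (hM0 : 0 ≤ M0)
    (hM : ∫⁻ x in {x | x ∈ Ω ∧ P x / lam + W x / tau < Θ},
      ENNReal.ofReal (V x ^ (-(n : ℝ) / 2) * r x) ≤ ENNReal.ofReal M0) :
    ∫⁻ x in {x | x ∈ Ω ∧ P x / lam + W x / tau < Θ / 4},
      ENNReal.ofReal (V x ^ (1 - (n : ℝ) / 2) * (bil A P P x / lam ^ 2 + bil A W W x / tau ^ 2))
      ≤ ENNReal.ofReal (Cbox n Θ K * M0) := by
  classical
  have hPc : ContinuousOn P Ω := hP.continuousOn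
  have hWc : ContinuousOn W Ω := hW.continuousOn
  have hφc : ContinuousOn (fun x => P x / lam + W x / tau) Ω :=
    (hPc.div_const _).add (hWc.div_const _)
  have hφ2c : ContinuousOn (fun x => P x / lam + 2 * (W x / tau)) Ω :=
    (hPc.div_const _).add (continuousOn_const.mul (hWc.div_const _))
  set D : Set (EuclideanSpace ℝ (Fin n)) := {x | x ∈ Ω ∧ P x / lam + W x / tau < Θ} with hDdef
  set G : Set (EuclideanSpace ℝ (Fin n)) := {x | x ∈ Ω ∧ P x / lam + W x / tau < Θ / 4} with hGdef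
  have hDo : IsOpen D := hφc.isOpen_inter_preimage hΩ isOpen_Iio
  have hGo : IsOpen G := hφc.isOpen_inter_preimage hΩ isOpen_Iio
  have hGD : G ⊆ D := fun x hx => ⟨hx.1, by have := hx.2; linarith⟩
  -- closures of sublevels
  have hcl : ∀ (f : EuclideanSpace ℝ (Fin n) → ℝ) (c c' : ℝ), ContinuousOn f Ω → c ≤ c' →
      (∀ x ∈ Ω, f x ≤ c' → P x / lam + W x / tau < Θ) →
      closure {x | x ∈ Ω ∧ f x < c} ⊆ D ∧ IsCompact (closure {x | x ∈ Ω ∧ f x < c}) := by
    intro f c c' hf hcc' hfD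
    have h0 : {x | x ∈ Ω ∧ f x < c} ⊆ D := fun x hx => ⟨hx.1, hfD x hx.1 (by have := hx.2; linarith)⟩
    have h1 : closure {x | x ∈ Ω ∧ f x < c} ⊆ closure D := closure_mono h0
    refine ⟨fun x hx => ?_, hD.of_isClosed_subset isClosed_closure h1⟩
    have hxΩ := hDΩ (h1 hx)
    refine ⟨hxΩ, hfD x hxΩ ?_⟩
    have h2 : f x ∈ closure (Iio c) := by
      have h3 : ContinuousWithinAt f {x | x ∈ Ω ∧ f x < c} x :=
        (hf x hxΩ).mono (fun y hy => hy.1)
      exact h3.mem_closure hx (fun y hy => hy.2)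
    have h4 : f x ≤ c := by
      have := closure_mono (Iio_subset_Iic_self (a := c)) h2
      rwa [closure_Iic] at this
    linarith
  have hsD : ∀ s t c : ℝ, (∀ x ∈ Ω, s * P x + t * W x ≤ c → P x / lam + W x / tau < Θ) →
      EnIneq Ω A V r (fun x => s * P x + t * W x) (s * qP + t * qW) c := by
    intro s t c h
    have h1 := hcl (fun x => s * P x + t * W x) c c
      ((continuousOn_const.mul hPc).add (continuousOn_const.mul hWc)) le_rfl h
    exact EN s t c h1.2 (h1.1.trans fun x hx => hx.1) fun x hx => hVD x (h1.1 hx).1 (h1.1 hx).2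
  have en1 := hsD (1 / lam) (1 / tau) (3 * Θ / 4) (fun x hx h => by
    have : 1 / lam * P x + 1 / tau * W x = P x / lam + W x / tau := by ring
    linarith)
  have en2 := hsD (1 / lam) (2 * (1 / tau)) (3 * Θ / 4) (fun x hx h => by
    have : 1 / lam * P x + 2 * (1 / tau) * W x = P x / lam + 2 * (W x / tau) := by ring
    exact hw2 x hx (by linarith))
  set f1 : EuclideanSpace ℝ (Fin n) → ℝ := fun x => 1 / lam * P x + 1 / tau * W x with hf1
  set f2 : EuclideanSpace ℝ (Fin n) → ℝ := fun x => 1 / lam * P x + 2 * (1 / tau) * W x with hf2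
  set p : EuclideanSpace ℝ (Fin n) → ℝ := fun x => if x ∈ Ω then P x / lam else Θ with hpdef
  set w : EuclideanSpace ℝ (Fin n) → ℝ := fun x => if x ∈ Ω then W x / tau else Θ with hwdef
  have hpin : ∀ x ∈ Ω, p x = P x / lam := fun x hx => if_pos hx
  have hwin : ∀ x ∈ Ω, w x = W x / tau := fun x hx => if_pos hx
  have hpout : ∀ x ∉ Ω, p x = Θ := fun x hx => if_neg hx
  have hwout : ∀ x ∉ Ω, w x = Θ := fun x hx => if_neg hx
  have hDeq : {x | p x + w x < Θ} = D := by
    ext x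
    by_cases hx : x ∈ Ω
    · simp only [mem_setOf_eq, hpin x hx, hwin x hx, hDdef, hx, true_and]
    · simp only [mem_setOf_eq, hpout x hx, hwout x hx, hDdef, hx, false_and, iff_false]
      linarith
  have hGeq : {x | p x + w x < Θ / 4} = G := by
    ext x
    by_cases hx : x ∈ Ω
    · simp only [mem_setOf_eq, hpin x hx, hwin x hx, hGdef, hx, true_and]
    · simp only [mem_setOf_eq, hpout x hx, hwout x hx, hGdef, hx, false_and, iff_false]
      linarith
  have hf1in : ∀ x ∈ Ω, f1 x = p x + w x := fun x hx => by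
    rw [hpin x hx, hwin x hx, hf1]; ring
  have hf2in : ∀ x ∈ Ω, f2 x = p x + 2 * w x := fun x hx => by
    rw [hpin x hx, hwin x hx, hf2]; ring
  -- integrability of the mass
  have hMint : IntegrableOn (fun x => V x ^ (-(n : ℝ) / 2) * r x) D := by
    refine ⟨?_, ?_⟩
    · apply ContinuousOn.aestronglyMeasurable _ hDo.measurableSet
      apply ContinuousOn.mul
      · exact ContinuousOn.rpow_const (hVc.mono fun x hx => hx.1)
          fun x hx => Or.inl (hVD x hx.1 hx.2).ne'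
      · exact hrc.mono fun x hx => hx.1
    · rw [hasFiniteIntegral_iff_ofReal]
      · exact hM.trans_lt ENNReal.ofReal_lt_top
      · filter_upwards [ae_restrict_mem hDo.measurableSet] with x hx
        exact mul_nonneg (Real.rpow_nonneg (hVD x hx.1 hx.2).le _) (hr x hx.1)
  have hMle : ∫ x in D, V x ^ (-(n : ℝ) / 2) * r x ≤ M0 := by
    rw [integral_eq_lintegral_of_nonneg_ae]
    · exact ENNReal.toReal_le_of_le_ofReal hM0 hM
    · filter_upwards [ae_restrict_mem hDo.measurableSet] with x hx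
      exact mul_nonneg (Real.rpow_nonneg (hVD x hx.1 hx.2).le _) (hr x hx.1)
    · exact hMint.1
  -- closure of G
  have hGcl := hcl (fun x => P x / lam + W x / tau) (Θ / 4) (Θ / 4) hφc le_rfl
    (fun x _ h => by linarith)
  have hGint : ∀ F : EuclideanSpace ℝ (Fin n) → ℝ, ContinuousOn F Ω →
      IntegrableOn (fun x => V x ^ (1 - (n : ℝ) / 2) * F x) G := by
    intro F hF
    have h1 : ContinuousOn (fun x => V x ^ (1 - (n : ℝ) / 2) * F x) (closure G) := by
      apply ContinuousOn.mul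
      · exact ContinuousOn.rpow_const (hVc.mono fun x hx => (hGcl.1 hx).1)
          fun x hx => Or.inl (hVD x (hGcl.1 hx).1 (hGcl.1 hx).2).ne'
      · exact hF.mono fun x hx => (hGcl.1 hx).1
    exact (h1.integrableOn_compact hGcl.2).mono_set subset_closure
  have cf : ∀ s t : ℝ, ContDiffOn ℝ 1 (fun x => s * P x + t * W x) Ω := fun s t =>
    (contDiffOn_const.mul hP).add (contDiffOn_const.mul hW)
  have cb : ∀ f : EuclideanSpace ℝ (Fin n) → ℝ, ContDiffOn ℝ 1 f Ω → ContinuousOn (bil A f f) Ω :=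
    fun f hf => bil_continuousOn hΩ hAc hf hf
  have hbox := box_abstract (μ := (volume : Measure (EuclideanSpace ℝ (Fin n)))) (p := p) (w := w)
    (V := V) (r := Ω.indicator r)
    (Ap := Ω.indicator fun x => bil A P P x / lam ^ 2)
    (Aw := Ω.indicator fun x => bil A W W x / tau ^ 2)
    (A1 := Ω.indicator (bil A f1 f1)) (A2 := Ω.indicator (bil A f2 f2))
    (n := n) (Θ := Θ) (K := K) (ε := ε) (q1 := 1 / lam * qP + 1 / tau * qW)
    (q2 := 1 / lam * qP + 2 * (1 / tau) * qW) hΘ hε hεΘ hK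
    (by rw [hDeq]; exact hDo.measurableSet) (by rw [hGeq]; exact hGo.measurableSet)
    (fun x hx => by
      have hx' : x ∈ D := by rw [← hDeq]; exact hx
      rw [hpin x hx'.1]; exact hp x hx'.1 hx'.2)
    (fun x hx => by
      have hx' : x ∈ D := by rw [← hDeq]; exact hx
      rw [hwin x hx'.1]; exact hw x hx'.1 hx'.2)
    (fun x hx => by
      have hx' : x ∈ D := by rw [← hDeq]; exact hx
      exact hVD x hx'.1 hx'.2)
    (fun x => indicator_nonneg hr x)
    (fun x => indicator_nonneg (fun y hy => bil_nonneg (hA y hy)) x)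
    (fun x => indicator_nonneg (fun y hy => bil_nonneg (hA y hy)) x)
    (fun x => by
      by_cases hx : x ∈ Ω
      · simp only [indicator_of_mem hx]
        have h := bil_comb (hA x hx) ((hP.contDiffAt (hΩ.mem_nhds hx)).differentiableAt one_ne_zero)
          ((hW.contDiffAt (hΩ.mem_nhds hx)).differentiableAt one_ne_zero) (1 / lam) (1 / tau)
        refine le_trans (le_of_eq ?_) h
        ring
      · simp only [indicator_of_notMem hx]; norm_num)
    (fun x hx => by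
      by_cases hxΩ : x ∈ Ω
      · rw [hpin x hxΩ, hwin x hxΩ] at hx ⊢
        exact hw2 x hxΩ hx.le
      · rw [hpout x hxΩ, hwout x hxΩ] at hx
        exfalso; linarith)
    (by refine le_trans (le_of_eq ?_) hq1; ring) (by refine le_trans (le_of_eq ?_) hq2; ring)
    (by
      rw [hDeq]
      refine hMint.congr_fun (fun x hx => ?_) hDo.measurableSet
      simp only [indicator_of_mem hx.1])
    (restr_int hΩ.measurableSet (fun x hx => by
        simp only [indicator_of_mem hx, ← hf1in x hx]) (fun x hx => by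
        simp only [indicator_of_notMem hx, mul_zero]) en1.int1).1
    (restr_int hΩ.measurableSet (fun x hx => by
        simp only [indicator_of_mem hx, ← hf1in x hx]) (fun x hx => by
        simp only [indicator_of_notMem hx, mul_zero]) en1.int2).1
    (restr_int hΩ.measurableSet (fun x hx => by
        simp only [indicator_of_mem hx, ← hf1in x hx]) (fun x hx => by
        simp only [indicator_of_notMem hx, mul_zero]) en1.int3).1
    (by
      have a1 := (restr_int (G := fun x => V x ^ (1 - (n : ℝ) / 2) *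
        max (3 * Θ / 4 - (p x + w x)) 0 * Ω.indicator (bil A f1 f1) x) hΩ.measurableSet
        (fun x hx => by
        simp only [indicator_of_mem hx, ← hf1in x hx]) (fun x hx => by
        simp only [indicator_of_notMem hx, mul_zero]) en1.int1).2
      have a2 := (restr_int (G := fun x => max (3 * Θ / 4 - (p x + w x)) 0 ^ 3 *
        V x ^ (-(n : ℝ) / 2) * Ω.indicator r x) hΩ.measurableSet (fun x hx => by
        simp only [indicator_of_mem hx, ← hf1in x hx]) (fun x hx => by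
        simp only [indicator_of_notMem hx, mul_zero]) en1.int2).2
      have a3 := (restr_int (G := fun x => V x ^ (-(n : ℝ) / 2) *
        max (3 * Θ / 4 - (p x + w x)) 0 ^ 2 * (1 / lam * qP + 1 / tau * qW - (p x + w x)) *
        Ω.indicator r x) hΩ.measurableSet (fun x hx => by
        simp only [indicator_of_mem hx, ← hf1in x hx]) (fun x hx => by
        simp only [indicator_of_notMem hx, mul_zero]) en1.int3).2
      rw [a1, a2, a3]
      exact en1.ineq)
    (restr_int hΩ.measurableSet (fun x hx => by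
        simp only [indicator_of_mem hx, ← hf2in x hx]) (fun x hx => by
        simp only [indicator_of_notMem hx, mul_zero]) en2.int1).1
    (restr_int hΩ.measurableSet (fun x hx => by
        simp only [indicator_of_mem hx, ← hf2in x hx]) (fun x hx => by
        simp only [indicator_of_notMem hx, mul_zero]) en2.int2).1
    (restr_int hΩ.measurableSet (fun x hx => by
        simp only [indicator_of_mem hx, ← hf2in x hx]) (fun x hx => by
        simp only [indicator_of_notMem hx, mul_zero]) en2.int3).1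
    (by
      have a1 := (restr_int (G := fun x => V x ^ (1 - (n : ℝ) / 2) *
        max (3 * Θ / 4 - (p x + 2 * w x)) 0 * Ω.indicator (bil A f2 f2) x) hΩ.measurableSet
        (fun x hx => by
        simp only [indicator_of_mem hx, ← hf2in x hx]) (fun x hx => by
        simp only [indicator_of_notMem hx, mul_zero]) en2.int1).2
      have a2 := (restr_int (G := fun x => max (3 * Θ / 4 - (p x + 2 * w x)) 0 ^ 3 *
        V x ^ (-(n : ℝ) / 2) * Ω.indicator r x) hΩ.measurableSet (fun x hx => by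
        simp only [indicator_of_mem hx, ← hf2in x hx]) (fun x hx => by
        simp only [indicator_of_notMem hx, mul_zero]) en2.int2).2
      have a3 := (restr_int (G := fun x => V x ^ (-(n : ℝ) / 2) *
        max (3 * Θ / 4 - (p x + 2 * w x)) 0 ^ 2 *
        (1 / lam * qP + 2 * (1 / tau) * qW - (p x + 2 * w x)) *
        Ω.indicator r x) hΩ.measurableSet (fun x hx => by
        simp only [indicator_of_mem hx, ← hf2in x hx]) (fun x hx => by
        simp only [indicator_of_notMem hx, mul_zero]) en2.int3).2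
      rw [a1, a2, a3]
      exact en2.ineq)
    (by
      rw [hGeq]
      have hh := hGint (bil A f1 f1) (cb _ (cf _ _))
      refine hh.congr_fun (fun x hx => ?_) hGo.measurableSet
      simp only [indicator_of_mem hx.1])
    (by
      rw [hGeq]
      have hh := hGint (bil A f2 f2) (cb _ (cf _ _))
      refine hh.congr_fun (fun x hx => ?_) hGo.measurableSet
      simp only [indicator_of_mem hx.1])
    (by
      rw [hGeq]
      have hh := hGint (fun x => bil A P P x / lam ^ 2 + bil A W W x / tau ^ 2)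
        (((cb _ hP).div_const (lam ^ 2)).add ((cb _ hW).div_const (tau ^ 2)))
      refine hh.congr_fun (fun x hx => ?_) hGo.measurableSet
      simp only [indicator_of_mem hx.1])
  rw [hDeq, hGeq] at hbox
  have hGI : IntegrableOn (fun x => V x ^ (1 - (n : ℝ) / 2) *
      (bil A P P x / lam ^ 2 + bil A W W x / tau ^ 2)) G :=
    hGint _ (((cb _ hP).div_const (lam ^ 2)).add ((cb _ hW).div_const (tau ^ 2)))
  have hGnn : ∀ x ∈ G, 0 ≤ V x ^ (1 - (n : ℝ) / 2) *
      (bil A P P x / lam ^ 2 + bil A W W x / tau ^ 2) := by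
    intro x hx
    refine mul_nonneg (Real.rpow_nonneg (hVD x hx.1 (hGD hx).2).le _) (add_nonneg ?_ ?_)
    · exact div_nonneg (bil_nonneg (hA x hx.1)) (by positivity)
    · exact div_nonneg (bil_nonneg (hA x hx.1)) (by positivity)
  rw [← ofReal_integral_eq_lintegral_ofReal hGI
    (by filter_upwards [ae_restrict_mem hGo.measurableSet] with x hx using hGnn x hx)]
  apply ENNReal.ofReal_le_ofReal
  have e1 : ∫ x in G, V x ^ (1 - (n : ℝ) / 2) *
      ((Ω.indicator fun x => bil A P P x / lam ^ 2) x +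
        (Ω.indicator fun x => bil A W W x / tau ^ 2) x)
      = ∫ x in G, V x ^ (1 - (n : ℝ) / 2) * (bil A P P x / lam ^ 2 + bil A W W x / tau ^ 2) :=
    setIntegral_congr_fun hGo.measurableSet fun x hx => by simp only [indicator_of_mem hx.1]
  have e2 : ∫ x in D, V x ^ (-(n : ℝ) / 2) * Ω.indicator r x
      = ∫ x in D, V x ^ (-(n : ℝ) / 2) * r x :=
    setIntegral_congr_fun hDo.measurableSet fun x hx => by simp only [indicator_of_mem hx.1]
  rw [e1, e2] at hbox
  refine hbox.trans ?_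
  apply mul_le_mul_of_nonneg_left hMle
  unfold Cbox
  positivity

end Crest.Agent.R236.BCor
end

-- ▼ part R236/BEn
section

/-! Row 236, part B4: Green's formula for `C¹` fields with compact support and the energy
inequality (abstract form). (helper272) -/

set_option autoImplicit false
open scoped ContDiff Topology
open Crest.GeometryTopology.CoordMetric Crest.GeometryTopology.AffineMaximal
open Set Filter MeasureTheory Finset

noncomputable section

namespace Crest.Agent.R236.BEn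

variable {n : ℕ}

/-! ### integral of a derivative -/

/-- the extension by zero of a `C¹` function on an open set which vanishes off a compact subset -/
lemma contDiff_indicator {Ω K : Set (EuclideanSpace ℝ (Fin n))} (hΩ : IsOpen Ω) (hK : IsCompact K)
    (hKΩ : K ⊆ Ω) {g : EuclideanSpace ℝ (Fin n) → ℝ} {m : WithTop ℕ∞} (hg : ContDiffOn ℝ m g Ω)
    (hz : ∀ x ∈ Ω, x ∉ K → g x = 0) : ContDiff ℝ m (Ω.indicator g) := by
  rw [contDiff_iff_contDiffAt]
  intro x
  by_cases hx : x ∈ Ω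
  · have h1 : Ω.indicator g =ᶠ[𝓝 x] g :=
      Filter.eventually_of_mem (hΩ.mem_nhds hx) fun y hy => Set.indicator_of_mem hy g
    exact (hg.contDiffAt (hΩ.mem_nhds hx)).congr_of_eventuallyEq h1
  · have hxK : x ∈ Kᶜ := fun h => hx (hKΩ h)
    have h1 : Ω.indicator g =ᶠ[𝓝 x] fun _ => 0 := by
      refine Filter.eventually_of_mem (hK.isClosed.isOpen_compl.mem_nhds hxK) fun y hy => ?_
      by_cases hyΩ : y ∈ Ω
      · rw [Set.indicator_of_mem hyΩ]; exact hz y hyΩ hy
      · exact Set.indicator_of_notMem hyΩ g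
    exact contDiffAt_const.congr_of_eventuallyEq h1

/-- a continuous function on an open set vanishing off a compact subset is integrable. -/
lemma integrableOn_of_zero {Ω K : Set (EuclideanSpace ℝ (Fin n))} (hΩ : IsOpen Ω)
    (hK : IsCompact K) (hKΩ : K ⊆ Ω) {g : EuclideanSpace ℝ (Fin n) → ℝ} (hg : ContinuousOn g K)
    (hz : ∀ x ∈ Ω, x ∉ K → g x = 0) : IntegrableOn g Ω := by
  have h1 : IntegrableOn g K := hg.integrableOn_compact hK
  have h2 : IntegrableOn g (Ω \ K) := by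
    have : IntegrableOn (fun _ : EuclideanSpace ℝ (Fin n) => (0:ℝ)) (Ω \ K) := integrableOn_zero
    refine this.congr_fun (fun x hx => ?_) (hΩ.measurableSet.diff hK.measurableSet)
    exact (hz x hx.1 hx.2).symm
  have h3 : Ω = K ∪ (Ω \ K) := by rw [Set.union_sdiff_cancel hKΩ]
  rw [h3]
  exact h1.union h2

lemma setIntegral_eq_of_zero {Ω K : Set (EuclideanSpace ℝ (Fin n))} (hΩ : MeasurableSet Ω)
    (hKΩ : K ⊆ Ω) {g : EuclideanSpace ℝ (Fin n) → ℝ} (hz : ∀ x ∈ Ω, x ∉ K → g x = 0) :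
    ∫ x in Ω, g x = ∫ x in K, g x :=
  (setIntegral_eq_of_subset_of_forall_sdiff_eq_zero hΩ hKΩ (fun x hx => hz x hx.1 hx.2))

/-- the integral of a partial derivative of a `C¹` function with compact support in `Ω` vanishes -/
theorem integral_pderiv_eq_zero {Ω K : Set (EuclideanSpace ℝ (Fin n))} (hΩ : IsOpen Ω)
    (hK : IsCompact K) (hKΩ : K ⊆ Ω) {g : EuclideanSpace ℝ (Fin n) → ℝ} (hg : ContDiffOn ℝ 1 g Ω)
    (hz : ∀ x ∈ Ω, x ∉ K → g x = 0) (i : Fin n) :
    IntegrableOn (pderiv i g) Ω ∧ ∫ x in Ω, pderiv i g x = 0 := by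
  set g0 := Ω.indicator g with hg0
  have hc : ContDiff ℝ 1 g0 := contDiff_indicator hΩ hK hKΩ hg hz
  have hsupp : HasCompactSupport g0 := by
    refine HasCompactSupport.intro hK fun x hx => ?_
    by_cases hxΩ : x ∈ Ω
    · rw [hg0, Set.indicator_of_mem hxΩ]; exact hz x hxΩ hx
    · exact Set.indicator_of_notMem hxΩ g
  set v : EuclideanSpace ℝ (Fin n) := EuclideanSpace.single i 1 with hv
  have hcont : Continuous fun x => fderiv ℝ g0 x v :=
    (hc.continuous_fderiv one_ne_zero).clm_apply continuous_const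
  have hsupp' : HasCompactSupport fun x => fderiv ℝ g0 x v :=
    (hsupp.fderiv (𝕜 := ℝ)).comp_left (g := fun L : EuclideanSpace ℝ (Fin n) →L[ℝ] ℝ => L v) (by simp)
  have hint : Integrable fun x => fderiv ℝ g0 x v := hcont.integrable_of_hasCompactSupport hsupp'
  have hint0 : Integrable g0 := hc.continuous.integrable_of_hasCompactSupport hsupp
  have hfull : ∫ x, fderiv ℝ g0 x v = 0 := by
    have := integral_mul_fderiv_eq_neg_fderiv_mul_of_integrable (𝕜 := ℝ)
      (μ := (volume : Measure (EuclideanSpace ℝ (Fin n))))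
      (f := fun _ => (1:ℝ)) (g := g0) (v := v) (by simp) (by simpa using hint) (by simpa using hint0)
      (by intro x _; exact differentiableAt_const _) (by intro x _; exact (hc.differentiable one_ne_zero) x)
    simpa using this
  have heq : ∀ x ∈ Ω, fderiv ℝ g0 x v = pderiv i g x := by
    intro x hx
    have h1 : g0 =ᶠ[𝓝 x] g :=
      Filter.eventually_of_mem (hΩ.mem_nhds hx) fun y hy => Set.indicator_of_mem hy g
    unfold pderiv
    rw [h1.fderiv_eq]
  have hout : ∀ x, x ∉ Ω → fderiv ℝ g0 x v = 0 := by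
    intro x hx
    have hxK : x ∈ Kᶜ := fun h => hx (hKΩ h)
    have h1 : g0 =ᶠ[𝓝 x] fun _ => 0 := by
      refine Filter.eventually_of_mem (hK.isClosed.isOpen_compl.mem_nhds hxK) fun y hy => ?_
      by_cases hyΩ : y ∈ Ω
      · rw [hg0, Set.indicator_of_mem hyΩ]; exact hz y hyΩ hy
      · exact Set.indicator_of_notMem hyΩ g
    rw [h1.fderiv_eq]; simp
  constructor
  · exact (hint.integrableOn (s := Ω)).congr_fun heq hΩ.measurableSet
  · rw [← hfull, ← setIntegral_congr_fun hΩ.measurableSet heq]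
    exact setIntegral_eq_integral_of_forall_compl_eq_zero hout

/-! ### Green's formula -/

/-- the bilinear form `A(∇f, ∇g)` -/
def bil (A : EuclideanSpace ℝ (Fin n) → Matrix (Fin n) (Fin n) ℝ)
    (f g : EuclideanSpace ℝ (Fin n) → ℝ) (x : EuclideanSpace ℝ (Fin n)) : ℝ :=
  ∑ i, ∑ j, A x i j * pderiv i f x * pderiv j g x

/-- the divergence `div (A ∇f)` -/
def dv (A : EuclideanSpace ℝ (Fin n) → Matrix (Fin n) (Fin n) ℝ)
    (f : EuclideanSpace ℝ (Fin n) → ℝ) (x : EuclideanSpace ℝ (Fin n)) : ℝ :=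
  ∑ i, pderiv i (fun y => ∑ j, A y i j * pderiv j f y) x

/-- divergence theorem for a product `w F` with compact support -/
theorem green_field {Ω K : Set (EuclideanSpace ℝ (Fin n))} (hΩ : IsOpen Ω)
    (hK : IsCompact K) (hKΩ : K ⊆ Ω) {w : EuclideanSpace ℝ (Fin n) → ℝ}
    {F : Fin n → EuclideanSpace ℝ (Fin n) → ℝ}
    (hw : ContDiffOn ℝ 1 w Ω) (hz : ∀ x ∈ Ω, x ∉ K → w x = 0)
    (hF : ∀ i, ContDiffOn ℝ 1 (F i) Ω) :
    IntegrableOn (fun x => w x * (∑ i, pderiv i (F i) x) + ∑ i, pderiv i w x * F i x) Ω ∧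
      ∫ x in Ω, (w x * (∑ i, pderiv i (F i) x) + ∑ i, pderiv i w x * F i x) = 0 := by
  have hg : ∀ i, ContDiffOn ℝ 1 (fun x => w x * F i x) Ω := fun i => hw.mul (hF i)
  have hz' : ∀ i, ∀ x ∈ Ω, x ∉ K → w x * F i x = 0 := fun i x hx hxK => by
    rw [hz x hx hxK, zero_mul]
  have h1 := fun i => integral_pderiv_eq_zero hΩ hK hKΩ (hg i) (hz' i) i
  have heq : ∀ x ∈ Ω, ∑ i, pderiv i (fun x => w x * F i x) x =
      w x * (∑ i, pderiv i (F i) x) + ∑ i, pderiv i w x * F i x := by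
    intro x hx
    rw [Finset.mul_sum, ← Finset.sum_add_distrib]
    refine Finset.sum_congr rfl fun i _ => ?_
    rw [pderiv_mul ((hw.contDiffAt (hΩ.mem_nhds hx)).differentiableAt one_ne_zero)
      (((hF i).contDiffAt (hΩ.mem_nhds hx)).differentiableAt one_ne_zero)]
    ring
  have hint : IntegrableOn (fun x => ∑ i, pderiv i (fun x => w x * F i x) x) Ω :=
    integrable_finsetSum _ fun i _ => (h1 i).1
  refine ⟨hint.congr_fun heq hΩ.measurableSet, ?_⟩
  rw [← setIntegral_congr_fun hΩ.measurableSet heq, integral_finsetSum _ fun i _ => (h1 i).1]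
  exact Finset.sum_eq_zero fun i _ => (h1 i).2

/-- Green's formula `∫ w div(A∇f) + A(∇w,∇f) = 0`. -/
theorem green {Ω K : Set (EuclideanSpace ℝ (Fin n))} (hΩ : IsOpen Ω)
    (hK : IsCompact K) (hKΩ : K ⊆ Ω) {A : EuclideanSpace ℝ (Fin n) → Matrix (Fin n) (Fin n) ℝ}
    {w f : EuclideanSpace ℝ (Fin n) → ℝ} (hA : ∀ i j, ContDiffOn ℝ 1 (fun x => A x i j) Ω)
    (hf : ContDiffOn ℝ 2 f Ω) (hw : ContDiffOn ℝ 1 w Ω) (hz : ∀ x ∈ Ω, x ∉ K → w x = 0) :
    IntegrableOn (fun x => w x * dv A f x + bil A w f x) Ω ∧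
      ∫ x in Ω, (w x * dv A f x + bil A w f x) = 0 := by
  have hF : ∀ i, ContDiffOn ℝ 1 (fun y => ∑ j, A y i j * pderiv j f y) Ω := fun i =>
    ContDiffOn.sum fun j _ => (hA i j).mul (contDiffOn_pderiv hΩ hf (by norm_num) j)
  have h := green_field hΩ hK hKΩ hw hz hF
  have heq : (fun x => w x * (∑ i, pderiv i (fun y => ∑ j, A y i j * pderiv j f y) x) +
      ∑ i, pderiv i w x * ∑ j, A x i j * pderiv j f x) =
      fun x => w x * dv A f x + bil A w f x := by
    funext x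
    unfold dv bil
    congr 1
    refine Finset.sum_congr rfl fun i _ => ?_
    rw [Finset.mul_sum]
    refine Finset.sum_congr rfl fun j _ => ?_
    ring
  rw [heq] at h
  exact h

/-! ### powers of the positive part -/

lemma hasDerivAt_posPow (k : ℕ) (hk : 1 ≤ k) (t : ℝ) :
    HasDerivAt (fun s : ℝ => (max s 0) ^ (k + 1)) ((k + 1 : ℕ) * (max t 0) ^ k) t := by
  rcases lt_trichotomy t 0 with ht | ht | ht
  · have h1 : (fun s : ℝ => (max s 0) ^ (k + 1)) =ᶠ[𝓝 t] fun _ => 0 := by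
      filter_upwards [Iio_mem_nhds ht] with s hs
      rw [max_eq_right (le_of_lt hs)]
      simp
    rw [max_eq_right ht.le, zero_pow (by omega), mul_zero]
    exact (hasDerivAt_const t (0:ℝ)).congr_of_eventuallyEq h1
  · subst ht
    rw [max_self, zero_pow (by omega), mul_zero]
    rw [hasDerivAt_iff_tendsto_slope]
    have h1 : ∀ s : ℝ, s ≠ 0 → slope (fun s : ℝ => (max s 0) ^ (k + 1)) 0 s = (max s 0) ^ k := by
      intro s hs
      rw [slope_def_field]
      simp only [max_self, sub_zero]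
      rw [zero_pow (by omega), sub_zero]
      rcases le_or_gt s 0 with h | h
      · rw [max_eq_right h, zero_pow (by omega), zero_pow (by omega), zero_div]
      · rw [max_eq_left h.le, pow_succ]
        field_simp
    have h2 : Tendsto (fun s : ℝ => (max s 0) ^ k) (𝓝[≠] 0) (𝓝 0) := by
      have hc : Continuous fun s : ℝ => (max s 0) ^ k := by fun_prop
      have := hc.tendsto 0
      simp only [max_self] at this
      rw [zero_pow (by omega)] at this
      exact this.mono_left nhdsWithin_le_nhds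
    refine h2.congr' ?_
    filter_upwards [self_mem_nhdsWithin] with s hs
    exact (h1 s hs).symm
  · have h1 : (fun s : ℝ => (max s 0) ^ (k + 1)) =ᶠ[𝓝 t] fun s => s ^ (k + 1) := by
      filter_upwards [Ioi_mem_nhds ht] with s hs
      rw [max_eq_left (le_of_lt hs)]
    rw [max_eq_left ht.le]
    have := (hasDerivAt_pow (k + 1) t).congr_of_eventuallyEq h1
    simpa using this

lemma contDiff_posPow (k : ℕ) (hk : 1 ≤ k) : ContDiff ℝ 1 (fun s : ℝ => (max s 0) ^ (k + 1)) := by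
  rw [contDiff_one_iff_deriv]
  refine ⟨fun t => (hasDerivAt_posPow k hk t).differentiableAt, ?_⟩
  have : deriv (fun s : ℝ => (max s 0) ^ (k + 1)) = fun t => ((k + 1 : ℕ) : ℝ) * (max t 0) ^ k := by
    funext t; exact (hasDerivAt_posPow k hk t).deriv
  rw [this]
  fun_prop

end Crest.Agent.R236.BEn
end
end

-- ▼ part R236/BEnE
section

/-! Row 236, part B4: the energy inequality (abstract form). (helper272) -/

set_option autoImplicit false
open scoped ContDiff Topology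
open Crest.GeometryTopology.CoordMetric Crest.GeometryTopology.AffineMaximal
open Set Filter MeasureTheory Finset

noncomputable section

namespace Crest.Agent.R236.BEn

variable {n : ℕ}

lemma bil_comm {A : EuclideanSpace ℝ (Fin n) → Matrix (Fin n) (Fin n) ℝ}
    {f g : EuclideanSpace ℝ (Fin n) → ℝ} {x : EuclideanSpace ℝ (Fin n)}
    (hs : ∀ i j, A x i j = A x j i) : bil A f g x = bil A g f x := by
  unfold bil
  rw [Finset.sum_comm]
  refine Finset.sum_congr rfl fun i _ => Finset.sum_congr rfl fun j _ => ?_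
  rw [hs j i]; ring

lemma bil_left {A : EuclideanSpace ℝ (Fin n) → Matrix (Fin n) (Fin n) ℝ}
    {w f g h : EuclideanSpace ℝ (Fin n) → ℝ} {x : EuclideanSpace ℝ (Fin n)} {a b : ℝ}
    (hw : ∀ i, pderiv i w x = a * pderiv i f x + b * pderiv i g x) :
    bil A w h x = a * bil A f h x + b * bil A g h x := by
  unfold bil
  rw [Finset.mul_sum, Finset.mul_sum, ← Finset.sum_add_distrib]
  refine Finset.sum_congr rfl fun i _ => ?_
  rw [Finset.mul_sum, Finset.mul_sum, ← Finset.sum_add_distrib]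
  refine Finset.sum_congr rfl fun j _ => ?_
  rw [hw i]; ring

/-- derivative of the weight `v^(k+1) V^a`, `v = (c - f)_+` -/
lemma pderiv_weight {f V : EuclideanSpace ℝ (Fin n) → ℝ} {x : EuclideanSpace ℝ (Fin n)}
    (hf : DifferentiableAt ℝ f x) (hV : DifferentiableAt ℝ V x) (hpos : 0 < V x) (c a : ℝ) (k : ℕ)
    (hk : 1 ≤ k) (i : Fin n) :
    pderiv i (fun y => (max (c - f y) 0) ^ (k + 1) * V y ^ a) x =
      (-((k + 1 : ℕ) : ℝ) * (max (c - f x) 0) ^ k * V x ^ a) * pderiv i f x +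
        ((max (c - f x) 0) ^ (k + 1) * a * V x ^ (a - 1)) * pderiv i V x := by
  have h1 : HasDerivAt (fun s : ℝ => (max (c - s) 0) ^ (k + 1))
      (-((k + 1 : ℕ) : ℝ) * (max (c - f x) 0) ^ k) (f x) := by
    have h2 := (hasDerivAt_posPow k hk (c - f x)).comp (f x) ((hasDerivAt_id (f x)).const_sub c)
    have h3 : ((k + 1 : ℕ) : ℝ) * (max (c - f x) 0) ^ k * -1 =
      -((k + 1 : ℕ) : ℝ) * (max (c - f x) 0) ^ k := by ring
    rw [h3] at h2
    exact h2
  have h4 : HasDerivAt (fun s : ℝ => s ^ a) (a * V x ^ (a - 1)) (V x) :=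
    Real.hasDerivAt_rpow_const (Or.inl hpos.ne')
  have d1 : DifferentiableAt ℝ (fun y => (max (c - f y) 0) ^ (k + 1)) x :=
    h1.differentiableAt.comp x hf
  have d2 : DifferentiableAt ℝ (fun y => V y ^ a) x := h4.differentiableAt.comp x hV
  rw [pderiv_mul d1 d2, pderiv_comp h1 hf, pderiv_comp h4 hV]
  ring

lemma contDiffOn_weight {Ω : Set (EuclideanSpace ℝ (Fin n))}
    {f V : EuclideanSpace ℝ (Fin n) → ℝ} (hf : ContDiffOn ℝ 1 f Ω) (hV : ContDiffOn ℝ 1 V Ω)
    (hpos : ∀ x ∈ Ω, 0 < V x) (c a : ℝ) (k : ℕ) (hk : 1 ≤ k) :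
    ContDiffOn ℝ 1 (fun y => (max (c - f y) 0) ^ (k + 1) * V y ^ a) Ω := by
  refine ContDiffOn.mul ?_ (hV.rpow_const_of_ne fun x hx => (hpos x hx).ne')
  exact (contDiff_posPow k hk).comp_contDiffOn (contDiffOn_const.sub hf)

/-- **Energy inequality**, abstract form. -/
theorem energy_abstract {Ω K : Set (EuclideanSpace ℝ (Fin n))} (hΩ : IsOpen Ω) (hK : IsCompact K)
    (hKΩ : K ⊆ Ω) {A : EuclideanSpace ℝ (Fin n) → Matrix (Fin n) (Fin n) ℝ}
    (hA : ∀ i j, ContDiffOn ℝ 1 (fun x => A x i j) Ω)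
    (hsymm : ∀ x ∈ Ω, ∀ i j, A x i j = A x j i)
    {f V r : EuclideanSpace ℝ (Fin n) → ℝ}
    (hpos : ∀ x ∈ Ω, 0 ≤ bil A V V x)
    (hf : ContDiffOn ℝ 2 f Ω) (hV : ContDiffOn ℝ 2 V Ω) (hr : ContinuousOn r Ω)
    (hVpos : ∀ x ∈ K, 0 < V x) {c q : ℝ} (hfc : ∀ x ∈ Ω, x ∉ K → c ≤ f x)
    (hdV : ∀ x ∈ Ω, dv A V x = n * r x)
    (hdf : ∀ x ∈ Ω, V x * dv A f x = n * (bil A V f x + (q - f x) * r x)) :
    IntegrableOn (fun x => V x ^ (1 - (n:ℝ) / 2) * max (c - f x) 0 * bil A f f x) Ω ∧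
    IntegrableOn (fun x => (max (c - f x) 0) ^ 3 * V x ^ (-((n:ℝ) / 2)) * r x) Ω ∧
    IntegrableOn (fun x => V x ^ (-((n:ℝ) / 2)) * (max (c - f x) 0) ^ 2 * (q - f x) * r x) Ω ∧
    6 * ∫ x in Ω, V x ^ (1 - (n:ℝ) / 2) * max (c - f x) 0 * bil A f f x ≤
      n * (1 + (n:ℝ) / 2) * (∫ x in Ω, (max (c - f x) 0) ^ 3 * V x ^ (-((n:ℝ) / 2)) * r x) +
      3 * n * ∫ x in Ω, V x ^ (-((n:ℝ) / 2)) * (max (c - f x) 0) ^ 2 * (q - f x) * r x := by
  set N : ℝ := (n : ℝ) with hN
  have hv0 : ∀ x ∈ Ω, x ∉ K → max (c - f x) 0 = 0 := fun x hx hxK =>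
    max_eq_right (by linarith [hfc x hx hxK])
  set Ω' : Set (EuclideanSpace ℝ (Fin n)) := Ω ∩ V ⁻¹' (Ioi 0) with hΩ'def
  have hΩ' : IsOpen Ω' := hV.continuousOn.isOpen_inter_preimage hΩ isOpen_Ioi
  have hsub : Ω' ⊆ Ω := inter_subset_left
  have hKΩ' : K ⊆ Ω' := fun x hx => ⟨hKΩ hx, hVpos x hx⟩
  have hV' : ∀ x ∈ Ω', 0 < V x := fun x hx => hx.2
  -- continuity on `K`
  have cpd : ∀ {g : EuclideanSpace ℝ (Fin n) → ℝ}, ContDiffOn ℝ 2 g Ω → ∀ i,
      ContinuousOn (pderiv i g) K := fun hg i =>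
    ((contDiffOn_pderiv (m := 1) hΩ hg (by norm_num) i).continuousOn).mono hKΩ
  have cbil : ∀ {g h : EuclideanSpace ℝ (Fin n) → ℝ}, ContDiffOn ℝ 2 g Ω → ContDiffOn ℝ 2 h Ω →
      ContinuousOn (bil A g h) K := by
    intro g h hg hh
    refine continuousOn_finsetSum _ fun i _ => continuousOn_finsetSum _ fun j _ => ?_
    exact (((hA i j).continuousOn.mono hKΩ).mul (cpd hg i)).mul (cpd hh j)
  have cf : ContinuousOn f K := hf.continuousOn.mono hKΩ
  have cV : ContinuousOn V K := hV.continuousOn.mono hKΩ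
  have cr : ContinuousOn r K := hr.mono hKΩ
  have cv : ContinuousOn (fun x => max (c - f x) 0) K :=
    (continuousOn_const.sub cf).sup continuousOn_const
  have cVp : ∀ a : ℝ, ContinuousOn (fun x => V x ^ a) K := fun a =>
    cV.rpow_const fun x hx => Or.inl (hVpos x hx).ne'
  -- the three integrands
  have c1 : ContinuousOn (fun x => V x ^ (1 - N / 2) * max (c - f x) 0 * bil A f f x) K :=
    ((cVp _).mul cv).mul (cbil hf hf)
  have z1 : ∀ x ∈ Ω, x ∉ K → V x ^ (1 - N / 2) * max (c - f x) 0 * bil A f f x = 0 :=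
    fun x hx hxK => by rw [hv0 x hx hxK]; ring
  have c2 : ContinuousOn (fun x => (max (c - f x) 0) ^ 3 * V x ^ (-(N / 2)) * r x) K :=
    ((cv.pow 3).mul (cVp _)).mul cr
  have z2 : ∀ x ∈ Ω, x ∉ K → (max (c - f x) 0) ^ 3 * V x ^ (-(N / 2)) * r x = 0 :=
    fun x hx hxK => by rw [hv0 x hx hxK]; ring
  have c3 : ContinuousOn
      (fun x => V x ^ (-(N / 2)) * (max (c - f x) 0) ^ 2 * (q - f x) * r x) K :=
    (((cVp _).mul (cv.pow 2)).mul (continuousOn_const.sub cf)).mul cr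
  have z3 : ∀ x ∈ Ω, x ∉ K → V x ^ (-(N / 2)) * (max (c - f x) 0) ^ 2 * (q - f x) * r x = 0 :=
    fun x hx hxK => by rw [hv0 x hx hxK]; ring
  have i1 := integrableOn_of_zero hΩ hK hKΩ c1 z1
  have i2 := integrableOn_of_zero hΩ hK hKΩ c2 z2
  have i3 := integrableOn_of_zero hΩ hK hKΩ c3 z3
  refine ⟨i1, i2, i3, ?_⟩
  -- fields
  have hA' : ∀ i j, ContDiffOn ℝ 1 (fun x => A x i j) Ω' := fun i j => (hA i j).mono hsub
  have hf' : ContDiffOn ℝ 2 f Ω' := hf.mono hsub
  have hVs' : ContDiffOn ℝ 2 V Ω' := hV.mono hsub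
  have hf1 : ContDiffOn ℝ 1 f Ω' := hf'.of_le (by norm_num)
  have hV1 : ContDiffOn ℝ 1 V Ω' := hVs'.of_le (by norm_num)
  have G1 := green hΩ' hK hKΩ' hA' hf' (contDiffOn_weight hf1 hV1 hV' c (1 - N / 2) 1 le_rfl)
    (fun x hx hxK => by rw [hv0 x (hsub hx) hxK]; ring)
  have G2 := green hΩ' hK hKΩ' hA' hVs' (contDiffOn_weight hf1 hV1 hV' c (-(N / 2)) 2 (by norm_num))
    (fun x hx hxK => by rw [hv0 x (hsub hx) hxK]; ring)
  have hpt : ∀ x ∈ Ω',
      3 * ((max (c - f x) 0) ^ (1 + 1) * V x ^ (1 - N / 2) * dv A f x +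
        bil A (fun y => (max (c - f y) 0) ^ (1 + 1) * V y ^ (1 - N / 2)) f x) +
      (1 + N / 2) * ((max (c - f x) 0) ^ (2 + 1) * V x ^ (-(N / 2)) * dv A V x +
        bil A (fun y => (max (c - f y) 0) ^ (2 + 1) * V y ^ (-(N / 2))) V x) ≤
      -6 * (V x ^ (1 - N / 2) * max (c - f x) 0 * bil A f f x) +
      N * (1 + N / 2) * ((max (c - f x) 0) ^ 3 * V x ^ (-(N / 2)) * r x) +
      3 * N * (V x ^ (-(N / 2)) * (max (c - f x) 0) ^ 2 * (q - f x) * r x) := by
    intro x hx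
    have hxΩ := hsub hx
    have hVx := hV' x hx
    have dfx : DifferentiableAt ℝ f x :=
      (hf.contDiffAt (hΩ.mem_nhds hxΩ)).differentiableAt (by norm_num)
    have dVx : DifferentiableAt ℝ V x :=
      (hV.contDiffAt (hΩ.mem_nhds hxΩ)).differentiableAt (by norm_num)
    rw [bil_left (A := A) (h := f) (fun i => pderiv_weight dfx dVx hVx c (1 - N / 2) 1 le_rfl i),
      bil_left (A := A) (h := V)
        (fun i => pderiv_weight dfx dVx hVx c (-(N / 2)) 2 (by norm_num) i),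
      hdV x hxΩ, bil_comm (A := A) (f := f) (g := V) (hsymm x hxΩ)]
    set v := max (c - f x) 0 with hv
    have hv_nonneg : 0 ≤ v := le_max_right _ _
    have e1 : V x ^ (1 - N / 2) = V x ^ (-(N / 2)) * V x := by
      rw [show (1 - N / 2 : ℝ) = -(N / 2) + 1 by ring, Real.rpow_add_one hVx.ne']
    have e2 : (1 - N / 2 - 1 : ℝ) = -(N / 2) := by ring
    have hd := hdf x hxΩ
    have hnn : 0 ≤ (1 + N / 2) * (N / 2) * (v ^ 3 * V x ^ (-(N / 2) - 1) * bil A V V x) := by
      have hN0 : 0 ≤ N := Nat.cast_nonneg n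
      have := hpos x hxΩ
      have hr1 : 0 ≤ V x ^ (-(N / 2) - 1) := Real.rpow_nonneg hVx.le _
      positivity
    rw [e2]
    have key : 3 * (v ^ (1 + 1) * V x ^ (1 - N / 2) * dv A f x) =
        3 * (v ^ 2 * V x ^ (-(N / 2)) * (N * (bil A V f x + (q - f x) * r x))) := by
      rw [← hd, e1]; ring
    push_cast
    nlinarith [key, hnn]
  have hint1 : ∫ x in Ω', (3 * ((max (c - f x) 0) ^ (1 + 1) * V x ^ (1 - N / 2) * dv A f x +
        bil A (fun y => (max (c - f y) 0) ^ (1 + 1) * V y ^ (1 - N / 2)) f x) +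
      (1 + N / 2) * ((max (c - f x) 0) ^ (2 + 1) * V x ^ (-(N / 2)) * dv A V x +
        bil A (fun y => (max (c - f y) 0) ^ (2 + 1) * V y ^ (-(N / 2))) V x)) = 0 := by
    rw [integral_add (G1.1.const_mul 3) (G2.1.const_mul _), integral_const_mul, integral_const_mul,
      G1.2, G2.2]
    ring
  have i1' := i1.mono_set hsub
  have i2' := i2.mono_set hsub
  have i3' := i3.mono_set hsub
  have hmono := setIntegral_mono_on ((G1.1.const_mul 3).add (G2.1.const_mul (1 + N / 2)))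
    (((i1'.const_mul (-6)).add (i2'.const_mul (N * (1 + N / 2)))).add (i3'.const_mul (3 * N)))
    hΩ'.measurableSet hpt
  have hmono2 : 0 ≤ -6 * (∫ x in Ω', V x ^ (1 - N / 2) * max (c - f x) 0 * bil A f f x) +
      N * (1 + N / 2) * (∫ x in Ω', (max (c - f x) 0) ^ 3 * V x ^ (-(N / 2)) * r x) +
      3 * N * ∫ x in Ω', V x ^ (-(N / 2)) * (max (c - f x) 0) ^ 2 * (q - f x) * r x := by
    have i12 : IntegrableOn (fun x => -6 * (V x ^ (1 - N / 2) * max (c - f x) 0 * bil A f f x) +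
        N * (1 + N / 2) * ((max (c - f x) 0) ^ 3 * V x ^ (-(N / 2)) * r x)) Ω' :=
      (i1'.const_mul _).add (i2'.const_mul _)
    rw [← integral_const_mul, ← integral_const_mul, ← integral_const_mul,
      ← integral_add (i1'.const_mul _) (i2'.const_mul _),
      ← integral_add i12 (i3'.const_mul _)]
    refine le_trans (le_of_eq ?_) hmono
    exact hint1.symm
  have t1 : ∀ {g : EuclideanSpace ℝ (Fin n) → ℝ}, (∀ x ∈ Ω, x ∉ K → g x = 0) →
      ∫ x in Ω', g x = ∫ x in Ω, g x := by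
    intro g hg
    rw [setIntegral_eq_of_zero hΩ.measurableSet hKΩ hg,
      setIntegral_eq_of_zero hΩ'.measurableSet hKΩ' fun x hx => hg x (hsub hx)]
  rw [t1 z1, t1 z2, t1 z3] at hmono2
  linarith

end Crest.Agent.R236.BEn
end
end

-- ▼ part R236/BCor3

/-! Row 236, B4' (helper418): the box energy bound on an approximant `APX`. -/

set_option autoImplicit false
open scoped ContDiff
open MeasureTheory Set
open Crest.GeometryTopology.CoordMetric Crest.GeometryTopology.AffineMaximal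

namespace Crest.Agent.R236.BCor

open Crest.Agent.R236.B (VV APX Grid sg)
open Crest.Agent.R236.A (EE epi SOL)

variable {n : ℕ} {Ω : Set (EE n)} {u : EE n → ℝ}

/-- the matrix `ρⁿ cof(D²u)` -/
noncomputable def Am (u : EE n → ℝ) (x : EE n) : Matrix (Fin n) (Fin n) ℝ :=
  (Bla.rho u x ^ n) • cof u x

theorem Am_apply (x : EE n) (i j : Fin n) : Am u x i j = Bla.rho u x ^ n * cof u x i j := rfl

theorem bil_Am (f g : EE n → ℝ) (x : EE n) : bil (Am u) f g x = Bla.AA u f g x := by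
  unfold bil Bla.AA
  rw [Finset.mul_sum]
  refine Finset.sum_congr rfl fun i _ => ?_
  rw [Finset.mul_sum]
  refine Finset.sum_congr rfl fun j _ => ?_
  rw [Am_apply]; ring

theorem dv_Am (f : EE n → ℝ) (x : EE n) (hx : 0 < Bla.rho u x) :
    BEn.dv (Am u) f x = Bla.lap u f x / Bla.rho u x := by
  unfold Bla.lap BEn.dv
  rw [mul_div_cancel_left₀ _ hx.ne']
  refine Finset.sum_congr rfl fun i _ => ?_
  congr 1
  ext y
  unfold Bla.AAg
  rw [Finset.mul_sum]
  refine Finset.sum_congr rfl fun j _ => ?_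
  rw [Am_apply]; ring

theorem Am_posSemidef (h : SC Ω u) {x : EE n} (hx : x ∈ Ω) : (Am u x).PosSemidef :=
  (h.cof_posDef hx).posSemidef.smul (pow_nonneg (Bla.rho_pos h hx).le _)

theorem contDiffOn_Am (h : SC Ω u) (i j : Fin n) : ContDiffOn ℝ ∞ (fun x => Am u x i j) Ω :=
  ((Bla.contDiffOn_rho h).pow n).mul (h.contDiffOn_cof i j)

/-- the energy inequality for one affine functional -/
theorem enIneq (h : SC Ω u) (hpde : ∀ x ∈ Ω, affineMaximalOp n u x = 0)
    (φ : VV n →L[ℝ] ℝ) (b c : ℝ) (Q : VV n)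
    (hK : IsCompact (closure {x | x ∈ Ω ∧ Bla.aff u φ b x < c}))
    (hKΩ : closure {x | x ∈ Ω ∧ Bla.aff u φ b x < c} ⊆ Ω)
    (hV : ∀ x ∈ closure {x | x ∈ Ω ∧ Bla.aff u φ b x < c}, 0 < Bla.VQ u Q x) :
    EnIneq Ω (Am u) (Bla.VQ u Q) (fun x => 1 / Bla.rho u x) (Bla.aff u φ b) (φ Q + b) c := by
  have hle : (2 : WithTop ℕ∞) ≤ (∞ : WithTop ℕ∞) := WithTop.coe_le_coe.mpr le_top
  have hle1 : (1 : WithTop ℕ∞) ≤ (∞ : WithTop ℕ∞) := WithTop.coe_le_coe.mpr le_top
  have key := BEn.energy_abstract (Ω := Ω) (K := closure {x | x ∈ Ω ∧ Bla.aff u φ b x < c})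
    h.isOpen hK hKΩ (A := Am u) (fun i j => (contDiffOn_Am h i j).of_le hle1)
    (fun x hx i j => by rw [Am_apply, Am_apply, h.cof_symm hx])
    (f := Bla.aff u φ b) (V := Bla.VQ u Q) (r := fun x => 1 / Bla.rho u x)
    (fun x hx => bil_nonneg (Am_posSemidef h hx))
    ((Bla.contDiffOn_aff h φ b).of_le hle) ((Bla.contDiffOn_VQ h Q).of_le hle)
    (continuousOn_const.div (Bla.contDiffOn_rho h).continuousOn
      fun x hx => (Bla.rho_pos h hx).ne')
    hV (c := c) (q := φ Q + b)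
    (fun x hx hxK => by
      by_contra hlt
      exact hxK (subset_closure ⟨hx, not_le.mp hlt⟩))
    (fun x hx => by
      rw [dv_Am _ _ (Bla.rho_pos h hx), Bla.I3a h hx (hpde x hx)]; ring)
    (fun x hx => by
      have h3 := Bla.I3 h hx Q φ b
      have hr := Bla.rho_pos h hx
      rw [dv_Am _ _ hr]
      have e1 : BEn.bil (Am u) (Bla.VQ u Q) (Bla.aff u φ b) x
          = Bla.AA u (Bla.aff u φ b) (Bla.VQ u Q) x := by
        rw [BEn.bil_comm (fun i j => by rw [Am_apply, Am_apply, h.cof_symm hx])]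
        exact bil_Am _ _ _
      rw [e1]
      field_simp
      rw [h3])
  obtain ⟨k1, k2, k3, k4⟩ := key
  have e : (-(n : ℝ) / 2) = -((n : ℝ) / 2) := by ring
  refine ⟨k1, ?_, ?_, ?_⟩
  · rw [e]; exact k2
  · rw [e]; exact k3
  · rw [e]; exact k4

/-- the box energy bound on an approximant, from the mass bound -/
theorem energy_apx {Θ K c2 C0 : ℝ} {N : ℕ} {ε0 : ℝ} {P0 W0 : VV n →L[ℝ] ℝ} {pc wc : ℝ}
    {eP eW O : VV n} {es Q : ℝ → ℝ → VV n} {nrm : ℝ → ℝ → Seminorm ℝ (VV n)}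
    (h : APX n Θ K c2 C0 N ε0 Ω u P0 W0 pc wc eP eW O es Q nrm) (hε0 : 0 ≤ ε0) (hε1 : ε0 ≤ 1)
    {lam tau : ℝ} (hg : Grid N lam tau) {Cm : ℝ} (hCm : 0 ≤ Cm)
    (hm : ∫⁻ x in {x | x ∈ Ω ∧ B.aff P0 pc (x, u x) / lam + B.aff W0 wc (x, u x) / tau < Θ},
      ENNReal.ofReal (Bla.Nv u (es lam tau) x ^ (-(n : ℝ) / 2) * (1 / Bla.rho u x))
        ≤ ENNReal.ofReal Cm) :
    ∫⁻ x in {x | x ∈ Ω ∧ B.aff P0 pc (x, u x) / lam + B.aff W0 wc (x, u x) / tau < Θ / 4},
      ENNReal.ofReal (Bla.VQ u (Q lam tau) x ^ (1 - (n : ℝ) / 2) *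
        (Bla.AA u (Bla.aff u P0 pc) (Bla.aff u P0 pc) x / lam ^ 2 +
          Bla.AA u (Bla.aff u W0 wc) (Bla.aff u W0 wc) x / tau ^ 2))
      ≤ ENNReal.ofReal (Cbox n Θ Θ * (C0 ^ ((n : ℝ) / 2) * Cm)) := by
  have hlam : 0 < lam := by
    obtain ⟨a, b, _, _, rfl, _⟩ := hg; positivity
  have htau : 0 < tau := by
    obtain ⟨a, b, _, _, _, rfl⟩ := hg; positivity
  have hΘ : 16 ≤ Θ := h.Θ_ge
  have hsc : SC Ω u := h.sol.sc
  have hpde := h.sol.pde
  have hC0 : 0 < C0 := lt_of_lt_of_le one_pos h.C0_ge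
  have hle1 : (1 : WithTop ℕ∞) ≤ (∞ : WithTop ℕ∞) := WithTop.coe_le_coe.mpr le_top
  have hepi : ∀ x ∈ Ω, ((x, u x) : VV n) ∈ epi Ω u := fun x hx => ⟨hx, le_rfl⟩
  -- lower bounds
  have hb1 : ∀ X ∈ epi Ω u, B.aff P0 pc X / lam + B.aff W0 wc X / tau ≤ Θ →
      -ε0 ≤ B.aff P0 pc X / lam ∧ -ε0 ≤ B.aff W0 wc X / tau := by
    intro X hX hle
    have := h.bdd lam tau hg 1 1 le_rfl (by norm_num) le_rfl (by norm_num) X hX
      (by rw [one_mul, one_mul]; exact hle)
    refine ⟨?_, ?_⟩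
    · rw [le_div_iff₀ hlam]; linarith [this.2.1]
    · rw [le_div_iff₀ htau]; linarith [this.2.2]
  have hb2 : ∀ X ∈ epi Ω u, B.aff P0 pc X / lam + 2 * (B.aff W0 wc X / tau) ≤ Θ →
      -ε0 ≤ B.aff W0 wc X / tau := by
    intro X hX hle
    have := h.bdd lam tau hg 1 2 le_rfl (by norm_num) (by norm_num) le_rfl X hX
      (by rw [one_mul, mul_div_assoc]; exact hle)
    rw [le_div_iff₀ htau]; linarith [this.2.2]
  -- compactness
  have hcpt := h.cpt lam tau hg 1 1 le_rfl (by norm_num) le_rfl (by norm_num) Θ le_rfl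
  have hsub : {x | x ∈ Ω ∧ B.aff P0 pc (x, u x) / lam + B.aff W0 wc (x, u x) / tau < Θ} ⊆
      {x | x ∈ Ω ∧ 1 * B.aff P0 pc (x, u x) / lam + 1 * B.aff W0 wc (x, u x) / tau ≤ Θ} := by
    intro x hx
    refine ⟨hx.1, ?_⟩
    rw [one_mul, one_mul]; exact hx.2.le
  have hclsub := closure_minimal hsub hcpt.isClosed
  -- positivity of V
  have hVeq : ∀ x, Bla.VQ u (Q lam tau) x = Bla.rho u x * sg u (Q lam tau - (x, u x)) x := by
    intro x
    unfold Bla.VQ sg
    simp
  have hNeq : ∀ x, Bla.Nv u (es lam tau) x = Bla.rho u x * sg u (es lam tau) x := fun x => rfl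
  have hNpos : ∀ x ∈ Ω, B.aff P0 pc (x, u x) / lam + B.aff W0 wc (x, u x) / tau < Θ →
      0 < Bla.Nv u (es lam tau) x := by
    intro x hx hlt
    rw [hNeq]
    exact mul_pos (Bla.rho_pos hsc hx) (h.sg_es lam tau hg x hx hlt.le)
  have hVge : ∀ x ∈ Ω, B.aff P0 pc (x, u x) / lam + B.aff W0 wc (x, u x) / tau < Θ →
      Bla.Nv u (es lam tau) x / C0 ≤ Bla.VQ u (Q lam tau) x := by
    intro x hx hlt
    have h2 := h.V_ge lam tau hg x hx hlt.le
    rw [hNeq, hVeq, mul_div_assoc]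
    refine mul_le_mul_of_nonneg_left ?_ (Bla.rho_pos hsc hx).le
    rw [div_le_iff₀ hC0]; linarith
  have hVpos : ∀ x ∈ Ω, B.aff P0 pc (x, u x) / lam + B.aff W0 wc (x, u x) / tau < Θ →
      0 < Bla.VQ u (Q lam tau) x := fun x hx hlt =>
    lt_of_lt_of_le (div_pos (hNpos x hx hlt) hC0) (hVge x hx hlt)
  have hDm : MeasurableSet {x | x ∈ Ω ∧ B.aff P0 pc (x, u x) / lam +
      B.aff W0 wc (x, u x) / tau < Θ} := by
    have hc : ContinuousOn (fun x => Bla.aff u P0 pc x / lam + Bla.aff u W0 wc x / tau) Ω :=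
      ((Bla.contDiffOn_aff hsc P0 pc).continuousOn.div_const _).add
        ((Bla.contDiffOn_aff hsc W0 wc).continuousOn.div_const _)
    exact (hc.isOpen_inter_preimage hsc.isOpen isOpen_Iio).measurableSet
  -- the point Q
  have hQm := h.Q_mem lam tau hg 0 (by rw [map_zero]; exact h.c2_pos.le)
  rw [add_zero] at hQm
  have hQb := hb1 _ hQm.1 (by linarith [hQm.2])
  have main := energy_box (Ω := Ω) hsc.isOpen (A := Am u) (fun x hx => Am_posSemidef hsc hx)
    (fun i j => (contDiffOn_Am hsc i j).continuousOn)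
    (P := Bla.aff u P0 pc) (W := Bla.aff u W0 wc) (V := Bla.VQ u (Q lam tau))
    (r := fun x => 1 / Bla.rho u x)
    ((Bla.contDiffOn_aff hsc P0 pc).of_le hle1) ((Bla.contDiffOn_aff hsc W0 wc).of_le hle1)
    (Bla.contDiffOn_VQ hsc _).continuousOn
    (continuousOn_const.div (Bla.contDiffOn_rho hsc).continuousOn
      fun x hx => (Bla.rho_pos hsc hx).ne')
    (fun x hx => (one_div_pos.mpr (Bla.rho_pos hsc hx)).le)
    (lam := lam) (tau := tau) (Θ := Θ) (K := Θ) (ε := ε0)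
    (qP := B.aff P0 pc (Q lam tau)) (qW := B.aff W0 wc (Q lam tau))
    (M0 := C0 ^ ((n : ℝ) / 2) * Cm)
    hlam htau (by linarith) hε0 (by linarith) (by linarith)
    (hcpt.of_isClosed_subset isClosed_closure hclsub)
    (hclsub.trans fun x hx => hx.1)
    hVpos
    (fun x hx hlt => (hb1 _ (hepi x hx) hlt.le).1)
    (fun x hx hlt => (hb1 _ (hepi x hx) hlt.le).2)
    (fun x hx hle => by
      have := hb2 _ (hepi x hx) (le_trans hle (by linarith))
      change B.aff P0 pc (x, u x) / lam + 2 * (B.aff W0 wc (x, u x) / tau) ≤ 3 * Θ / 4 at hle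
      change B.aff P0 pc (x, u x) / lam + B.aff W0 wc (x, u x) / tau < Θ
      linarith)
    (by linarith [hQm.2])
    (by linarith [hQm.2, hQb.1, hQb.2])
    (fun s t c hc1 hc2 hc3 => by
      have e1 : (fun x => s * Bla.aff u P0 pc x + t * Bla.aff u W0 wc x)
          = Bla.aff u (s • P0 + t • W0) (s * pc + t * wc) := by
        ext x
        unfold Bla.aff
        simp only [ContinuousLinearMap.add_apply, ContinuousLinearMap.smul_apply, smul_eq_mul]
        ring
      have e2 : s * B.aff P0 pc (Q lam tau) + t * B.aff W0 wc (Q lam tau)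
          = (s • P0 + t • W0) (Q lam tau) + (s * pc + t * wc) := by
        unfold B.aff
        simp only [ContinuousLinearMap.add_apply, ContinuousLinearMap.smul_apply, smul_eq_mul]
        ring
      have e3 : {x | x ∈ Ω ∧ s * Bla.aff u P0 pc x + t * Bla.aff u W0 wc x < c}
          = {x | x ∈ Ω ∧ Bla.aff u (s • P0 + t • W0) (s * pc + t * wc) x < c} := by
        ext x
        simp only [mem_setOf_eq, ← e1]
      rw [e3] at hc1 hc2 hc3
      rw [e1, e2]
      exact enIneq hsc hpde _ _ _ _ hc1 hc2 hc3)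
    (by positivity)
    (by
      refine le_trans ?_ ((mul_le_mul_right hm (ENNReal.ofReal (C0 ^ ((n : ℝ) / 2)))).trans
        (le_of_eq ?_))
      · rw [← lintegral_const_mul' _ _ ENNReal.ofReal_ne_top]
        refine setLIntegral_mono' hDm (fun x hx => ?_)
        · rw [← ENNReal.ofReal_mul (by positivity)]
          apply ENNReal.ofReal_le_ofReal
          have hN := hNpos x hx.1 hx.2
          have hV := hVge x hx.1 hx.2
          have hr : 0 ≤ 1 / Bla.rho u x := (one_div_pos.mpr (Bla.rho_pos hsc hx.1)).le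
          rw [← mul_assoc]
          refine mul_le_mul_of_nonneg_right ?_ hr
          calc Bla.VQ u (Q lam tau) x ^ (-(n : ℝ) / 2)
              ≤ (Bla.Nv u (es lam tau) x / C0) ^ (-(n : ℝ) / 2) := by
                apply Real.rpow_le_rpow_of_nonpos (div_pos hN hC0) hV
                have : (0 : ℝ) ≤ n := Nat.cast_nonneg n
                linarith
            _ = C0 ^ ((n : ℝ) / 2) * Bla.Nv u (es lam tau) x ^ (-(n : ℝ) / 2) := by
                rw [Real.div_rpow hN.le hC0.le, neg_div, Real.rpow_neg hC0.le]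
                rw [div_inv_eq_mul, mul_comm]
      · rw [← ENNReal.ofReal_mul (by positivity)])
  simp only [bil_Am] at main
  exact main

end Crest.Agent.R236.BCor
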