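import Mathlib
import Crest.Agent.R236.BApxDefs
import Crest.Agent.R236.CalcA

-- ▼ part R236/BTop1
section

/-! Row 236, Part B7 (helper14): the abstract conclusion.  On an approximant with a grid of size `N`
the certificate inequality, the energy bounds and the lower mass bounds are contradictory
for large `N`. -/

set_option autoImplicit false
open scoped ContDiff Topology ENNReal
open Set Filter MeasureTheory

noncomputable section

namespace Crest.Agent.R236.BTop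

/-- The inputs of B7 for one approximant on the grid `|a|,|b| ≤ N` (`lam = 2^a`, `tau = 2^b`):
`κ = 1 - n/2`, `C4` from the certificate, `CE` from the energy bound, `cV` from the conormal
comparison, `c4` from the lower mass bound on the boxes
`eps0*lam ≤ P ≤ Th*lam, eps0*tau ≤ W ≤ Th*tau`. -/
structure BDat {E : Type*} [NormedAddCommGroup E] [NormedSpace ℝ E] [MeasurableSpace E]
    (μ : Measure E) (κ C4 CE cV c4 eps0 Th : ℝ) (N : ℕ)
    (Ω : Set E) (P W NP NW rho : E → ℝ) (AA : E → (E →L[ℝ] ℝ) → ℝ) (V : ℤ → ℤ → E → ℝ) :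
    Prop where
  isOpen : IsOpen Ω
  P_smooth : ContDiffOn ℝ 1 P Ω
  W_smooth : ContDiffOn ℝ 1 W Ω
  comp : IsCompact {x | x ∈ Ω ∧ (2:ℝ)^(-(N:ℤ)) ≤ P x ∧ P x ≤ (2:ℝ)^(N:ℤ) ∧
    (2:ℝ)^(-(N:ℤ)) ≤ W x ∧ W x ≤ (2:ℝ)^(N:ℤ)}
  pos : ∀ x ∈ Ω, (2:ℝ)^(-(N:ℤ)) ≤ P x → P x ≤ (2:ℝ)^(N:ℤ) →
    (2:ℝ)^(-(N:ℤ)) ≤ W x → W x ≤ (2:ℝ)^(N:ℤ) → 0 < NP x ∧ 0 < NW x
  AA_zero : ∀ x, AA x 0 = 0
  AA_nonneg : ∀ x ∈ Ω, ∀ ξ, 0 ≤ AA x ξ
  AA_comb : ∀ x ∈ Ω, ∀ (s t : ℝ) (ξ η : E →L[ℝ] ℝ),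
    AA x (s • ξ + t • η) ≤ 2 * (s ^ 2 * AA x ξ + t ^ 2 * AA x η)
  cert : ∀ ζ : E → ℝ, ContDiff ℝ 1 ζ → HasCompactSupport ζ →
    tsupport ζ ⊆ {x | x ∈ Ω ∧ 0 < P x ∧ 0 < W x ∧ 0 < NP x ∧ 0 < NW x} →
    ∫⁻ x, ENNReal.ofReal (ζ x ^ 2 * ((P x * NP x + W x * NW x) ^ κ *
        (1 / (P x * NP x) + 1 / (W x * NW x)) / rho x)) ∂μ ≤
      ENNReal.ofReal C4 * ∫⁻ x, ENNReal.ofReal ((P x * NP x + W x * NW x) ^ κ *
        AA x (fderiv ℝ ζ x)) ∂μ
  energy : ∀ a b : ℤ, |a| ≤ N → |b| ≤ N →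
    ∫⁻ x in {x | x ∈ Ω ∧ P x / (2:ℝ)^a + W x / (2:ℝ)^b ≤ 2}, ENNReal.ofReal
      (V a b x ^ κ * (AA x (fderiv ℝ P x) / ((2:ℝ)^a) ^ 2 + AA x (fderiv ℝ W x) / ((2:ℝ)^b) ^ 2)) ∂μ
      ≤ ENNReal.ofReal CE
  comparison : ∀ a b : ℤ, |a| ≤ N → |b| ≤ N → ∀ x ∈ Ω, P x / (2:ℝ)^a + W x / (2:ℝ)^b ≤ 2 →
    0 < V a b x ∧ cV * V a b x ≤ (2:ℝ)^a * NP x + (2:ℝ)^b * NW x
  lower : ∀ a b : ℤ, |a| ≤ N → |b| ≤ N →
    ENNReal.ofReal c4 ≤ ∫⁻ x in {x | x ∈ Ω ∧ eps0 * (2:ℝ)^a ≤ P x ∧ P x ≤ Th * (2:ℝ)^a ∧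
      eps0 * (2:ℝ)^b ≤ W x ∧ W x ≤ Th * (2:ℝ)^b},
      ENNReal.ofReal ((P x * NP x + W x * NW x) ^ κ *
        (1 / (P x * NP x) + 1 / (W x * NW x)) / rho x) ∂μ

/-! ### the one-dimensional cut-off -/

/-- the cut-off on the log scale: `1` on `[-N+1,N-1]`, `0` outside `(-N,N)` -/
def eta (N : ℝ) (t : ℝ) : ℝ := Real.smoothTransition (t + N) * Real.smoothTransition (N - t)

lemma eta_nonneg (N t : ℝ) : 0 ≤ eta N t :=
  mul_nonneg (Real.smoothTransition.nonneg _) (Real.smoothTransition.nonneg _)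

lemma eta_le_one (N t : ℝ) : eta N t ≤ 1 :=
  mul_le_one₀ (Real.smoothTransition.le_one _) (Real.smoothTransition.nonneg _)
    (Real.smoothTransition.le_one _)

lemma eta_contDiff (N : ℝ) : ContDiff ℝ 1 (eta N) := by
  unfold eta
  have h := Real.smoothTransition.contDiff (n := 1)
  exact (h.comp (contDiff_id.add contDiff_const)).mul (h.comp (contDiff_const.sub contDiff_id))

lemma eta_eq_one {N t : ℝ} (h1 : -N + 1 ≤ t) (h2 : t ≤ N - 1) : eta N t = 1 := by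
  unfold eta
  rw [Real.smoothTransition.one_of_one_le (by linarith),
    Real.smoothTransition.one_of_one_le (by linarith), one_mul]

lemma eta_eq_zero {N t : ℝ} (h : t ≤ -N ∨ N ≤ t) : eta N t = 0 := by
  unfold eta
  rcases h with h | h
  · rw [Real.smoothTransition.zero_of_nonpos (by linarith), zero_mul]
  · rw [Real.smoothTransition.zero_of_nonpos (x := N - t) (by linarith), mul_zero]

/-- a universal bound for the derivative of the smooth transition -/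
lemma exists_deriv_bound : ∃ B : ℝ, 0 ≤ B ∧ ∀ t : ℝ, |deriv Real.smoothTransition t| ≤ B := by
  have hcont : Continuous (deriv Real.smoothTransition) :=
    (Real.smoothTransition.contDiff (n := 1)).continuous_deriv le_rfl
  obtain ⟨B, hB⟩ := (isCompact_Icc (a := (0:ℝ)) (b := 1)).exists_bound_of_continuousOn
    hcont.continuousOn
  refine ⟨B, (norm_nonneg _).trans (hB 0 (by simp)), fun t => ?_⟩
  by_cases ht : t ∈ Icc (0:ℝ) 1
  · exact hB t ht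
  · have : deriv Real.smoothTransition t = 0 := by
      rw [mem_Icc, not_and_or, not_le, not_le] at ht
      rcases ht with ht | ht
      · have : Real.smoothTransition =ᶠ[𝓝 t] fun _ => 0 := by
          filter_upwards [Iio_mem_nhds ht] with s hs
          exact Real.smoothTransition.zero_of_nonpos (le_of_lt hs)
        rw [this.deriv_eq]; simp
      · have : Real.smoothTransition =ᶠ[𝓝 t] fun _ => 1 := by
          filter_upwards [Ioi_mem_nhds ht] with s hs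
          exact Real.smoothTransition.one_of_one_le (le_of_lt hs)
        rw [this.deriv_eq]; simp
    rw [this, abs_zero]
    exact (norm_nonneg _).trans (hB 0 (by simp))

lemma deriv_eta_bound {B : ℝ} (hB : ∀ t : ℝ, |deriv Real.smoothTransition t| ≤ B) (N t : ℝ) :
    |deriv (eta N) t| ≤ 2 * B := by
  have hd : Differentiable ℝ Real.smoothTransition :=
    (Real.smoothTransition.contDiff (n := 1)).differentiable (by simp)
  have h1 : HasDerivAt (fun t => Real.smoothTransition (t + N))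
      (deriv Real.smoothTransition (t + N)) t := by
    have h := (hd (t + N)).hasDerivAt.comp t ((hasDerivAt_id' t).add_const N)
    simpa [Function.comp_def] using h
  have h2 : HasDerivAt (fun t => Real.smoothTransition (N - t))
      (-deriv Real.smoothTransition (N - t)) t := by
    have h := (hd (N - t)).hasDerivAt.comp t ((hasDerivAt_id' t).const_sub N)
    simpa [Function.comp_def] using h
  have h3 := h1.mul h2
  have : deriv (eta N) t = deriv Real.smoothTransition (t + N) * Real.smoothTransition (N - t) +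
      Real.smoothTransition (t + N) * -deriv Real.smoothTransition (N - t) := h3.deriv
  rw [this]
  have a1 := hB (t + N)
  have a2 := hB (N - t)
  have b1 := Real.smoothTransition.nonneg (t + N)
  have b2 := Real.smoothTransition.nonneg (N - t)
  have b3 := Real.smoothTransition.le_one (t + N)
  have b4 := Real.smoothTransition.le_one (N - t)
  have hB0 : 0 ≤ B := (abs_nonneg _).trans a1
  calc _ ≤ |deriv Real.smoothTransition (t + N) * Real.smoothTransition (N - t)| +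
      |Real.smoothTransition (t + N) * -deriv Real.smoothTransition (N - t)| := abs_add_le _ _
    _ = |deriv Real.smoothTransition (t + N)| * Real.smoothTransition (N - t) +
      Real.smoothTransition (t + N) * |deriv Real.smoothTransition (N - t)| := by
        rw [abs_mul, abs_mul, abs_neg, abs_of_nonneg b1, abs_of_nonneg b2]
    _ ≤ B * 1 + 1 * B := by
        gcongr
    _ = 2 * B := by ring

lemma deriv_eta_zero {N t : ℝ} (h : t < -N ∨ N < t ∨ (-N + 1 < t ∧ t < N - 1)) :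
    deriv (eta N) t = 0 := by
  rcases h with h | h | ⟨h, h'⟩
  · have : eta N =ᶠ[𝓝 t] fun _ => 0 := by
      filter_upwards [Iio_mem_nhds h] with s hs
      exact eta_eq_zero (Or.inl (le_of_lt hs))
    rw [this.deriv_eq]; simp
  · have : eta N =ᶠ[𝓝 t] fun _ => 0 := by
      filter_upwards [Ioi_mem_nhds h] with s hs
      exact eta_eq_zero (Or.inr (le_of_lt hs))
    rw [this.deriv_eq]; simp
  · have : eta N =ᶠ[𝓝 t] fun _ => 1 := by
      filter_upwards [Ioo_mem_nhds h h'] with s hs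
      exact eta_eq_one (le_of_lt hs.1) (le_of_lt hs.2)
    rw [this.deriv_eq]; simp

end Crest.Agent.R236.BTop
end
end

-- ▼ part R236/BTop2
section

set_option autoImplicit false
set_option linter.unusedSectionVars false
set_option linter.deprecated false
open scoped ContDiff Topology ENNReal
open Set Filter MeasureTheory

noncomputable section

namespace Crest.Agent.R236.BTop

/-- log base 2 -/
def lg (t : ℝ) : ℝ := Real.log t / Real.log 2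

lemma log2_pos : 0 < Real.log 2 := Real.log_pos (by norm_num)

lemma lg_le_iff {t : ℝ} (ht : 0 < t) (a : ℤ) : lg t ≤ a ↔ t ≤ (2:ℝ)^a := by
  unfold lg
  rw [div_le_iff₀ log2_pos, ← Real.log_zpow, Real.log_le_log_iff ht (by positivity)]

lemma le_lg_iff {t : ℝ} (ht : 0 < t) (a : ℤ) : (a:ℝ) ≤ lg t ↔ (2:ℝ)^a ≤ t := by
  unfold lg
  rw [le_div_iff₀ log2_pos, ← Real.log_zpow, Real.log_le_log_iff (by positivity) ht]

lemma lt_lg_iff {t : ℝ} (ht : 0 < t) (a : ℤ) : (a:ℝ) < lg t ↔ (2:ℝ)^a < t := by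
  rw [← not_le, lg_le_iff ht, not_le]

lemma lg_lt_iff {t : ℝ} (ht : 0 < t) (a : ℤ) : lg t < a ↔ t < (2:ℝ)^a := by
  rw [← not_le, le_lg_iff ht, not_le]

section
variable {E : Type*} [NormedAddCommGroup E] [NormedSpace ℝ E]

open Classical in
/-- the two-dimensional cut-off -/
def zeta (Ω : Set E) (P W : E → ℝ) (N : ℕ) (x : E) : ℝ :=
  if x ∈ Ω ∧ 0 < P x ∧ 0 < W x then eta N (lg (P x)) * eta N (lg (W x)) else 0

def KK (Ω : Set E) (P W : E → ℝ) (N : ℕ) : Set E :=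
  {x | x ∈ Ω ∧ (2:ℝ)^(-(N:ℤ)) ≤ P x ∧ P x ≤ (2:ℝ)^(N:ℤ) ∧
    (2:ℝ)^(-(N:ℤ)) ≤ W x ∧ W x ≤ (2:ℝ)^(N:ℤ)}

variable {Ω : Set E} {P W : E → ℝ} {N : ℕ}

lemma KK_pos {x : E} (hx : x ∈ KK Ω P W N) : x ∈ Ω ∧ 0 < P x ∧ 0 < W x :=
  ⟨hx.1, lt_of_lt_of_le (by positivity) hx.2.1, lt_of_lt_of_le (by positivity) hx.2.2.2.1⟩

lemma zeta_zero {x : E} (hx : x ∉ KK Ω P W N) : zeta Ω P W N x = 0 := by
  unfold zeta
  split_ifs with h
  · obtain ⟨h1, h2, h3⟩ := h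
    have hh : ∀ t : ℝ, 0 < t → ¬ ((2:ℝ)^(-(N:ℤ)) ≤ t ∧ t ≤ (2:ℝ)^(N:ℤ)) → eta N (lg t) = 0 := by
      intro t ht hn
      apply eta_eq_zero
      rw [not_and_or, not_le, not_le] at hn
      rcases hn with hn | hn
      · left
        have := (lg_lt_iff ht _).mpr hn
        push_cast at this
        exact this.le
      · right
        have := (lt_lg_iff ht _).mpr hn
        push_cast at this
        exact this.le
    by_cases hP : (2:ℝ)^(-(N:ℤ)) ≤ P x ∧ P x ≤ (2:ℝ)^(N:ℤ)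
    · have hW : ¬ ((2:ℝ)^(-(N:ℤ)) ≤ W x ∧ W x ≤ (2:ℝ)^(N:ℤ)) := by
        intro hW
        exact hx ⟨h1, hP.1, hP.2, hW.1, hW.2⟩
      rw [hh _ h3 hW, mul_zero]
    · rw [hh _ h2 hP, zero_mul]
  · rfl


lemma zeta_one {x : E} (hx : x ∈ Ω) (hP : (2:ℝ)^(-(N:ℤ)+1) ≤ P x) (hP' : P x ≤ (2:ℝ)^((N:ℤ)-1))
    (hW : (2:ℝ)^(-(N:ℤ)+1) ≤ W x) (hW' : W x ≤ (2:ℝ)^((N:ℤ)-1)) : zeta Ω P W N x = 1 := by
  have h2 : 0 < P x := lt_of_lt_of_le (by positivity) hP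
  have h3 : 0 < W x := lt_of_lt_of_le (by positivity) hW
  unfold zeta
  rw [if_pos ⟨hx, h2, h3⟩]
  have hh : ∀ t : ℝ, 0 < t → (2:ℝ)^(-(N:ℤ)+1) ≤ t → t ≤ (2:ℝ)^((N:ℤ)-1) →
      eta N (lg t) = 1 := by
    intro t ht h4 h5
    apply eta_eq_one
    · have := (le_lg_iff ht _).mpr h4
      push_cast at this
      exact this
    · have := (lg_le_iff ht _).mpr h5
      push_cast at this
      exact this
  rw [hh _ h2 hP hP', hh _ h3 hW hW', one_mul]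

lemma isOpen_gt (hΩ : IsOpen Ω) (hP : ContDiffOn ℝ 1 P Ω) (c : ℝ) : IsOpen {x | x ∈ Ω ∧ c < P x} := by
  have := hP.continuousOn.isOpen_inter_preimage hΩ (isOpen_Ioi (a := c))
  exact this

lemma isOpen_lt' (hΩ : IsOpen Ω) (hP : ContDiffOn ℝ 1 P Ω) (c : ℝ) : IsOpen {x | x ∈ Ω ∧ P x < c} := by
  have := hP.continuousOn.isOpen_inter_preimage hΩ (isOpen_Iio (a := c))
  exact this

lemma isOpen_UU (hΩ : IsOpen Ω) (hP : ContDiffOn ℝ 1 P Ω) (hW : ContDiffOn ℝ 1 W Ω) :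
    IsOpen {x | x ∈ Ω ∧ 0 < P x ∧ 0 < W x} := by
  have : {x | x ∈ Ω ∧ 0 < P x ∧ 0 < W x} = {x | x ∈ Ω ∧ 0 < P x} ∩ {x | x ∈ Ω ∧ 0 < W x} := by
    ext x; simp only [mem_setOf_eq, mem_inter_iff]; tauto
  rw [this]
  exact (isOpen_gt hΩ hP 0).inter (isOpen_gt hΩ hW 0)

lemma zeta_eventuallyEq (hΩ : IsOpen Ω) (hP : ContDiffOn ℝ 1 P Ω) (hW : ContDiffOn ℝ 1 W Ω)
    {x : E} (hx : x ∈ Ω ∧ 0 < P x ∧ 0 < W x) :
    zeta Ω P W N =ᶠ[𝓝 x] fun y => eta N (lg (P y)) * eta N (lg (W y)) := by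
  filter_upwards [(isOpen_UU hΩ hP hW).mem_nhds hx] with y hy
  unfold zeta
  rw [if_pos hy]

lemma contDiffAt_lg {f : E → ℝ} {x : E} (hf : ContDiffAt ℝ 1 f x) (hx : 0 < f x) :
    ContDiffAt ℝ 1 (fun y => lg (f y)) x := by
  unfold lg
  exact (hf.log hx.ne').div_const _

lemma zeta_contDiff (hΩ : IsOpen Ω) (hP : ContDiffOn ℝ 1 P Ω) (hW : ContDiffOn ℝ 1 W Ω)
    (hK : IsClosed (KK Ω P W N)) : ContDiff ℝ 1 (zeta Ω P W N) := by
  rw [contDiff_iff_contDiffAt]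
  intro x
  by_cases hx : x ∈ KK Ω P W N
  · have hx' := KK_pos hx
    refine ContDiffAt.congr_of_eventuallyEq ?_ (zeta_eventuallyEq hΩ hP hW hx')
    have h1 := contDiffAt_lg (hP.contDiffAt (hΩ.mem_nhds hx'.1)) hx'.2.1
    have h2 := contDiffAt_lg (hW.contDiffAt (hΩ.mem_nhds hx'.1)) hx'.2.2
    exact ((eta_contDiff N).contDiffAt.comp x h1).mul ((eta_contDiff N).contDiffAt.comp x h2)
  · have : zeta Ω P W N =ᶠ[𝓝 x] fun _ => 0 := by
      filter_upwards [hK.isOpen_compl.mem_nhds hx] with y hy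
      exact zeta_zero hy
    exact contDiffAt_const.congr_of_eventuallyEq this

lemma zeta_tsupport (hK : IsClosed (KK Ω P W N)) : tsupport (zeta Ω P W N) ⊆ KK Ω P W N := by
  apply closure_minimal _ hK
  intro x hx
  by_contra h
  exact hx (zeta_zero h)

/-- the coefficients of the differential of the cut-off -/
lemma fderiv_zeta (hΩ : IsOpen Ω) (hP : ContDiffOn ℝ 1 P Ω) (hW : ContDiffOn ℝ 1 W Ω)
    {x : E} (hx : x ∈ Ω ∧ 0 < P x ∧ 0 < W x) :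
    fderiv ℝ (zeta Ω P W N) x =
      (eta N (lg (W x)) * deriv (eta N) (lg (P x)) / (P x * Real.log 2)) • fderiv ℝ P x +
      (eta N (lg (P x)) * deriv (eta N) (lg (W x)) / (W x * Real.log 2)) • fderiv ℝ W x := by
  rw [(zeta_eventuallyEq hΩ hP hW hx).fderiv_eq]
  have key : ∀ f : E → ℝ, ContDiffOn ℝ 1 f Ω → 0 < f x → HasFDerivAt (fun y => eta N (lg (f y)))
      ((deriv (eta N) (lg (f x)) / (f x * Real.log 2)) • fderiv ℝ f x) x := by
    intro f hf hfx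
    have h1 : HasFDerivAt f (fderiv ℝ f x) x :=
      ((hf.contDiffAt (hΩ.mem_nhds hx.1)).differentiableAt (by simp)).hasFDerivAt
    have h2 : HasDerivAt lg ((f x)⁻¹ / Real.log 2) (f x) :=
      (Real.hasDerivAt_log hfx.ne').div_const _
    have h3 : HasDerivAt (eta N) (deriv (eta N) (lg (f x))) (lg (f x)) :=
      ((eta_contDiff N).differentiable (by simp) _).hasDerivAt
    have h4 := (h3.comp (f x) h2).comp_hasFDerivAt x h1
    refine h4.congr_fderiv ?_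
    congr 1
    have := log2_pos.ne'
    field_simp
  have h5 := (key P hP hx.2.1).mul (key W hW hx.2.2)
  refine (show fderiv ℝ (fun y => eta N (lg (P y)) * eta N (lg (W y))) x = _ from h5.fderiv).trans ?_
  ext v
  simp only [add_apply, smul_apply, smul_eq_mul]
  ring

lemma fderiv_zeta_zero (hK : IsClosed (KK Ω P W N)) {x : E} (hx : x ∉ KK Ω P W N) :
    fderiv ℝ (zeta Ω P W N) x = 0 := by
  have : zeta Ω P W N =ᶠ[𝓝 x] fun _ => 0 := by
    filter_upwards [hK.isOpen_compl.mem_nhds hx] with y hy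
    exact zeta_zero hy
  rw [this.fderiv_eq]
  simp

/-- dyadic boxes -/
def TT (Ω : Set E) (P W : E → ℝ) (a b : ℤ) : Set E :=
  {x | x ∈ Ω ∧ (2:ℝ)^(a-1) ≤ P x ∧ P x ≤ (2:ℝ)^a ∧ (2:ℝ)^(b-1) ≤ W x ∧ W x ≤ (2:ℝ)^b}

/-- the grid near the boundary -/
def Edge (N : ℕ) : Finset ℤ := {-(N:ℤ), -(N:ℤ)+1, (N:ℤ)-1, (N:ℤ)}

def Trans (N : ℕ) : Finset (ℤ × ℤ) :=
  (Edge N ×ˢ Finset.Icc (-(N:ℤ)) N) ∪ (Finset.Icc (-(N:ℤ)) N ×ˢ Edge N)

lemma card_Trans (N : ℕ) : (Trans N).card ≤ 8 * (2 * N + 1) := by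
  unfold Trans
  refine (Finset.card_union_le _ _).trans ?_
  rw [Finset.card_product, Finset.card_product]
  have h1 : (Edge N).card ≤ 4 := by
    unfold Edge
    exact Finset.card_le_four
  have h2 : (Finset.Icc (-(N:ℤ)) N).card = 2 * N + 1 := by
    rw [Int.card_Icc]; omega
  rw [h2]
  nlinarith

lemma Trans_abs {N : ℕ} (hN : 1 ≤ N) {a b : ℤ} (h : (a, b) ∈ Trans N) : |a| ≤ N ∧ |b| ≤ N := by
  unfold Trans Edge at h
  simp only [Finset.mem_union, Finset.mem_product, Finset.mem_insert, Finset.mem_singleton,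
    Finset.mem_Icc] at h
  rw [abs_le, abs_le]
  omega

lemma ceil_mem_Edge {N : ℕ} {t : ℝ} (h1 : -(N:ℝ) ≤ t) (h2 : t ≤ N)
    (hd : deriv (eta N) t ≠ 0) : ⌈t⌉ ∈ Edge N := by
  have h3 : ¬ (-(N:ℝ) + 1 < t ∧ t < N - 1) := fun h => hd (deriv_eta_zero (Or.inr (Or.inr h)))
  rw [not_and_or, not_lt, not_lt] at h3
  unfold Edge
  simp only [Finset.mem_insert, Finset.mem_singleton]
  have h4 : -(N:ℤ) ≤ ⌈t⌉ := by
    have : (-(N:ℝ)) ≤ (⌈t⌉ : ℝ) := h1.trans (Int.le_ceil t)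
    exact_mod_cast this
  have h5 : ⌈t⌉ ≤ (N:ℤ) := Int.ceil_le.mpr (by exact_mod_cast h2)
  rcases h3 with h3 | h3
  · have : ⌈t⌉ ≤ -(N:ℤ) + 1 := Int.ceil_le.mpr (by push_cast; exact h3)
    omega
  · have : (N:ℤ) - 1 ≤ ⌈t⌉ := by
      have : ((N:ℝ) - 1) ≤ (⌈t⌉ : ℝ) := h3.trans (Int.le_ceil t)
      exact_mod_cast this
    omega

lemma mem_TT_ceil {x : E} (hx : x ∈ KK Ω P W N) : x ∈ TT Ω P W ⌈lg (P x)⌉ ⌈lg (W x)⌉ := by
  obtain ⟨h1, h2, h3⟩ := KK_pos hx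
  have key : ∀ t : ℝ, 0 < t → (2:ℝ)^(⌈lg t⌉ - 1) ≤ t ∧ t ≤ (2:ℝ)^⌈lg t⌉ := by
    intro t ht
    refine ⟨(le_lg_iff ht _).mp ?_, (lg_le_iff ht _).mp (Int.le_ceil _)⟩
    push_cast
    linarith [Int.ceil_lt_add_one (lg t)]
  exact ⟨h1, (key _ h2).1, (key _ h2).2, (key _ h3).1, (key _ h3).2⟩

end

end Crest.Agent.R236.BTop
end
end

-- ▼ part R236/BTop3
section

set_option autoImplicit false
set_option linter.unusedSectionVars false
set_option linter.deprecated false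
open scoped ContDiff Topology ENNReal
open Set Filter MeasureTheory

noncomputable section

namespace Crest.Agent.R236.BTop

section
variable {E : Type*} [NormedAddCommGroup E] [NormedSpace ℝ E] [MeasurableSpace E] [BorelSpace E]
  {μ : Measure E} {κ C4 CE cV c4 eps0 Th : ℝ} {N : ℕ}
  {Ω : Set E} {P W NP NW rho : E → ℝ} {AA : E → (E →L[ℝ] ℝ) → ℝ} {V : ℤ → ℤ → E → ℝ}

lemma measurableSet_le (hΩ : IsOpen Ω) (hP : ContDiffOn ℝ 1 P Ω) (c : ℝ) :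
    MeasurableSet {x | x ∈ Ω ∧ P x ≤ c} := by
  have : {x | x ∈ Ω ∧ P x ≤ c} = Ω \ {x | x ∈ Ω ∧ c < P x} := by
    ext x
    simp only [mem_setOf_eq, mem_diff, not_and, not_lt]
    tauto
  rw [this]
  exact hΩ.measurableSet.diff (isOpen_gt hΩ hP c).measurableSet

lemma measurableSet_ge (hΩ : IsOpen Ω) (hP : ContDiffOn ℝ 1 P Ω) (c : ℝ) :
    MeasurableSet {x | x ∈ Ω ∧ c ≤ P x} := by
  have : {x | x ∈ Ω ∧ c ≤ P x} = Ω \ {x | x ∈ Ω ∧ P x < c} := by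
    ext x
    simp only [mem_setOf_eq, mem_diff, not_and, not_lt]
    tauto
  rw [this]
  exact hΩ.measurableSet.diff (isOpen_lt' hΩ hP c).measurableSet

lemma measurableSet_box (hΩ : IsOpen Ω) (hP : ContDiffOn ℝ 1 P Ω) (hW : ContDiffOn ℝ 1 W Ω)
    (c1 c2 c3 c4 : ℝ) :
    MeasurableSet {x | x ∈ Ω ∧ c1 ≤ P x ∧ P x ≤ c2 ∧ c3 ≤ W x ∧ W x ≤ c4} := by
  have : {x | x ∈ Ω ∧ c1 ≤ P x ∧ P x ≤ c2 ∧ c3 ≤ W x ∧ W x ≤ c4} =
      ({x | x ∈ Ω ∧ c1 ≤ P x} ∩ {x | x ∈ Ω ∧ P x ≤ c2}) ∩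
      ({x | x ∈ Ω ∧ c3 ≤ W x} ∩ {x | x ∈ Ω ∧ W x ≤ c4}) := by
    ext x
    simp only [mem_setOf_eq, mem_inter_iff]
    tauto
  rw [this]
  exact ((measurableSet_ge hΩ hP _).inter (measurableSet_le hΩ hP _)).inter
    ((measurableSet_ge hΩ hW _).inter (measurableSet_le hΩ hW _))

/-- pointwise bound of the right-hand integrand on a dyadic box -/
lemma pointwise_bound (hκ : κ ≤ 0) (hcV : 0 < cV) {B : ℝ}
    (hB : ∀ t : ℝ, |deriv Real.smoothTransition t| ≤ B)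
    (D : BDat μ κ C4 CE cV c4 eps0 Th N Ω P W NP NW rho AA V) {a b : ℤ} (ha : |a| ≤ N)
    (hb : |b| ≤ N) {x : E} (hx : x ∈ TT Ω P W a b) (hxK : x ∈ KK Ω P W N) :
    (P x * NP x + W x * NW x) ^ κ * AA x (fderiv ℝ (zeta Ω P W N) x) ≤
      ((cV / 2) ^ κ * (32 * (B / Real.log 2) ^ 2)) * (V a b x ^ κ *
        (AA x (fderiv ℝ P x) / ((2:ℝ)^a) ^ 2 + AA x (fderiv ℝ W x) / ((2:ℝ)^b) ^ 2)) := by
  obtain ⟨hΩx, hP0, hW0⟩ := KK_pos hxK
  obtain ⟨hNP, hNW⟩ := D.pos x hΩx hxK.2.1 hxK.2.2.1 hxK.2.2.2.1 hxK.2.2.2.2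
  obtain ⟨-, p1, p2, w1, w2⟩ := hx
  have ta : (0:ℝ) < 2^a := by positivity
  have tb : (0:ℝ) < 2^b := by positivity
  have e1 : (2:ℝ)^(a-1) = 2^a / 2 := by rw [zpow_sub_one₀ (by norm_num)]; ring
  have e2 : (2:ℝ)^(b-1) = 2^b / 2 := by rw [zpow_sub_one₀ (by norm_num)]; ring
  rw [e1] at p1
  rw [e2] at w1
  have hle : P x / (2:ℝ)^a + W x / (2:ℝ)^b ≤ 2 := by
    have h1 : P x / (2:ℝ)^a ≤ 1 := (div_le_one ta).mpr p2
    have h2 : W x / (2:ℝ)^b ≤ 1 := (div_le_one tb).mpr w2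
    linarith
  obtain ⟨hV, hV'⟩ := D.comparison a b ha hb x hΩx hle
  -- the weight
  have hw : (P x * NP x + W x * NW x) ^ κ ≤ (cV / 2) ^ κ * V a b x ^ κ := by
    rw [← Real.mul_rpow (by positivity) hV.le]
    apply Real.rpow_le_rpow_of_nonpos (by positivity) _ hκ
    have h1 : (2:ℝ)^a / 2 * NP x ≤ P x * NP x := mul_le_mul_of_nonneg_right p1 hNP.le
    have h2 : (2:ℝ)^b / 2 * NW x ≤ W x * NW x := mul_le_mul_of_nonneg_right w1 hNW.le
    nlinarith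
  -- the differential
  have hd : AA x (fderiv ℝ (zeta Ω P W N) x) ≤ (32 * (B / Real.log 2) ^ 2) *
      (AA x (fderiv ℝ P x) / ((2:ℝ)^a) ^ 2 + AA x (fderiv ℝ W x) / ((2:ℝ)^b) ^ 2) := by
    rw [fderiv_zeta D.isOpen D.P_smooth D.W_smooth ⟨hΩx, hP0, hW0⟩]
    refine (D.AA_comb x hΩx _ _ _ _).trans ?_
    have hB0 : 0 ≤ B := (abs_nonneg _).trans (hB 0)
    have key : ∀ (p q t w : ℝ), 0 < t → t / 2 ≤ p → 0 ≤ w → w ≤ 1 →
        (w * deriv (eta N) q / (p * Real.log 2)) ^ 2 ≤ 16 * (B / Real.log 2) ^ 2 / t ^ 2 := by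
      intro p q t w ht htp hw0 hw1
      have hp : 0 < p := by linarith
      have h1 : |w * deriv (eta N) q| ≤ 2 * B := by
        rw [abs_mul, abs_of_nonneg hw0]
        calc w * |deriv (eta N) q| ≤ 1 * (2 * B) := by
              gcongr
              exact deriv_eta_bound hB _ _
          _ = 2 * B := one_mul _
      have h2 : (w * deriv (eta N) q) ^ 2 ≤ (2 * B) ^ 2 := by
        rw [← sq_abs]; gcongr
      have hl := log2_pos
      rw [div_pow, div_pow, div_le_div_iff₀ (by positivity) (by positivity)]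
      have h3 : t ^ 2 ≤ 4 * p ^ 2 := by nlinarith
      calc (w * deriv (eta N) q) ^ 2 * t ^ 2 ≤ (2 * B) ^ 2 * (4 * p ^ 2) := by gcongr
        _ = 16 * (B ^ 2 / Real.log 2 ^ 2) * (p * Real.log 2) ^ 2 := by field_simp; ring
    have k1 := key (P x) (lg (P x)) (2^a) (eta N (lg (W x))) ta p1 (eta_nonneg _ _) (eta_le_one _ _)
    have k2 := key (W x) (lg (W x)) (2^b) (eta N (lg (P x))) tb w1 (eta_nonneg _ _) (eta_le_one _ _)
    have n1 := D.AA_nonneg x hΩx (fderiv ℝ P x)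
    have n2 := D.AA_nonneg x hΩx (fderiv ℝ W x)
    calc _ ≤ 2 * (16 * (B / Real.log 2) ^ 2 / ((2:ℝ)^a) ^ 2 * AA x (fderiv ℝ P x) +
          16 * (B / Real.log 2) ^ 2 / ((2:ℝ)^b) ^ 2 * AA x (fderiv ℝ W x)) := by gcongr
      _ = _ := by ring
  have hA0 := D.AA_nonneg x hΩx (fderiv ℝ (zeta Ω P W N) x)
  have hV0 : 0 ≤ V a b x ^ κ := Real.rpow_nonneg hV.le _
  have hc0 : 0 ≤ (cV / 2) ^ κ := Real.rpow_nonneg (by positivity) _
  calc _ ≤ ((cV / 2) ^ κ * V a b x ^ κ) * ((32 * (B / Real.log 2) ^ 2) *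
      (AA x (fderiv ℝ P x) / ((2:ℝ)^a) ^ 2 + AA x (fderiv ℝ W x) / ((2:ℝ)^b) ^ 2)) := by
        gcongr
    _ = _ := by ring

/-- energy of the cut-off on one dyadic box -/
lemma box_energy (hκ : κ ≤ 0) (hcV : 0 < cV) {B : ℝ} (hK : IsClosed (KK Ω P W N))
    (hB : ∀ t : ℝ, |deriv Real.smoothTransition t| ≤ B)
    (D : BDat μ κ C4 CE cV c4 eps0 Th N Ω P W NP NW rho AA V) {a b : ℤ} (ha : |a| ≤ N)
    (hb : |b| ≤ N) :
    ∫⁻ x in TT Ω P W a b, ENNReal.ofReal ((P x * NP x + W x * NW x) ^ κ *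
        AA x (fderiv ℝ (zeta Ω P W N) x)) ∂μ ≤
      ENNReal.ofReal ((cV / 2) ^ κ * (32 * (B / Real.log 2) ^ 2)) * ENNReal.ofReal CE := by
  have hc0 : 0 ≤ (cV / 2) ^ κ * (32 * (B / Real.log 2) ^ 2) :=
    mul_nonneg (Real.rpow_nonneg (by positivity) _) (by positivity)
  have hsub : TT Ω P W a b ⊆ {x | x ∈ Ω ∧ P x / (2:ℝ)^a + W x / (2:ℝ)^b ≤ 2} := by
    intro x hx
    refine ⟨hx.1, ?_⟩
    have h1 : P x / (2:ℝ)^a ≤ 1 := (div_le_one (by positivity)).mpr hx.2.2.1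
    have h2 : W x / (2:ℝ)^b ≤ 1 := (div_le_one (by positivity)).mpr hx.2.2.2.2
    linarith
  calc _ ≤ ∫⁻ x in TT Ω P W a b, ENNReal.ofReal ((cV / 2) ^ κ * (32 * (B / Real.log 2) ^ 2)) *
        ENNReal.ofReal (V a b x ^ κ *
        (AA x (fderiv ℝ P x) / ((2:ℝ)^a) ^ 2 + AA x (fderiv ℝ W x) / ((2:ℝ)^b) ^ 2)) ∂μ := by
        apply setLIntegral_mono' (measurableSet_box D.isOpen D.P_smooth D.W_smooth _ _ _ _)
        intro x hx
        rw [← ENNReal.ofReal_mul hc0]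
        by_cases hxK : x ∈ KK Ω P W N
        · exact ENNReal.ofReal_le_ofReal (pointwise_bound hκ hcV hB D ha hb hx hxK)
        · rw [fderiv_zeta_zero hK hxK, D.AA_zero, mul_zero, ENNReal.ofReal_zero]
          exact zero_le
    _ ≤ ∫⁻ x in {x | x ∈ Ω ∧ P x / (2:ℝ)^a + W x / (2:ℝ)^b ≤ 2},
        ENNReal.ofReal ((cV / 2) ^ κ * (32 * (B / Real.log 2) ^ 2)) *
        ENNReal.ofReal (V a b x ^ κ *
        (AA x (fderiv ℝ P x) / ((2:ℝ)^a) ^ 2 + AA x (fderiv ℝ W x) / ((2:ℝ)^b) ^ 2)) ∂μ :=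
        lintegral_mono_set hsub
    _ = ENNReal.ofReal ((cV / 2) ^ κ * (32 * (B / Real.log 2) ^ 2)) *
        ∫⁻ x in {x | x ∈ Ω ∧ P x / (2:ℝ)^a + W x / (2:ℝ)^b ≤ 2},
        ENNReal.ofReal (V a b x ^ κ *
        (AA x (fderiv ℝ P x) / ((2:ℝ)^a) ^ 2 + AA x (fderiv ℝ W x) / ((2:ℝ)^b) ^ 2)) ∂μ :=
        lintegral_const_mul' _ _ ENNReal.ofReal_ne_top
    _ ≤ _ := by
        gcongr
        exact D.energy a b ha hb

/-- a finite-union bound for `∫⁻` without measurability -/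
lemma setLIntegral_biUnion_le {ι : Type*} (s : Finset ι) (T : ι → Set E) (f : E → ℝ≥0∞)
    {c : ℝ≥0∞} (h : ∀ i ∈ s, ∫⁻ x in T i, f x ∂μ ≤ c) :
    ∫⁻ x in ⋃ i ∈ s, T i, f x ∂μ ≤ s.card * c := by
  classical
  induction s using Finset.induction_on with
  | empty => simp
  | insert i s hi ih =>
    rw [Finset.set_biUnion_insert, Finset.card_insert_of_notMem hi]
    refine (lintegral_union_le _ _ _).trans ?_
    have h1 := h i (Finset.mem_insert_self _ _)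
    have h2 := ih fun j hj => h j (Finset.mem_insert_of_mem hj)
    calc _ ≤ c + s.card * c := add_le_add h1 h2
      _ = _ := by push_cast; ring

/-- the total energy of the cut-off -/
lemma total_energy (hN : 1 ≤ N) (hκ : κ ≤ 0) (hcV : 0 < cV) {B : ℝ} (hK : IsClosed (KK Ω P W N))
    (hB : ∀ t : ℝ, |deriv Real.smoothTransition t| ≤ B)
    (D : BDat μ κ C4 CE cV c4 eps0 Th N Ω P W NP NW rho AA V) :
    ∫⁻ x, ENNReal.ofReal ((P x * NP x + W x * NW x) ^ κ *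
        AA x (fderiv ℝ (zeta Ω P W N) x)) ∂μ ≤
      ((8 * (2 * N + 1) : ℕ) : ℝ≥0∞) *
      (ENNReal.ofReal ((cV / 2) ^ κ * (32 * (B / Real.log 2) ^ 2)) * ENNReal.ofReal CE) := by
  have hsupp : (Function.support fun x => ENNReal.ofReal ((P x * NP x + W x * NW x) ^ κ *
        AA x (fderiv ℝ (zeta Ω P W N) x))) ⊆ ⋃ i ∈ Trans N, TT Ω P W i.1 i.2 := by
    intro x hx
    rw [Function.mem_support] at hx
    have hd : fderiv ℝ (zeta Ω P W N) x ≠ 0 := by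
      intro h0
      apply hx
      rw [h0, D.AA_zero, mul_zero, ENNReal.ofReal_zero]
    have hxK : x ∈ KK Ω P W N := by
      by_contra h
      exact hd (fderiv_zeta_zero hK h)
    obtain ⟨h1, h2, h3⟩ := KK_pos hxK
    rw [fderiv_zeta D.isOpen D.P_smooth D.W_smooth ⟨h1, h2, h3⟩] at hd
    have hrange : ∀ t : ℝ, 0 < t → (2:ℝ)^(-(N:ℤ)) ≤ t → t ≤ (2:ℝ)^(N:ℤ) →
        -(N:ℝ) ≤ lg t ∧ lg t ≤ N := by
      intro t ht h4 h5
      have h6 := (le_lg_iff ht _).mpr h4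
      have h7 := (lg_le_iff ht _).mpr h5
      push_cast at h6 h7
      exact ⟨h6, h7⟩
    obtain ⟨r1, r2⟩ := hrange _ h2 hxK.2.1 hxK.2.2.1
    obtain ⟨r3, r4⟩ := hrange _ h3 hxK.2.2.2.1 hxK.2.2.2.2
    have hIcc : ∀ t : ℝ, -(N:ℝ) ≤ t → t ≤ N → ⌈t⌉ ∈ Finset.Icc (-(N:ℤ)) N := by
      intro t h6 h7
      rw [Finset.mem_Icc]
      constructor
      · have : (-(N:ℝ)) ≤ (⌈t⌉ : ℝ) := h6.trans (Int.le_ceil t)
        exact_mod_cast this
      · exact Int.ceil_le.mpr (by exact_mod_cast h7)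
    have hor : deriv (eta N) (lg (P x)) ≠ 0 ∨ deriv (eta N) (lg (W x)) ≠ 0 := by
      by_contra hcon
      push Not at hcon
      apply hd
      rw [hcon.1, hcon.2]
      simp
    simp only [mem_iUnion]
    refine ⟨(⌈lg (P x)⌉, ⌈lg (W x)⌉), ?_, mem_TT_ceil hxK⟩
    unfold Trans
    rw [Finset.mem_union, Finset.mem_product, Finset.mem_product]
    rcases hor with h | h
    · left
      exact ⟨ceil_mem_Edge r1 r2 h, hIcc _ r3 r4⟩
    · right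
      exact ⟨hIcc _ r1 r2, ceil_mem_Edge r3 r4 h⟩
  rw [← setLIntegral_eq_of_support_subset hsupp]
  refine (setLIntegral_biUnion_le (Trans N) _ _ (c := ENNReal.ofReal ((cV / 2) ^ κ *
    (32 * (B / Real.log 2) ^ 2)) * ENNReal.ofReal CE) ?_).trans ?_
  · intro i hi
    obtain ⟨ha, hb⟩ := Trans_abs hN (a := i.1) (b := i.2) hi
    exact box_energy hκ hcV hK hB D ha hb
  · gcongr
    exact card_Trans N

end

end Crest.Agent.R236.BTop
end
end

-- ▼ part R236/BTop4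
section

set_option autoImplicit false
set_option linter.unusedSectionVars false
set_option linter.deprecated false
open scoped ContDiff Topology ENNReal
open Set Filter MeasureTheory

noncomputable section

namespace Crest.Agent.R236.BTop

section
variable {E : Type*} [NormedAddCommGroup E] [NormedSpace ℝ E] [MeasurableSpace E] [BorelSpace E]
  {μ : Measure E} {κ C4 CE cV c4 eps0 Th : ℝ} {N : ℕ}
  {Ω : Set E} {P W NP NW rho : E → ℝ} {AA : E → (E →L[ℝ] ℝ) → ℝ} {V : ℤ → ℤ → E → ℝ}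

/-- the mass boxes of B6 -/
def GG (Ω : Set E) (P W : E → ℝ) (eps0 Th : ℝ) (a b : ℤ) : Set E :=
  {x | x ∈ Ω ∧ eps0 * (2:ℝ)^a ≤ P x ∧ P x ≤ Th * (2:ℝ)^a ∧
      eps0 * (2:ℝ)^b ≤ W x ∧ W x ≤ Th * (2:ℝ)^b}

/-- the sparse grid -/
def Grid (J : ℕ) : Finset (ℤ × ℤ) := Finset.Icc (-(J:ℤ)) J ×ˢ Finset.Icc (-(J:ℤ)) J

lemma card_Grid (J : ℕ) : (Grid J).card = (2 * J + 1) ^ 2 := by
  unfold Grid
  have h2 : (Finset.Icc (-(J:ℤ)) J).card = 2 * J + 1 := by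
    rw [Int.card_Icc]; omega
  rw [Finset.card_product, h2, sq]

/-- lower bound for the left-hand side of the certificate inequality -/
lemma total_lower {k0 m0 J : ℕ} (hk0 : Th < eps0 * 2 ^ k0) (he : 0 < eps0)
    (_hT : 0 < Th) (hm1 : 1 ≤ eps0 * 2 ^ (m0 - 1)) (hm2 : Th ≤ 2 ^ (m0 - 1)) (hm0 : 1 ≤ m0)
    (hN : N = k0 * J + m0)
    (D : BDat μ κ C4 CE cV c4 eps0 Th N Ω P W NP NW rho AA V) :
    (((2 * J + 1) ^ 2 : ℕ) : ℝ≥0∞) * ENNReal.ofReal c4 ≤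
    ∫⁻ x, ENNReal.ofReal (zeta Ω P W N x ^ 2 * ((P x * NP x + W x * NW x) ^ κ *
        (1 / (P x * NP x) + 1 / (W x * NW x)) / rho x)) ∂μ := by
  set F : E → ℝ≥0∞ := fun x => ENNReal.ofReal ((P x * NP x + W x * NW x) ^ κ *
        (1 / (P x * NP x) + 1 / (W x * NW x)) / rho x) with hF
  set B : ℤ × ℤ → Set E := fun i => GG Ω P W eps0 Th (k0 * i.1) (k0 * i.2) with hBdef
  have hmeas : ∀ i, MeasurableSet (B i) := fun i =>
    measurableSet_box D.isOpen D.P_smooth D.W_smooth _ _ _ _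
  -- exponents
  have hgrid : ∀ i ∈ Finset.Icc (-(J:ℤ)) J, |(k0:ℤ) * i| + m0 ≤ N := by
    intro i hi
    rw [Finset.mem_Icc, ← abs_le] at hi
    rw [abs_mul, hN, Nat.abs_cast]
    push_cast
    have : (k0:ℤ) * |i| ≤ k0 * J := mul_le_mul_of_nonneg_left hi (by positivity)
    linarith
  -- separation
  have hsep : ∀ i j : ℤ, i < j → Th * (2:ℝ)^((k0:ℤ) * i) < eps0 * (2:ℝ)^((k0:ℤ) * j) := by
    intro i j hij
    have h1 : (2:ℝ)^((k0:ℤ) * i) * 2 ^ k0 ≤ (2:ℝ)^((k0:ℤ) * j) := by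
      rw [← zpow_natCast, ← zpow_add₀ (by norm_num)]
      apply zpow_le_zpow_right₀ (by norm_num)
      have : (k0:ℤ) * i + k0 = k0 * (i + 1) := by ring
      rw [this]
      exact mul_le_mul_of_nonneg_left (by omega) (by positivity)
    have h2 : (0:ℝ) < (2:ℝ)^((k0:ℤ) * i) := by positivity
    calc Th * (2:ℝ)^((k0:ℤ) * i) < eps0 * 2 ^ k0 * (2:ℝ)^((k0:ℤ) * i) := by gcongr
      _ = eps0 * ((2:ℝ)^((k0:ℤ) * i) * 2 ^ k0) := by ring
      _ ≤ _ := by gcongr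
  have hdisj : Set.PairwiseDisjoint (↑(Grid J)) B := by
    intro i _ j _ hij
    rw [Function.onFun, Set.disjoint_left]
    rintro x ⟨-, h1, h2, h3, h4⟩ ⟨-, h5, h6, h7, h8⟩
    apply hij
    ext
    · rcases lt_trichotomy i.1 j.1 with h | h | h
      · exact absurd (h5.trans h2) (not_le.mpr (hsep _ _ h))
      · exact h
      · exact absurd (h1.trans h6) (not_le.mpr (hsep _ _ h))
    · rcases lt_trichotomy i.2 j.2 with h | h | h
      · exact absurd (h7.trans h4) (not_le.mpr (hsep _ _ h))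
      · exact h
      · exact absurd (h3.trans h8) (not_le.mpr (hsep _ _ h))
  -- the cut-off is one on the boxes
  have hrange : ∀ (i : ℤ) (t : ℝ), i ∈ Finset.Icc (-(J:ℤ)) J → eps0 * (2:ℝ)^((k0:ℤ) * i) ≤ t →
      t ≤ Th * (2:ℝ)^((k0:ℤ) * i) → (2:ℝ)^(-(N:ℤ)+1) ≤ t ∧ t ≤ (2:ℝ)^((N:ℤ)-1) := by
    intro i t hi h1 h2
    have hg := hgrid i hi
    have hg1 := abs_le.mp (show |(k0:ℤ) * i| ≤ (N:ℤ) - m0 by linarith)
    constructor
    · refine le_trans ?_ h1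
      have h3 : (2:ℝ)^(-(N:ℤ)+1) ≤ (2:ℝ)^((k0:ℤ) * i) / 2 ^ (m0 - 1) := by
        rw [le_div_iff₀ (by positivity), ← zpow_natCast, ← zpow_add₀ (by norm_num)]
        apply zpow_le_zpow_right₀ (by norm_num)
        omega
      refine h3.trans ?_
      rw [div_le_iff₀ (by positivity)]
      have h2 : (0:ℝ) < (2:ℝ)^((k0:ℤ) * i) := by positivity
      nlinarith
    · refine h2.trans ?_
      calc Th * (2:ℝ)^((k0:ℤ) * i) ≤ 2 ^ (m0 - 1) * (2:ℝ)^((k0:ℤ) * i) := by gcongr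
        _ = (2:ℝ)^(((m0 - 1 : ℕ) : ℤ) + (k0:ℤ) * i) := by
          rw [← zpow_natCast, ← zpow_add₀ (by norm_num)]
        _ ≤ _ := by
          apply zpow_le_zpow_right₀ (by norm_num)
          omega
  have hone : ∀ i ∈ Grid J, ∀ x ∈ B i, zeta Ω P W N x = 1 := by
    intro i hi x hx
    unfold Grid at hi
    rw [Finset.mem_product] at hi
    obtain ⟨h0, h1, h2, h3, h4⟩ := hx
    obtain ⟨a1, a2⟩ := hrange _ _ hi.1 h1 h2
    obtain ⟨a3, a4⟩ := hrange _ _ hi.2 h3 h4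
    exact zeta_one h0 a1 a2 a3 a4
  calc (((2 * J + 1) ^ 2 : ℕ) : ℝ≥0∞) * ENNReal.ofReal c4 = ∑ _i ∈ Grid J, ENNReal.ofReal c4 := by
        rw [Finset.sum_const, card_Grid, nsmul_eq_mul]
    _ ≤ ∑ i ∈ Grid J, ∫⁻ x in B i, F x ∂μ := by
        apply Finset.sum_le_sum
        intro i hi
        unfold Grid at hi
        rw [Finset.mem_product] at hi
        have g1 := hgrid _ hi.1
        have g2 := hgrid _ hi.2
        exact D.lower _ _ (by omega) (by omega)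
    _ = ∫⁻ x in ⋃ i ∈ Grid J, B i, F x ∂μ :=
        (lintegral_biUnion_finset hdisj (fun i _ => hmeas i) F).symm
    _ ≤ ∫⁻ x in ⋃ i ∈ Grid J, B i, ENNReal.ofReal (zeta Ω P W N x ^ 2 *
        ((P x * NP x + W x * NW x) ^ κ * (1 / (P x * NP x) + 1 / (W x * NW x)) / rho x)) ∂μ := by
        apply setLIntegral_mono' ((Grid J).measurableSet_biUnion fun i _ => hmeas i)
        intro x hx
        simp only [mem_iUnion] at hx
        obtain ⟨i, hi, hx⟩ := hx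
        rw [hone i hi x hx, one_pow, one_mul]
    _ ≤ _ := setLIntegral_le_lintegral _ _

/-- **B7**: no data for large grids. -/
theorem no_BDat (κ C4 CE cV c4 eps0 Th : ℝ) (hκ : κ ≤ 0) (hcV : 0 < cV) (hc4 : 0 < c4)
    (he : 0 < eps0) (hT : 0 < Th) :
    ∃ N : ℕ, ∀ (μ : Measure E) (Ω : Set E) (P W NP NW rho : E → ℝ) (AA : E → (E →L[ℝ] ℝ) → ℝ)
      (V : ℤ → ℤ → E → ℝ), ¬ BDat μ κ C4 CE cV c4 eps0 Th N Ω P W NP NW rho AA V := by
  obtain ⟨B, hB0, hB⟩ := exists_deriv_bound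
  obtain ⟨k0, hk0⟩ := pow_unbounded_of_one_lt (Th / eps0) (one_lt_two (α := ℝ))
  obtain ⟨m, hm⟩ := pow_unbounded_of_one_lt (max Th (1 / eps0)) (one_lt_two (α := ℝ))
  set m0 := m + 1 with hm0
  have hk0' : Th < eps0 * 2 ^ k0 := by
    rw [div_lt_iff₀ he] at hk0; linarith
  have hm1 : 1 ≤ eps0 * 2 ^ (m0 - 1) := by
    have := (le_max_right Th (1 / eps0)).trans hm.le
    rw [div_le_iff₀ he] at this
    simpa [hm0, mul_comm] using this
  have hm2 : Th ≤ 2 ^ (m0 - 1) := by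
    simpa [hm0] using (le_max_left Th (1 / eps0)).trans hm.le
  set Q : ℝ := max C4 0 * (((cV / 2) ^ κ * (32 * (B / Real.log 2) ^ 2)) * max CE 0) with hQ
  have hQ0 : 0 ≤ Q := by
    have : 0 ≤ (cV / 2) ^ κ := Real.rpow_nonneg (by positivity) _
    positivity
  obtain ⟨J, hJ⟩ := exists_nat_gt (Q * (8 * (k0 + 2 * m0 + 1)) / c4)
  refine ⟨k0 * J + m0, ?_⟩
  intro μ Ω P W NP NW rho AA V D
  have hK : IsClosed (KK Ω P W (k0 * J + m0)) := D.comp.isClosed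
  have hN : 1 ≤ k0 * J + m0 := by omega
  have hpos := fun x (hx : x ∈ KK Ω P W (k0 * J + m0)) =>
    D.pos x hx.1 hx.2.1 hx.2.2.1 hx.2.2.2.1 hx.2.2.2.2
  have hsub : tsupport (zeta Ω P W (k0 * J + m0)) ⊆
      {x | x ∈ Ω ∧ 0 < P x ∧ 0 < W x ∧ 0 < NP x ∧ 0 < NW x} := by
    intro x hx
    have hx' := zeta_tsupport hK hx
    obtain ⟨h1, h2, h3⟩ := KK_pos hx'
    exact ⟨h1, h2, h3, (hpos x hx').1, (hpos x hx').2⟩
  have hcs : HasCompactSupport (zeta Ω P W (k0 * J + m0)) :=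
    D.comp.of_isClosed_subset (isClosed_tsupport _) (zeta_tsupport hK)
  have h1 := D.cert _ (zeta_contDiff D.isOpen D.P_smooth D.W_smooth hK) hcs hsub
  have h2 := total_lower hk0' he hT hm1 hm2 (by omega) rfl D
  have h3 := total_energy hN hκ hcV hK hB D
  have h4 : (((2 * J + 1) ^ 2 : ℕ) : ℝ≥0∞) * ENNReal.ofReal c4 ≤
      ENNReal.ofReal C4 * (((8 * (2 * (k0 * J + m0) + 1) : ℕ) : ℝ≥0∞) *
      (ENNReal.ofReal ((cV / 2) ^ κ * (32 * (B / Real.log 2) ^ 2)) * ENNReal.ofReal CE)) :=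
    h2.trans (h1.trans (by gcongr))
  have hcc : 0 ≤ (cV / 2) ^ κ * (32 * (B / Real.log 2) ^ 2) :=
    mul_nonneg (Real.rpow_nonneg (by positivity) _) (by positivity)
  have h5 : ENNReal.ofReal ((2 * J + 1) ^ 2 * c4) ≤
      ENNReal.ofReal (max C4 0 * ((8 * (2 * (k0 * J + m0) + 1)) *
      (((cV / 2) ^ κ * (32 * (B / Real.log 2) ^ 2)) * max CE 0))) := by
    rw [ENNReal.ofReal_mul (by positivity), ENNReal.ofReal_mul (le_max_right _ _),
      ENNReal.ofReal_mul (by positivity), ENNReal.ofReal_mul hcc]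
    have e1 : ENNReal.ofReal (max C4 0) = ENNReal.ofReal C4 := by
      rw [ENNReal.ofReal_max]; simp
    have e2 : ENNReal.ofReal (max CE 0) = ENNReal.ofReal CE := by
      rw [ENNReal.ofReal_max]; simp
    have e3 : ENNReal.ofReal ((2 * (J:ℝ) + 1) ^ 2) = (((2 * J + 1) ^ 2 : ℕ) : ℝ≥0∞) := by
      rw [← ENNReal.ofReal_natCast]; push_cast; rfl
    have e4 : ENNReal.ofReal (8 * (2 * ((k0:ℝ) * J + m0) + 1)) =
        ((8 * (2 * (k0 * J + m0) + 1) : ℕ) : ℝ≥0∞) := by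
      rw [← ENNReal.ofReal_natCast]; push_cast; rfl
    rw [e1, e2, e3, e4]
    exact h4
  rw [ENNReal.ofReal_le_ofReal_iff (by positivity)] at h5
  have h6 : max C4 0 * ((8 * (2 * ((k0:ℝ) * J + m0) + 1)) *
      (((cV / 2) ^ κ * (32 * (B / Real.log 2) ^ 2)) * max CE 0)) ≤
      Q * (8 * ((2 * J + 1) * (k0 + 2 * m0 + 1))) := by
    have : (8 * (2 * ((k0:ℝ) * J + m0) + 1)) ≤ 8 * ((2 * J + 1) * (k0 + 2 * m0 + 1)) := by
      have hk : (0:ℝ) ≤ k0 := by positivity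
      have hm : (0:ℝ) ≤ m0 := by positivity
      have hJ0 : (0:ℝ) ≤ J := by positivity
      nlinarith [mul_nonneg hJ0 hm, mul_nonneg hJ0 hk]
    calc _ = Q * (8 * (2 * ((k0:ℝ) * J + m0) + 1)) := by rw [hQ]; ring
      _ ≤ _ := by gcongr
  rw [div_lt_iff₀ hc4] at hJ
  have hJ0 : (0:ℝ) ≤ J := by positivity
  have h7 : (2 * (J:ℝ) + 1) * ((2 * J + 1) * c4) ≤
      (2 * J + 1) * (Q * (8 * (k0 + 2 * m0 + 1))) := by nlinarith
  have h8 := le_of_mul_le_mul_left h7 (by positivity)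
  nlinarith

end

end Crest.Agent.R236.BTop
end
end

-- ▼ part R236/BFinal

/-! Row 236, Part B, final assembly (helper14): the three analytic node statements
(`CertStmt`, `EnergyStmt`, `LowerStmt`) and `STRUCT n → False`. -/

set_option autoImplicit false
set_option linter.unusedSectionVars false
set_option linter.deprecated false
open scoped ContDiff Topology ENNReal
open Crest.GeometryTopology.CoordMetric Crest.GeometryTopology.AffineMaximal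
open Set Filter MeasureTheory

noncomputable section

namespace Crest.Agent.R236.BF

open Crest.Agent.R236.A (EE epi SOL STRUCT)
open Crest.Agent.R236.B (VV aff sg Grid APX ApxStmt)
open Crest.Agent.R236.BTop (BDat no_BDat)

variable {n : ℕ}

/-- `ρ = det(D²u)^{-1/(n+2)}` (the same as `Bl.rho`, `Bla.rho`) -/
def rho (u : EE n → ℝ) (x : EE n) : ℝ := (hessianMat u x).det ^ (-(1:ℝ) / ((n:ℝ) + 2))

/-- `AA_x(ξ,ξ) = ρⁿ Σ cof_ij ξ(e_i) ξ(e_j)` -/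
def AA (u : EE n → ℝ) (x : EE n) (ξ : EE n →L[ℝ] ℝ) : ℝ :=
  rho u x ^ n * ∑ i, ∑ j, cof u x i j * ξ (EuclideanSpace.single i 1) * ξ (EuclideanSpace.single j 1)

/-- the certificate inequality (C4), constant depending only on `n` -/
def CertStmt (n : ℕ) : Prop := ∃ C4 : ℝ, ∀ (Ω : Set (EE n)) (u : EE n → ℝ), SC Ω u →
  (∀ x ∈ Ω, affineMaximalOp n u x = 0) →
  ∀ (P0 W0 : VV n →L[ℝ] ℝ) (pc wc : ℝ) (eP eW : VV n),
  P0 eP = 1 → P0 eW = 0 → W0 eP = 0 → W0 eW = 1 →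
  ∀ ζ : EE n → ℝ, ContDiff ℝ 1 ζ → HasCompactSupport ζ →
    tsupport ζ ⊆ {x | x ∈ Ω ∧ 0 < aff P0 pc (x, u x) ∧ 0 < aff W0 wc (x, u x) ∧
      0 < rho u x * sg u eP x ∧ 0 < rho u x * sg u eW x} →
    ∫⁻ x, ENNReal.ofReal (ζ x ^ 2 * ((aff P0 pc (x, u x) * (rho u x * sg u eP x) +
        aff W0 wc (x, u x) * (rho u x * sg u eW x)) ^ (1 - (n:ℝ) / 2) *
        (1 / (aff P0 pc (x, u x) * (rho u x * sg u eP x)) +
          1 / (aff W0 wc (x, u x) * (rho u x * sg u eW x))) / rho u x)) ≤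
      ENNReal.ofReal C4 * ∫⁻ x, ENNReal.ofReal ((aff P0 pc (x, u x) * (rho u x * sg u eP x) +
        aff W0 wc (x, u x) * (rho u x * sg u eW x)) ^ (1 - (n:ℝ) / 2) * AA u x (fderiv ℝ ζ x))

/-- the box energy bound (B4 + B3), constant depending only on `n, Θ, K, c2, C0` -/
def EnergyStmt (n : ℕ) : Prop := ∀ Θ K c2 C0 : ℝ, 16 ≤ Θ → 0 < K → 0 < c2 → 1 ≤ C0 → ∃ CE : ℝ,
  ∀ (N : ℕ) (ε0 : ℝ), 0 < ε0 → ε0 ≤ 1 → ∀ (Ω : Set (EE n)) (u : EE n → ℝ) (P0 W0 : VV n →L[ℝ] ℝ)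
    (pc wc : ℝ) (eP eW O : VV n) (es Q : ℝ → ℝ → VV n) (nrm : ℝ → ℝ → Seminorm ℝ (VV n)),
    APX n Θ K c2 C0 N ε0 Ω u P0 W0 pc wc eP eW O es Q nrm →
    ∀ a b : ℤ, |a| ≤ (N:ℤ) → |b| ≤ (N:ℤ) →
    ∫⁻ x in {x | x ∈ Ω ∧ aff P0 pc (x, u x) / (2:ℝ)^a + aff W0 wc (x, u x) / (2:ℝ)^b ≤ 2},
      ENNReal.ofReal ((rho u x * sg u (Q ((2:ℝ)^a) ((2:ℝ)^b) - (x, u x)) x) ^ (1 - (n:ℝ) / 2) *
        (AA u x (fderiv ℝ (fun y => aff P0 pc (y, u y)) x) / ((2:ℝ)^a) ^ 2 +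
         AA u x (fderiv ℝ (fun y => aff W0 wc (y, u y)) x) / ((2:ℝ)^b) ^ 2))
      ≤ ENNReal.ofReal CE

/-- the lower mass bound (B6), constants depending only on `n, Θ, K, c2, C0` -/
def LowerStmt (n : ℕ) : Prop := ∀ Θ K c2 C0 : ℝ, 16 ≤ Θ → 0 < K → 0 < c2 → 1 ≤ C0 →
  ∃ ε0 c4 Th : ℝ, 0 < ε0 ∧ ε0 ≤ 1 ∧ 0 < c4 ∧ 0 < Th ∧
  ∀ (N : ℕ) (Ω : Set (EE n)) (u : EE n → ℝ) (P0 W0 : VV n →L[ℝ] ℝ)
    (pc wc : ℝ) (eP eW O : VV n) (es Q : ℝ → ℝ → VV n) (nrm : ℝ → ℝ → Seminorm ℝ (VV n)),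
    APX n Θ K c2 C0 N ε0 Ω u P0 W0 pc wc eP eW O es Q nrm →
    ∀ a b : ℤ, |a| ≤ (N:ℤ) → |b| ≤ (N:ℤ) →
    ENNReal.ofReal c4 ≤ ∫⁻ x in {x | x ∈ Ω ∧ ε0 * (2:ℝ)^a ≤ aff P0 pc (x, u x) ∧
        aff P0 pc (x, u x) ≤ Th * (2:ℝ)^a ∧ ε0 * (2:ℝ)^b ≤ aff W0 wc (x, u x) ∧
        aff W0 wc (x, u x) ≤ Th * (2:ℝ)^b},
      ENNReal.ofReal ((aff P0 pc (x, u x) * (rho u x * sg u eP x) +
        aff W0 wc (x, u x) * (rho u x * sg u eW x)) ^ (1 - (n:ℝ) / 2) *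
        (1 / (aff P0 pc (x, u x) * (rho u x * sg u eP x)) +
          1 / (aff W0 wc (x, u x) * (rho u x * sg u eW x))) / rho u x)

/-! ### elementary facts -/

lemma rho_pos {Ω : Set (EE n)} {u : EE n → ℝ} (h : SC Ω u) {x : EE n} (hx : x ∈ Ω) :
    0 < rho u x := Real.rpow_pos_of_pos (h.posDef x hx).det_pos _

lemma AA_zero (u : EE n → ℝ) (x : EE n) : AA u x 0 = 0 := by
  unfold AA; simp

lemma quad_nonneg {Ω : Set (EE n)} {u : EE n → ℝ} (h : SC Ω u) {x : EE n} (hx : x ∈ Ω)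
    (v : Fin n → ℝ) : 0 ≤ ∑ i, ∑ j, cof u x i j * v i * v j := by
  have h1 := (h.cof_posDef hx).posSemidef.dotProduct_mulVec_nonneg v
  simp only [star_trivial, dotProduct, Matrix.mulVec] at h1
  refine h1.trans (le_of_eq ?_)
  refine Finset.sum_congr rfl fun i _ => ?_
  rw [Finset.mul_sum]
  refine Finset.sum_congr rfl fun j _ => ?_
  ring

lemma AA_nonneg {Ω : Set (EE n)} {u : EE n → ℝ} (h : SC Ω u) {x : EE n} (hx : x ∈ Ω)
    (ξ : EE n →L[ℝ] ℝ) : 0 ≤ AA u x ξ :=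
  mul_nonneg (pow_nonneg (rho_pos h hx).le _)
    (quad_nonneg h hx fun i => ξ (EuclideanSpace.single i 1))

lemma AA_comb {Ω : Set (EE n)} {u : EE n → ℝ} (h : SC Ω u) {x : EE n} (hx : x ∈ Ω)
    (s t : ℝ) (ξ η : EE n →L[ℝ] ℝ) :
    AA u x (s • ξ + t • η) ≤ 2 * (s ^ 2 * AA u x ξ + t ^ 2 * AA u x η) := by
  have h0 := AA_nonneg h hx (s • ξ - t • η)
  have key : AA u x (s • ξ + t • η) + AA u x (s • ξ - t • η) =
      2 * (s ^ 2 * AA u x ξ + t ^ 2 * AA u x η) := by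
    unfold AA
    rw [← mul_add, ← Finset.sum_add_distrib]
    have : ∀ i, (∑ j, cof u x i j * (s • ξ + t • η) (EuclideanSpace.single i 1) *
        (s • ξ + t • η) (EuclideanSpace.single j 1)) + (∑ j, cof u x i j *
        (s • ξ - t • η) (EuclideanSpace.single i 1) *
        (s • ξ - t • η) (EuclideanSpace.single j 1)) =
        2 * s ^ 2 * (∑ j, cof u x i j * ξ (EuclideanSpace.single i 1) *
          ξ (EuclideanSpace.single j 1)) +
        2 * t ^ 2 * (∑ j, cof u x i j * η (EuclideanSpace.single i 1) *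
          η (EuclideanSpace.single j 1)) := by
      intro i
      rw [← Finset.sum_add_distrib, Finset.mul_sum, Finset.mul_sum, ← Finset.sum_add_distrib]
      refine Finset.sum_congr rfl fun j _ => ?_
      simp only [add_apply, sub_apply, smul_apply, smul_eq_mul]
      ring
    rw [Finset.sum_congr rfl fun i _ => this i, Finset.sum_add_distrib, ← Finset.mul_sum,
      ← Finset.mul_sum]
    ring
  linarith

lemma contDiffOn_aff {Ω : Set (EE n)} {u : EE n → ℝ} (h : SC Ω u) (F : VV n →L[ℝ] ℝ) (c : ℝ) :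
    ContDiffOn ℝ 1 (fun y => aff F c (y, u y)) Ω := by
  unfold aff
  have h1 : ContDiffOn ℝ 1 u Ω := h.smooth.of_le (by simp)
  exact (F.contDiff.comp_contDiffOn (contDiffOn_id.prodMk h1)).add contDiffOn_const

/-- **Part B**: the structure theorem is contradictory. -/
theorem struct_false {n : ℕ} (hn : 2 ≤ n) (hApx : ApxStmt) (hC : CertStmt n) (hE : EnergyStmt n)
    (hL : LowerStmt n) : ¬ STRUCT n := by
  intro hS
  obtain ⟨Θ, K, c2, C0, hΘ, hK, hc2, hC0, H⟩ := hApx n (by omega) hS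
  obtain ⟨C4, hC4⟩ := hC
  obtain ⟨CE, hCE⟩ := hE Θ K c2 C0 hΘ hK hc2 hC0
  obtain ⟨ε0, c4, Th, hε0, hε1, hc4, hTh, hlow⟩ := hL Θ K c2 C0 hΘ hK hc2 hC0
  have hκ : (1 - (n:ℝ) / 2) ≤ 0 := by
    have : (2:ℝ) ≤ n := by exact_mod_cast hn
    linarith
  obtain ⟨N, hN⟩ := no_BDat (E := EE n) (1 - (n:ℝ) / 2) C4 CE (1 / (2 * C0)) c4 ε0 Th hκ
    (by positivity) hc4 hε0 hTh
  obtain ⟨Ω, u, P0, W0, pc, wc, eP, eW, O, es, Q, nrm, A⟩ := H N ε0 hε0
  have hsc := A.sol.sc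
  refine hN volume Ω (fun x => aff P0 pc (x, u x)) (fun x => aff W0 wc (x, u x))
    (fun x => rho u x * sg u eP x) (fun x => rho u x * sg u eW x) (rho u) (AA u)
    (fun a b x => rho u x * sg u (Q ((2:ℝ)^a) ((2:ℝ)^b) - (x, u x)) x) ?_
  have hgrid : ∀ a b : ℤ, |a| ≤ (N:ℤ) → |b| ≤ (N:ℤ) → Grid N ((2:ℝ)^a) ((2:ℝ)^b) :=
    fun a b ha hb => ⟨a, b, ha, hb, rfl, rfl⟩
  have hNN : Grid N ((2:ℝ)^(N:ℤ)) ((2:ℝ)^(N:ℤ)) :=
    hgrid _ _ (by rw [Nat.abs_cast]) (by rw [Nat.abs_cast])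
  have hle2 : ∀ x : EE n, aff P0 pc (x, u x) ≤ (2:ℝ)^(N:ℤ) → aff W0 wc (x, u x) ≤ (2:ℝ)^(N:ℤ) →
      aff P0 pc (x, u x) / (2:ℝ)^(N:ℤ) + aff W0 wc (x, u x) / (2:ℝ)^(N:ℤ) ≤ 2 := by
    intro x h1 h2
    have h3 : aff P0 pc (x, u x) / (2:ℝ)^(N:ℤ) ≤ 1 := (div_le_one (by positivity)).mpr h1
    have h4 : aff W0 wc (x, u x) / (2:ℝ)^(N:ℤ) ≤ 1 := (div_le_one (by positivity)).mpr h2
    linarith
  refine
    { isOpen := hsc.isOpen
      P_smooth := contDiffOn_aff hsc P0 pc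
      W_smooth := contDiffOn_aff hsc W0 wc
      comp := ?_
      pos := ?_
      AA_zero := AA_zero u
      AA_nonneg := fun x hx ξ => AA_nonneg hsc hx ξ
      AA_comb := fun x hx s t ξ η => AA_comb hsc hx s t ξ η
      cert := fun ζ h1 h2 h3 => hC4 Ω u hsc A.sol.pde P0 W0 pc wc eP eW A.PP A.PW A.WP A.WW
        ζ h1 h2 h3
      energy := fun a b ha hb => hCE N ε0 hε0 hε1 Ω u P0 W0 pc wc eP eW O es Q nrm A a b ha hb
      comparison := ?_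
      lower := fun a b ha hb => hlow N Ω u P0 W0 pc wc eP eW O es Q nrm A a b ha hb }
  · have hcpt := A.cpt _ _ hNN 1 1 le_rfl (by norm_num) le_rfl (by norm_num) 2 (by linarith)
    simp only [one_mul] at hcpt
    set K1 := {x | x ∈ Ω ∧ aff P0 pc (x, u x) / (2:ℝ)^(N:ℤ) + aff W0 wc (x, u x) / (2:ℝ)^(N:ℤ) ≤ 2}
      with hK1
    have hsub : K1 ⊆ Ω := fun x hx => hx.1
    have c1 := ((contDiffOn_aff hsc P0 pc).continuousOn.mono hsub).preimage_isClosed_of_isClosed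
      hcpt.isClosed (isClosed_Icc (a := (2:ℝ)^(-(N:ℤ))) (b := (2:ℝ)^(N:ℤ)))
    have c2 := ((contDiffOn_aff hsc W0 wc).continuousOn.mono hsub).preimage_isClosed_of_isClosed
      hcpt.isClosed (isClosed_Icc (a := (2:ℝ)^(-(N:ℤ))) (b := (2:ℝ)^(N:ℤ)))
    have hEq : {x | x ∈ Ω ∧ (2:ℝ)^(-(N:ℤ)) ≤ aff P0 pc (x, u x) ∧
        aff P0 pc (x, u x) ≤ (2:ℝ)^(N:ℤ) ∧ (2:ℝ)^(-(N:ℤ)) ≤ aff W0 wc (x, u x) ∧
        aff W0 wc (x, u x) ≤ (2:ℝ)^(N:ℤ)} =
        (K1 ∩ (fun y => aff P0 pc (y, u y)) ⁻¹' Icc ((2:ℝ)^(-(N:ℤ))) ((2:ℝ)^(N:ℤ))) ∩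
        (K1 ∩ (fun y => aff W0 wc (y, u y)) ⁻¹' Icc ((2:ℝ)^(-(N:ℤ))) ((2:ℝ)^(N:ℤ))) := by
      ext x
      simp only [hK1, mem_setOf_eq, mem_inter_iff, mem_preimage, mem_Icc]
      constructor
      · rintro ⟨h1, h2, h3, h4, h5⟩
        have := hle2 x h3 h5
        tauto
      · tauto
    rw [hEq]
    exact hcpt.of_isClosed_subset (c1.inter c2) (fun x hx => hx.1.1)
  · intro x hx _ h2 _ h4
    have h5 : aff P0 pc (x, u x) / (2:ℝ)^(N:ℤ) + aff W0 wc (x, u x) / (2:ℝ)^(N:ℤ) ≤ Θ :=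
      (hle2 x h2 h4).trans (by linarith)
    exact ⟨mul_pos (rho_pos hsc hx) (A.sg_eP _ _ hNN x hx h5),
      mul_pos (rho_pos hsc hx) (A.sg_eW _ _ hNN x hx h5)⟩
  · intro a b ha hb x hx hx2
    have g := hgrid a b ha hb
    have h5 : aff P0 pc (x, u x) / (2:ℝ)^a + aff W0 wc (x, u x) / (2:ℝ)^b ≤ Θ := by
      have : aff P0 pc (x, u x) / (2:ℝ)^a + aff W0 wc (x, u x) / (2:ℝ)^b ≤ 2 := hx2
      linarith
    have hr := rho_pos hsc hx
    have s1 := A.sg_es _ _ g x hx h5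
    have s2 := A.V_ge _ _ g x hx h5
    have s3 := A.V_le _ _ g x hx h5
    have s4 := A.es_sg_le _ _ g x hx h5
    have hC0' : 0 < C0 := by linarith
    have hVpos : 0 < sg u (Q ((2:ℝ)^a) ((2:ℝ)^b) - (x, u x)) x := by
      by_contra hcon
      push Not at hcon
      have : C0 * sg u (Q ((2:ℝ)^a) ((2:ℝ)^b) - (x, u x)) x ≤ 0 :=
        mul_nonpos_of_nonneg_of_nonpos hC0'.le hcon
      linarith
    refine ⟨mul_pos hr hVpos, ?_⟩
    have h6 : sg u (Q ((2:ℝ)^a) ((2:ℝ)^b) - (x, u x)) x ≤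
        2 * C0 * ((2:ℝ)^a * sg u eP x + (2:ℝ)^b * sg u eW x) := by nlinarith
    have h7 : 1 / (2 * C0) * (rho u x * sg u (Q ((2:ℝ)^a) ((2:ℝ)^b) - (x, u x)) x) ≤
        rho u x * ((2:ℝ)^a * sg u eP x + (2:ℝ)^b * sg u eW x) := by
      rw [one_div, inv_mul_le_iff₀ (by positivity)]
      calc _ ≤ rho u x * (2 * C0 * ((2:ℝ)^a * sg u eP x + (2:ℝ)^b * sg u eW x)) := by gcongr
        _ = _ := by ring
    calc _ ≤ _ := h7
      _ = _ := by ring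

end Crest.Agent.R236.BF
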