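import Mathlib
import Crest.Prelude.Def_AffineMaximal
import Crest.Agent.R236.P1
import Crest.Agent.R236.ABP
import Crest.Agent.R236.Vol
import Crest.Agent.R236.Auer
import Crest.Agent.R236.BApxDefs

-- ▼ part R236/BVolA
section

/-! Row 236, B3 consequences, part A: linear algebra of `E × ℝ`, transport of volumes, boxes.
(helper143) -/

set_option autoImplicit false
open scoped ContDiff Topology ENNReal
open Crest.GeometryTopology.CoordMetric Crest.GeometryTopology.AffineMaximal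
open Set Filter MeasureTheory

noncomputable section

namespace Crest.Agent.R236.BVolC

open BVol

/-- the model space `E × ℝ`. -/
abbrev V (n : ℕ) : Type := EuclideanSpace ℝ (Fin n) × ℝ

variable {n : ℕ}

/-- standard basis of `E × ℝ`. -/
def stdB (n : ℕ) : Module.Basis (Fin n ⊕ Unit) ℝ (V n) :=
  (EuclideanSpace.basisFun (Fin n) ℝ).toBasis.prod (Module.Basis.singleton Unit ℝ)

/-- the pairing of `E × ℝ` with itself. -/
def pr (θ v : V n) : ℝ := ∑ i, θ.1 i * v.1 i + θ.2 * v.2

lemma pr_eq (θ v : V n) :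
    pr θ v = dotProduct (⇑((stdB n).repr θ)) (⇑((stdB n).repr v)) := by
  unfold pr dotProduct
  rw [Fintype.sum_sum_type]
  simp [stdB, Module.Basis.prod_repr_inl, Module.Basis.prod_repr_inr]

/-- the transposed map. -/
def tr (F : V n →ₗ[ℝ] V n) : V n →ₗ[ℝ] V n :=
  Matrix.toLin (stdB n) (stdB n) (LinearMap.toMatrix (stdB n) (stdB n) F).transpose

lemma pr_tr (F : V n →ₗ[ℝ] V n) (θ v : V n) : pr (tr F θ) v = pr θ (F v) := by
  rw [pr_eq, pr_eq]
  unfold tr
  have h1 : ⇑((stdB n).repr (Matrix.toLin (stdB n) (stdB n)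
      (LinearMap.toMatrix (stdB n) (stdB n) F).transpose θ))
      = (LinearMap.toMatrix (stdB n) (stdB n) F).transpose.mulVec ⇑((stdB n).repr θ) := by
    rw [← LinearMap.toMatrix_mulVec_repr (stdB n) (stdB n), LinearMap.toMatrix_toLin]
  have h2 : ⇑((stdB n).repr (F v))
      = (LinearMap.toMatrix (stdB n) (stdB n) F).mulVec ⇑((stdB n).repr v) := by
    rw [LinearMap.toMatrix_mulVec_repr]
  rw [h1, h2, Matrix.dotProduct_mulVec, Matrix.mulVec_transpose]

lemma det_tr (F : V n →ₗ[ℝ] V n) : LinearMap.det (tr F) = LinearMap.det F := by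
  unfold tr
  rw [LinearMap.det_toLin, Matrix.det_transpose, LinearMap.det_toMatrix]

lemma tr_fst (F : V n →ₗ[ℝ] V n) (θ : V n) (i : Fin n) :
    (tr F θ).1 i = pr θ (F (EuclideanSpace.single i 1, 0)) := by
  rw [← pr_tr]
  unfold pr
  simp

lemma tr_snd (F : V n →ₗ[ℝ] V n) (θ : V n) :
    (tr F θ).2 = pr θ (F (0, 1)) := by
  rw [← pr_tr]
  unfold pr
  simp

/-- the covector `r (-Du(x), 1)`. -/
def cov (u : EuclideanSpace ℝ (Fin n) → ℝ) (x : EuclideanSpace ℝ (Fin n)) (r : ℝ) : V n :=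
  (r • (-(ABP.gradE u x)), r)

lemma pr_cov (u : EuclideanSpace ℝ (Fin n) → ℝ) (x : EuclideanSpace ℝ (Fin n)) (r : ℝ) (v : V n) :
    pr (cov u x r) v = r * sig u v x := by
  unfold pr cov sig
  rw [fderiv_eq_sum]
  simp only [ABP.gradE, PiLp.smul_apply, PiLp.neg_apply, smul_eq_mul]
  rw [mul_sub, Finset.mul_sum]
  rw [← sub_eq_zero]
  have : ∑ i, r * -pderiv i u x * v.1 i = - ∑ i, r * (pderiv i u x * v.1 i) := by
    rw [← Finset.sum_neg_distrib]
    refine Finset.sum_congr rfl fun i _ => ?_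
    ring
  rw [this]
  ring

/-- boxes of `E × ℝ`. -/
def box (l h : Fin n → ℝ) (l0 h0 : ℝ) : Set (V n) :=
  {a | (∀ i, a.1 i ∈ Icc (l i) (h i)) ∧ a.2 ∈ Icc l0 h0}

lemma volume_box (l h : Fin n → ℝ) (l0 h0 : ℝ) :
    volume (box l h l0 h0) = (∏ i, ENNReal.ofReal (h i - l i)) * ENNReal.ofReal (h0 - l0) := by
  have h1 : box l h l0 h0 = ({a : EuclideanSpace ℝ (Fin n) | ∀ i, a i ∈ Icc (l i) (h i)} ×ˢ
      Icc l0 h0 : Set (V n)) := by
    ext a
    simp [box]
  rw [h1, Measure.volume_eq_prod, Measure.prod_prod, Real.volume_Icc]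
  congr 1
  have h2 : {a : EuclideanSpace ℝ (Fin n) | ∀ i, a i ∈ Icc (l i) (h i)}
      = (WithLp.ofLp : EuclideanSpace ℝ (Fin n) → (Fin n → ℝ)) ⁻¹' (Icc l h) := by
    ext a
    simp [Pi.le_def, forall_and]
  rw [h2]
  rw [(PiLp.volume_preserving_ofLp (Fin n)).measure_preimage
    measurableSet_Icc.nullMeasurableSet]
  rw [Real.volume_Icc_pi]

instance instHaarV : (volume : Measure (V n)).IsAddHaarMeasure := by
  rw [Measure.volume_eq_prod]; infer_instance

end Crest.Agent.R236.BVolC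
end
end

-- ▼ part R236/BVolB
section

/-! Row 236, B3 consequences, part B: transport of V1, V2 to model coordinates. (helper143) -/

set_option autoImplicit false
open scoped ContDiff Topology ENNReal
open Crest.GeometryTopology.CoordMetric Crest.GeometryTopology.AffineMaximal
open Set Filter MeasureTheory

noncomputable section

namespace Crest.Agent.R236.BVolC

open BVol

variable {n : ℕ} {Ω : Set (EuclideanSpace ℝ (Fin n))} {u : EuclideanSpace ℝ (Fin n) → ℝ}



/-- the box `|a_i| ≤ k_i`, `|a_0| ≤ k_0`. -/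
def sbox (k : Fin n → ℝ) (k0 : ℝ) : Set (V n) := {a | (∀ i, |a.1 i| ≤ k i) ∧ |a.2| ≤ k0}

lemma volume_sbox (k : Fin n → ℝ) (hk : ∀ i, 0 ≤ k i) (k0 : ℝ) :
    volume (sbox k k0) = ENNReal.ofReal ((∏ i, (2 * k i)) * (2 * k0)) := by
  have h1 : sbox k k0 = box (fun i => - k i) k (-k0) k0 := by
    ext a
    simp [sbox, box, abs_le]
  rw [h1, volume_box, ENNReal.ofReal_mul (Finset.prod_nonneg fun i _ => by have := hk i; positivity),
    ENNReal.ofReal_prod_of_nonneg (fun i _ => by have := hk i; positivity)]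
  congr 1
  · refine Finset.prod_congr rfl fun i _ => ?_
    congr 1; ring
  · congr 1; ring



end Crest.Agent.R236.BVolC
end
end

-- ▼ part R236/BVolD
section

/-! Row 236, B3 consequences, part D: polar bodies and slabs. (helper143) -/

set_option autoImplicit false
open scoped ContDiff Topology ENNReal
open Crest.GeometryTopology.CoordMetric Crest.GeometryTopology.AffineMaximal
open Set Filter MeasureTheory

noncomputable section

namespace Crest.Agent.R236.BVolC

open BVol

variable {n : ℕ}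

lemma finrank_V (n : ℕ) : Module.finrank ℝ (V n) = Fintype.card (Fin n ⊕ Unit) := by
  rw [Module.finrank_eq_card_basis (stdB n)]

/-- model map of a basis: there is a linear map `F` with `F (e_i) ∈ K` for the standard vectors
and `K ⊆ F '' (unit box)`. -/
theorem exists_model {K : Set (V n)} (hK : IsCompact K) (hs : Submodule.span ℝ K = ⊤) :
    ∃ F : V n →ₗ[ℝ] V n, LinearMap.det F ≠ 0 ∧
      (∀ i, F (EuclideanSpace.single i 1, 0) ∈ K) ∧ F (0, 1) ∈ K ∧
      K ⊆ F '' (sbox (fun _ => 1) 1) := by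
  obtain ⟨b, hb, hcoord⟩ := auerbach hK hs
  let eqv : Fin (Module.finrank ℝ (V n)) ≃ Fin n ⊕ Unit :=
    Fintype.equivOfCardEq (by rw [Fintype.card_fin, finrank_V])
  let b' : Module.Basis (Fin n ⊕ Unit) ℝ (V n) := b.reindex eqv
  let F : V n ≃ₗ[ℝ] V n := (stdB n).equiv b' (Equiv.refl _)
  have hF : ∀ i, F (stdB n i) = b' i := fun i => by
    simp [F, Module.Basis.equiv_apply]
  have hb' : ∀ i, b' i ∈ K := fun i => by
    simp only [b', Module.Basis.reindex_apply]; exact hb _
  have e1 : ∀ i, (stdB n) (Sum.inl i) = (EuclideanSpace.single i 1, 0) := by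
    intro i
    simp [stdB]
  have e2 : (stdB n) (Sum.inr ()) = (0, 1) := by
    simp [stdB]
  refine ⟨F.toLinearMap, ?_, ?_, ?_, ?_⟩
  · exact (LinearEquiv.isUnit_det' F).ne_zero
  · intro i
    have := hb' (Sum.inl i)
    rw [← hF, e1] at this
    exact this
  · have := hb' (Sum.inr ())
    rw [← hF, e2] at this
    exact this
  · intro x hx
    refine ⟨F.symm x, ?_, by simp⟩
    have key : ∀ j, |(stdB n).repr (F.symm x) j| ≤ 1 := by
      intro j
      have h3 : (stdB n).repr (F.symm x) j = b'.repr x j := by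
        have : x = F (F.symm x) := by simp
        conv_rhs => rw [this]
        simp only [F, Module.Basis.equiv]
        simp
      rw [h3]
      simp only [b', Module.Basis.repr_reindex, Finsupp.mapDomain_equiv_apply]
      exact hcoord x hx _
    constructor
    · intro i
      have := key (Sum.inl i)
      simpa [stdB] using this
    · have := key (Sum.inr ())
      simpa [stdB] using this

/-- polar volume bound. -/
theorem polar_le {K : Set (V n)} (hK : IsCompact K) (hs : Submodule.span ℝ K = ⊤) {C : ℝ}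
    (hC : 0 ≤ C) {T : Set (V n)} (hT : ∀ θ ∈ T, ∀ v ∈ K, |pr θ v| ≤ C) :
    volume T * volume K ≤ ENNReal.ofReal ((4 * C) ^ (n + 1)) := by
  obtain ⟨F, hF, hF1, hF2, hKF⟩ := exists_model hK hs
  have h1 : volume K ≤ ENNReal.ofReal |LinearMap.det F| * ENNReal.ofReal (2 ^ (n + 1)) := by
    refine (measure_mono hKF).trans (le_of_eq ?_)
    rw [Measure.addHaar_image_linearMap, volume_sbox _ (fun _ => zero_le_one)]
    congr 2
    simp [pow_succ]
  have h2 : volume T ≤ ENNReal.ofReal |LinearMap.det F|⁻¹ * ENNReal.ofReal ((2 * C) ^ (n + 1)) := by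
    have hsub : T ⊆ (tr F) ⁻¹' (sbox (fun _ => C) C) := by
      intro θ hθ
      refine ⟨fun i => ?_, ?_⟩
      · rw [tr_fst]; exact hT θ hθ _ (hF1 i)
      · rw [tr_snd]; exact hT θ hθ _ hF2
    refine (measure_mono hsub).trans (le_of_eq ?_)
    rw [Measure.addHaar_preimage_linearMap volume (by rw [det_tr]; exact hF), det_tr, abs_inv,
      volume_sbox _ (fun _ => hC)]
    congr 2
    simp [pow_succ]
  have hd : 0 < |LinearMap.det F| := abs_pos.mpr hF
  refine (mul_le_mul' h2 h1).trans (le_of_eq ?_)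
  rw [← ENNReal.ofReal_mul (by positivity), ← ENNReal.ofReal_mul (by positivity),
    ← ENNReal.ofReal_mul (by positivity)]
  congr 1
  rw [show (4 * C) = 2 * C * 2 by ring, mul_pow (2 * C) 2]
  field_simp

/-- **slab trick**: a measurable set on which a linear functional takes values in `[s, s+ε)`. -/
theorem slab_le {S T : Set (V n)} (hS : MeasurableSet S) (ξ : V n →ₗ[ℝ] ℝ) {g : V n}
    (hg : ξ g = 1) {ε : ℝ} (hε : 0 < ε) (hε1 : ε ≤ 1) (s : ℝ)
    (hξ : ∀ a ∈ S, s ≤ ξ a ∧ ξ a < s + ε)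
    (hT : ∀ a ∈ S, ∀ t ∈ Icc (0:ℝ) 1, a + t • g ∈ T) :
    volume S ≤ ENNReal.ofReal (2 * ε) * volume T := by
  set M : ℕ := ⌊1 / ε⌋₊ with hM
  have hM1 : 1 ≤ M := by
    rw [hM]
    exact Nat.le_floor (by rw [Nat.cast_one, le_div_iff₀ hε]; linarith)
  have hM2 : (M:ℝ) * ε ≤ 1 := by
    have := Nat.floor_le (show (0:ℝ) ≤ 1 / ε by positivity)
    rw [← hM] at this
    calc (M:ℝ) * ε ≤ 1 / ε * ε := mul_le_mul_of_nonneg_right this hε.le
      _ = 1 := by field_simp
  have hM3 : 1 ≤ (M:ℝ) * (2 * ε) := by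
    have h1 := Nat.lt_floor_add_one (1 / ε)
    rw [← hM] at h1
    have h2 : (1:ℝ) ≤ M := by exact_mod_cast hM1
    have h3 : 1 / ε < 2 * M := by linarith
    rw [div_lt_iff₀ hε] at h3
    linarith
  have hsub : (⋃ j ∈ Finset.range M, (fun z => ((j:ℝ) * ε) • g + z) '' S) ⊆ T := by
    intro z hz
    simp only [mem_iUnion, Finset.mem_range] at hz
    obtain ⟨j, hj, a, ha, rfl⟩ := hz
    have := hT a ha ((j:ℝ) * ε) ⟨by positivity, by
      refine le_trans ?_ hM2
      exact mul_le_mul_of_nonneg_right (by exact_mod_cast hj.le) hε.le⟩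
    simpa [add_comm] using this
  have hmeas : ∀ j ∈ Finset.range M, MeasurableSet ((fun z => ((j:ℝ) * ε) • g + z) '' S) := by
    intro j _
    rw [image_add_left]
    exact measurable_const_add _ hS
  have hval : ∀ (j : ℕ) (z : V n), z ∈ (fun z => ((j:ℝ) * ε) • g + z) '' S →
      s + (j:ℝ) * ε ≤ ξ z ∧ ξ z < s + ((j:ℝ) + 1) * ε := by
    rintro j z ⟨a, ha, rfl⟩
    have := hξ a ha
    simp only [map_add, map_smul, hg, smul_eq_mul, mul_one]
    constructor
    · linarith
    · linarith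
  have hdisj : (↑(Finset.range M) : Set ℕ).PairwiseDisjoint
      (fun j => (fun z => ((j:ℝ) * ε) • g + z) '' S) := by
    intro i _ j _ hij
    rw [Function.onFun, Set.disjoint_left]
    intro z hz1 hz2
    obtain ⟨a1, a2⟩ := hval i z hz1
    obtain ⟨b1, b2⟩ := hval j z hz2
    rcases lt_or_gt_of_ne hij with h | h
    · have : (i:ℝ) + 1 ≤ j := by exact_mod_cast h
      have := mul_le_mul_of_nonneg_right this hε.le
      linarith
    · have : (j:ℝ) + 1 ≤ i := by exact_mod_cast h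
      have := mul_le_mul_of_nonneg_right this hε.le
      linarith
  have hsum : (M:ℝ≥0∞) * volume S ≤ volume T := by
    refine le_trans (le_of_eq ?_) (measure_mono hsub)
    rw [measure_biUnion_finset hdisj hmeas]
    have : ∀ j ∈ Finset.range M, volume ((fun z => ((j:ℝ) * ε) • g + z) '' S) = volume S := by
      intro j _
      rw [image_add_left]
      exact measure_preimage_add volume _ S
    rw [Finset.sum_congr rfl this]
    simp
  calc volume S = 1 * volume S := (one_mul _).symm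
    _ ≤ (ENNReal.ofReal (2 * ε) * M) * volume S := by
        refine mul_le_mul' ?_ le_rfl
        rw [show (M:ℝ≥0∞) = ENNReal.ofReal M by simp, ← ENNReal.ofReal_mul (by positivity),
          ← ENNReal.ofReal_one]
        apply ENNReal.ofReal_le_ofReal
        linarith
    _ = ENNReal.ofReal (2 * ε) * (M * volume S) := by ring
    _ ≤ ENNReal.ofReal (2 * ε) * volume T := mul_le_mul' le_rfl hsum

end Crest.Agent.R236.BVolC
end
end

-- ▼ part R236/BVolE
section

/-! Row 236, B3 consequences, part E: the four volume bounds for a seminorm. (helper143) -/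

set_option autoImplicit false
open scoped ContDiff Topology ENNReal Pointwise
open Crest.GeometryTopology.CoordMetric Crest.GeometryTopology.AffineMaximal
open Set Filter MeasureTheory

noncomputable section

namespace Crest.Agent.R236.BVolC

open BVol

variable {n : ℕ}

section seminorm

variable (p : Seminorm ℝ (V n))

lemma seminorm_continuous : Continuous p := by
  have h := p.convexOn
  have h2 := h.continuousOn_interior
  rw [interior_univ] at h2
  exact continuousOn_univ.mp h2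

lemma exists_lower (hp : ∀ v, p v = 0 → v = 0) : ∃ m : ℝ, 0 < m ∧ ∀ v, m * ‖v‖ ≤ p v := by
  have hc := seminorm_continuous p
  obtain ⟨m, hm, hm'⟩ : ∃ m : ℝ, 0 < m ∧ ∀ v ∈ Metric.sphere (0 : V n) 1, m ≤ p v := by
    rcases (Metric.sphere (0 : V n) 1).eq_empty_or_nonempty with he | hne
    · exact ⟨1, one_pos, by simp [he]⟩
    · obtain ⟨z, hz, hz'⟩ := (isCompact_sphere (0 : V n) 1).exists_isMinOn hne hc.continuousOn
      refine ⟨p z, ?_, fun x hx => hz' hx⟩
      refine lt_of_le_of_ne (apply_nonneg p z) fun h0 => ?_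
      have := hp z h0.symm
      rw [this] at hz
      simp at hz
  refine ⟨m, hm, fun v => ?_⟩
  rcases eq_or_ne v 0 with rfl | hv
  · simp
  · have hn : 0 < ‖v‖ := norm_pos_iff.mpr hv
    have h1 := hm' (‖v‖⁻¹ • v) (by
      rw [mem_sphere_zero_iff_norm, norm_smul, norm_inv, norm_norm, inv_mul_cancel₀ hn.ne'])
    rw [map_smul_eq_mul, norm_inv, norm_norm, inv_mul_eq_div, le_div_iff₀ hn] at h1
    exact h1

/-- the ball of the seminorm -/
def ball (r : ℝ) : Set (V n) := {v | p v ≤ r}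

lemma isClosed_ball (r : ℝ) : IsClosed (ball p r) :=
  isClosed_le (seminorm_continuous p) continuous_const

lemma isCompact_ball (hp : ∀ v, p v = 0 → v = 0) (r : ℝ) : IsCompact (ball p r) := by
  obtain ⟨m, hm, hm'⟩ := exists_lower p hp
  refine Metric.isCompact_of_isClosed_isBounded (isClosed_ball p r) ?_
  refine (Metric.isBounded_closedBall (x := 0) (r := r / m)).subset fun v hv => ?_
  rw [mem_closedBall_zero_iff, le_div_iff₀ hm, mul_comm]
  exact (hm' v).trans hv

lemma ball_mem_nhds : ball p 1 ∈ 𝓝 (0 : V n) := by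
  have h := (seminorm_continuous p).tendsto 0
  rw [map_zero] at h
  exact h (Iic_mem_nhds one_pos)

lemma volume_ball_pos : 0 < volume (ball p 1) :=
  Measure.measure_pos_of_mem_nhds volume (ball_mem_nhds p)

lemma volume_ball_lt_top (hp : ∀ v, p v = 0 → v = 0) : volume (ball p 1) < ⊤ :=
  (isCompact_ball p hp 1).measure_lt_top

lemma span_ball : Submodule.span ℝ (ball p 1) = ⊤ := by
  rw [eq_top_iff]
  intro v _
  have hne : (p v + 1) ≠ 0 := by have := apply_nonneg p v; positivity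
  have h1 : (p v + 1)⁻¹ • v ∈ ball p 1 := by
    have h0 := apply_nonneg p v
    have h2 : (0:ℝ) < p v + 1 := by positivity
    change p _ ≤ 1
    rw [map_smul_eq_mul, norm_inv, Real.norm_eq_abs, abs_of_pos h2, inv_mul_eq_div,
      div_le_one h2]
    linarith
  have h2 : v = (p v + 1) • ((p v + 1)⁻¹ • v) := by rw [smul_smul, mul_inv_cancel₀ hne, one_smul]
  rw [h2]
  exact Submodule.smul_mem _ _ (Submodule.subset_span h1)

lemma finrank_V' : Module.finrank ℝ (V n) = n + 1 := by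
  rw [finrank_V]; simp

lemma volume_ball {r : ℝ} (hr : 0 < r) :
    volume (ball p r) = ENNReal.ofReal (r ^ (n + 1)) * volume (ball p 1) := by
  have h1 : ball p r = r • ball p 1 := by
    ext v
    rw [mem_smul_set_iff_inv_smul_mem₀ hr.ne']
    change p v ≤ r ↔ p (r⁻¹ • v) ≤ 1
    rw [map_smul_eq_mul, norm_inv, Real.norm_eq_abs, abs_of_pos hr, inv_mul_eq_div,
      div_le_one hr]
  rw [h1, Measure.addHaar_smul, finrank_V', abs_of_pos (by positivity)]

end seminorm

/-- the number `κ v_s` -/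
def kap (p : Seminorm ℝ (V n)) : ℝ := (volume (ball p 1)).toReal

lemma kap_pos (p : Seminorm ℝ (V n)) (hp : ∀ v, p v = 0 → v = 0) : 0 < kap p :=
  ENNReal.toReal_pos (volume_ball_pos p).ne' (volume_ball_lt_top p hp).ne

lemma ofReal_kap (p : Seminorm ℝ (V n)) (hp : ∀ v, p v = 0 → v = 0) :
    ENNReal.ofReal (kap p) = volume (ball p 1) :=
  ENNReal.ofReal_toReal (volume_ball_lt_top p hp).ne

lemma volume_ball' (p : Seminorm ℝ (V n)) (hp : ∀ v, p v = 0 → v = 0) {r : ℝ} (hr : 0 < r) :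
    volume (ball p r) = ENNReal.ofReal (r ^ (n + 1) * kap p) := by
  rw [volume_ball p hr, ENNReal.ofReal_mul (by positivity), ofReal_kap p hp]

variable {Ω : Set (EuclideanSpace ℝ (Fin n))} {u : EuclideanSpace ℝ (Fin n) → ℝ}

/-- **m1**. -/
theorem m1_le (h : SC Ω u) {B : Set (EuclideanSpace ℝ (Fin n))} (hB : MeasurableSet B)
    (hBΩ : B ⊆ Ω) {e : V n} (hσ : ∀ x ∈ B, 0 < sig u e x) (p : Seminorm ℝ (V n))
    (hp : ∀ v, p v = 0 → v = 0) {O : V n} {K C : ℝ} (hK : 0 < K) (hC : 0 ≤ C) (he : p e ≤ C)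
    (hX : ∀ x ∈ B, p ((x, u x) - O) ≤ K) :
    ∫⁻ x in B, ENNReal.ofReal (sig u e x) ≤ ENNReal.ofReal ((K + C) ^ (n + 1) * kap p) := by
  have h1 := V1 h hB hBΩ hσ (S := (fun z => O + z) '' (ball p (K + C))) (by
    intro x hx r hr
    refine ⟨((x, u x) : V n) - r • e - O, ?_, by simp⟩
    change p _ ≤ K + C
    have e1 : ((x, u x) : V n) - r • e - O = ((x, u x) - O) + (-r) • e := by module
    rw [e1]
    refine (map_add_le_add p _ _).trans (add_le_add (hX x hx) ?_)
    rw [map_smul_eq_mul, norm_neg, Real.norm_eq_abs, abs_of_pos hr.1]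
    calc r * p e ≤ 1 * C := mul_le_mul hr.2.le he (apply_nonneg p e) zero_le_one
      _ = C := one_mul C)
  refine h1.trans (le_of_eq ?_)
  have h2 : volume ((fun z => O + z) '' (ball p (K + C))) = volume (ball p (K + C)) := by
    rw [image_add_left]
    exact measure_preimage_add volume (-O) _
  rw [h2, volume_ball' p hp (by positivity)]


/-- polar volume in terms of `kap` -/
theorem polar_le' (p : Seminorm ℝ (V n)) (hp : ∀ v, p v = 0 → v = 0) {C : ℝ} (hC : 0 ≤ C)
    {T : Set (V n)} (hT : ∀ θ ∈ T, ∀ v, p v ≤ 1 → |pr θ v| ≤ C) :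
    volume T ≤ ENNReal.ofReal ((4 * C) ^ (n + 1) / kap p) := by
  have h1 := polar_le (isCompact_ball p hp 1) (span_ball p) hC (T := T) (fun θ hθ v hv => hT θ hθ v hv)
  have hk := kap_pos p hp
  rw [← ofReal_kap p hp] at h1
  rw [ENNReal.ofReal_div_of_pos hk]
  rw [ENNReal.le_div_iff_mul_le (Or.inl (by simpa using hk)) (Or.inl ENNReal.ofReal_ne_top)]
  exact h1

lemma pr_cov_le {e : V n} {x : EuclideanSpace ℝ (Fin n)} (hσ : 0 < sig u e x)
    (p : Seminorm ℝ (V n)) {C : ℝ} (hv : ∀ v, |sig u v x| ≤ C * p v * sig u e x) {r : ℝ}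
    (hr : 0 < r) (hr1 : r * sig u e x < 1) (v : V n) (hC : 0 ≤ C) :
    |pr (cov u x r) v| ≤ C * p v := by
  rw [pr_cov, abs_mul, abs_of_pos hr]
  have h0 : 0 ≤ C * p v := mul_nonneg hC (apply_nonneg p v)
  calc r * |sig u v x| ≤ r * (C * p v * sig u e x) := mul_le_mul_of_nonneg_left (hv v) hr.le
    _ = (C * p v) * (r * sig u e x) := by ring
    _ ≤ (C * p v) * 1 := mul_le_mul_of_nonneg_left hr1.le h0
    _ = C * p v := mul_one _

/-- **m2**. -/
theorem m2_le (h : SC Ω u) {B : Set (EuclideanSpace ℝ (Fin n))} (hB : MeasurableSet B)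
    (hBΩ : B ⊆ Ω) {e : V n} (hσ : ∀ x ∈ B, 0 < sig u e x) (p : Seminorm ℝ (V n))
    (hp : ∀ v, p v = 0 → v = 0) {C : ℝ} (hC : 0 ≤ C)
    (hv : ∀ x ∈ B, ∀ v, |sig u v x| ≤ C * p v * sig u e x) :
    ∫⁻ x in B, ENNReal.ofReal ((hessianMat u x).det / (sig u e x) ^ (n + 1))
      ≤ ENNReal.ofReal ((n + 1) * (4 * C) ^ (n + 1) / kap p) := by
  have h1 := V2 h hB hBΩ hσ (S := {θ : V n | ∀ v, |pr θ v| ≤ C * p v}) (by
    intro x hx r hr hr1 v
    exact pr_cov_le (hσ x hx) p (hv x hx) hr hr1 v hC)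
  refine h1.trans ?_
  have h2 : volume {θ : V n | ∀ v, |pr θ v| ≤ C * p v}
      ≤ ENNReal.ofReal ((4 * C) ^ (n + 1) / kap p) := by
    refine polar_le' p hp hC fun θ hθ v hv1 => (hθ v).trans ?_
    calc C * p v ≤ C * 1 := mul_le_mul_of_nonneg_left hv1 hC
      _ = C := mul_one C
  refine (mul_le_mul' le_rfl h2).trans (le_of_eq ?_)
  have e1 : ((n:ℝ≥0∞) + 1) = ENNReal.ofReal (n + 1) := by
    rw [ENNReal.ofReal_add (Nat.cast_nonneg n) zero_le_one]; simp
  rw [e1, ← ENNReal.ofReal_mul (by positivity)]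
  congr 1
  ring

lemma continuous_pr (v : V n) : Continuous fun θ : V n => pr θ v := by
  unfold pr
  fun_prop

/-- the pairing as a linear functional of the covector -/
def prL (v : V n) : V n →ₗ[ℝ] ℝ where
  toFun θ := pr θ v
  map_add' a b := by
    simp only [pr, Prod.fst_add, Prod.snd_add, PiLp.add_apply, add_mul, Finset.sum_add_distrib]
    ring
  map_smul' c a := by
    simp only [pr, Prod.smul_fst, Prod.smul_snd, PiLp.smul_apply, smul_eq_mul, RingHom.id_apply,
      mul_add, Finset.mul_sum]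
    congr 1
    · refine Finset.sum_congr rfl fun i _ => by ring
    · ring

/-- the covector of a linear functional -/
def covL (ξ : V n →L[ℝ] ℝ) : V n :=
  (WithLp.toLp 2 fun i => ξ (EuclideanSpace.single i 1, 0), ξ (0, 1))

lemma pr_covL (ξ : V n →L[ℝ] ℝ) (v : V n) : pr (covL ξ) v = ξ v := by
  have hv : v = (∑ i, v.1 i • ((EuclideanSpace.single i (1:ℝ), 0) : V n)) + v.2 • ((0, 1) : V n) := by
    refine Prod.ext ?_ ?_
    · simp only [Prod.fst_add, Prod.fst_sum, Prod.smul_fst, smul_zero, add_zero]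
      exact (sum_single v.1).symm
    · simp [Prod.snd_sum]
  conv_rhs => rw [hv]
  rw [map_add, map_sum, map_smul]
  simp only [map_smul, smul_eq_mul]
  unfold pr covL
  simp only
  congr 1
  · refine Finset.sum_congr rfl fun i _ => by ring
  · ring

/-- **δ-slab of m2**. -/
theorem m2_slab (h : SC Ω u) {B : Set (EuclideanSpace ℝ (Fin n))} (hB : MeasurableSet B)
    (hBΩ : B ⊆ Ω) {e f : V n} (hσ : ∀ x ∈ B, 0 < sig u e x) (p : Seminorm ℝ (V n))
    (hp : ∀ v, p v = 0 → v = 0) {C : ℝ} (hC : 0 ≤ C)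
    (hv : ∀ x ∈ B, ∀ v, |sig u v x| ≤ C * p v * sig u e x) (ξ : V n →L[ℝ] ℝ) (hξf : ξ f = 1)
    (hξ : ∀ v, |ξ v| ≤ C * p v) {δ : ℝ} (hδ : 0 < δ)
    (hf0 : ∀ x ∈ B, 0 < sig u f x) (hf : ∀ x ∈ B, sig u f x < δ * sig u e x) :
    ∫⁻ x in B, ENNReal.ofReal ((hessianMat u x).det / (sig u e x) ^ (n + 1))
      ≤ ENNReal.ofReal (2 * (n + 1) * (8 * C) ^ (n + 1) * δ / kap p) := by
  have hk := kap_pos p hp
  rcases le_or_gt δ 1 with hδ1 | hδ1
  · set S : Set (V n) := {θ : V n | ∀ v, |pr θ v| ≤ C * p v} ∩ {θ | 0 ≤ pr θ f ∧ pr θ f < δ}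
      with hSdef
    have hSmeas : MeasurableSet S := by
      refine MeasurableSet.inter ?_ ?_
      · have h1 : {θ : V n | ∀ v, |pr θ v| ≤ C * p v} = ⋂ v, {θ : V n | |pr θ v| ≤ C * p v} := by
          ext θ; simp
        rw [h1]
        exact (isClosed_iInter fun v => isClosed_le (continuous_pr v).abs continuous_const).measurableSet
      · have h1 : {θ : V n | 0 ≤ pr θ f ∧ pr θ f < δ} = (fun θ => pr θ f) ⁻¹' (Ico 0 δ) := rfl
        rw [h1]
        exact (continuous_pr f).measurable measurableSet_Ico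
    have h1 := V2 h hB hBΩ hσ (S := S) (by
      intro x hx r hr hr1
      refine ⟨fun v => pr_cov_le (hσ x hx) p (hv x hx) hr hr1 v hC, ?_⟩
      change 0 ≤ pr (cov u x r) f ∧ pr (cov u x r) f < δ
      rw [pr_cov]
      refine ⟨mul_nonneg hr.le (hf0 x hx).le, ?_⟩
      calc r * sig u f x < r * (δ * sig u e x) := mul_lt_mul_of_pos_left (hf x hx) hr
        _ = δ * (r * sig u e x) := by ring
        _ ≤ δ * 1 := mul_le_mul_of_nonneg_left hr1.le hδ.le
        _ = δ := mul_one δ)
    refine h1.trans ?_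
    have h2 : volume S ≤ ENNReal.ofReal (2 * δ) *
        volume {θ : V n | ∀ v, p v ≤ 1 → |pr θ v| ≤ 2 * C} := by
      refine slab_le hSmeas (prL f) (g := covL ξ) ?_ hδ hδ1 0 ?_ ?_
      · change pr (covL ξ) f = 1
        rw [pr_covL, hξf]
      · intro θ hθ
        change 0 ≤ pr θ f ∧ pr θ f < 0 + δ
        rw [zero_add]
        exact hθ.2
      · intro θ hθ t ht v hv1
        have e1 : pr (θ + t • covL ξ) v = pr θ v + t * ξ v := by
          have := (prL v).map_add θ (t • covL ξ)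
          rw [(prL v).map_smul] at this
          change pr (θ + t • covL ξ) v = pr θ v + t * pr (covL ξ) v at this
          rw [this, pr_covL]
        rw [e1]
        have h3 := hθ.1 v
        have h4 := hξ v
        have h5 : C * p v ≤ C := by
          calc C * p v ≤ C * 1 := mul_le_mul_of_nonneg_left hv1 hC
            _ = C := mul_one C
        calc |pr θ v + t * ξ v| ≤ |pr θ v| + |t * ξ v| := abs_add_le _ _
          _ ≤ C + 1 * C := by
            rw [abs_mul, abs_of_nonneg ht.1]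
            exact add_le_add (h3.trans h5)
              (mul_le_mul ht.2 (h4.trans h5) (abs_nonneg _) zero_le_one)
          _ = 2 * C := by ring
    have h3 : volume {θ : V n | ∀ v, p v ≤ 1 → |pr θ v| ≤ 2 * C}
        ≤ ENNReal.ofReal ((4 * (2 * C)) ^ (n + 1) / kap p) :=
      polar_le' p hp (by positivity) fun θ hθ v hv1 => hθ v hv1
    refine (mul_le_mul' le_rfl (h2.trans (mul_le_mul' le_rfl h3))).trans (le_of_eq ?_)
    have e1 : ((n:ℝ≥0∞) + 1) = ENNReal.ofReal (n + 1) := by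
      rw [ENNReal.ofReal_add (Nat.cast_nonneg n) zero_le_one]; simp
    rw [e1, ← ENNReal.ofReal_mul (by positivity), ← ENNReal.ofReal_mul (by positivity)]
    congr 1
    ring
  · refine (m2_le h hB hBΩ hσ p hp hC hv).trans (ENNReal.ofReal_le_ofReal ?_)
    rw [div_le_div_iff_of_pos_right hk]
    have h1 : (4 * C) ^ (n + 1) ≤ (8 * C) ^ (n + 1) := by gcongr; linarith
    have h2 : (0:ℝ) ≤ (8 * C) ^ (n + 1) := by positivity
    have h3 : (0:ℝ) ≤ (n:ℝ) + 1 := by positivity
    calc ((n:ℝ) + 1) * (4 * C) ^ (n + 1) ≤ (n + 1) * (8 * C) ^ (n + 1) :=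
          mul_le_mul_of_nonneg_left h1 h3
      _ ≤ 2 * (n + 1) * (8 * C) ^ (n + 1) * δ := by nlinarith [mul_nonneg h3 h2]

end Crest.Agent.R236.BVolC
end
end

-- ▼ part R236/BVolF

/-! Row 236, B3 consequences, part F: the bounds (M1), (M1P), (M1W), (M2), (M2P), (M2W) for an
approximant `APX`. (helper143) -/

set_option autoImplicit false
open scoped ContDiff Topology ENNReal Pointwise
open Crest.GeometryTopology.CoordMetric Crest.GeometryTopology.AffineMaximal
open Set Filter MeasureTheory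

noncomputable section

namespace Crest.Agent.R236.BVolC

open BVol Crest.Agent.R236.B
open Crest.Agent.R236.A (EE epi SOL STRUCT IsStruct ConeData Appr)

variable {n : ℕ} {Θ K c2 C0 : ℝ} {N : ℕ} {ε0 : ℝ} {Ω : Set (EE n)} {u : EE n → ℝ}
  {P0 W0 : VV n →L[ℝ] ℝ} {pc wc : ℝ} {eP eW O : VV n} {es Q : ℝ → ℝ → VV n}
  {nrm : ℝ → ℝ → Seminorm ℝ (VV n)}

/-- the region `D_s = {x ∈ Ω | P/lam + W/tau ≤ Θ}` -/
def DD (Ω : Set (EE n)) (u : EE n → ℝ) (P0 W0 : VV n →L[ℝ] ℝ) (pc wc Θ lam tau : ℝ) : Set (EE n) :=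
  {x | x ∈ Ω ∧ aff P0 pc (x, u x) / lam + aff W0 wc (x, u x) / tau ≤ Θ}

lemma grid_pos {N : ℕ} {lam tau : ℝ} (hg : Grid N lam tau) : 0 < lam ∧ 0 < tau := by
  obtain ⟨a, b, _, _, rfl, rfl⟩ := hg
  constructor <;> positivity

lemma continuousOn_aff (h : SC Ω u) (F : VV n →L[ℝ] ℝ) (c : ℝ) :
    ContinuousOn (fun x : EE n => aff F c (x, u x)) Ω := by
  unfold aff
  exact (F.continuous.comp_continuousOn (continuousOn_id.prodMk h.continuousOn)).add
    continuousOn_const

lemma measurableSet_of_continuousOn {Ω : Set (EE n)} (hΩ : IsOpen Ω) {f : EE n → ℝ}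
    (hf : ContinuousOn f Ω) {s : Set ℝ} (hs : MeasurableSet s) :
    MeasurableSet {x | x ∈ Ω ∧ f x ∈ s} := by
  have h1 : Measurable (Ω.domRestrict f) := (continuousOn_iff_continuous_domRestrict.mp hf).measurable
  have h2 := hΩ.measurableSet.subtype_image (h1 hs)
  convert h2 using 1
  ext x
  simp only [mem_ofPred_eq, mem_image, mem_preimage, Set.domRestrict_apply, Subtype.exists,
    exists_and_right, exists_eq_right]
  constructor
  · rintro ⟨a, b⟩; exact ⟨a, b⟩
  · rintro ⟨a, b⟩; exact ⟨a, b⟩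

lemma measurableSet_DD (h : SC Ω u) (lam tau : ℝ) :
    MeasurableSet (DD Ω u P0 W0 pc wc Θ lam tau) := by
  have hf : ContinuousOn (fun x : EE n => aff P0 pc (x, u x) / lam + aff W0 wc (x, u x) / tau) Ω :=
    ((continuousOn_aff h P0 pc).div_const _).add ((continuousOn_aff h W0 wc).div_const _)
  exact measurableSet_of_continuousOn h.isOpen hf (s := Iic Θ) measurableSet_Iic

/-- graph points over `D_s` are bounded -/
lemma graph_bdd (h : APX n Θ K c2 C0 N ε0 Ω u P0 W0 pc wc eP eW O es Q nrm) {lam tau : ℝ}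
    (hg : Grid N lam tau) {x : EE n} (hx : x ∈ DD Ω u P0 W0 pc wc Θ lam tau) :
    nrm lam tau ((x, u x) - O) ≤ K ∧ -(ε0 * lam) ≤ aff P0 pc (x, u x) ∧
      -(ε0 * tau) ≤ aff W0 wc (x, u x) :=
  h.bdd lam tau hg 1 1 le_rfl one_le_two le_rfl one_le_two (x, u x) ⟨hx.1, le_rfl⟩
    (by simpa using hx.2)

/-- **M1**. -/
theorem M1 (h : APX n Θ K c2 C0 N ε0 Ω u P0 W0 pc wc eP eW O es Q nrm) {lam tau : ℝ}
    (hg : Grid N lam tau) :
    ∫⁻ x in DD Ω u P0 W0 pc wc Θ lam tau, ENNReal.ofReal (sg u (es lam tau) x)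
      ≤ ENNReal.ofReal ((K + C0) ^ (n + 1) * kap (nrm lam tau)) :=
  m1_le h.sol.sc (measurableSet_DD h.sol.sc lam tau) (fun _ hx => hx.1)
    (fun x hx => h.sg_es lam tau hg x hx.1 hx.2) (nrm lam tau) (h.definite lam tau hg)
    h.K_pos (zero_le_one.trans h.C0_ge) (h.es_le lam tau hg) (fun x hx => (graph_bdd h hg hx).1)

lemma sig_smul (u : EE n → ℝ) (c : ℝ) (v : VV n) (x : EE n) :
    sig u (c • v) x = c * sig u v x := by
  unfold sig
  simp only [Prod.smul_snd, Prod.smul_fst, map_smul, smul_eq_mul]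
  ring



/-- **M2**. -/
theorem M2 (h : APX n Θ K c2 C0 N ε0 Ω u P0 W0 pc wc eP eW O es Q nrm) {lam tau : ℝ}
    (hg : Grid N lam tau) :
    ∫⁻ x in DD Ω u P0 W0 pc wc Θ lam tau,
        ENNReal.ofReal ((hessianMat u x).det / (sg u (es lam tau) x) ^ (n + 1))
      ≤ ENNReal.ofReal ((n + 1) * (4 * C0) ^ (n + 1) / kap (nrm lam tau)) :=
  m2_le h.sol.sc (measurableSet_DD h.sol.sc lam tau) (fun _ hx => hx.1)
    (fun x hx => h.sg_es lam tau hg x hx.1 hx.2) (nrm lam tau) (h.definite lam tau hg)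
    (zero_le_one.trans h.C0_ge) (fun x hx v => h.sg_le lam tau hg x hx.1 hx.2 v)

lemma continuousOn_sg (h : SC Ω u) (v : VV n) : ContinuousOn (sg u v) Ω := continuousOn_sig h v

/-- **M2P**: the dual slab `{lam sg(eP) < δ sg(es)}`. -/
theorem M2P (h : APX n Θ K c2 C0 N ε0 Ω u P0 W0 pc wc eP eW O es Q nrm) {lam tau : ℝ}
    (hg : Grid N lam tau) {δ : ℝ} (hδ : 0 < δ) :
    ∫⁻ x in DD Ω u P0 W0 pc wc Θ lam tau ∩ {x | lam * sg u eP x < δ * sg u (es lam tau) x},
        ENNReal.ofReal ((hessianMat u x).det / (sg u (es lam tau) x) ^ (n + 1))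
      ≤ ENNReal.ofReal (2 * (n + 1) * (8 * C0) ^ (n + 1) * δ / kap (nrm lam tau)) := by
  obtain ⟨hlam, htau⟩ := grid_pos hg
  have hB : MeasurableSet (DD Ω u P0 W0 pc wc Θ lam tau ∩
      {x | lam * sg u eP x < δ * sg u (es lam tau) x}) := by
    have h1 := (measurableSet_DD (P0 := P0) (W0 := W0) (pc := pc) (wc := wc) (Θ := Θ)
      h.sol.sc lam tau).inter
      (measurableSet_of_continuousOn h.sol.sc.isOpen
        (((continuousOn_sg h.sol.sc eP).const_mul lam).sub
          ((continuousOn_sg h.sol.sc (es lam tau)).const_mul δ)) (s := Iio 0) measurableSet_Iio)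
    convert h1 using 1
    ext x
    constructor
    · rintro ⟨a, b⟩
      exact ⟨a, a.1, by change lam * sg u eP x - δ * sg u (es lam tau) x < 0; exact sub_neg.mpr b⟩
    · rintro ⟨a, b⟩
      refine ⟨a, ?_⟩
      have hb := b.2
      change lam * sg u eP x - δ * sg u (es lam tau) x < 0 at hb
      exact sub_neg.mp hb
  have hC0 : (0:ℝ) ≤ C0 := zero_le_one.trans h.C0_ge
  exact m2_slab h.sol.sc hB (fun x hx => hx.1.1) (fun x hx => h.sg_es lam tau hg x hx.1.1 hx.1.2)
    (nrm lam tau) (h.definite lam tau hg) hC0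
    (fun x hx v => h.sg_le lam tau hg x hx.1.1 hx.1.2 v)
    (lam⁻¹ • P0) (f := lam • eP) (by simp [h.PP, hlam.ne']) (by
      intro v
      have h1 := h.P0_le lam tau hg v
      rw [smul_apply, smul_eq_mul, abs_mul, abs_of_pos (inv_pos.mpr hlam),
        inv_mul_le_iff₀ hlam]
      calc |P0 v| ≤ C0 * lam * nrm lam tau v := h1
        _ = lam * (C0 * nrm lam tau v) := by ring) hδ
    (fun x hx => by
      rw [sig_smul]
      exact mul_pos hlam (h.sg_eP lam tau hg x hx.1.1 hx.1.2))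
    (fun x hx => by
      rw [sig_smul]
      exact hx.2)

/-- **M2W**: the dual slab `{tau sg(eW) < δ sg(es)}`. -/
theorem M2W (h : APX n Θ K c2 C0 N ε0 Ω u P0 W0 pc wc eP eW O es Q nrm) {lam tau : ℝ}
    (hg : Grid N lam tau) {δ : ℝ} (hδ : 0 < δ) :
    ∫⁻ x in DD Ω u P0 W0 pc wc Θ lam tau ∩ {x | tau * sg u eW x < δ * sg u (es lam tau) x},
        ENNReal.ofReal ((hessianMat u x).det / (sg u (es lam tau) x) ^ (n + 1))
      ≤ ENNReal.ofReal (2 * (n + 1) * (8 * C0) ^ (n + 1) * δ / kap (nrm lam tau)) := by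
  obtain ⟨hlam, htau⟩ := grid_pos hg
  have hB : MeasurableSet (DD Ω u P0 W0 pc wc Θ lam tau ∩
      {x | tau * sg u eW x < δ * sg u (es lam tau) x}) := by
    have h1 := (measurableSet_DD (P0 := P0) (W0 := W0) (pc := pc) (wc := wc) (Θ := Θ)
      h.sol.sc lam tau).inter
      (measurableSet_of_continuousOn h.sol.sc.isOpen
        (((continuousOn_sg h.sol.sc eW).const_mul tau).sub
          ((continuousOn_sg h.sol.sc (es lam tau)).const_mul δ)) (s := Iio 0) measurableSet_Iio)
    convert h1 using 1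
    ext x
    constructor
    · rintro ⟨a, b⟩
      exact ⟨a, a.1, by change tau * sg u eW x - δ * sg u (es lam tau) x < 0; exact sub_neg.mpr b⟩
    · rintro ⟨a, b⟩
      refine ⟨a, ?_⟩
      have hb := b.2
      change tau * sg u eW x - δ * sg u (es lam tau) x < 0 at hb
      exact sub_neg.mp hb
  have hC0 : (0:ℝ) ≤ C0 := zero_le_one.trans h.C0_ge
  exact m2_slab h.sol.sc hB (fun x hx => hx.1.1) (fun x hx => h.sg_es lam tau hg x hx.1.1 hx.1.2)
    (nrm lam tau) (h.definite lam tau hg) hC0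
    (fun x hx v => h.sg_le lam tau hg x hx.1.1 hx.1.2 v)
    (tau⁻¹ • W0) (f := tau • eW) (by simp [h.WW, htau.ne']) (by
      intro v
      have h1 := h.W0_le lam tau hg v
      rw [smul_apply, smul_eq_mul, abs_mul, abs_of_pos (inv_pos.mpr htau),
        inv_mul_le_iff₀ htau]
      calc |W0 v| ≤ C0 * tau * nrm lam tau v := h1
        _ = tau * (C0 * nrm lam tau v) := by ring) hδ
    (fun x hx => by
      rw [sig_smul]
      exact mul_pos htau (h.sg_eW lam tau hg x hx.1.1 hx.1.2))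
    (fun x hx => by
      rw [sig_smul]
      exact hx.2)

end Crest.Agent.R236.BVolC
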