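import Mathlib
import Crest.Prelude.Def_AffineMaximal
import Crest.Agent.R236.CalcA
import Crest.Agent.R236.CertFin0

-- ▼ part R236/CalcB
section

/-! Row 236, calculus layer, part B: integration by parts. (helper724) -/

set_option autoImplicit false
open scoped ContDiff Topology
open Crest.GeometryTopology.CoordMetric Crest.GeometryTopology.AffineMaximal
open Set Filter MeasureTheory Finset

noncomputable section

namespace Crest.Agent.R236

section ibp

variable {n : ℕ} {Ω K : Set (EuclideanSpace ℝ (Fin n))} {u f : EuclideanSpace ℝ (Fin n) → ℝ}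

/-! ### extension by zero of functions that vanish on `Ω \\ K` -/

lemma tsupport_indicator_subset {F : EuclideanSpace ℝ (Fin n) → ℝ} (hK : IsCompact K)
    (hF : ∀ x ∈ Ω, x ∉ K → F x = 0) : tsupport (Ω.indicator F) ⊆ K := by
  refine closure_minimal (fun x hx => ?_) hK.isClosed
  rw [Function.mem_support] at hx
  by_contra hxK
  apply hx
  by_cases hxΩ : x ∈ Ω
  · rw [indicator_of_mem hxΩ, hF x hxΩ hxK]
  · rw [indicator_of_notMem hxΩ]

lemma hasCompactSupport_indicator {F : EuclideanSpace ℝ (Fin n) → ℝ} (hK : IsCompact K)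
    (hF : ∀ x ∈ Ω, x ∉ K → F x = 0) : HasCompactSupport (Ω.indicator F) :=
  hK.of_isClosed_subset (isClosed_tsupport _) (tsupport_indicator_subset hK hF)

lemma indicator_eventuallyEq (hΩ : IsOpen Ω) {F : EuclideanSpace ℝ (Fin n) → ℝ}
    {x : EuclideanSpace ℝ (Fin n)} (hx : x ∈ Ω) : Ω.indicator F =ᶠ[𝓝 x] F :=
  Filter.eventually_of_mem (hΩ.mem_nhds hx) fun _ hy => indicator_of_mem hy F

lemma pderiv_indicator (hΩ : IsOpen Ω) {F : EuclideanSpace ℝ (Fin n) → ℝ}
    {x : EuclideanSpace ℝ (Fin n)} (hx : x ∈ Ω) (i : Fin n) :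
    pderiv i (Ω.indicator F) x = pderiv i F x := pderiv_congr (indicator_eventuallyEq hΩ hx) i

lemma contDiff_indicator (hΩ : IsOpen Ω) {F : EuclideanSpace ℝ (Fin n) → ℝ} (hK : IsCompact K)
    (hKΩ : K ⊆ Ω) (hF : ∀ x ∈ Ω, x ∉ K → F x = 0) {k : WithTop ℕ∞} (hFd : ContDiffOn ℝ k F Ω) :
    ContDiff ℝ k (Ω.indicator F) := by
  rw [contDiff_iff_contDiffAt]
  intro x
  by_cases hx : x ∈ tsupport (Ω.indicator F)
  swap
  · have h1 : Ω.indicator F =ᶠ[𝓝 x] fun _ => (0:ℝ) := by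
      have h2 : (tsupport (Ω.indicator F))ᶜ ∈ 𝓝 x :=
        (isClosed_tsupport _).isOpen_compl.mem_nhds hx
      exact Filter.eventually_of_mem h2 fun y hy => image_eq_zero_of_notMem_tsupport hy
    exact contDiffAt_const.congr_of_eventuallyEq h1
  have hxΩ : x ∈ Ω := hKΩ (tsupport_indicator_subset hK hF hx)
  exact (hFd.contDiffAt (hΩ.mem_nhds hxΩ)).congr_of_eventuallyEq (indicator_eventuallyEq hΩ hxΩ)

lemma continuous_indicator_of (hΩ : IsOpen Ω) {F : EuclideanSpace ℝ (Fin n) → ℝ} (hK : IsCompact K)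
    (hKΩ : K ⊆ Ω) (hF : ∀ x ∈ Ω, x ∉ K → F x = 0) (hFc : ContinuousOn F Ω) :
    Continuous (Ω.indicator F) := by
  refine continuous_of_tsupport fun x hx => ?_
  have hxΩ : x ∈ Ω := hKΩ (tsupport_indicator_subset hK hF hx)
  exact (hFc.continuousAt (hΩ.mem_nhds hxΩ)).congr (indicator_eventuallyEq hΩ hxΩ).symm

/-- a continuous function on `Ω` vanishing outside a compact subset is integrable -/
theorem integrableOn_of_compact (hΩ : IsOpen Ω) {F : EuclideanSpace ℝ (Fin n) → ℝ}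
    (hK : IsCompact K) (hKΩ : K ⊆ Ω) (hF : ∀ x ∈ Ω, x ∉ K → F x = 0) (hFc : ContinuousOn F Ω) :
    IntegrableOn F Ω := by
  have h1 : Integrable (Ω.indicator F) :=
    (continuous_indicator_of hΩ hK hKΩ hF hFc).integrable_of_hasCompactSupport
      (hasCompactSupport_indicator hK hF)
  exact (integrable_indicator_iff hΩ.measurableSet).mp h1


/-- the derivative of a function vanishing on `Ω \\ K` vanishes on `Ω \\ K` -/
lemma pderiv_eq_zero_of_compact (hΩ : IsOpen Ω) (hK : IsCompact K)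
    {F : EuclideanSpace ℝ (Fin n) → ℝ} (hF : ∀ x ∈ Ω, x ∉ K → F x = 0)
    {x : EuclideanSpace ℝ (Fin n)} (hx : x ∈ Ω) (hxK : x ∉ K) (i : Fin n) : pderiv i F x = 0 := by
  have h1 : F =ᶠ[𝓝 x] fun _ => (0:ℝ) := by
    have h2 : Ω ∩ Kᶜ ∈ 𝓝 x := (hΩ.inter hK.isClosed.isOpen_compl).mem_nhds ⟨hx, hxK⟩
    exact Filter.eventually_of_mem h2 fun y hy => hF y hy.1 hy.2
  rw [pderiv_congr h1]
  exact pderiv_const 0 x i

/-! ### integration by parts -/

/-- one component -/
theorem ibp_pderiv (hΩ : IsOpen Ω) (hK : IsCompact K) (hKΩ : K ⊆ Ω)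
    {φ X : EuclideanSpace ℝ (Fin n) → ℝ} (hφ : ContDiffOn ℝ 1 φ Ω)
    (hφK : ∀ x ∈ Ω, x ∉ K → φ x = 0) (hX : ContDiffOn ℝ 1 X Ω) (i : Fin n) :
    ∫ x in Ω, φ x * pderiv i X x = - ∫ x in Ω, pderiv i φ x * X x := by
  have hφ' : ContDiff ℝ 1 (Ω.indicator φ) := contDiff_indicator hΩ hK hKΩ hφK hφ
  have hcφ : ContinuousOn (pderiv i φ) Ω := (contDiffOn_pderiv (m := 0) hΩ hφ (by simp) i).continuousOn
  have hcX : ContinuousOn (pderiv i X) Ω := (contDiffOn_pderiv (m := 0) hΩ hX (by simp) i).continuousOn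
  have key := integral_mul_fderiv_eq_neg_fderiv_mul_of_integrable (μ := volume)
    (f := Ω.indicator φ) (g := X) (v := EuclideanSpace.single i (1:ℝ)) ?_ ?_ ?_ ?_ ?_
  · have e1 : ∀ x, Ω.indicator φ x * fderiv ℝ X x (EuclideanSpace.single i 1) =
        Ω.indicator (fun x => φ x * pderiv i X x) x := by
      intro x
      by_cases hx : x ∈ Ω
      · rw [indicator_of_mem hx, indicator_of_mem hx]; rfl
      · rw [indicator_of_notMem hx, indicator_of_notMem hx, zero_mul]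
    have e2 : ∀ x, fderiv ℝ (Ω.indicator φ) x (EuclideanSpace.single i 1) * X x =
        Ω.indicator (fun x => pderiv i φ x * X x) x := by
      intro x
      by_cases hx : x ∈ Ω
      · rw [indicator_of_mem hx, ← pderiv_indicator hΩ hx]; rfl
      · rw [indicator_of_notMem hx]
        have h1 : Ω.indicator φ =ᶠ[𝓝 x] fun _ => (0:ℝ) := by
          have hxt : x ∉ tsupport (Ω.indicator φ) :=
            fun h => hx (hKΩ (tsupport_indicator_subset hK hφK h))
          have h2 : (tsupport (Ω.indicator φ))ᶜ ∈ 𝓝 x :=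
            (isClosed_tsupport _).isOpen_compl.mem_nhds hxt
          exact Filter.eventually_of_mem h2 fun y hy => image_eq_zero_of_notMem_tsupport hy
        rw [h1.fderiv_eq]
        simp
    simp_rw [e1, e2] at key
    rwa [integral_indicator hΩ.measurableSet, integral_indicator hΩ.measurableSet] at key
  · -- integrable fderiv φ * X
    have h1 : IntegrableOn (fun x => pderiv i φ x * X x) Ω :=
      integrableOn_of_compact hΩ hK hKΩ
        (fun x hx hxK => by rw [pderiv_eq_zero_of_compact hΩ hK hφK hx hxK, zero_mul])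
        (hcφ.mul hX.continuousOn)
    rw [← integrable_indicator_iff hΩ.measurableSet] at h1
    refine h1.congr (Filter.Eventually.of_forall fun x => ?_)
    by_cases hx : x ∈ Ω
    · change Ω.indicator _ x = _
      rw [indicator_of_mem hx, ← pderiv_indicator hΩ hx]; rfl
    · change Ω.indicator _ x = fderiv ℝ (Ω.indicator φ) x (EuclideanSpace.single i 1) * X x
      rw [indicator_of_notMem hx]
      have h1 : Ω.indicator φ =ᶠ[𝓝 x] fun _ => (0:ℝ) := by
        have hxt : x ∉ tsupport (Ω.indicator φ) :=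
          fun h => hx (hKΩ (tsupport_indicator_subset hK hφK h))
        have h2 : (tsupport (Ω.indicator φ))ᶜ ∈ 𝓝 x :=
          (isClosed_tsupport _).isOpen_compl.mem_nhds hxt
        exact Filter.eventually_of_mem h2 fun y hy => image_eq_zero_of_notMem_tsupport hy
      rw [h1.fderiv_eq]
      simp
  · have h1 : IntegrableOn (fun x => φ x * pderiv i X x) Ω :=
      integrableOn_of_compact hΩ hK hKΩ
        (fun x hx hxK => by rw [hφK x hx hxK, zero_mul])
        (hφ.continuousOn.mul hcX)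
    rw [← integrable_indicator_iff hΩ.measurableSet] at h1
    refine h1.congr (Filter.Eventually.of_forall fun x => ?_)
    change Ω.indicator _ x = Ω.indicator φ x * fderiv ℝ X x (EuclideanSpace.single i 1)
    by_cases hx : x ∈ Ω
    · rw [indicator_of_mem hx, indicator_of_mem hx]; rfl
    · rw [indicator_of_notMem hx, indicator_of_notMem hx, zero_mul]
  · have h1 : IntegrableOn (fun x => φ x * X x) Ω :=
      integrableOn_of_compact hΩ hK hKΩ
        (fun x hx hxK => by rw [hφK x hx hxK, zero_mul])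
        (hφ.continuousOn.mul hX.continuousOn)
    rw [← integrable_indicator_iff hΩ.measurableSet] at h1
    refine h1.congr (Filter.Eventually.of_forall fun x => ?_)
    change Ω.indicator _ x = Ω.indicator φ x * X x
    by_cases hx : x ∈ Ω
    · rw [indicator_of_mem hx, indicator_of_mem hx]
    · rw [indicator_of_notMem hx, indicator_of_notMem hx, zero_mul]
  · intro x _
    exact hφ'.differentiable (by simp) x
  · intro x hx
    have hxΩ : x ∈ Ω := hKΩ (tsupport_indicator_subset hK hφK hx)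
    exact (hX.contDiffAt (hΩ.mem_nhds hxΩ)).differentiableAt (by simp)

/-- divergence form, `C¹` fields on `Ω`, test function vanishing on `Ω \ K` -/
theorem ibp_div (hΩ : IsOpen Ω) (hK : IsCompact K) (hKΩ : K ⊆ Ω)
    {φ : EuclideanSpace ℝ (Fin n) → ℝ} {X : Fin n → EuclideanSpace ℝ (Fin n) → ℝ}
    (hφ : ContDiffOn ℝ 1 φ Ω) (hφK : ∀ x ∈ Ω, x ∉ K → φ x = 0)
    (hX : ∀ i, ContDiffOn ℝ 1 (X i) Ω) :
    ∫ x in Ω, φ x * ∑ i, pderiv i (X i) x = - ∫ x in Ω, ∑ i, pderiv i φ x * X i x := by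
  simp_rw [Finset.mul_sum]
  rw [integral_finsetSum, integral_finsetSum, ← Finset.sum_neg_distrib]
  · exact Finset.sum_congr rfl fun i _ => ibp_pderiv hΩ hK hKΩ hφ hφK (hX i) i
  · intro i _
    exact integrableOn_of_compact hΩ hK hKΩ
        (fun x hx hxK => by rw [pderiv_eq_zero_of_compact hΩ hK hφK hx hxK, zero_mul])
        ((contDiffOn_pderiv (m := 0) hΩ hφ (by simp) i).continuousOn.mul (hX i).continuousOn)
  · intro i _
    exact integrableOn_of_compact hΩ hK hKΩ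
        (fun x hx hxK => by rw [hφK x hx hxK, zero_mul])
        (hφ.continuousOn.mul (contDiffOn_pderiv (m := 0) hΩ (hX i) (by simp) i).continuousOn)

/-- the divergence theorem for `C¹` fields on `Ω` vanishing on `Ω \ K` -/
theorem integral_div_eq_zero (hΩ : IsOpen Ω) (hK : IsCompact K) (hKΩ : K ⊆ Ω)
    {X : Fin n → EuclideanSpace ℝ (Fin n) → ℝ}
    (hX : ∀ i, ContDiffOn ℝ 1 (X i) Ω) (hXK : ∀ i, ∀ x ∈ Ω, x ∉ K → X i x = 0) :
    ∫ x in Ω, ∑ i, pderiv i (X i) x = 0 := by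
  rw [integral_finsetSum]
  · refine Finset.sum_eq_zero fun i _ => ?_
    have h1 := ibp_pderiv hΩ hK hKΩ (hX i) (hXK i) (X := fun _ => (1:ℝ)) contDiffOn_const i
    simp only [pderiv_const, mul_zero, integral_zero, mul_one] at h1
    linarith
  · intro i _
    exact integrableOn_of_compact hΩ hK hKΩ
        (fun x hx hxK => pderiv_eq_zero_of_compact hΩ hK (hXK i) hx hxK i)
        ((contDiffOn_pderiv (m := 0) hΩ (hX i) (by simp) i).continuousOn)


/-- integration by parts against the cofactor field with a weight -/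
theorem SC.ibp (h : SC Ω u) (hK : IsCompact K) (hKΩ : K ⊆ Ω)
    {φ a f : EuclideanSpace ℝ (Fin n) → ℝ} (hφ : ContDiffOn ℝ 1 φ Ω)
    (hφK : ∀ x ∈ Ω, x ∉ K → φ x = 0) (ha : ContDiffOn ℝ 1 a Ω) (hf : ContDiffOn ℝ 2 f Ω) :
    ∫ x in Ω, φ x * (a x * (∑ i, ∑ j, cof u x i j * hessianMat f x i j) +
        ∑ i, ∑ j, cof u x i j * pderiv i a x * pderiv j f x) =
      - ∫ x in Ω, a x * ∑ i, ∑ j, cof u x i j * pderiv i φ x * pderiv j f x := by
  have hX : ∀ i, ContDiffOn ℝ 1 (fun y => a y * ∑ j, cof u y i j * pderiv j f y) Ω := by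
    intro i
    refine ha.mul (ContDiffOn.sum fun j _ => ?_)
    exact ((h.contDiffOn_cof i j).of_le (by simp)).mul
      (contDiffOn_pderiv h.isOpen hf (by norm_num) j)
  have h1 := ibp_div h.isOpen hK hKΩ hφ hφK hX
  have e1 : ∫ x in Ω, φ x * (a x * (∑ i, ∑ j, cof u x i j * hessianMat f x i j) +
        ∑ i, ∑ j, cof u x i j * pderiv i a x * pderiv j f x) =
      ∫ x in Ω, φ x * ∑ i, pderiv i (fun y => a y * ∑ j, cof u y i j * pderiv j f y) x := by
    refine setIntegral_congr_fun h.isOpen.measurableSet fun x hx => ?_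
    have h2 := h.div_cof_grad hx (a := a) (f := f)
      ((ha.contDiffAt (h.isOpen.mem_nhds hx)).differentiableAt (by simp))
      (hf.contDiffAt (h.isOpen.mem_nhds hx))
    simp only [h2]
  rw [e1, h1]
  congr 1
  refine integral_congr_ae (Filter.Eventually.of_forall fun x => ?_)
  simp only [Finset.mul_sum]
  refine Finset.sum_congr rfl fun i _ => Finset.sum_congr rfl fun j _ => ?_
  ring



end ibp

end Crest.Agent.R236
end
end

-- ▼ part R236/Bl1
section

/-! Row 236, Part C: the Blaschke metric calculus (C1 of the master blueprint). (helper796) -/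

set_option autoImplicit false
open scoped ContDiff Topology
open Crest.GeometryTopology.CoordMetric Crest.GeometryTopology.AffineMaximal
open Set Filter MeasureTheory

noncomputable section

namespace Crest.Agent.R236.Bl

variable {n : ℕ}

set_option hygiene false in
local notation "𝔼" => EuclideanSpace ℝ (Fin n)

/-! ### rules for `pderiv` -/

section rules

variable {f g : 𝔼 → ℝ} {x : 𝔼} {i : Fin n}

lemma pd_congr (h : f =ᶠ[𝓝 x] g) : pderiv i f x = pderiv i g x := by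
  unfold pderiv; rw [h.fderiv_eq]

lemma pd_add (hf : DifferentiableAt ℝ f x) (hg : DifferentiableAt ℝ g x) :
    pderiv i (fun y => f y + g y) x = pderiv i f x + pderiv i g x := by
  unfold pderiv
  rw [show (fun y => f y + g y) = f + g from rfl, fderiv_add hf hg]; rfl

lemma pd_sub (hf : DifferentiableAt ℝ f x) (hg : DifferentiableAt ℝ g x) :
    pderiv i (fun y => f y - g y) x = pderiv i f x - pderiv i g x := by
  unfold pderiv
  rw [show (fun y => f y - g y) = f - g from rfl, fderiv_sub hf hg]; rfl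


lemma pd_mul (hf : DifferentiableAt ℝ f x) (hg : DifferentiableAt ℝ g x) :
    pderiv i (fun y => f y * g y) x = f x * pderiv i g x + g x * pderiv i f x := by
  unfold pderiv
  rw [show (fun y => f y * g y) = f * g from rfl, fderiv_mul hf hg]
  simp

lemma pd_const (c : ℝ) : pderiv i (fun _ : 𝔼 => c) x = 0 := by
  unfold pderiv; simp

lemma pd_const_mul (c : ℝ) (hf : DifferentiableAt ℝ f x) :
    pderiv i (fun y => c * f y) x = c * pderiv i f x := by
  rw [pd_mul (differentiableAt_const c) hf, pd_const]; ring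

lemma pd_sum {ι : Type*} (s : Finset ι) {F : ι → 𝔼 → ℝ}
    (h : ∀ k ∈ s, DifferentiableAt ℝ (F k) x) :
    pderiv i (fun y => ∑ k ∈ s, F k y) x = ∑ k ∈ s, pderiv i (F k) x := by
  unfold pderiv
  rw [fderiv_fun_sum h]
  simp

lemma pd_comp {φ : ℝ → ℝ} {φ' : ℝ} (hf : DifferentiableAt ℝ f x) (hφ : HasDerivAt φ φ' (f x)) :
    pderiv i (fun y => φ (f y)) x = φ' * pderiv i f x := by
  unfold pderiv
  have := hφ.comp_hasFDerivAt x hf.hasFDerivAt
  have h2 : fderiv ℝ (fun y => φ (f y)) x = φ' • fderiv ℝ f x := this.fderiv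
  rw [h2]
  simp

lemma pd_coord (j : Fin n) : pderiv i (fun y : 𝔼 => y j) x = if i = j then 1 else 0 := by
  unfold pderiv
  have : fderiv ℝ (fun y : 𝔼 => y j) x = EuclideanSpace.proj j :=
    (EuclideanSpace.proj (𝕜 := ℝ) j).hasFDerivAt.fderiv
  rw [this]
  simp [eq_comm]

lemma pd_clm (b : 𝔼 →L[ℝ] ℝ) : pderiv i (fun y : 𝔼 => b y) x = b (EuclideanSpace.single i 1) := by
  unfold pderiv
  rw [b.hasFDerivAt.fderiv]

lemma fderiv_eq_pd (v : 𝔼) : fderiv ℝ f x v = ∑ i, pderiv i f x * v i := by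
  conv_lhs => rw [← sum_single v]
  rw [map_sum]
  refine Finset.sum_congr rfl fun j _ => ?_
  rw [map_smul, smul_eq_mul, mul_comm]; rfl

/-- divergence of a product -/
lemma div_mul {X : Fin n → 𝔼 → ℝ} (hf : DifferentiableAt ℝ f x)
    (hX : ∀ i, DifferentiableAt ℝ (X i) x) :
    ∑ i, pderiv i (fun y => f y * X i y) x
      = f x * ∑ i, pderiv i (X i) x + ∑ i, pderiv i f x * X i x := by
  rw [Finset.mul_sum, ← Finset.sum_add_distrib]
  refine Finset.sum_congr rfl fun i _ => ?_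
  rw [pd_mul hf (hX i)]; ring

end rules

/-! ### definitions -/

/-- `ρ = det(D²u)^{-1/(n+2)}`. -/
def rho (u : 𝔼 → ℝ) (x : 𝔼) : ℝ := (hessianMat u x).det ^ (-(1:ℝ) / ((n:ℝ) + 2))

/-- the field `AA ∇f`, `AA = ρⁿ cof`. -/
def fld (u f : 𝔼 → ℝ) (i : Fin n) (x : 𝔼) : ℝ :=
  rho u x ^ n * ∑ j, cof u x i j * pderiv j f x

/-- `⟨f,g⟩ = ρ AA(∇f,∇g)`. -/
def ip (u f g : 𝔼 → ℝ) (x : 𝔼) : ℝ := rho u x * ∑ i, pderiv i f x * fld u g i x

/-- `Lap f = ρ div(AA ∇f)`. -/
def lap (u f : 𝔼 → ℝ) (x : 𝔼) : ℝ := rho u x * ∑ i, pderiv i (fld u f i) x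

/-- the general conormal function: `ρ (c₀ - s u - Du(v - s x))`; `s = 0`: `N_{(v,c₀)}`;
`s = 1`: `V_Q`, `Q = (v,c₀)`. -/
def sg (u : 𝔼 → ℝ) (c₀ : ℝ) (v : 𝔼) (s : ℝ) (x : 𝔼) : ℝ :=
  c₀ - s * u x - ∑ k, pderiv k u x * (v k - s * x k)

def NV (u : 𝔼 → ℝ) (c₀ : ℝ) (v : 𝔼) (s : ℝ) (x : 𝔼) : ℝ := rho u x * sg u c₀ v s x

/-- affine function on `𝔼 × ℝ` restricted to the graph -/
def aff (u : 𝔼 → ℝ) (a : ℝ) (b : 𝔼 →L[ℝ] ℝ) (c : ℝ) (x : 𝔼) : ℝ := a * u x + b x + c

variable {Ω : Set 𝔼} {u : 𝔼 → ℝ}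

section smooth

lemma diffAt {f : 𝔼 → ℝ} {U : Set 𝔼} (hU : IsOpen U) (hf : ContDiffOn ℝ ∞ f U) {x : 𝔼}
    (hx : x ∈ U) : DifferentiableAt ℝ f x :=
  (hf.contDiffAt (hU.mem_nhds hx)).differentiableAt (by simp)

lemma rho_pos (h : SC Ω u) {x : 𝔼} (hx : x ∈ Ω) : 0 < rho u x :=
  Real.rpow_pos_of_pos (h.det_pos hx) _

lemma rho_pow (h : SC Ω u) {x : 𝔼} (hx : x ∈ Ω) :
    rho u x ^ (n + 2) * (hessianMat u x).det = 1 := by
  have hD := h.det_pos hx
  unfold rho
  rw [← Real.rpow_natCast, ← Real.rpow_mul hD.le]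
  have : -(1:ℝ) / ((n:ℝ) + 2) * ((n + 2 : ℕ) : ℝ) = -1 := by
    push_cast
    field_simp
  rw [this, Real.rpow_neg_one, inv_mul_cancel₀ hD.ne']

lemma rho_detPower (h : SC Ω u) {x : 𝔼} (hx : x ∈ Ω) :
    detPower n u x = rho u x ^ (n + 1) := by
  have hD := h.det_pos hx
  unfold rho detPower
  rw [← Real.rpow_natCast, ← Real.rpow_mul hD.le]
  congr 1
  push_cast
  field_simp

lemma contDiffOn_rho (h : SC Ω u) : ContDiffOn ℝ ∞ (rho u) Ω := by
  unfold rho
  exact h.contDiffOn_det.rpow_const_of_ne (fun x hx => (h.det_pos hx).ne')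

lemma contDiffOn_fld (h : SC Ω u) {U : Set 𝔼} (hU : IsOpen U) (hUΩ : U ⊆ Ω) {f : 𝔼 → ℝ}
    (hf : ContDiffOn ℝ ∞ f U) (i : Fin n) : ContDiffOn ℝ ∞ (fld u f i) U := by
  unfold fld
  refine ContDiffOn.mul (((contDiffOn_rho h).mono hUΩ).pow n) ?_
  refine ContDiffOn.sum fun j _ => ?_
  exact ((h.contDiffOn_cof i j).mono hUΩ).mul (contDiffOn_pderiv_infty hU hf j)


lemma contDiffOn_sg (h : SC Ω u) (c₀ : ℝ) (v : 𝔼) (s : ℝ) :
    ContDiffOn ℝ ∞ (sg u c₀ v s) Ω := by
  unfold sg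
  refine (contDiffOn_const.sub (contDiffOn_const.mul h.smooth)).sub ?_
  refine ContDiffOn.sum fun j _ => ?_
  refine (contDiffOn_pderiv_infty h.isOpen h.smooth j).mul (contDiffOn_const.sub
    (contDiffOn_const.mul ?_))
  exact (EuclideanSpace.proj (𝕜 := ℝ) j).contDiff.contDiffOn

lemma contDiffOn_NV (h : SC Ω u) (c₀ : ℝ) (v : 𝔼) (s : ℝ) :
    ContDiffOn ℝ ∞ (NV u c₀ v s) Ω :=
  (contDiffOn_rho h).mul (contDiffOn_sg h c₀ v s)

lemma contDiffOn_aff (h : SC Ω u) (a : ℝ) (b : 𝔼 →L[ℝ] ℝ) (c : ℝ) :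
    ContDiffOn ℝ ∞ (aff u a b c) Ω := by
  unfold aff
  exact ((contDiffOn_const.mul h.smooth).add b.contDiff.contDiffOn).add contDiffOn_const

end smooth

section algebra

variable {f g k : 𝔼 → ℝ} {x : 𝔼}

lemma ip_eq_sum : ip u f g x
    = rho u x ^ (n + 1) * ∑ i, ∑ j, cof u x i j * pderiv i f x * pderiv j g x := by
  unfold ip fld
  rw [pow_succ, mul_comm (rho u x ^ n), mul_assoc]
  congr 1
  rw [Finset.mul_sum]
  refine Finset.sum_congr rfl fun i _ => ?_
  rw [mul_left_comm, Finset.mul_sum]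
  congr 1
  refine Finset.sum_congr rfl fun j _ => ?_
  ring

lemma ip_comm (h : SC Ω u) (hx : x ∈ Ω) : ip u f g x = ip u g f x := by
  rw [ip_eq_sum, ip_eq_sum, Finset.sum_comm]
  congr 1
  refine Finset.sum_congr rfl fun i _ => Finset.sum_congr rfl fun j _ => ?_
  rw [h.cof_symm hx j i]; ring


lemma ip_comp_left {φ : ℝ → ℝ} {φ' : ℝ} (hf : DifferentiableAt ℝ f x)
    (hφ : HasDerivAt φ φ' (f x)) : ip u (fun y => φ (f y)) g x = φ' * ip u f g x := by
  unfold ip
  rw [mul_left_comm]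
  congr 1
  rw [Finset.mul_sum]
  refine Finset.sum_congr rfl fun i _ => ?_
  rw [pd_comp hf hφ]; ring

lemma fld_comp {φ : ℝ → ℝ} {φ' : ℝ} (hf : DifferentiableAt ℝ f x)
    (hφ : HasDerivAt φ φ' (f x)) (i : Fin n) :
    fld u (fun y => φ (f y)) i x = φ' * fld u f i x := by
  unfold fld
  rw [mul_left_comm]
  congr 1
  rw [Finset.mul_sum]
  refine Finset.sum_congr rfl fun i _ => ?_
  rw [pd_comp hf hφ]; ring


lemma ip_mul_left (hf : DifferentiableAt ℝ f x) (hk : DifferentiableAt ℝ k x) :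
    ip u (fun y => f y * k y) g x = f x * ip u k g x + k x * ip u f g x := by
  unfold ip
  rw [mul_left_comm, mul_left_comm (k x), ← mul_add]
  congr 1
  rw [Finset.mul_sum, Finset.mul_sum, ← Finset.sum_add_distrib]
  refine Finset.sum_congr rfl fun i _ => ?_
  rw [pd_mul hf hk]; ring

/-- divergence of `φ · AA∇f` -/
lemma div_fld (h : SC Ω u) {U : Set 𝔼} (hU : IsOpen U) (hUΩ : U ⊆ Ω)
    (hf : ContDiffOn ℝ ∞ f U) (hx : x ∈ U) (hk : DifferentiableAt ℝ k x) :
    rho u x * ∑ i, pderiv i (fun y => k y * fld u f i y) x = k x * lap u f x + ip u k f x := by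
  rw [div_mul hk (fun i => diffAt hU (contDiffOn_fld h hU hUΩ hf i) hx)]
  unfold lap ip
  ring

lemma lap_log (h : SC Ω u) {U : Set 𝔼} (hU : IsOpen U) (hUΩ : U ⊆ Ω)
    (hf : ContDiffOn ℝ ∞ f U) (hpos : ∀ y ∈ U, 0 < f y) (hx : x ∈ U) :
    lap u (fun y => Real.log (f y)) x
      = lap u f x / f x - ip u f f x / (f x) ^ 2 := by
  have hfx := (hpos x hx).ne'
  have h1 : ∀ i, pderiv i (fld u (fun y => Real.log (f y)) i) x
      = pderiv i (fun y => (f y)⁻¹ * fld u f i y) x := by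
    intro i
    apply pd_congr
    filter_upwards [hU.mem_nhds hx] with y hy
    exact fld_comp (diffAt hU hf hy) (Real.hasDerivAt_log (hpos y hy).ne') i
  have h2 : lap u (fun y => Real.log (f y)) x
      = rho u x * ∑ i, pderiv i (fun y => (f y)⁻¹ * fld u f i y) x := by
    unfold lap; simp_rw [h1]
  have hinv : DifferentiableAt ℝ (fun y => (f y)⁻¹) x := (diffAt hU hf hx).inv hfx
  rw [h2, div_fld h hU hUΩ hf hx hinv,
    ip_comp_left (φ := fun t => t⁻¹) (diffAt hU hf hx) (hasDerivAt_inv hfx)]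
  ring

end algebra

/-! ### the identities -/

section ident

variable {x : 𝔼}

lemma pd_sg (h : SC Ω u) (hx : x ∈ Ω) (c₀ : ℝ) (v : 𝔼) (s : ℝ) (j : Fin n) :
    pderiv j (sg u c₀ v s) x = - ∑ k, hessianMat u x j k * (v k - s * x k) := by
  have hcoord : ∀ k, DifferentiableAt ℝ (fun y : 𝔼 => y k) x := fun k =>
    (EuclideanSpace.proj (𝕜 := ℝ) k).differentiableAt
  have hpd : ∀ k, DifferentiableAt ℝ (fun y => pderiv k u y) x := fun k =>
    diffAt h.isOpen (contDiffOn_pderiv_infty h.isOpen h.smooth k) hx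
  have hd : ∀ k, DifferentiableAt ℝ (fun y : 𝔼 => v k - s * y k) x := fun k =>
    (differentiableAt_const _).sub ((hcoord k).const_mul s)
  have hmd : ∀ k, DifferentiableAt ℝ (fun y : 𝔼 => pderiv k u y * (v k - s * y k)) x :=
    fun k => (hpd k).fun_mul (hd k)
  have hsd : DifferentiableAt ℝ (fun y : 𝔼 => ∑ k, pderiv k u y * (v k - s * y k)) x :=
    DifferentiableAt.fun_sum fun k _ => hmd k
  have hsu : DifferentiableAt ℝ (fun y => s * u y) x := (h.differentiableAt hx).const_mul s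
  have hcu : DifferentiableAt ℝ (fun y => c₀ - s * u y) x :=
    (differentiableAt_const _).fun_sub hsu
  unfold sg
  rw [pd_sub hcu hsd, pd_sub (differentiableAt_const _) hsu, pd_const,
    pd_const_mul _ (h.differentiableAt hx), pd_sum _ (fun k _ => hmd k)]
  have : ∀ k, pderiv j (fun y => pderiv k u y * (v k - s * y k)) x
      = hessianMat u x j k * (v k - s * x k) - s * (if j = k then pderiv k u x else 0) := by
    intro k
    rw [pd_mul (hpd k) (hd k), pd_sub (differentiableAt_const _) ((hcoord k).const_mul s),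
      pd_const, pd_const_mul _ (hcoord k), pd_coord]
    unfold hessianMat
    split_ifs <;> ring
  simp_rw [this]
  rw [Finset.sum_sub_distrib, ← Finset.mul_sum]
  simp only [Finset.sum_ite_eq, Finset.mem_univ, if_true]
  ring

lemma cof_sg (h : SC Ω u) (hx : x ∈ Ω) (c₀ : ℝ) (v : 𝔼) (s : ℝ) (i : Fin n) :
    ∑ j, cof u x i j * pderiv j (sg u c₀ v s) x
      = - ((hessianMat u x).det * (v i - s * x i)) := by
  simp_rw [pd_sg h hx]
  have : ∀ j, cof u x i j * -∑ k, hessianMat u x j k * (v k - s * x k)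
      = - ∑ k, cof u x i j * hessianMat u x j k * (v k - s * x k) := by
    intro j; rw [mul_neg, Finset.mul_sum]; simp_rw [mul_assoc]
  simp_rw [this]
  rw [Finset.sum_neg_distrib, Finset.sum_comm]
  simp_rw [← Finset.sum_mul, SC.cof_mul_hess]
  simp

/-- `AA∇(ρσ) = σ·ρⁿ cof ∇ρ - ρ⁻¹ w` -/
lemma fld_NV (h : SC Ω u) (hx : x ∈ Ω) (c₀ : ℝ) (v : 𝔼) (s : ℝ) (i : Fin n) :
    fld u (NV u c₀ v s) i x
      = sg u c₀ v s x * fld u (rho u) i x - (rho u x)⁻¹ * (v i - s * x i) := by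
  have hρ := rho_pos h hx
  have hρd := diffAt h.isOpen (contDiffOn_rho h) hx
  have hsd := diffAt h.isOpen (contDiffOn_sg h c₀ v s) hx
  have h1 : ∀ j, cof u x i j * pderiv j (NV u c₀ v s) x
      = rho u x * (cof u x i j * pderiv j (sg u c₀ v s) x)
        + sg u c₀ v s x * (cof u x i j * pderiv j (rho u) x) := by
    intro j
    unfold NV
    rw [pd_mul hρd hsd]; ring
  unfold fld
  simp_rw [h1]
  rw [Finset.sum_add_distrib, ← Finset.mul_sum, ← Finset.mul_sum, cof_sg h hx]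
  have h2 := rho_pow h hx
  have h3 : rho u x ^ n * (rho u x * (hessianMat u x).det) = (rho u x)⁻¹ := by
    field_simp
    rw [← h2]; ring
  linear_combination (-(v i - s * x i)) * h3

/-- the flux `Y = ρⁿ cof ∇ρ` is divergence free (the PDE). -/
lemma div_fld_rho (h : SC Ω u) (hx : x ∈ Ω) (hm : affineMaximalOp n u x = 0) :
    ∑ i, pderiv i (fld u (rho u) i) x = 0 := by
  -- `fld u rho i = (1/(n+1)) Σ cof_ij ∂_j detPower` near x
  have hn1 : ((n:ℝ) + 1) ≠ 0 := by positivity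
  have hw : ContDiffOn ℝ ∞ (detPower n u) Ω :=
    ((contDiffOn_rho h).pow (n+1)).congr fun y hy => rho_detPower h hy
  have h1 : ∀ i, pderiv i (fld u (rho u) i) x
      = pderiv i (fun y => ((n:ℝ)+1)⁻¹ * ∑ j, cof u y i j * pderiv j (detPower n u) y) x := by
    intro i
    apply pd_congr
    filter_upwards [h.isOpen.mem_nhds hx] with y hy
    have : ∀ j, pderiv j (detPower n u) y = ((n:ℝ)+1) * rho u y ^ n * pderiv j (rho u) y := by
      intro j
      have e : detPower n u =ᶠ[𝓝 y] fun z => rho u z ^ (n+1) := by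
        filter_upwards [h.isOpen.mem_nhds hy] with z hz using rho_detPower h hz
      rw [pd_congr e, pd_comp (φ := fun t => t ^ (n+1))
        (diffAt h.isOpen (contDiffOn_rho h) hy) (hasDerivAt_pow (n+1) _)]
      push_cast
      simp
    unfold fld
    simp_rw [this]
    rw [Finset.mul_sum, Finset.mul_sum]
    refine Finset.sum_congr rfl fun j _ => ?_
    field_simp
  simp_rw [h1]
  have hcd : ∀ i j, DifferentiableAt ℝ (fun y => cof u y i j) x := fun i j =>
    diffAt h.isOpen (h.contDiffOn_cof i j) hx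
  have hpd : ∀ j, DifferentiableAt ℝ (fun y => pderiv j (detPower n u) y) x := fun j =>
    diffAt h.isOpen (contDiffOn_pderiv_infty h.isOpen hw j) hx
  have h2 : ∀ i, pderiv i (fun y => ((n:ℝ)+1)⁻¹ * ∑ j, cof u y i j * pderiv j (detPower n u) y) x
      = ((n:ℝ)+1)⁻¹ * (∑ j, cof u x i j * hessianMat (detPower n u) x i j
        + ∑ j, pderiv j (detPower n u) x * pderiv i (fun y => cof u y i j) x) := by
    intro i
    have hm1 : ∀ j, DifferentiableAt ℝ (fun y => cof u y i j * pderiv j (detPower n u) y) x :=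
      fun j => (hcd i j).fun_mul (hpd j)
    have hm2 : DifferentiableAt ℝ (fun y => ∑ j, cof u y i j * pderiv j (detPower n u) y) x :=
      DifferentiableAt.fun_sum fun j _ => hm1 j
    rw [pd_const_mul _ hm2, pd_sum _ (fun j _ => hm1 j), ← Finset.sum_add_distrib]
    congr 1
    refine Finset.sum_congr rfl fun j _ => ?_
    rw [pd_mul (hcd i j) (hpd j)]
    rfl
  simp_rw [h2]
  rw [← Finset.mul_sum, Finset.sum_add_distrib, ← h.affineMaximalOp_eq hx, hm]
  rw [Finset.sum_comm]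
  simp_rw [← Finset.mul_sum, h.div_cof hx]
  simp

/-- (I1)/(I3): `Lap N_v = 0`, `Lap V_Q = n`. -/
theorem lap_NV (h : SC Ω u) (hx : x ∈ Ω) (hm : affineMaximalOp n u x = 0)
    (c₀ : ℝ) (v : 𝔼) (s : ℝ) : lap u (NV u c₀ v s) x = s * n := by
  have hρ := rho_pos h hx
  have hρd := diffAt h.isOpen (contDiffOn_rho h) hx
  have hsd := diffAt h.isOpen (contDiffOn_sg h c₀ v s) hx
  have hfd : ∀ i, DifferentiableAt ℝ (fld u (rho u) i) x := fun i =>
    diffAt h.isOpen (contDiffOn_fld h h.isOpen le_rfl (contDiffOn_rho h) i) hx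
  have hcoord : ∀ k, DifferentiableAt ℝ (fun y : 𝔼 => y k) x := fun k =>
    (EuclideanSpace.proj (𝕜 := ℝ) k).differentiableAt
  have hwd : ∀ k, DifferentiableAt ℝ (fun y : 𝔼 => v k - s * y k) x := fun k =>
    (differentiableAt_const _).sub ((hcoord k).const_mul s)
  have hinvd : DifferentiableAt ℝ (fun y => (rho u y)⁻¹) x := hρd.inv hρ.ne'
  have h1 : ∀ i, pderiv i (fld u (NV u c₀ v s) i) x
      = pderiv i (fun y => sg u c₀ v s y * fld u (rho u) i y) x
        - pderiv i (fun y => (rho u y)⁻¹ * (v i - s * y i)) x := by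
    intro i
    rw [← pd_sub (hsd.fun_mul (hfd i)) (hinvd.fun_mul (hwd i))]
    apply pd_congr
    filter_upwards [h.isOpen.mem_nhds hx] with y hy
    exact fld_NV h hy c₀ v s i
  have hdw : ∀ i, pderiv i (fun y : 𝔼 => v i - s * y i) x = - s := by
    intro i
    rw [pd_sub (differentiableAt_const _) ((hcoord i).const_mul s), pd_const,
      pd_const_mul _ (hcoord i), pd_coord]
    simp
  have hdinv : ∀ i, pderiv i (fun y => (rho u y)⁻¹) x = - ((rho u x)^2)⁻¹ * pderiv i (rho u) x :=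
    fun i => pd_comp (φ := fun t => t⁻¹) hρd (hasDerivAt_inv hρ.ne')
  unfold lap
  simp_rw [h1]
  rw [Finset.sum_sub_distrib, div_mul hsd hfd, div_mul hinvd hwd, div_fld_rho h hx hm]
  simp_rw [hdw, hdinv]
  -- `Σ σ_i Y_i = -ρ⁻² Σ ρ_j w_j`
  have h2 : ∑ i, pderiv i (sg u c₀ v s) x * fld u (rho u) i x
      = - (((rho u x)^2)⁻¹ * ∑ j, pderiv j (rho u) x * (v j - s * x j)) := by
    unfold fld
    have : ∀ i, pderiv i (sg u c₀ v s) x * (rho u x ^ n * ∑ j, cof u x i j * pderiv j (rho u) x)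
        = ∑ j, rho u x ^ n * pderiv j (rho u) x * (cof u x j i * pderiv i (sg u c₀ v s) x) := by
      intro i
      rw [Finset.mul_sum, Finset.mul_sum]
      refine Finset.sum_congr rfl fun j _ => ?_
      rw [h.cof_symm hx j i]; ring
    simp_rw [this]
    rw [Finset.sum_comm]
    simp_rw [← Finset.mul_sum, cof_sg h hx]
    rw [Finset.mul_sum, ← Finset.sum_neg_distrib]
    refine Finset.sum_congr rfl fun j _ => ?_
    have h2 := rho_pow h hx
    have h3 : rho u x ^ n * (hessianMat u x).det = ((rho u x)^2)⁻¹ := by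
      field_simp
      rw [← h2]; ring
    linear_combination (-(pderiv j (rho u) x * (v j - s * x j))) * h3
  rw [h2]
  simp only [Finset.sum_const, Finset.card_univ, Fintype.card_fin, nsmul_eq_mul]
  have h4 : ∑ i, -(rho u x ^ 2)⁻¹ * pderiv i (rho u) x * (v i - s * x i)
      = -((rho u x ^ 2)⁻¹ * ∑ j, pderiv j (rho u) x * (v j - s * x j)) := by
    rw [Finset.mul_sum, ← Finset.sum_neg_distrib]
    refine Finset.sum_congr rfl fun j _ => ?_
    ring
  rw [h4]
  field_simp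
  ring

lemma div_cofX (h : SC Ω u) (hx : x ∈ Ω) {X : Fin n → 𝔼 → ℝ}
    (hX : ∀ j, DifferentiableAt ℝ (X j) x) :
    ∑ i, pderiv i (fun y => ∑ j, cof u y i j * X j y) x
      = ∑ i, ∑ j, cof u x i j * pderiv i (X j) x := by
  have hcd : ∀ i j, DifferentiableAt ℝ (fun y => cof u y i j) x := fun i j =>
    diffAt h.isOpen (h.contDiffOn_cof i j) hx
  have h2 : ∀ i, pderiv i (fun y => ∑ j, cof u y i j * X j y) x
      = ∑ j, cof u x i j * pderiv i (X j) x
        + ∑ j, X j x * pderiv i (fun y => cof u y i j) x := by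
    intro i
    rw [pd_sum _ (fun j _ => (hcd i j).fun_mul (hX j)), ← Finset.sum_add_distrib]
    exact Finset.sum_congr rfl fun j _ => pd_mul (hcd i j) (hX j)
  simp_rw [h2]
  rw [Finset.sum_add_distrib, Finset.sum_comm (γ := Fin n) (f := fun i j => X j x * _)]
  simp_rw [← Finset.mul_sum, h.div_cof hx]
  simp

lemma pd_aff (h : SC Ω u) (hx : x ∈ Ω) (a : ℝ) (b : 𝔼 →L[ℝ] ℝ) (c : ℝ) (i : Fin n) :
    pderiv i (aff u a b c) x = a * pderiv i u x + b (EuclideanSpace.single i 1) := by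
  unfold aff
  have h1 : DifferentiableAt ℝ (fun y => a * u y) x := (h.differentiableAt hx).const_mul a
  have h2 : DifferentiableAt ℝ (fun y => b y) x := b.differentiableAt
  rw [pd_add (h1.fun_add h2) (differentiableAt_const _), pd_add h1 h2, pd_const, pd_clm,
    pd_const_mul _ (h.differentiableAt hx), add_zero]

lemma lap_aff (h : SC Ω u) (hx : x ∈ Ω) (a : ℝ) (b : 𝔼 →L[ℝ] ℝ) (c : ℝ) :
    rho u x * lap u (aff u a b c) x = n * (a + ip u (rho u) (aff u a b c) x) := by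
  have hρ := rho_pos h hx
  have hρd := diffAt h.isOpen (contDiffOn_rho h) hx
  have hF := contDiffOn_aff h a b c
  have hFd : ∀ j, DifferentiableAt ℝ (fun y => pderiv j (aff u a b c) y) x := fun j =>
    diffAt h.isOpen (contDiffOn_pderiv_infty h.isOpen hF j) hx
  have hcd : ∀ i j, DifferentiableAt ℝ (fun y => cof u y i j) x := fun i j =>
    diffAt h.isOpen (h.contDiffOn_cof i j) hx
  have hud : ∀ j, DifferentiableAt ℝ (fun y => pderiv j u y) x := fun j =>
    diffAt h.isOpen (contDiffOn_pderiv_infty h.isOpen h.smooth j) hx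
  have hCd : ∀ i, DifferentiableAt ℝ
      (fun y => ∑ j, cof u y i j * pderiv j (aff u a b c) y) x := fun i =>
    DifferentiableAt.fun_sum fun j _ => (hcd i j).fun_mul (hFd j)
  -- Hessian of F
  have hH : ∀ i j, pderiv i (fun y => pderiv j (aff u a b c) y) x = a * hessianMat u x i j := by
    intro i j
    have e : (fun y => pderiv j (aff u a b c) y) =ᶠ[𝓝 x]
        fun y => a * pderiv j u y + b (EuclideanSpace.single j 1) := by
      filter_upwards [h.isOpen.mem_nhds hx] with y hy using pd_aff h hy a b c j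
    rw [pd_congr e, pd_add ((hud j).const_mul a) (differentiableAt_const _), pd_const,
      pd_const_mul _ (hud j), add_zero]
    rfl
  have hsymm : ∀ i j, hessianMat u x i j = hessianMat u x j i := by
    intro i j
    have := (h.posDef x hx).isHermitian
    have h2 := congrFun (congrFun this i) j
    simpa [Matrix.conjTranspose_apply] using h2.symm
  have hdivC : ∑ i, pderiv i (fun y => ∑ j, cof u y i j * pderiv j (aff u a b c) y) x
      = a * n * (hessianMat u x).det := by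
    rw [div_cofX h hx hFd]
    simp_rw [hH]
    have : ∀ i, ∑ j, cof u x i j * (a * hessianMat u x i j) = a * (hessianMat u x).det := by
      intro i
      have h3 := SC.cof_mul_hess u x i i
      simp only [if_true] at h3
      rw [← h3, Finset.mul_sum]
      refine Finset.sum_congr rfl fun j _ => ?_
      rw [hsymm i j]; ring
    simp_rw [this]
    simp; ring
  have hpow : ∀ i, rho u x * pderiv i (fun y => rho u y ^ n) x
      = n * rho u x ^ n * pderiv i (rho u) x := by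
    intro i
    rw [pd_comp (φ := fun t => t ^ n) hρd (hasDerivAt_pow n _)]
    rcases Nat.eq_zero_or_pos n with h0 | h0
    · simp [h0]
    · have : rho u x ^ n = rho u x ^ (n - 1) * rho u x := by
        rw [← pow_succ, Nat.sub_add_cancel h0]
      rw [this]; ring
  have hlap : lap u (aff u a b c) x
      = rho u x * (rho u x ^ n * (a * n * (hessianMat u x).det)
        + ∑ i, pderiv i (fun y => rho u y ^ n) x
            * ∑ j, cof u x i j * pderiv j (aff u a b c) x) := by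
    unfold lap
    congr 1
    have : ∀ i, pderiv i (fld u (aff u a b c) i) x
        = pderiv i (fun y => rho u y ^ n * ∑ j, cof u y i j * pderiv j (aff u a b c) y) x :=
      fun i => rfl
    simp_rw [this]
    rw [div_mul (f := fun y => rho u y ^ n)
      (X := fun i y => ∑ j, cof u y i j * pderiv j (aff u a b c) y) (hρd.fun_pow n) hCd, hdivC]
  rw [hlap]
  have hip : ip u (rho u) (aff u a b c) x
      = rho u x * (rho u x ^ n * ∑ i, pderiv i (rho u) x
          * ∑ j, cof u x i j * pderiv j (aff u a b c) x) := by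
    unfold ip fld
    congr 1
    rw [Finset.mul_sum]
    refine Finset.sum_congr rfl fun i _ => ?_
    ring
  rw [hip]
  have h5 : rho u x * ∑ i, pderiv i (fun y => rho u y ^ n) x
            * ∑ j, cof u x i j * pderiv j (aff u a b c) x
      = n * (rho u x ^ n * ∑ i, pderiv i (rho u) x
          * ∑ j, cof u x i j * pderiv j (aff u a b c) x) := by
    rw [Finset.mul_sum, Finset.mul_sum, Finset.mul_sum]
    refine Finset.sum_congr rfl fun i _ => ?_
    rw [← mul_assoc, hpow]; ring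
  have h6 := rho_pow h hx
  linear_combination (rho u x) * h5 + (a * n) * h6

/-- (I2), (I3): `N_v Lap F = n(⟨F,N_v⟩ + F₀(v))`, `V Lap F = n(⟨F,V⟩ + F(Q) - F)`. -/
theorem NV_lap_aff (h : SC Ω u) (hx : x ∈ Ω) (a : ℝ) (b : 𝔼 →L[ℝ] ℝ) (c : ℝ)
    (c₀ : ℝ) (v : 𝔼) (s : ℝ) :
    NV u c₀ v s x * lap u (aff u a b c) x
      = n * (ip u (aff u a b c) (NV u c₀ v s) x + a * (c₀ - s * u x) + b (v - s • x)) := by
  have hρ := rho_pos h hx
  have hw : ∀ i, pderiv i (aff u a b c) x * (v i - s * x i)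
      = a * (pderiv i u x * (v i - s * x i))
        + b (EuclideanSpace.single i 1) * (v i - s * x i) := by
    intro i; rw [pd_aff h hx]; ring
  have hbv : b (v - s • x) = ∑ i, b (EuclideanSpace.single i 1) * (v i - s * x i) := by
    conv_lhs => rw [← sum_single (v - s • x)]
    rw [map_sum]
    refine Finset.sum_congr rfl fun i _ => ?_
    rw [map_smul, smul_eq_mul, mul_comm]
    simp
  have hip : ip u (aff u a b c) (NV u c₀ v s) x
      = sg u c₀ v s x * ip u (aff u a b c) (rho u) x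
        - ∑ i, pderiv i (aff u a b c) x * (v i - s * x i) := by
    unfold ip
    simp_rw [fld_NV h hx]
    have e1 : (∑ i, pderiv i (aff u a b c) x * (v i - s * x i))
      = rho u x * ∑ i, pderiv i (aff u a b c) x * ((rho u x)⁻¹ * (v i - s * x i)) := by
      rw [Finset.mul_sum]
      refine Finset.sum_congr rfl fun i _ => ?_
      field_simp
    rw [e1, mul_left_comm, ← mul_sub]
    congr 1
    rw [Finset.mul_sum, ← Finset.sum_sub_distrib]
    refine Finset.sum_congr rfl fun i _ => ?_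
    ring
  rw [hip, ip_comm h hx, hbv]
  simp_rw [hw]
  rw [Finset.sum_add_distrib, ← Finset.mul_sum]
  have h1 := lap_aff h hx a b c
  have h2 : sg u c₀ v s x = c₀ - s * u x - ∑ k, pderiv k u x * (v k - s * x k) := rfl
  unfold NV
  rw [mul_comm (rho u x) (sg u c₀ v s x), mul_assoc, h1]
  rw [h2]
  ring

end ident

end Crest.Agent.R236.Bl
end
end

-- ▼ part R236/Bl2

/-! Row 236, Part C: C2 and C4 of the master blueprint. (helper796) -/

set_option autoImplicit false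
open scoped ContDiff Topology RealInnerProductSpace MatrixOrder
open Crest.GeometryTopology.CoordMetric Crest.GeometryTopology.AffineMaximal
open Set Filter MeasureTheory

noncomputable section

namespace Crest.Agent.R236.Bl

variable {n : ℕ}

set_option hygiene false in
local notation "𝔼" => EuclideanSpace ℝ (Fin n)

variable {Ω : Set 𝔼} {u : 𝔼 → ℝ}

/-! ### the metric form as an honest inner product -/

/-- the form `ρ^{n+1} Σ cof_ij ξ_i η_j` -/
def frm (u : 𝔼 → ℝ) (x : 𝔼) (ξ η : Fin n → ℝ) : ℝ :=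
  rho u x ^ (n + 1) * ∑ i, ∑ j, cof u x i j * ξ i * η j

lemma ip_eq_frm (f g : 𝔼 → ℝ) (x : 𝔼) :
    ip u f g x = frm u x (fun i => pderiv i f x) (fun i => pderiv i g x) := ip_eq_sum

lemma exists_iso (h : SC Ω u) {x : 𝔼} (hx : x ∈ Ω) :
    ∃ T : (Fin n → ℝ) →ₗ[ℝ] EuclideanSpace ℝ (Fin n),
      ∀ ξ η, ⟪T ξ, T η⟫ = frm u x ξ η := by
  have hP : (rho u x ^ (n+1) • cof u x).PosSemidef :=
    (h.cof_posDef hx).posSemidef.smul (pow_nonneg (rho_pos h hx).le _)
  obtain ⟨S, hS⟩ := CStarAlgebra.nonneg_iff_eq_star_mul_self.mp hP.nonneg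
  refine ⟨(WithLp.linearEquiv 2 ℝ (Fin n → ℝ)).symm.toLinearMap ∘ₗ Matrix.mulVecLin S,
    fun ξ η => ?_⟩
  have h1 : ⟪((WithLp.linearEquiv 2 ℝ (Fin n → ℝ)).symm.toLinearMap ∘ₗ Matrix.mulVecLin S) ξ,
      ((WithLp.linearEquiv 2 ℝ (Fin n → ℝ)).symm.toLinearMap ∘ₗ Matrix.mulVecLin S) η⟫
      = (S.mulVec ξ) ⬝ᵥ (S.mulVec η) := by
    simp [PiLp.inner_apply, dotProduct, mul_comm]
  rw [h1]
  have h2 : (S.mulVec ξ) ⬝ᵥ (S.mulVec η) = ξ ⬝ᵥ ((rho u x ^ (n+1) • cof u x).mulVec η) := by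
    rw [hS, Matrix.star_eq_conjTranspose, Matrix.conjTranspose_eq_transpose_of_trivial,
      ← Matrix.mulVec_mulVec, Matrix.dotProduct_mulVec ξ, Matrix.vecMul_transpose]
  rw [h2]
  unfold frm
  simp only [dotProduct, Matrix.mulVec, Matrix.smul_apply, smul_eq_mul]
  rw [Finset.mul_sum]
  refine Finset.sum_congr rfl fun i _ => ?_
  rw [Finset.mul_sum, Finset.mul_sum]
  refine Finset.sum_congr rfl fun j _ => ?_
  ring

/-- two affine functions and two vectors in duality -/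
structure CData (n : ℕ) where
  aP : ℝ
  bP : EuclideanSpace ℝ (Fin n) →L[ℝ] ℝ
  cP : ℝ
  aW : ℝ
  bW : EuclideanSpace ℝ (Fin n) →L[ℝ] ℝ
  cW : ℝ
  zP : ℝ
  vP : EuclideanSpace ℝ (Fin n)
  zW : ℝ
  vW : EuclideanSpace ℝ (Fin n)
  hPP : aP * zP + bP vP = 1
  hPW : aP * zW + bP vW = 0
  hWP : aW * zP + bW vP = 0
  hWW : aW * zW + bW vW = 1

/-- `P, W, N_{e_P}, N_{e_W}` -/
def fn (D : CData n) (u : 𝔼 → ℝ) : Fin 4 → 𝔼 → ℝ :=
  ![aff u D.aP D.bP D.cP, aff u D.aW D.bW D.cW, NV u D.zP D.vP 0, NV u D.zW D.vW 0]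

/-- the set where all four are positive -/
def PS (D : CData n) (Ω : Set 𝔼) (u : 𝔼 → ℝ) : Set 𝔼 := {x | x ∈ Ω ∧ ∀ k, 0 < fn D u k x}

def pf (D : CData n) (u : 𝔼 → ℝ) (x : 𝔼) : ℝ := fn D u 0 x * fn D u 2 x
def qf (D : CData n) (u : 𝔼 → ℝ) (x : 𝔼) : ℝ := fn D u 1 x * fn D u 3 x
def Lg (D : CData n) (u : 𝔼 → ℝ) (k : Fin 4) (x : 𝔼) : ℝ := Real.log (fn D u k x)

section C2

variable (D : CData n)

lemma PS_sub : PS D Ω u ⊆ Ω := fun _ hx => hx.1

lemma contDiffOn_fn (h : SC Ω u) (k : Fin 4) : ContDiffOn ℝ ∞ (fn D u k) Ω := by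
  fin_cases k
  · exact contDiffOn_aff h _ _ _
  · exact contDiffOn_aff h _ _ _
  · exact contDiffOn_NV h _ _ _
  · exact contDiffOn_NV h _ _ _

lemma isOpen_PS (h : SC Ω u) : IsOpen (PS D Ω u) := by
  have : PS D Ω u = ⋂ k, (Ω ∩ (fn D u k) ⁻¹' Ioi 0) := by
    ext x
    simp only [PS, mem_ofPred_eq, mem_iInter, mem_inter_iff, mem_preimage, mem_Ioi]
    exact ⟨fun hx k => ⟨hx.1, hx.2 k⟩, fun hx => ⟨(hx 0).1, fun k => (hx k).2⟩⟩
  rw [this]
  exact isOpen_iInter_of_finite fun k =>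
    (contDiffOn_fn D h k).continuousOn.isOpen_inter_preimage h.isOpen isOpen_Ioi

variable {D}

lemma contDiffOn_Lg (h : SC Ω u) (k : Fin 4) : ContDiffOn ℝ ∞ (Lg D u k) (PS D Ω u) :=
  ((contDiffOn_fn D h k).mono (PS_sub D)).log fun _ hx => (hx.2 k).ne'

lemma contDiffOn_pf (h : SC Ω u) : ContDiffOn ℝ ∞ (pf D u) (PS D Ω u) :=
  ((contDiffOn_fn D h 0).mono (PS_sub D)).mul ((contDiffOn_fn D h 2).mono (PS_sub D))

lemma contDiffOn_qf (h : SC Ω u) : ContDiffOn ℝ ∞ (qf D u) (PS D Ω u) :=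
  ((contDiffOn_fn D h 1).mono (PS_sub D)).mul ((contDiffOn_fn D h 3).mono (PS_sub D))

lemma pf_pos {x : 𝔼} (hx : x ∈ PS D Ω u) : 0 < pf D u x := mul_pos (hx.2 0) (hx.2 2)
lemma qf_pos {x : 𝔼} (hx : x ∈ PS D Ω u) : 0 < qf D u x := mul_pos (hx.2 1) (hx.2 3)

lemma fn_diff (h : SC Ω u) {x : 𝔼} (hx : x ∈ PS D Ω u) (k : Fin 4) :
    DifferentiableAt ℝ (fn D u k) x := diffAt h.isOpen (contDiffOn_fn D h k) hx.1

lemma ip_Lg_left (h : SC Ω u) {x : 𝔼} (hx : x ∈ PS D Ω u) (k : Fin 4) (g : 𝔼 → ℝ) :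
    ip u (Lg D u k) g x = ip u (fn D u k) g x / fn D u k x := by
  have := ip_comp_left (u := u) (g := g) (fn_diff h hx k) (Real.hasDerivAt_log (hx.2 k).ne')
  unfold Lg
  rw [this]; ring

lemma ip_Lg (h : SC Ω u) {x : 𝔼} (hx : x ∈ PS D Ω u) (k l : Fin 4) :
    ip u (Lg D u k) (Lg D u l) x
      = ip u (fn D u k) (fn D u l) x / (fn D u k x * fn D u l x) := by
  rw [ip_Lg_left h hx, ip_comm h hx.1, ip_Lg_left h hx, ip_comm h hx.1]
  have h1 := (hx.2 k).ne'
  have h2 := (hx.2 l).ne'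
  field_simp

lemma lap_Lg (h : SC Ω u) {x : 𝔼} (hx : x ∈ PS D Ω u) (k : Fin 4) :
    lap u (Lg D u k) x = lap u (fn D u k) x / fn D u k x - ip u (Lg D u k) (Lg D u k) x := by
  have h1 := lap_log (u := u) h (isOpen_PS D h) (PS_sub D)
    ((contDiffOn_fn D h k).mono (PS_sub D)) (fun y hy => hy.2 k) hx
  have h2 : lap u (Lg D u k) x = lap u (fun y => Real.log (fn D u k y)) x := rfl
  rw [h2, h1, ip_Lg h hx]
  ring

/-- the two expressions of `Lap P / P`. -/
lemma lapP (h : SC Ω u) {x : 𝔼} (hx : x ∈ PS D Ω u) :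
    lap u (fn D u 0) x / fn D u 0 x = n * ip u (Lg D u 0) (Lg D u 3) x ∧
    lap u (fn D u 0) x / fn D u 0 x
      = n * (ip u (Lg D u 0) (Lg D u 2) x + 1 / pf D u x) := by
  have h0 := (hx.2 0).ne'
  have h2 := (hx.2 2).ne'
  have h3 := (hx.2 3).ne'
  have e3 : fn D u 3 x * lap u (fn D u 0) x
      = n * (ip u (fn D u 0) (fn D u 3) x + 0) := by
    have := NV_lap_aff h hx.1 D.aP D.bP D.cP D.zW D.vW 0
    rw [zero_mul, sub_zero, zero_smul, sub_zero, add_assoc, D.hPW] at this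
    exact this
  have e2 : fn D u 2 x * lap u (fn D u 0) x
      = n * (ip u (fn D u 0) (fn D u 2) x + 1) := by
    have := NV_lap_aff h hx.1 D.aP D.bP D.cP D.zP D.vP 0
    rw [zero_mul, sub_zero, zero_smul, sub_zero, add_assoc, D.hPP] at this
    exact this
  constructor
  · rw [ip_Lg h hx]
    field_simp
    linear_combination e3
  · rw [ip_Lg h hx]
    unfold pf
    field_simp
    linear_combination e2

lemma lapW (h : SC Ω u) {x : 𝔼} (hx : x ∈ PS D Ω u) :
    lap u (fn D u 1) x / fn D u 1 x = n * ip u (Lg D u 1) (Lg D u 2) x ∧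
    lap u (fn D u 1) x / fn D u 1 x
      = n * (ip u (Lg D u 1) (Lg D u 3) x + 1 / qf D u x) := by
  have h0 := (hx.2 1).ne'
  have h2 := (hx.2 2).ne'
  have h3 := (hx.2 3).ne'
  have e3 : fn D u 2 x * lap u (fn D u 1) x
      = n * (ip u (fn D u 1) (fn D u 2) x + 0) := by
    have := NV_lap_aff h hx.1 D.aW D.bW D.cW D.zP D.vP 0
    rw [zero_mul, sub_zero, zero_smul, sub_zero, add_assoc, D.hWP] at this
    exact this
  have e2 : fn D u 3 x * lap u (fn D u 1) x
      = n * (ip u (fn D u 1) (fn D u 3) x + 1) := by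
    have := NV_lap_aff h hx.1 D.aW D.bW D.cW D.zW D.vW 0
    rw [zero_mul, sub_zero, zero_smul, sub_zero, add_assoc, D.hWW] at this
    exact this
  constructor
  · rw [ip_Lg h hx]
    field_simp
    linear_combination e3
  · rw [ip_Lg h hx]
    unfold qf
    field_simp
    linear_combination e2

lemma lapN (h : SC Ω u) {x : 𝔼} (hx : x ∈ PS D Ω u) (hm : affineMaximalOp n u x = 0) :
    lap u (fn D u 2) x = 0 ∧ lap u (fn D u 3) x = 0 := by
  constructor
  · have := lap_NV h hx.1 hm D.zP D.vP 0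
    rw [zero_mul] at this
    exact this
  · have := lap_NV h hx.1 hm D.zW D.vW 0
    rw [zero_mul] at this
    exact this

/-- `⟨grad p, g⟩ = p ⟨a + A, g⟩` -/
lemma ip_pf (h : SC Ω u) {x : 𝔼} (hx : x ∈ PS D Ω u) (g : 𝔼 → ℝ) :
    ip u (pf D u) g x = pf D u x * (ip u (Lg D u 0) g x + ip u (Lg D u 2) g x) := by
  have h0 := (hx.2 0).ne'
  have h2 := (hx.2 2).ne'
  have := ip_mul_left (u := u) (g := g) (fn_diff h hx 0) (fn_diff h hx 2)
  have e : ip u (pf D u) g x = ip u (fun y => fn D u 0 y * fn D u 2 y) g x := rfl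
  rw [e, this, ip_Lg_left h hx, ip_Lg_left h hx]
  unfold pf
  field_simp
  ring

lemma ip_qf (h : SC Ω u) {x : 𝔼} (hx : x ∈ PS D Ω u) (g : 𝔼 → ℝ) :
    ip u (qf D u) g x = qf D u x * (ip u (Lg D u 1) g x + ip u (Lg D u 3) g x) := by
  have h0 := (hx.2 1).ne'
  have h2 := (hx.2 3).ne'
  have := ip_mul_left (u := u) (g := g) (fn_diff h hx 1) (fn_diff h hx 3)
  have e : ip u (qf D u) g x = ip u (fun y => fn D u 1 y * fn D u 3 y) g x := rfl
  rw [e, this, ip_Lg_left h hx, ip_Lg_left h hx]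
  unfold qf
  field_simp
  ring

/-- two-variable chain rule -/
lemma pd_comp2 {G : ℝ → ℝ → ℝ} {gp gq : ℝ} {p q : 𝔼 → ℝ} {x : 𝔼} (i : Fin n)
    (hG : DifferentiableAt ℝ (fun z : ℝ × ℝ => G z.1 z.2) (p x, q x))
    (hgp : HasDerivAt (fun t => G t (q x)) gp (p x))
    (hgq : HasDerivAt (fun t => G (p x) t) gq (q x))
    (hp : DifferentiableAt ℝ p x) (hq : DifferentiableAt ℝ q x) :
    pderiv i (fun y => G (p y) (q y)) x = gp * pderiv i p x + gq * pderiv i q x := by
  set F := fderiv ℝ (fun z : ℝ × ℝ => G z.1 z.2) (p x, q x) with hF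
  have h1 : F (1, 0) = gp := by
    have hl : HasDerivAt (fun t : ℝ => ((t, q x) : ℝ × ℝ)) (1, 0) (p x) :=
      (hasDerivAt_id _).prodMk (hasDerivAt_const _ _)
    have := hG.hasFDerivAt.comp_hasDerivAt (p x) hl
    exact this.unique hgp
  have h2 : F (0, 1) = gq := by
    have hl : HasDerivAt (fun t : ℝ => ((p x, t) : ℝ × ℝ)) (0, 1) (q x) :=
      (hasDerivAt_const _ _).prodMk (hasDerivAt_id _)
    have := hG.hasFDerivAt.comp_hasDerivAt (q x) hl
    exact this.unique hgq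
  have h3 : HasFDerivAt (fun y => G (p y) (q y)) (F.comp ((fderiv ℝ p x).prod (fderiv ℝ q x))) x :=
    HasFDerivAt.comp x (g := fun z : ℝ × ℝ => G z.1 z.2) (f := fun y => (p y, q y))
      hG.hasFDerivAt (hp.hasFDerivAt.prodMk hq.hasFDerivAt)
  unfold pderiv
  rw [h3.fderiv]
  have h4 : ∀ a b : ℝ, F (a, b) = a * gp + b * gq := by
    intro a b
    have : ((a, b) : ℝ × ℝ) = a • (1, 0) + b • (0, 1) := by simp
    rw [this, map_add, map_smul, map_smul, h1, h2]; rfl
  simp only [ContinuousLinearMap.comp_apply, ContinuousLinearMap.prod_apply]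
  rw [h4]; ring

end C2

section C4

variable (D : CData n) {G Gp Gq : Fin 4 → ℝ → ℝ → ℝ}

def cf (u : 𝔼 → ℝ) (G : Fin 4 → ℝ → ℝ → ℝ) (k : Fin 4) (x : 𝔼) : ℝ :=
  G k (pf D u x) (qf D u x)

/-- the field `𝒵 = Σ_k G_k(p,q) AA∇log f_k`. -/
def Zf (u : 𝔼 → ℝ) (G : Fin 4 → ℝ → ℝ → ℝ) (i : Fin n) (x : 𝔼) : ℝ :=
  ∑ k, cf D u G k x * fld u (Lg D u k) i x

/-- `AA(ξ,ξ)`. -/
def AAf (u : 𝔼 → ℝ) (x : 𝔼) (ξ : Fin n → ℝ) : ℝ :=
  rho u x ^ n * ∑ i, ∑ j, cof u x i j * ξ i * ξ j

variable {D}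

lemma contDiffOn_cf (h : SC Ω u)
    (hG : ∀ k, ContDiffOn ℝ ∞ (fun z : ℝ × ℝ => G k z.1 z.2) {z | 0 < z.1 ∧ 0 < z.2}) (k : Fin 4) :
    ContDiffOn ℝ ∞ (cf D u G k) (PS D Ω u) := by
  have h1 : ContDiffOn ℝ ∞ (fun x => (pf D u x, qf D u x)) (PS D Ω u) :=
    (contDiffOn_pf h).prodMk (contDiffOn_qf h)
  exact (hG k).comp h1 fun x hx => ⟨pf_pos hx, qf_pos hx⟩

lemma contDiffOn_Zf (h : SC Ω u)
    (hG : ∀ k, ContDiffOn ℝ ∞ (fun z : ℝ × ℝ => G k z.1 z.2) {z | 0 < z.1 ∧ 0 < z.2}) (i : Fin n) :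
    ContDiffOn ℝ ∞ (Zf D u G i) (PS D Ω u) := by
  unfold Zf
  exact ContDiffOn.sum fun k _ => (contDiffOn_cf h hG k).mul
    (contDiffOn_fld h (isOpen_PS D h) (PS_sub D) (contDiffOn_Lg h k) i)

lemma ip_cf (h : SC Ω u)
    (hG : ∀ k, ContDiffOn ℝ ∞ (fun z : ℝ × ℝ => G k z.1 z.2) {z | 0 < z.1 ∧ 0 < z.2})
    (hder : ∀ k p q, 0 < p → 0 < q → HasDerivAt (fun t => G k t q) (Gp k p q) p ∧
      HasDerivAt (fun t => G k p t) (Gq k p q) q) {x : 𝔼} (hx : x ∈ PS D Ω u) (k : Fin 4)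
    (g : 𝔼 → ℝ) :
    ip u (cf D u G k) g x = Gp k (pf D u x) (qf D u x) * ip u (pf D u) g x
      + Gq k (pf D u x) (qf D u x) * ip u (qf D u) g x := by
  have hq : IsOpen {z : ℝ × ℝ | 0 < z.1 ∧ 0 < z.2} :=
    (isOpen_lt continuous_const continuous_fst).inter (isOpen_lt continuous_const continuous_snd)
  have hd : DifferentiableAt ℝ (fun z : ℝ × ℝ => G k z.1 z.2) (pf D u x, qf D u x) :=
    ((hG k).contDiffAt (hq.mem_nhds ⟨pf_pos hx, qf_pos hx⟩)).differentiableAt (by simp)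
  have hdd := hder k _ _ (pf_pos hx) (qf_pos hx)
  have e : ∀ i, pderiv i (cf D u G k) x = Gp k (pf D u x) (qf D u x) * pderiv i (pf D u) x
      + Gq k (pf D u x) (qf D u x) * pderiv i (qf D u) x := fun i =>
    pd_comp2 i hd hdd.1 hdd.2 (diffAt (isOpen_PS D h) (contDiffOn_pf h) hx)
      (diffAt (isOpen_PS D h) (contDiffOn_qf h) hx)
  unfold ip
  simp_rw [e]
  rw [mul_left_comm, mul_left_comm (Gq k _ _), ← mul_add]
  congr 1
  rw [Finset.mul_sum, Finset.mul_sum, ← Finset.sum_add_distrib]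
  refine Finset.sum_congr rfl fun i _ => ?_
  ring

lemma div_Zf (h : SC Ω u)
    (hG : ∀ k, ContDiffOn ℝ ∞ (fun z : ℝ × ℝ => G k z.1 z.2) {z | 0 < z.1 ∧ 0 < z.2})
    (hder : ∀ k p q, 0 < p → 0 < q → HasDerivAt (fun t => G k t q) (Gp k p q) p ∧
      HasDerivAt (fun t => G k p t) (Gq k p q) q) {x : 𝔼} (hx : x ∈ PS D Ω u) :
    rho u x * ∑ i, pderiv i (Zf D u G i) x
      = ∑ k, (G k (pf D u x) (qf D u x) * lap u (Lg D u k) x
        + Gp k (pf D u x) (qf D u x) * pf D u x *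
            (ip u (Lg D u 0) (Lg D u k) x + ip u (Lg D u 2) (Lg D u k) x)
        + Gq k (pf D u x) (qf D u x) * qf D u x *
            (ip u (Lg D u 1) (Lg D u k) x + ip u (Lg D u 3) (Lg D u k) x)) := by
  have hU := isOpen_PS D h
  have hcd : ∀ k, DifferentiableAt ℝ (cf D u G k) x := fun k =>
    diffAt hU (contDiffOn_cf h hG k) hx
  have hfd : ∀ k i, DifferentiableAt ℝ (fld u (Lg D u k) i) x := fun k i =>
    diffAt hU (contDiffOn_fld h hU (PS_sub D) (contDiffOn_Lg h k) i) hx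
  have h1 : ∀ i, pderiv i (Zf D u G i) x
      = ∑ k, pderiv i (fun y => cf D u G k y * fld u (Lg D u k) i y) x := by
    intro i
    exact pd_sum _ (fun k _ => (hcd k).fun_mul (hfd k i))
  simp_rw [h1]
  rw [Finset.sum_comm, Finset.mul_sum]
  refine Finset.sum_congr rfl fun k _ => ?_
  rw [div_fld h hU (PS_sub D) (contDiffOn_Lg h k) hx (hcd k), ip_cf h hG hder hx,
    ip_pf h hx, ip_qf h hx]
  unfold cf
  ring

/-- the pointwise output of the certificate. -/
theorem cert_pt (h : SC Ω u) (hn : 0 < n) (hm : ∀ x ∈ Ω, affineMaximalOp n u x = 0)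
    {eps C : ℝ}
    (hG : ∀ k, ContDiffOn ℝ ∞ (fun z : ℝ × ℝ => G k z.1 z.2) {z | 0 < z.1 ∧ 0 < z.2})
    (hder : ∀ k p q, 0 < p → 0 < q → HasDerivAt (fun t => G k t q) (Gp k p q) p ∧
      HasDerivAt (fun t => G k p t) (Gq k p q) q)
    (hcert : ∀ p q, 0 < p → 0 < q → ∀ {V : Type} [NormedAddCommGroup V] [InnerProductSpace ℝ V]
      (X : Fin 4 → V),
      ⟪X 0, X 2⟫ = ⟪X 0, X 3⟫ - 1/p → ⟪X 1, X 3⟫ = ⟪X 1, X 2⟫ - 1/q →
      eps * (p + q) ^ (1 - (n:ℝ)/2) * ((∑ k, ‖X k‖^2) + 1/p + 1/q)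
        ≤ -(∑ k, (G k p q * Cert.dv n X k + Gp k p q * p * ⟪X 0 + X 2, X k⟫
            + Gq k p q * q * ⟪X 1 + X 3, X k⟫)) ∧
      ‖∑ k, G k p q • X k‖^2 ≤ C * (p + q) ^ (2 - (n:ℝ)) * ∑ k, ‖X k‖^2)
    {x : 𝔼} (hx : x ∈ PS D Ω u) :
    ∃ S : ℝ, 0 ≤ S ∧
      eps * (pf D u x + qf D u x) ^ (1 - (n:ℝ)/2) * (S + 1 / pf D u x + 1 / qf D u x)
        ≤ -(rho u x * ∑ i, pderiv i (Zf D u G i) x) ∧
      ∀ ξ : Fin n → ℝ, (∑ i, ξ i * Zf D u G i x)^2
        ≤ C / rho u x * (pf D u x + qf D u x) ^ (2 - (n:ℝ)) * S * AAf u x ξ := by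
  obtain ⟨T, hT⟩ := exists_iso h hx.1
  have hρ := rho_pos h hx.1
  set X : Fin 4 → EuclideanSpace ℝ (Fin n) := fun k => T (fun i => pderiv i (Lg D u k) x) with hX
  have hXX : ∀ k l, ⟪X k, X l⟫ = ip u (Lg D u k) (Lg D u l) x := by
    intro k l
    rw [hX, ip_eq_frm]
    exact hT _ _
  have hn' : (n:ℝ) ≠ 0 := by positivity
  have hc1 : ⟪X 0, X 2⟫ = ⟪X 0, X 3⟫ - 1 / pf D u x := by
    rw [hXX, hXX]
    obtain ⟨e1, e2⟩ := lapP (D := D) h hx
    have e3 := mul_left_cancel₀ hn' (e1.symm.trans e2)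
    linarith
  have hc2 : ⟪X 1, X 3⟫ = ⟪X 1, X 2⟫ - 1 / qf D u x := by
    rw [hXX, hXX]
    obtain ⟨e1, e2⟩ := lapW (D := D) h hx
    have e3 := mul_left_cancel₀ hn' (e1.symm.trans e2)
    linarith
  obtain ⟨c1, c2⟩ := hcert _ _ (pf_pos hx) (qf_pos hx) X hc1 hc2
  refine ⟨∑ k, ‖X k‖^2, Finset.sum_nonneg fun k _ => sq_nonneg _, ?_, ?_⟩
  · refine c1.trans (le_of_eq ?_)
    rw [div_Zf h hG hder hx]
    congr 1
    refine Finset.sum_congr rfl fun k _ => ?_
    have hlap : lap u (Lg D u k) x = Cert.dv n X k := by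
      rw [lap_Lg h hx]
      obtain ⟨n2, n3⟩ := lapN (D := D) h hx (hm x hx.1)
      have hsq : ∀ k, ip u (Lg D u k) (Lg D u k) x = ‖X k‖^2 := by
        intro k; rw [← hXX, real_inner_self_eq_norm_sq]
      fin_cases k
      · simp only [Cert.dv, Fin.zero_eta, Matrix.cons_val_zero]
        rw [(lapP (D := D) h hx).1, hsq, hXX]
      · simp only [Cert.dv, Fin.mk_one, Matrix.cons_val]
        rw [(lapW (D := D) h hx).1, hsq, hXX]
      · simp only [Cert.dv, Fin.reduceFinMk, Matrix.cons_val]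
        rw [n2, hsq]; ring
      · simp only [Cert.dv, Fin.reduceFinMk, Matrix.cons_val]
        rw [n3, hsq]; ring
    rw [hlap, inner_add_left, inner_add_left, hXX, hXX, hXX, hXX]
  · intro ξ
    have h1 : rho u x * ∑ i, ξ i * Zf D u G i x
        = ⟪T ξ, ∑ k, G k (pf D u x) (qf D u x) • X k⟫ := by
      rw [inner_sum]
      simp_rw [inner_smul_right]
      have h2 : ∀ k, ⟪T ξ, X k⟫ = rho u x * ∑ i, ξ i * fld u (Lg D u k) i x := by
        intro k
        rw [hX]
        simp only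
        rw [hT]
        unfold frm fld
        rw [pow_succ, mul_comm (rho u x ^ n), mul_assoc]
        congr 1
        rw [Finset.mul_sum]
        refine Finset.sum_congr rfl fun i _ => ?_
        simp only [Finset.mul_sum]
        refine Finset.sum_congr rfl fun j _ => ?_
        ring
      simp_rw [h2]
      unfold Zf cf
      simp_rw [Finset.mul_sum]
      rw [Finset.sum_comm]
      refine Finset.sum_congr rfl fun k _ => Finset.sum_congr rfl fun i _ => ?_
      ring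
    have h3 : ‖T ξ‖^2 = rho u x * AAf u x ξ := by
      rw [← real_inner_self_eq_norm_sq, hT]
      unfold frm AAf
      rw [pow_succ]; ring
    have h4 : (rho u x * ∑ i, ξ i * Zf D u G i x)^2
        ≤ (rho u x * AAf u x ξ) * (C * (pf D u x + qf D u x) ^ (2 - (n:ℝ)) * ∑ k, ‖X k‖^2) := by
      rw [h1, ← h3]
      calc ⟪T ξ, ∑ k, G k (pf D u x) (qf D u x) • X k⟫^2
          ≤ (‖T ξ‖ * ‖∑ k, G k (pf D u x) (qf D u x) • X k‖)^2 := by
            rw [← sq_abs]
            exact pow_le_pow_left₀ (abs_nonneg _) (abs_real_inner_le_norm _ _) 2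
        _ = ‖T ξ‖^2 * ‖∑ k, G k (pf D u x) (qf D u x) • X k‖^2 := by ring
        _ ≤ _ := mul_le_mul_of_nonneg_left c2 (sq_nonneg _)
    have h5 : (∑ i, ξ i * Zf D u G i x)^2
        = (rho u x * ∑ i, ξ i * Zf D u G i x)^2 / (rho u x)^2 := by
      field_simp
    rw [h5, div_le_iff₀ (by positivity)]
    refine h4.trans (le_of_eq ?_)
    field_simp

lemma AAf_nonneg (h : SC Ω u) {x : 𝔼} (hx : x ∈ Ω) (ξ : Fin n → ℝ) : 0 ≤ AAf u x ξ := by
  unfold AAf
  refine mul_nonneg (pow_nonneg (rho_pos h hx).le _) ?_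
  have := (h.cof_posDef hx).posSemidef.dotProduct_mulVec_nonneg ξ
  simp only [star_trivial, dotProduct, Matrix.mulVec] at this
  refine this.trans (le_of_eq ?_)
  refine Finset.sum_congr rfl fun i _ => ?_
  rw [Finset.mul_sum]
  refine Finset.sum_congr rfl fun j _ => ?_
  ring

lemma AAf_zero (x : 𝔼) : AAf u x 0 = 0 := by simp [AAf]

/-- elementary: `y² ≤ A B → 2 y ≤ A + B`. -/
lemma two_mul_le_of_sq_le {y A B : ℝ} (hA : 0 ≤ A) (hB : 0 ≤ B) (h : y ^ 2 ≤ A * B) :
    2 * y ≤ A + B := by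
  by_contra hcon
  rw [not_le] at hcon
  nlinarith [sq_nonneg (A - B)]

/-- the weight of the left side of C4 -/
def gw (D : CData n) (u : 𝔼 → ℝ) (x : 𝔼) : ℝ :=
  (pf D u x + qf D u x) ^ (1 - (n:ℝ)/2) * (1 / pf D u x + 1 / qf D u x) / rho u x

/-- the weight of the right side of C4 -/
def hw (D : CData n) (u ζ : 𝔼 → ℝ) (x : 𝔼) : ℝ :=
  (pf D u x + qf D u x) ^ (1 - (n:ℝ)/2) * AAf u x (fun i => pderiv i ζ x)

lemma contDiffOn_pq (h : SC Ω u) (r : ℝ) :
    ContDiffOn ℝ ∞ (fun x => (pf D u x + qf D u x) ^ r) (PS D Ω u) :=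
  ((contDiffOn_pf h).add (contDiffOn_qf h)).rpow_const_of_ne
    fun _ hx => (add_pos (pf_pos hx) (qf_pos hx)).ne'

lemma contDiffOn_gw (h : SC Ω u) : ContDiffOn ℝ ∞ (gw D u) (PS D Ω u) := by
  unfold gw
  refine ((contDiffOn_pq h _).mul ((contDiffOn_const.div (contDiffOn_pf h)
    fun x hx => (pf_pos hx).ne').add (contDiffOn_const.div (contDiffOn_qf h)
    fun x hx => (qf_pos hx).ne'))).div ((contDiffOn_rho h).mono (PS_sub D))
    fun x hx => (rho_pos h hx.1).ne'

lemma gw_nonneg (h : SC Ω u) {x : 𝔼} (hx : x ∈ PS D Ω u) : 0 ≤ gw D u x := by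
  have h1 := pf_pos hx
  have h2 := qf_pos hx
  have h3 := rho_pos h hx.1
  unfold gw
  positivity

lemma hw_nonneg (h : SC Ω u) {x : 𝔼} (hx : x ∈ PS D Ω u) (ζ : 𝔼 → ℝ) : 0 ≤ hw D u ζ x := by
  have h1 := pf_pos hx
  have h2 := qf_pos hx
  exact mul_nonneg (by positivity) (AAf_nonneg h hx.1 _)

lemma continuousOn_hw (h : SC Ω u) {ζ : 𝔼 → ℝ} (hζ : ContDiff ℝ 1 ζ) :
    ContinuousOn (hw D u ζ) (PS D Ω u) := by
  have hpd : ∀ i, Continuous (pderiv i ζ) := fun i =>
    (hζ.continuous_fderiv (by simp)).clm_apply continuous_const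
  unfold hw AAf
  refine (contDiffOn_pq h _).continuousOn.mul (((contDiffOn_rho h).continuousOn.mono
    (PS_sub D)).pow n |>.mul ?_)
  refine continuousOn_finsetSum _ fun i _ => continuousOn_finsetSum _ fun j _ => ?_
  exact (((h.contDiffOn_cof i j).continuousOn.mono (PS_sub D)).mul
    (hpd i).continuousOn).mul (hpd j).continuousOn

/-- C4, Bochner form on the set of positivity. -/
theorem C4_bochner (hn : 0 < n) (hcert : Cert.CertFin n) :
    ∃ K : ℝ, 0 < K ∧ ∀ (Ω : Set 𝔼) (u : 𝔼 → ℝ) (D : CData n), SC Ω u →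
      (∀ x ∈ Ω, affineMaximalOp n u x = 0) → ∀ ζ : 𝔼 → ℝ, ContDiff ℝ 1 ζ → HasCompactSupport ζ →
      tsupport ζ ⊆ PS D Ω u →
      IntegrableOn (fun x => ζ x ^ 2 * gw D u x) (PS D Ω u) ∧
      IntegrableOn (fun x => hw D u ζ x) (PS D Ω u) ∧
      ∫ x in PS D Ω u, ζ x ^ 2 * gw D u x ≤ K * ∫ x in PS D Ω u, hw D u ζ x := by
  obtain ⟨eps, C, G, Gp, Gq, heps, hC, hG, hder, hc⟩ := hcert
  refine ⟨C / eps ^ 2, by positivity, fun Ω u D h hm ζ hζ hζc hζs => ?_⟩
  set U := PS D Ω u with hU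
  have hUo : IsOpen U := isOpen_PS D h
  set K := tsupport ζ with hK
  have hKc : IsCompact K := hζc
  have hζ0 : ∀ x ∈ U, x ∉ K → ζ x = 0 := fun x _ hx => image_eq_zero_of_notMem_tsupport hx
  have hpζ0 : ∀ x ∈ U, x ∉ K → ∀ i, pderiv i ζ x = 0 := fun x hx hxK i =>
    pderiv_eq_zero_of_compact hUo hKc hζ0 hx hxK i
  have hZ : ∀ i, ContDiffOn ℝ ∞ (Zf D u G i) U := fun i => contDiffOn_Zf h hG i
  have i1 : IntegrableOn (fun x => ζ x ^ 2 * gw D u x) U := by
    refine integrableOn_of_compact hUo hKc hζs (fun x hx hxK => by rw [hζ0 x hx hxK]; ring) ?_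
    exact (hζ.continuous.pow 2).continuousOn.mul (contDiffOn_gw h).continuousOn
  have i2 : IntegrableOn (fun x => hw D u ζ x) U := by
    refine integrableOn_of_compact hUo hKc hζs (fun x hx hxK => ?_) (continuousOn_hw h hζ)
    have : (fun i => pderiv i ζ x) = 0 := by ext i; exact hpζ0 x hx hxK i
    unfold hw
    rw [this, AAf_zero, mul_zero]
  refine ⟨i1, i2, ?_⟩
  -- the divergence theorem
  have hX : ∀ i, ContDiffOn ℝ 1 (fun x => ζ x ^ 2 * Zf D u G i x) U := fun i =>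
    (hζ.contDiffOn.pow 2).mul ((hZ i).of_le (by simp))
  have hdiv := integral_div_eq_zero hUo hKc hζs hX
    (fun i x hx hxK => by rw [hζ0 x hx hxK]; ring)
  have hζd : ∀ x, DifferentiableAt ℝ ζ x := fun x => hζ.differentiable (by simp) x
  have hexp : ∀ x ∈ U, ∑ i, pderiv i (fun x => ζ x ^ 2 * Zf D u G i x) x
      = ζ x ^ 2 * ∑ i, pderiv i (Zf D u G i) x + 2 * (ζ x * ∑ i, pderiv i ζ x * Zf D u G i x) := by
    intro x hx
    rw [div_mul (f := fun x => ζ x ^ 2) (X := Zf D u G) ((hζd x).fun_pow 2)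
      (fun i => diffAt hUo (hZ i) hx)]
    congr 1
    rw [Finset.mul_sum, Finset.mul_sum]
    refine Finset.sum_congr rfl fun i _ => ?_
    rw [pd_comp (φ := fun t => t ^ 2) (hζd x) (hasDerivAt_pow 2 _)]
    push_cast
    ring
  have hpt : ∀ x ∈ U, ∑ i, pderiv i (fun x => ζ x ^ 2 * Zf D u G i x) x
      ≤ C / eps * hw D u ζ x - eps * (ζ x ^ 2 * gw D u x) := by
    intro x hx
    rw [hexp x hx]
    obtain ⟨S, hS, hA, hB⟩ := cert_pt h hn hm hG hder hc hx
    have hρ := rho_pos h hx.1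
    have hp := pf_pos hx
    have hq := qf_pos hx
    set w := (pf D u x + qf D u x) ^ (1 - (n:ℝ)/2) with hw'
    have hwpos : 0 < w := Real.rpow_pos_of_pos (by positivity) _
    have hww : (pf D u x + qf D u x) ^ (2 - (n:ℝ)) = w ^ 2 := by
      rw [hw', ← Real.rpow_natCast _ 2, ← Real.rpow_mul (by positivity)]
      congr 1
      push_cast; ring
    have hAA := AAf_nonneg h hx.1 (fun i => pderiv i ζ x)
    have hB' := hB (fun i => pderiv i ζ x)
    rw [hww] at hB'
    set E := ∑ i, pderiv i ζ x * Zf D u G i x with hE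
    set dZ := ∑ i, pderiv i (Zf D u G i) x with hdZ
    set H := AAf u x (fun i => pderiv i ζ x) with hH
    set r := 1 / pf D u x + 1 / qf D u x with hr
    have e1 : hw D u ζ x = w * H := rfl
    have e2 : gw D u x = w * r / rho u x := rfl
    rw [e1, e2]
    have s1 : ζ x ^ 2 * dZ ≤ - (eps * ζ x ^ 2 * w * S / rho u x)
        - eps * (ζ x ^ 2 * (w * r / rho u x)) := by
      have hA' : eps * w * (S + r) ≤ -(rho u x * dZ) := by
        rw [add_assoc] at hA
        exact hA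
      have h7 : eps * w * (S + r) / rho u x ≤ - dZ := by
        rw [div_le_iff₀ hρ]; linarith
      calc ζ x ^ 2 * dZ ≤ ζ x ^ 2 * (-(eps * w * (S + r) / rho u x)) :=
            mul_le_mul_of_nonneg_left (by linarith) (sq_nonneg _)
        _ = _ := by ring
    have s2 : 2 * (ζ x * E) ≤ eps * ζ x ^ 2 * w * S / rho u x + C / eps * (w * H) := by
      refine two_mul_le_of_sq_le (by positivity) (by positivity) ?_
      calc (ζ x * E) ^ 2 = ζ x ^ 2 * E ^ 2 := by ring
        _ ≤ ζ x ^ 2 * (C / rho u x * w ^ 2 * S * H) :=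
            mul_le_mul_of_nonneg_left hB' (sq_nonneg _)
        _ = _ := by field_simp
    linarith
  have i3 : IntegrableOn (fun x => ∑ i, pderiv i (fun x => ζ x ^ 2 * Zf D u G i x) x) U := by
    refine integrableOn_of_compact hUo hKc hζs (fun x hx hxK => ?_) ?_
    · refine Finset.sum_eq_zero fun i _ => ?_
      exact pderiv_eq_zero_of_compact hUo hKc
        (fun y hy hyK => by rw [hζ0 y hy hyK]; ring) hx hxK i
    · refine continuousOn_finsetSum _ fun i _ => ?_
      exact (contDiffOn_pderiv (m := 0) hUo (hX i) (by simp) i).continuousOn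
  have hmono := setIntegral_mono_on i3 ((i2.const_mul (C / eps)).sub (i1.const_mul eps))
    hUo.measurableSet hpt
  rw [hdiv] at hmono
  have hsub : ∫ x in U, (C / eps * hw D u ζ x - eps * (ζ x ^ 2 * gw D u x))
      = C / eps * (∫ x in U, hw D u ζ x) - eps * ∫ x in U, ζ x ^ 2 * gw D u x := by
    rw [integral_sub (i2.const_mul (C / eps)) (i1.const_mul eps), integral_const_mul,
      integral_const_mul]
  have hmono2 : 0 ≤ C / eps * (∫ x in U, hw D u ζ x) - eps * ∫ x in U, ζ x ^ 2 * gw D u x := by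
    rw [← hsub]; exact hmono
  have h8 : eps * (∫ x in U, ζ x ^ 2 * gw D u x) ≤ C / eps * ∫ x in U, hw D u ζ x := by linarith
  have h9 : (∫ x in U, ζ x ^ 2 * gw D u x) ≤ (C / eps * ∫ x in U, hw D u ζ x) / eps := by
    rw [le_div_iff₀ heps]; linarith
  refine h9.trans (le_of_eq ?_)
  field_simp

/-- C4, `lintegral` form on the whole space (the form consumed by B7). -/
theorem C4_lintegral (hn : 0 < n) (hcert : Cert.CertFin n) :
    ∃ K : ℝ, 0 < K ∧ ∀ (Ω : Set 𝔼) (u : 𝔼 → ℝ) (D : CData n), SC Ω u →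
      (∀ x ∈ Ω, affineMaximalOp n u x = 0) → ∀ ζ : 𝔼 → ℝ, ContDiff ℝ 1 ζ → HasCompactSupport ζ →
      tsupport ζ ⊆ PS D Ω u →
      ∫⁻ x, ENNReal.ofReal (ζ x ^ 2 * gw D u x)
        ≤ ENNReal.ofReal K * ∫⁻ x, ENNReal.ofReal (hw D u ζ x) := by
  obtain ⟨K, hK, hmain⟩ := C4_bochner (n := n) hn hcert
  refine ⟨K, hK, fun Ω u D h hm ζ hζ hζc hζs => ?_⟩
  obtain ⟨i1, i2, hle⟩ := hmain Ω u D h hm ζ hζ hζc hζs
  have hUo : IsOpen (PS D Ω u) := isOpen_PS D h
  have e1 : ∫⁻ x, ENNReal.ofReal (ζ x ^ 2 * gw D u x)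
      = ∫⁻ x in PS D Ω u, ENNReal.ofReal (ζ x ^ 2 * gw D u x) := by
    symm
    refine setLIntegral_eq_of_support_subset ?_
    intro x hx
    by_contra hxU
    apply hx
    have : ζ x = 0 := image_eq_zero_of_notMem_tsupport fun hx' => hxU (hζs hx')
    simp [this]
  rw [e1, ← ofReal_integral_eq_lintegral_ofReal i1
    (ae_restrict_of_forall_mem hUo.measurableSet fun x hx =>
      mul_nonneg (sq_nonneg _) (gw_nonneg h hx))]
  refine (ENNReal.ofReal_le_ofReal hle).trans ?_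
  rw [ENNReal.ofReal_mul hK.le, ofReal_integral_eq_lintegral_ofReal i2
    (ae_restrict_of_forall_mem hUo.measurableSet fun x hx => hw_nonneg h hx ζ)]
  exact mul_le_mul_right (setLIntegral_le_lintegral _ _) _

end C4

end Crest.Agent.R236.Bl
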