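import Crest.Agent.R236.CertAsm

-- ▼ part R236/Cert3
section

/-! Row 236, C3: exact certificate for n = 3 (helper194, generated; data of note 13059). -/

set_option autoImplicit false
set_option linter.all false
set_option maxHeartbeats 4000000

noncomputable section

namespace Crest.Agent.R236.Cert.N3

open Crest.Agent.R236.Cert

def Fa : Biv := hom2 3 4 5
def FA : Biv := hom2 20 40 8
def mu : Biv := hom3 (-8) 6 15 2

theorem br (p q : ℝ) (g : Gram) : bracket 3 2 Fa FA mu p q g =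
    (((9/2)*p^3 + 7*p^2*q + (35/2)*p*q^2 + 5*q^3) * g.aa +
     (5*p^3 + (35/2)*p^2*q + 7*p*q^2 + (9/2)*q^3) * g.bb +
     (30*p^3 + 80*p^2*q + 28*p*q^2 + 8*q^3) * g.AA +
     (8*p^3 + 28*p^2*q + 80*p*q^2 + 30*q^3) * g.BB +
     ((5/2)*p^3 + (-1/2)*p^2*q + (-1/2)*p*q^2 + (5/2)*q^3) * g.ab +
     ((7/2)*p^3 + 26*p^2*q + (7/2)*p*q^2 + 2*q^3) * g.aA +
     (3*p^3 + (41/2)*p^2*q + (-36)*p*q^2 + (-29/2)*q^3) * g.aB +
     ((-29/2)*p^3 + (-36)*p^2*q + (41/2)*p*q^2 + 3*q^3) * g.bA +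
     (2*p^3 + (7/2)*p^2*q + 26*p*q^2 + (7/2)*q^3) * g.bB +
     (4*p^3 + 54*p^2*q + 54*p*q^2 + 4*q^3) * g.AB)
    + ((mu.f p q) / p + (mu.f q p) / q) := by
  simp only [bracket, bracketV, Biv.swap, Fa, FA, mu, hom2, hom3, hom4]
  push_cast
  ring

theorem psd0 (g : Gram) (h : g.PSD) : 0 ≤
    (35/8) * g.aa + (39/8) * g.bb + (239/8) * g.AA + (63/8) * g.BB + (5/2) * g.ab + (7/2) * g.aA + 3 * g.aB + (-29/2) * g.bA + 2 * g.bB + 4 * g.AB := by
  linear_combination (14493/500) * h (6037/100000) (-6253/25000) 1 (69/1000) +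
    (856/125) * h (1007/5000) (10953/50000) 0 1 +
    (1551/500) * h 1 (44653/100000) 0 0 +
    (49/40) * h 0 1 0 0 +
    (525478933/1250000000000) * h 1 1 0 0 +
    (5759/50000000) * h 1 0 1 0 +
    (3537371/50000000000) * h 1 0 0 1 +
    (271/12500000) * h 0 1 (-1) 0 +
    (1570301/12500000000) * h 0 1 0 1 +
    (17/500000) * h 0 0 1 (-1) +
    (4444924203851/5000000000000) * h 1 0 0 0 +
    (4444730062053/5000000000000) * h 0 1 0 0 +
    (44441457/50000000) * h 0 0 1 0 +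
    (355506913/400000000) * h 0 0 0 1

theorem psd1 (g : Gram) (h : g.PSD) : 0 ≤
    (53/8) * g.aa + (137/8) * g.bb + (637/8) * g.AA + (221/8) * g.BB + (-1/2) * g.ab + 26 * g.aA + (41/2) * g.aB + (-36) * g.bA + (7/2) * g.bB + 54 * g.AB := by
  linear_combination (78437/1000) * h (8287/50000) (-5737/25000) 1 (17211/50000) +
    (17143/1000) * h (4211/12500) (46351/100000) 0 1 +
    (8123/1000) * h (139/20000) 1 0 0 +
    (167/125) * h 1 0 0 0 +
    (817871/62500000000) * h 1 (-1) 0 0 +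
    (7419/50000000) * h 1 0 (-1) 0 +
    (112288409/2500000000000) * h 1 0 0 (-1) +
    (6931/25000000) * h 0 1 (-1) 0 +
    (109201941/1250000000000) * h 0 1 0 (-1) +
    (20793/50000000) * h 0 0 1 1 +
    (475291830789/400000000000) * h 1 0 0 0 +
    (11880177544721/10000000000000) * h 0 1 0 0 +
    (29678963/25000000) * h 0 0 1 0 +
    (185571095377/156250000000) * h 0 0 0 1

theorem psd2 (g : Gram) (h : g.PSD) : 0 ≤
    (137/8) * g.aa + (53/8) * g.bb + (221/8) * g.AA + (637/8) * g.BB + (-1/2) * g.ab + (7/2) * g.aA + (-36) * g.aB + (41/2) * g.bA + 26 * g.bB + 54 * g.AB := by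
  linear_combination (78437/1000) * h (-5737/25000) (8287/50000) (17211/50000) 1 +
    (17143/1000) * h (46351/100000) (4211/12500) 1 0 +
    (8123/1000) * h 1 (139/20000) 0 0 +
    (167/125) * h 0 1 0 0 +
    (817871/62500000000) * h 1 (-1) 0 0 +
    (109201941/1250000000000) * h 1 0 (-1) 0 +
    (6931/25000000) * h 1 0 0 (-1) +
    (112288409/2500000000000) * h 0 1 (-1) 0 +
    (7419/50000000) * h 0 1 0 (-1) +
    (20793/50000000) * h 0 0 1 1 +
    (11880177544721/10000000000000) * h 1 0 0 0 +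
    (475291830789/400000000000) * h 0 1 0 0 +
    (185571095377/156250000000) * h 0 0 1 0 +
    (29678963/25000000) * h 0 0 0 1

theorem psd3 (g : Gram) (h : g.PSD) : 0 ≤
    (39/8) * g.aa + (35/8) * g.bb + (63/8) * g.AA + (239/8) * g.BB + (5/2) * g.ab + 2 * g.aA + (-29/2) * g.aB + 3 * g.bA + (7/2) * g.bB + 4 * g.AB := by
  linear_combination (14493/500) * h (-6253/25000) (6037/100000) (69/1000) 1 +
    (856/125) * h (10953/50000) (1007/5000) 1 0 +
    (1551/500) * h (44653/100000) 1 0 0 +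
    (49/40) * h 1 0 0 0 +
    (525478933/1250000000000) * h 1 1 0 0 +
    (1570301/12500000000) * h 1 0 1 0 +
    (271/12500000) * h 1 0 0 (-1) +
    (3537371/50000000000) * h 0 1 1 0 +
    (5759/50000000) * h 0 1 0 1 +
    (17/500000) * h 0 0 1 (-1) +
    (4444730062053/5000000000000) * h 1 0 0 0 +
    (4444924203851/5000000000000) * h 0 1 0 0 +
    (355506913/400000000) * h 0 0 1 0 +
    (44441457/50000000) * h 0 0 0 1

theorem quad (p q : ℝ) (hp : 0 < p) (hq : 0 < q) (g : Gram) (h : g.PSD) :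
    (1/8 : ℝ) * (p + q) ^ 3 * (g.aa + g.bb + g.AA + g.BB) ≤ (p + q) ^ 0 * (
    ((9/2)*p^3 + 7*p^2*q + (35/2)*p*q^2 + 5*q^3) * g.aa +
     (5*p^3 + (35/2)*p^2*q + 7*p*q^2 + (9/2)*q^3) * g.bb +
     (30*p^3 + 80*p^2*q + 28*p*q^2 + 8*q^3) * g.AA +
     (8*p^3 + 28*p^2*q + 80*p*q^2 + 30*q^3) * g.BB +
     ((5/2)*p^3 + (-1/2)*p^2*q + (-1/2)*p*q^2 + (5/2)*q^3) * g.ab +
     ((7/2)*p^3 + 26*p^2*q + (7/2)*p*q^2 + 2*q^3) * g.aA +
     (3*p^3 + (41/2)*p^2*q + (-36)*p*q^2 + (-29/2)*q^3) * g.aB +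
     ((-29/2)*p^3 + (-36)*p^2*q + (41/2)*p*q^2 + 3*q^3) * g.bA +
     (2*p^3 + (7/2)*p^2*q + 26*p*q^2 + (7/2)*q^3) * g.bB +
     (4*p^3 + 54*p^2*q + 54*p*q^2 + 4*q^3) * g.AB) := by
  have h0 := mul_nonneg (mul_nonneg (pow_nonneg hp.le 3) (pow_nonneg hq.le 0)) (psd0 g h)
  have h1 := mul_nonneg (mul_nonneg (pow_nonneg hp.le 2) (pow_nonneg hq.le 1)) (psd1 g h)
  have h2 := mul_nonneg (mul_nonneg (pow_nonneg hp.le 1) (pow_nonneg hq.le 2)) (psd2 g h)
  have h3 := mul_nonneg (mul_nonneg (pow_nonneg hp.le 0) (pow_nonneg hq.le 3)) (psd3 g h)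
  linear_combination h0 + h1 + h2 + h3

theorem scal (p q : ℝ) (hp : 0 < p) (hq : 0 < q) :
    (1/8 : ℝ) * (p + q) ^ 4 ≤ (p + q) ^ 0 * (q * mu.f p q + p * mu.f q p) := by
  simp only [mu, hom2, hom3, hom4]
  have h0 := mul_nonneg (pow_nonneg hp.le 4) (pow_nonneg hq.le 0)
  have h1 := mul_nonneg (pow_nonneg hp.le 3) (pow_nonneg hq.le 1)
  have h2 := mul_nonneg (pow_nonneg hp.le 2) (pow_nonneg hq.le 2)
  have h3 := mul_nonneg (pow_nonneg hp.le 1) (pow_nonneg hq.le 3)
  have h4 := mul_nonneg (pow_nonneg hp.le 0) (pow_nonneg hq.le 4)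
  linear_combination (15/8) * h0 + (13/2) * h1 + (45/4) * h2 + (13/2) * h3 + (15/8) * h4

def cert : CertData 3 where
  d := 2
  Fa := Fa
  FA := FA
  mu := mu
  ε := 1/8
  C := 20
  ε_pos := by norm_num
  C_pos := by norm_num
  main := by
    intro p q hp hq g h
    rw [br]
    have h1 := quad p q hp hq g h
    have h2 := scal p q hp hq
    exact assemble 2 0 p q _ _ _ _ hp hq h1 h2
  boundFa := by
    intro p q hp hq
    have e0 : 0 ≤ (Fa).f p q := by
      simp only [Fa, hom2, hom3]; positivity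
    rw [abs_of_nonneg e0]
    simp only [Fa, hom2, hom3]
    have h0 := mul_nonneg (pow_nonneg hp.le 2) (pow_nonneg hq.le 0)
    have h1 := mul_nonneg (pow_nonneg hp.le 1) (pow_nonneg hq.le 1)
    have h2 := mul_nonneg (pow_nonneg hp.le 0) (pow_nonneg hq.le 2)
    linear_combination 17 * h0 + 36 * h1 + 15 * h2
  boundFA := by
    intro p q hp hq
    have e0 : 0 ≤ (FA).f p q := by
      simp only [FA, hom2, hom3]; positivity
    rw [abs_of_nonneg e0]
    simp only [FA, hom2, hom3]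
    have h2 := mul_nonneg (pow_nonneg hp.le 0) (pow_nonneg hq.le 2)
    linear_combination 12 * h2

end Crest.Agent.R236.Cert.N3
end
end

-- ▼ part R236/Cert4
section

/-! Row 236, C3: exact certificate for n = 4 (helper194, generated; data of note 13059). -/

set_option autoImplicit false
set_option linter.all false
set_option maxHeartbeats 4000000

noncomputable section

namespace Crest.Agent.R236.Cert.N4

open Crest.Agent.R236.Cert

def Fa : Biv := hom2 3 4 3
def FA : Biv := hom2 20 34 7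
def mu : Biv := hom3 (-10) 3 15 1

theorem br (p q : ℝ) (g : Gram) : bracket 4 2 Fa FA mu p q g =
    ((6*p^3 + 9*p^2*q + 12*p*q^2 + 3*q^3) * g.aa +
     (3*p^3 + 12*p^2*q + 9*p*q^2 + 6*q^3) * g.bb +
     (40*p^3 + 82*p^2*q + 28*p*q^2 + 7*q^3) * g.AA +
     (7*p^3 + 28*p^2*q + 82*p*q^2 + 40*q^3) * g.BB +
     (3*p^3 + 7*p^2*q + 7*p*q^2 + 3*q^3) * g.ab +
     (13*p^3 + 33*p^2*q + 7*p*q^2 + 1*q^3) * g.aA +
     (5*p^3 + 28*p^2*q + (-15)*p*q^2 + (-10)*q^3) * g.aB +
     ((-10)*p^3 + (-15)*p^2*q + 28*p*q^2 + 5*q^3) * g.bA +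
     (1*p^3 + 7*p^2*q + 33*p*q^2 + 13*q^3) * g.bB +
     (7*p^3 + 80*p^2*q + 80*p*q^2 + 7*q^3) * g.AB)
    + ((mu.f p q) / p + (mu.f q p) / q) := by
  simp only [bracket, bracketV, Biv.swap, Fa, FA, mu, hom2, hom3, hom4]
  push_cast
  ring

theorem psd0 (g : Gram) (h : g.PSD) : 0 ≤
    (47/8) * g.aa + (23/8) * g.bb + (319/8) * g.AA + (55/8) * g.BB + 3 * g.ab + 13 * g.aA + 5 * g.aB + (-10) * g.bA + 1 * g.bB + 7 * g.AB := by
  linear_combination (39451/1000) * h (4119/25000) (-6337/50000) 1 (1109/12500) +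
    (307/50) * h (15661/50000) (7683/50000) 0 1 +
    (3777/1000) * h 1 (53689/100000) 0 0 +
    (583/1000) * h 0 1 0 0 +
    (569121543/1250000000000) * h 1 1 0 0 +
    (1331/25000000) * h 1 0 1 0 +
    (48101079/312500000000) * h 1 0 0 1 +
    (987/50000000) * h 0 1 1 0 +
    (80844583/625000000000) * h 0 1 0 1 +
    (1159/12500000) * h 0 0 1 (-1) +
    (530038441449/1250000000000) * h 1 0 0 0 +
    (847991193359/2000000000000) * h 0 1 0 0 +
    (4238343/10000000) * h 0 0 1 0 +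
    (53011972387/125000000000) * h 0 0 0 1

theorem psd1 (g : Gram) (h : g.PSD) : 0 ≤
    (69/8) * g.aa + (93/8) * g.bb + (653/8) * g.AA + (221/8) * g.BB + 7 * g.ab + 33 * g.aA + 28 * g.aB + (-15) * g.bA + 7 * g.bB + 80 * g.AB := by
  linear_combination (81377/1000) * h (5069/25000) (-288/3125) 1 (24577/50000) +
    (5343/500) * h (46983/100000) 1 0 (269/400) +
    (2883/1000) * h (87171/100000) 0 0 1 +
    (241/500) * h 1 0 0 0 +
    (5729363/156250000000) * h 1 1 0 0 +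
    (13/25000000) * h 1 0 (-1) 0 +
    (235103373/2500000000000) * h 1 0 0 1 +
    (231/781250) * h 0 1 (-1) 0 +
    (5442301/78125000000) * h 0 1 0 1 +
    (2529/50000000) * h 0 0 1 (-1) +
    (2477693708867/10000000000000) * h 1 0 0 0 +
    (38660193827/156250000000) * h 0 1 0 0 +
    (12382661/50000000) * h 0 0 1 0 +
    (154594104753/625000000000) * h 0 0 0 1

theorem psd2 (g : Gram) (h : g.PSD) : 0 ≤
    (93/8) * g.aa + (69/8) * g.bb + (221/8) * g.AA + (653/8) * g.BB + 7 * g.ab + 7 * g.aA + (-15) * g.aB + 28 * g.bA + 33 * g.bB + 80 * g.AB := by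
  linear_combination (81377/1000) * h (-288/3125) (5069/25000) (24577/50000) 1 +
    (5343/500) * h 1 (46983/100000) (269/400) 0 +
    (2883/1000) * h 0 (87171/100000) 1 0 +
    (241/500) * h 0 1 0 0 +
    (5729363/156250000000) * h 1 1 0 0 +
    (5442301/78125000000) * h 1 0 1 0 +
    (231/781250) * h 1 0 0 (-1) +
    (235103373/2500000000000) * h 0 1 1 0 +
    (13/25000000) * h 0 1 0 (-1) +
    (2529/50000000) * h 0 0 1 (-1) +
    (38660193827/156250000000) * h 1 0 0 0 +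
    (2477693708867/10000000000000) * h 0 1 0 0 +
    (154594104753/625000000000) * h 0 0 1 0 +
    (12382661/50000000) * h 0 0 0 1

theorem psd3 (g : Gram) (h : g.PSD) : 0 ≤
    (23/8) * g.aa + (47/8) * g.bb + (55/8) * g.AA + (319/8) * g.BB + 3 * g.ab + 1 * g.aA + (-10) * g.aB + 5 * g.bA + 13 * g.bB + 7 * g.AB := by
  linear_combination (39451/1000) * h (-6337/50000) (4119/25000) (1109/12500) 1 +
    (307/50) * h (7683/50000) (15661/50000) 1 0 +
    (3777/1000) * h (53689/100000) 1 0 0 +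
    (583/1000) * h 1 0 0 0 +
    (569121543/1250000000000) * h 1 1 0 0 +
    (80844583/625000000000) * h 1 0 1 0 +
    (987/50000000) * h 1 0 0 1 +
    (48101079/312500000000) * h 0 1 1 0 +
    (1331/25000000) * h 0 1 0 1 +
    (1159/12500000) * h 0 0 1 (-1) +
    (847991193359/2000000000000) * h 1 0 0 0 +
    (530038441449/1250000000000) * h 0 1 0 0 +
    (53011972387/125000000000) * h 0 0 1 0 +
    (4238343/10000000) * h 0 0 0 1

theorem quad (p q : ℝ) (hp : 0 < p) (hq : 0 < q) (g : Gram) (h : g.PSD) :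
    (1/8 : ℝ) * (p + q) ^ 3 * (g.aa + g.bb + g.AA + g.BB) ≤ (p + q) ^ 0 * (
    (6*p^3 + 9*p^2*q + 12*p*q^2 + 3*q^3) * g.aa +
     (3*p^3 + 12*p^2*q + 9*p*q^2 + 6*q^3) * g.bb +
     (40*p^3 + 82*p^2*q + 28*p*q^2 + 7*q^3) * g.AA +
     (7*p^3 + 28*p^2*q + 82*p*q^2 + 40*q^3) * g.BB +
     (3*p^3 + 7*p^2*q + 7*p*q^2 + 3*q^3) * g.ab +
     (13*p^3 + 33*p^2*q + 7*p*q^2 + 1*q^3) * g.aA +
     (5*p^3 + 28*p^2*q + (-15)*p*q^2 + (-10)*q^3) * g.aB +
     ((-10)*p^3 + (-15)*p^2*q + 28*p*q^2 + 5*q^3) * g.bA +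
     (1*p^3 + 7*p^2*q + 33*p*q^2 + 13*q^3) * g.bB +
     (7*p^3 + 80*p^2*q + 80*p*q^2 + 7*q^3) * g.AB) := by
  have h0 := mul_nonneg (mul_nonneg (pow_nonneg hp.le 3) (pow_nonneg hq.le 0)) (psd0 g h)
  have h1 := mul_nonneg (mul_nonneg (pow_nonneg hp.le 2) (pow_nonneg hq.le 1)) (psd1 g h)
  have h2 := mul_nonneg (mul_nonneg (pow_nonneg hp.le 1) (pow_nonneg hq.le 2)) (psd2 g h)
  have h3 := mul_nonneg (mul_nonneg (pow_nonneg hp.le 0) (pow_nonneg hq.le 3)) (psd3 g h)
  linear_combination h0 + h1 + h2 + h3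

theorem scal (p q : ℝ) (hp : 0 < p) (hq : 0 < q) :
    (1/8 : ℝ) * (p + q) ^ 4 ≤ (p + q) ^ 0 * (q * mu.f p q + p * mu.f q p) := by
  simp only [mu, hom2, hom3, hom4]
  have h0 := mul_nonneg (pow_nonneg hp.le 4) (pow_nonneg hq.le 0)
  have h1 := mul_nonneg (pow_nonneg hp.le 3) (pow_nonneg hq.le 1)
  have h2 := mul_nonneg (pow_nonneg hp.le 2) (pow_nonneg hq.le 2)
  have h3 := mul_nonneg (pow_nonneg hp.le 1) (pow_nonneg hq.le 3)
  have h4 := mul_nonneg (pow_nonneg hp.le 0) (pow_nonneg hq.le 4)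
  linear_combination (7/8) * h0 + (9/2) * h1 + (21/4) * h2 + (9/2) * h3 + (7/8) * h4

def cert : CertData 4 where
  d := 2
  Fa := Fa
  FA := FA
  mu := mu
  ε := 1/8
  C := 20
  ε_pos := by norm_num
  C_pos := by norm_num
  main := by
    intro p q hp hq g h
    rw [br]
    have h1 := quad p q hp hq g h
    have h2 := scal p q hp hq
    exact assemble 2 0 p q _ _ _ _ hp hq h1 h2
  boundFa := by
    intro p q hp hq
    have e0 : 0 ≤ (Fa).f p q := by
      simp only [Fa, hom2, hom3]; positivity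
    rw [abs_of_nonneg e0]
    simp only [Fa, hom2, hom3]
    have h0 := mul_nonneg (pow_nonneg hp.le 2) (pow_nonneg hq.le 0)
    have h1 := mul_nonneg (pow_nonneg hp.le 1) (pow_nonneg hq.le 1)
    have h2 := mul_nonneg (pow_nonneg hp.le 0) (pow_nonneg hq.le 2)
    linear_combination 17 * h0 + 36 * h1 + 17 * h2
  boundFA := by
    intro p q hp hq
    have e0 : 0 ≤ (FA).f p q := by
      simp only [FA, hom2, hom3]; positivity
    rw [abs_of_nonneg e0]
    simp only [FA, hom2, hom3]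
    have h1 := mul_nonneg (pow_nonneg hp.le 1) (pow_nonneg hq.le 1)
    have h2 := mul_nonneg (pow_nonneg hp.le 0) (pow_nonneg hq.le 2)
    linear_combination 6 * h1 + 13 * h2

end Crest.Agent.R236.Cert.N4
end
end

-- ▼ part R236/Cert6
section

/-! Row 236, C3: exact certificate for n = 6 (helper194, generated; data of note 13059). -/

set_option autoImplicit false
set_option linter.all false
set_option maxHeartbeats 4000000

noncomputable section

namespace Crest.Agent.R236.Cert.N6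

open Crest.Agent.R236.Cert

def Fa : Biv := hom2 8 6 4
def FA : Biv := hom2 50 64 10
def mu : Biv := hom3 (-39) 3 42 1

theorem br (p q : ℝ) (g : Gram) : bracket 6 2 Fa FA mu p q g =
    ((24*p^3 + 16*p^2*q + 20*p*q^2 + 4*q^3) * g.aa +
     (4*p^3 + 20*p^2*q + 16*p*q^2 + 24*q^3) * g.bb +
     (150*p^3 + 206*p^2*q + 50*p*q^2 + 10*q^3) * g.AA +
     (10*p^3 + 50*p^2*q + 206*p*q^2 + 150*q^3) * g.BB +
     (8*p^3 + 36*p^2*q + 36*p*q^2 + 8*q^3) * g.ab +
     (77*p^3 + 97*p^2*q + 28*p*q^2 + 1*q^3) * g.aA +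
     (11*p^3 + 111*p^2*q + 44*p*q^2 + (-17)*q^3) * g.aB +
     ((-17)*p^3 + 44*p^2*q + 111*p*q^2 + 11*q^3) * g.bA +
     (1*p^3 + 28*p^2*q + 97*p*q^2 + 77*q^3) * g.bB +
     (20*p^3 + 308*p^2*q + 308*p*q^2 + 20*q^3) * g.AB)
    + ((mu.f p q) / p + (mu.f q p) / q) := by
  simp only [bracket, bracketV, Biv.swap, Fa, FA, mu, hom2, hom3, hom4]
  push_cast
  ring

theorem psd0 (g : Gram) (h : g.PSD) : 0 ≤
    (191/8) * g.aa + (31/8) * g.bb + (1199/8) * g.AA + (79/8) * g.BB + 8 * g.ab + 77 * g.aA + 11 * g.aB + (-17) * g.bA + 1 * g.bB + 20 * g.AB := by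
  linear_combination (149611/1000) * h (25733/100000) (-5681/100000) 1 (1671/25000) +
    (1713/125) * h 1 (11287/25000) 0 (4271/20000) +
    (4159/500) * h 0 (-761/25000) 0 1 +
    (327/1000) * h 0 1 0 0 +
    (689161703/10000000000000) * h 1 1 0 0 +
    (60137/100000000) * h 1 0 1 0 +
    (527488927/2500000000000) * h 1 0 0 1 +
    (59909/100000000) * h 0 1 (-1) 0 +
    (121332021/2500000000000) * h 0 1 0 1 +
    (19/25000000) * h 0 0 1 1 +
    (263068468801/1000000000000) * h 1 0 0 0 +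
    (1316906722589/5000000000000) * h 0 1 0 0 +
    (13139939/50000000) * h 0 0 1 0 +
    (329234992199/1250000000000) * h 0 0 0 1

theorem psd1 (g : Gram) (h : g.PSD) : 0 ≤
    (889/8) * g.aa + (281/8) * g.bb + (6441/8) * g.AA + (713/8) * g.BB + 68 * g.ab + 405 * g.aA + 155 * g.aB + (-24) * g.bA + 32 * g.bB + 388 * g.AB := by
  linear_combination (400517/500) * h (158/625) (-749/50000) 1 (24219/100000) +
    (27921/500) * h 1 (33159/50000) 0 (637/1250) +
    (5887/250) * h 0 (29/20000) 0 1 +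
    (3147/500) * h 0 1 0 0 +
    (2708439/15625000000) * h 1 1 0 0 +
    (109/78125) * h 1 0 (-1) 0 +
    (14001617/15625000000) * h 1 0 0 (-1) +
    (12767/25000000) * h 0 1 (-1) 0 +
    (391795413/2500000000000) * h 0 1 0 (-1) +
    (121223/50000000) * h 0 0 1 (-1) +
    (3992365869/976562500) * h 1 0 0 0 +
    (639158613471/156250000000) * h 0 1 0 0 +
    (204333483/50000000) * h 0 0 1 0 +
    (20431729698297/5000000000000) * h 0 0 0 1

theorem psd2 (g : Gram) (h : g.PSD) : 0 ≤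
    (1803/8) * g.aa + (939/8) * g.bb + (14171/8) * g.AA + (3707/8) * g.BB + 228 * g.ab + 878 * g.aA + 554 * g.aB + 185 * g.bA + 215 * g.bB + 1660 * g.AB := by
  linear_combination (880747/500) * h (12461/50000) (5251/100000) 1 (47119/100000) +
    (53043/500) * h 1 (85729/100000) 0 (33061/50000) +
    (24669/1000) * h 0 1 0 (3829/25000) +
    (3861/250) * h 0 0 0 1 +
    (4168734883/2500000000000) * h 1 1 0 0 +
    (11633/25000000) * h 1 0 1 0 +
    (4060835327/2500000000000) * h 1 0 0 1 +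
    (197503/50000000) * h 0 1 1 0 +
    (14296593523/5000000000000) * h 0 1 0 1 +
    (82107/50000000) * h 0 0 1 1 +
    (3086805880927/312500000000) * h 1 0 0 0 +
    (49365294510001/5000000000000) * h 0 1 0 0 +
    (123436781/12500000) * h 0 0 1 0 +
    (3086625789857/312500000000) * h 0 0 0 1

theorem psd3 (g : Gram) (h : g.PSD) : 0 ≤
    (2173/8) * g.aa + (1757/8) * g.bb + (16333/8) * g.AA + (10477/8) * g.BB + 400 * g.ab + 1003 * g.aA + 869 * g.aB + 651 * g.bA + 637 * g.bB + 3180 * g.AB := by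
  linear_combination (2029733/1000) * h (6177/25000) (16037/100000) 1 (15667/20000) +
    (77767/500) * h (76881/100000) 1 0 (40839/100000) +
    (43893/1000) * h 1 0 0 (-1637/10000) +
    (5017/200) * h 0 0 0 1 +
    (6701653417/2500000000000) * h 1 (-1) 0 0 +
    (160741/25000000) * h 1 0 (-1) 0 +
    (17294038423/5000000000000) * h 1 0 0 (-1) +
    (828121/100000000) * h 0 1 (-1) 0 +
    (10884691707/2000000000000) * h 0 1 0 (-1) +
    (173089/20000000) * h 0 0 1 1 +
    (59379625061/5000000000) * h 1 0 0 0 +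
    (2968208181283/250000000000) * h 0 1 0 0 +
    (118686347/10000000) * h 0 0 1 0 +
    (5943080139909/500000000000) * h 0 0 0 1

theorem psd4 (g : Gram) (h : g.PSD) : 0 ≤
    (1757/8) * g.aa + (2173/8) * g.bb + (10477/8) * g.AA + (16333/8) * g.BB + 400 * g.ab + 637 * g.aA + 651 * g.aB + 869 * g.bA + 1003 * g.bB + 3180 * g.AB := by
  linear_combination (2029733/1000) * h (16037/100000) (6177/25000) (15667/20000) 1 +
    (77767/500) * h 1 (76881/100000) (40839/100000) 0 +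
    (43893/1000) * h 0 1 (-1637/10000) 0 +
    (5017/200) * h 0 0 1 0 +
    (6701653417/2500000000000) * h 1 (-1) 0 0 +
    (10884691707/2000000000000) * h 1 0 (-1) 0 +
    (828121/100000000) * h 1 0 0 (-1) +
    (17294038423/5000000000000) * h 0 1 (-1) 0 +
    (160741/25000000) * h 0 1 0 (-1) +
    (173089/20000000) * h 0 0 1 1 +
    (2968208181283/250000000000) * h 1 0 0 0 +
    (59379625061/5000000000) * h 0 1 0 0 +
    (5943080139909/500000000000) * h 0 0 1 0 +
    (118686347/10000000) * h 0 0 0 1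

theorem psd5 (g : Gram) (h : g.PSD) : 0 ≤
    (939/8) * g.aa + (1803/8) * g.bb + (3707/8) * g.AA + (14171/8) * g.BB + 228 * g.ab + 215 * g.aA + 185 * g.aB + 554 * g.bA + 878 * g.bB + 1660 * g.AB := by
  linear_combination (880747/500) * h (5251/100000) (12461/50000) (47119/100000) 1 +
    (53043/500) * h (85729/100000) 1 (33061/50000) 0 +
    (24669/1000) * h 1 0 (3829/25000) 0 +
    (3861/250) * h 0 0 1 0 +
    (4168734883/2500000000000) * h 1 1 0 0 +
    (14296593523/5000000000000) * h 1 0 1 0 +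
    (197503/50000000) * h 1 0 0 1 +
    (4060835327/2500000000000) * h 0 1 1 0 +
    (11633/25000000) * h 0 1 0 1 +
    (82107/50000000) * h 0 0 1 1 +
    (49365294510001/5000000000000) * h 1 0 0 0 +
    (3086805880927/312500000000) * h 0 1 0 0 +
    (3086625789857/312500000000) * h 0 0 1 0 +
    (123436781/12500000) * h 0 0 0 1

theorem psd6 (g : Gram) (h : g.PSD) : 0 ≤
    (281/8) * g.aa + (889/8) * g.bb + (713/8) * g.AA + (6441/8) * g.BB + 68 * g.ab + 32 * g.aA + (-24) * g.aB + 155 * g.bA + 405 * g.bB + 388 * g.AB := by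
  linear_combination (400517/500) * h (-749/50000) (158/625) (24219/100000) 1 +
    (27921/500) * h (33159/50000) 1 (637/1250) 0 +
    (5887/250) * h (29/20000) 0 1 0 +
    (3147/500) * h 1 0 0 0 +
    (2708439/15625000000) * h 1 1 0 0 +
    (391795413/2500000000000) * h 1 0 (-1) 0 +
    (12767/25000000) * h 1 0 0 (-1) +
    (14001617/15625000000) * h 0 1 (-1) 0 +
    (109/78125) * h 0 1 0 (-1) +
    (121223/50000000) * h 0 0 1 (-1) +
    (639158613471/156250000000) * h 1 0 0 0 +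
    (3992365869/976562500) * h 0 1 0 0 +
    (20431729698297/5000000000000) * h 0 0 1 0 +
    (204333483/50000000) * h 0 0 0 1

theorem psd7 (g : Gram) (h : g.PSD) : 0 ≤
    (31/8) * g.aa + (191/8) * g.bb + (79/8) * g.AA + (1199/8) * g.BB + 8 * g.ab + 1 * g.aA + (-17) * g.aB + 11 * g.bA + 77 * g.bB + 20 * g.AB := by
  linear_combination (149611/1000) * h (-5681/100000) (25733/100000) (1671/25000) 1 +
    (1713/125) * h (11287/25000) 1 (4271/20000) 0 +
    (4159/500) * h (-761/25000) 0 1 0 +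
    (327/1000) * h 1 0 0 0 +
    (689161703/10000000000000) * h 1 1 0 0 +
    (121332021/2500000000000) * h 1 0 1 0 +
    (59909/100000000) * h 1 0 0 (-1) +
    (527488927/2500000000000) * h 0 1 1 0 +
    (60137/100000000) * h 0 1 0 1 +
    (19/25000000) * h 0 0 1 1 +
    (1316906722589/5000000000000) * h 1 0 0 0 +
    (263068468801/1000000000000) * h 0 1 0 0 +
    (329234992199/1250000000000) * h 0 0 1 0 +
    (13139939/50000000) * h 0 0 0 1

theorem quad (p q : ℝ) (hp : 0 < p) (hq : 0 < q) (g : Gram) (h : g.PSD) :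
    (1/8 : ℝ) * (p + q) ^ 7 * (g.aa + g.bb + g.AA + g.BB) ≤ (p + q) ^ 4 * (
    (24*p^3 + 16*p^2*q + 20*p*q^2 + 4*q^3) * g.aa +
     (4*p^3 + 20*p^2*q + 16*p*q^2 + 24*q^3) * g.bb +
     (150*p^3 + 206*p^2*q + 50*p*q^2 + 10*q^3) * g.AA +
     (10*p^3 + 50*p^2*q + 206*p*q^2 + 150*q^3) * g.BB +
     (8*p^3 + 36*p^2*q + 36*p*q^2 + 8*q^3) * g.ab +
     (77*p^3 + 97*p^2*q + 28*p*q^2 + 1*q^3) * g.aA +
     (11*p^3 + 111*p^2*q + 44*p*q^2 + (-17)*q^3) * g.aB +
     ((-17)*p^3 + 44*p^2*q + 111*p*q^2 + 11*q^3) * g.bA +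
     (1*p^3 + 28*p^2*q + 97*p*q^2 + 77*q^3) * g.bB +
     (20*p^3 + 308*p^2*q + 308*p*q^2 + 20*q^3) * g.AB) := by
  have h0 := mul_nonneg (mul_nonneg (pow_nonneg hp.le 7) (pow_nonneg hq.le 0)) (psd0 g h)
  have h1 := mul_nonneg (mul_nonneg (pow_nonneg hp.le 6) (pow_nonneg hq.le 1)) (psd1 g h)
  have h2 := mul_nonneg (mul_nonneg (pow_nonneg hp.le 5) (pow_nonneg hq.le 2)) (psd2 g h)
  have h3 := mul_nonneg (mul_nonneg (pow_nonneg hp.le 4) (pow_nonneg hq.le 3)) (psd3 g h)
  have h4 := mul_nonneg (mul_nonneg (pow_nonneg hp.le 3) (pow_nonneg hq.le 4)) (psd4 g h)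
  have h5 := mul_nonneg (mul_nonneg (pow_nonneg hp.le 2) (pow_nonneg hq.le 5)) (psd5 g h)
  have h6 := mul_nonneg (mul_nonneg (pow_nonneg hp.le 1) (pow_nonneg hq.le 6)) (psd6 g h)
  have h7 := mul_nonneg (mul_nonneg (pow_nonneg hp.le 0) (pow_nonneg hq.le 7)) (psd7 g h)
  linear_combination h0 + h1 + h2 + h3 + h4 + h5 + h6 + h7

theorem scal (p q : ℝ) (hp : 0 < p) (hq : 0 < q) :
    (1/8 : ℝ) * (p + q) ^ 8 ≤ (p + q) ^ 4 * (q * mu.f p q + p * mu.f q p) := by
  simp only [mu, hom2, hom3, hom4]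
  have h0 := mul_nonneg (pow_nonneg hp.le 8) (pow_nonneg hq.le 0)
  have h1 := mul_nonneg (pow_nonneg hp.le 7) (pow_nonneg hq.le 1)
  have h2 := mul_nonneg (pow_nonneg hp.le 6) (pow_nonneg hq.le 2)
  have h3 := mul_nonneg (pow_nonneg hp.le 5) (pow_nonneg hq.le 3)
  have h4 := mul_nonneg (pow_nonneg hp.le 4) (pow_nonneg hq.le 4)
  have h5 := mul_nonneg (pow_nonneg hp.le 3) (pow_nonneg hq.le 5)
  have h6 := mul_nonneg (pow_nonneg hp.le 2) (pow_nonneg hq.le 6)
  have h7 := mul_nonneg (pow_nonneg hp.le 1) (pow_nonneg hq.le 7)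
  have h8 := mul_nonneg (pow_nonneg hp.le 0) (pow_nonneg hq.le 8)
  linear_combination (7/8) * h0 + 6 * h1 + (41/2) * h2 + 42 * h3 + (213/4) * h4 + 42 * h5 + (41/2) * h6 + 6 * h7 + (7/8) * h8

def cert : CertData 6 where
  d := 2
  Fa := Fa
  FA := FA
  mu := mu
  ε := 1/8
  C := 50
  ε_pos := by norm_num
  C_pos := by norm_num
  main := by
    intro p q hp hq g h
    rw [br]
    have h1 := quad p q hp hq g h
    have h2 := scal p q hp hq
    exact assemble 2 4 p q _ _ _ _ hp hq h1 h2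
  boundFa := by
    intro p q hp hq
    have e0 : 0 ≤ (Fa).f p q := by
      simp only [Fa, hom2, hom3]; positivity
    rw [abs_of_nonneg e0]
    simp only [Fa, hom2, hom3]
    have h0 := mul_nonneg (pow_nonneg hp.le 2) (pow_nonneg hq.le 0)
    have h1 := mul_nonneg (pow_nonneg hp.le 1) (pow_nonneg hq.le 1)
    have h2 := mul_nonneg (pow_nonneg hp.le 0) (pow_nonneg hq.le 2)
    linear_combination 42 * h0 + 94 * h1 + 46 * h2
  boundFA := by
    intro p q hp hq
    have e0 : 0 ≤ (FA).f p q := by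
      simp only [FA, hom2, hom3]; positivity
    rw [abs_of_nonneg e0]
    simp only [FA, hom2, hom3]
    have h1 := mul_nonneg (pow_nonneg hp.le 1) (pow_nonneg hq.le 1)
    have h2 := mul_nonneg (pow_nonneg hp.le 0) (pow_nonneg hq.le 2)
    linear_combination 36 * h1 + 40 * h2

end Crest.Agent.R236.Cert.N6
end
end

-- ▼ part R236/Cert7

/-! Row 236, C3: exact certificate for n = 7 (helper194, generated; data of note 13059). -/

set_option autoImplicit false
set_option linter.all false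
set_option maxHeartbeats 4000000

noncomputable section

namespace Crest.Agent.R236.Cert.N7

open Crest.Agent.R236.Cert

def Fa : Biv := hom2 15 12 5
def FA : Biv := hom2 100 126 13
def mu : Biv := hom3 (-89) 3 93 1

theorem br (p q : ℝ) (g : Gram) : bracket 7 2 Fa FA mu p q g =
    (((105/2)*p^3 + 39*p^2*q + (55/2)*p*q^2 + 5*q^3) * g.aa +
     (5*p^3 + (55/2)*p^2*q + 39*p*q^2 + (105/2)*q^3) * g.bb +
     (350*p^3 + 467*p^2*q + (143/2)*p*q^2 + 13*q^3) * g.AA +
     (13*p^3 + (143/2)*p^2*q + 467*p*q^2 + 350*q^3) * g.BB +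
     ((25/2)*p^3 + (175/2)*p^2*q + (175/2)*p*q^2 + (25/2)*q^3) * g.ab +
     ((397/2)*p^3 + 256*p^2*q + 36*p*q^2 + 1*q^3) * g.aA +
     ((33/2)*p^3 + (557/2)*p^2*q + 144*p*q^2 + (-47/2)*q^3) * g.aB +
     ((-47/2)*p^3 + 144*p^2*q + (557/2)*p*q^2 + (33/2)*q^3) * g.bA +
     (1*p^3 + 36*p^2*q + 256*p*q^2 + (397/2)*q^3) * g.bB +
     ((65/2)*p^3 + 739*p^2*q + 739*p*q^2 + (65/2)*q^3) * g.AB)
    + ((mu.f p q) / p + (mu.f q p) / q) := by
  simp only [bracket, bracketV, Biv.swap, Fa, FA, mu, hom2, hom3, hom4]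
  push_cast
  ring

theorem psd0 (g : Gram) (h : g.PSD) : 0 ≤
    (419/8) * g.aa + (39/8) * g.bb + (2799/8) * g.AA + (103/8) * g.BB + (25/2) * g.ab + (397/2) * g.aA + (33/2) * g.aB + (-47/2) * g.bA + 1 * g.bB + (65/2) * g.AB := by
  linear_combination (34959/100) * h (2839/10000) (-3361/100000) 1 (581/12500) +
    (23913/1000) * h 1 (20043/50000) 0 (15207/100000) +
    (5641/500) * h 0 (-114/3125) 0 1 +
    (169/500) * h 0 1 0 0 +
    (1970039/100000000000) * h 1 (-1) 0 0 +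
    (1399/1000000) * h 1 0 1 0 +
    (23199/48828125) * h 1 0 0 1 +
    (2801/10000000) * h 0 1 (-1) 0 +
    (64849853/5000000000000) * h 0 1 0 (-1) +
    (1321/1250000) * h 0 0 1 1 +
    (28342836019/100000000000) * h 1 0 0 0 +
    (177634585283/625000000000) * h 0 1 0 0 +
    (2822641/10000000) * h 0 0 1 0 +
    (2832092967597/10000000000000) * h 0 0 0 1

theorem psd1 (g : Gram) (h : g.PSD) : 0 ≤
    (3661/8) * g.aa + (529/8) * g.bb + (26125/8) * g.AA + (1393/8) * g.BB + (375/2) * g.ab + 1844 * g.aA + (821/2) * g.aB + (-44) * g.bA + 44 * g.bB + 999 * g.AB := by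
  linear_combination (407524/125) * h (28281/100000) (-27/4000) 1 (15321/100000) +
    (38289/200) * h 1 (52219/100000) 0 (2089/6250) +
    (2831/40) * h 0 (-2273/20000) 0 1 +
    (928/125) * h 0 1 0 0 +
    (2293767/781250000) * h 1 1 0 0 +
    (46561/3125000) * h 1 0 (-1) 0 +
    (149861081/312500000000) * h 1 0 0 (-1) +
    (787/125000) * h 0 1 1 0 +
    (121055121/125000000000) * h 0 1 0 1 +
    (18699/3125000) * h 0 0 1 1 +
    (844789245239/156250000000) * h 1 0 0 0 +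
    (542442299297/100000000000) * h 0 1 0 0 +
    (1689319/312500) * h 0 0 1 0 +
    (3392217608471/625000000000) * h 0 0 0 1

theorem psd2 (g : Gram) (h : g.PSD) : 0 ≤
    (14421/8) * g.aa + (3137/8) * g.bb + (108805/8) * g.AA + (11169/8) * g.BB + (2275/2) * g.ab + 7642 * g.aA + 2834 * g.aB + (1545/2) * g.bA + 572 * g.bB + 7561 * g.AB := by
  linear_combination (13579283/1000) * h (14069/50000) (711/25000) 1 (174/625) +
    (88264/125) * h 1 (13031/20000) 0 (6253/12500) +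
    (72793/500) * h 0 (-7099/20000) 0 1 +
    (417/10) * h 0 1 0 0 +
    (19038973303/1250000000000) * h 1 1 0 0 +
    (3067473/50000000) * h 1 0 1 0 +
    (393950151/15625000000) * h 1 0 0 1 +
    (1379787/25000000) * h 0 1 1 0 +
    (470720699/31250000000) * h 0 1 0 1 +
    (8629/312500) * h 0 0 1 1 +
    (53188722656871/2500000000000) * h 1 0 0 0 +
    (106284970498179/5000000000000) * h 0 1 0 0 +
    (1059892313/50000000) * h 0 0 1 0 +
    (3326576746787/156250000000) * h 0 0 0 1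

theorem psd3 (g : Gram) (h : g.PSD) : 0 ≤
    (33891/8) * g.aa + (11151/8) * g.bb + (265923/8) * g.AA + (54363/8) * g.BB + (7725/2) * g.ab + 18573 * g.aA + (19701/2) * g.aB + (9921/2) * g.bA + (6621/2) * g.bB + (56913/2) * g.AB := by
  linear_combination (16609597/500) * h (5591/20000) (3733/50000) 1 (42831/100000) +
    (404783/250) * h 1 (38227/50000) 0 (14633/25000) +
    (48219/200) * h 0 1 0 (-273/500) +
    (10689/200) * h 0 0 0 1 +
    (17139624809/500000000000) * h 1 1 0 0 +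
    (743173/10000000) * h 1 0 1 0 +
    (70673602763/1000000000000) * h 1 0 0 1 +
    (2624399/25000000) * h 0 1 1 0 +
    (27244848629/500000000000) * h 0 1 0 1 +
    (6850893/50000000) * h 0 0 1 1 +
    (10521715124417/500000000000) * h 1 0 0 0 +
    (13125815869729/625000000000) * h 0 1 0 0 +
    (260808611/12500000) * h 0 0 1 0 +
    (52591632299197/2500000000000) * h 0 0 0 1

theorem psd4 (g : Gram) (h : g.PSD) : 0 ≤
    (26511/4) * g.aa + (13443/4) * g.bb + (210867/4) * g.AA + (82995/4) * g.BB + 8325 * g.ab + 29247 * g.aA + 20595 * g.aB + 14349 * g.bA + 10842 * g.bB + 64611 * g.AB := by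
  linear_combination (52655037/1000) * h (6943/25000) (109/800) 1 (61353/100000) +
    (2504759/1000) * h 1 (43317/50000) 0 (1323/2500) +
    (220767/500) * h 0 1 0 (-914/3125) +
    (31841/250) * h 0 0 0 1 +
    (1894272681/20000000000) * h 1 1 0 0 +
    (3578109/25000000) * h 1 0 1 0 +
    (283483221477/2500000000000) * h 1 0 0 1 +
    (200967/800000) * h 0 1 1 0 +
    (346676724471/2000000000000) * h 0 1 0 1 +
    (5514939/100000000) * h 0 0 1 1 +
    (76801371518273/1250000000000) * h 1 0 0 0 +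
    (38294380507401/625000000000) * h 0 1 0 0 +
    (24505407/400000) * h 0 0 1 0 +
    (153623354335867/2500000000000) * h 0 0 0 1

theorem psd5 (g : Gram) (h : g.PSD) : 0 ≤
    (29169/4) * g.aa + (23205/4) * g.bb + (226401/4) * g.AA + (166509/4) * g.BB + 12075 * g.ab + 31080 * g.aA + 27825 * g.aB + 24822 * g.bA + 22470 * g.bB + 95844 * g.AB := by
  linear_combination (28194859/500) * h (13779/50000) (22009/100000) 1 (10623/12500) +
    (142957/50) * h (4577/5000) 1 0 (6013/25000) +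
    (131371/250) * h (7283/50000) 0 0 1 +
    (196099/500) * h 1 0 0 0 +
    (178469798551/2500000000000) * h 1 1 0 0 +
    (3037839/25000000) * h 1 0 1 0 +
    (14085215847/312500000000) * h 1 0 0 1 +
    (9348269/50000000) * h 0 1 1 0 +
    (71436161587/625000000000) * h 0 1 0 1 +
    (1487157/6250000) * h 0 0 1 (-1) +
    (525870926139759/2500000000000) * h 1 0 0 0 +
    (1051207540262623/5000000000000) * h 0 1 0 0 +
    (10499278797/50000000) * h 0 0 1 0 +
    (131083194121571/625000000000) * h 0 0 0 1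

theorem psd6 (g : Gram) (h : g.PSD) : 0 ≤
    (23205/4) * g.aa + (29169/4) * g.bb + (166509/4) * g.AA + (226401/4) * g.BB + 12075 * g.ab + 22470 * g.aA + 24822 * g.aB + 27825 * g.bA + 31080 * g.bB + 95844 * g.AB := by
  linear_combination (28194859/500) * h (22009/100000) (13779/50000) (10623/12500) 1 +
    (142957/50) * h 1 (4577/5000) (6013/25000) 0 +
    (131371/250) * h 0 (7283/50000) 1 0 +
    (196099/500) * h 0 1 0 0 +
    (178469798551/2500000000000) * h 1 1 0 0 +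
    (71436161587/625000000000) * h 1 0 1 0 +
    (9348269/50000000) * h 1 0 0 1 +
    (14085215847/312500000000) * h 0 1 1 0 +
    (3037839/25000000) * h 0 1 0 1 +
    (1487157/6250000) * h 0 0 1 (-1) +
    (1051207540262623/5000000000000) * h 1 0 0 0 +
    (525870926139759/2500000000000) * h 0 1 0 0 +
    (131083194121571/625000000000) * h 0 0 1 0 +
    (10499278797/50000000) * h 0 0 0 1

theorem psd7 (g : Gram) (h : g.PSD) : 0 ≤
    (13443/4) * g.aa + (26511/4) * g.bb + (82995/4) * g.AA + (210867/4) * g.BB + 8325 * g.ab + 10842 * g.aA + 14349 * g.aB + 20595 * g.bA + 29247 * g.bB + 64611 * g.AB := by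
  linear_combination (52655037/1000) * h (109/800) (6943/25000) (61353/100000) 1 +
    (2504759/1000) * h (43317/50000) 1 (1323/2500) 0 +
    (220767/500) * h 1 0 (-914/3125) 0 +
    (31841/250) * h 0 0 1 0 +
    (1894272681/20000000000) * h 1 1 0 0 +
    (346676724471/2000000000000) * h 1 0 1 0 +
    (200967/800000) * h 1 0 0 1 +
    (283483221477/2500000000000) * h 0 1 1 0 +
    (3578109/25000000) * h 0 1 0 1 +
    (5514939/100000000) * h 0 0 1 1 +
    (38294380507401/625000000000) * h 1 0 0 0 +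
    (76801371518273/1250000000000) * h 0 1 0 0 +
    (153623354335867/2500000000000) * h 0 0 1 0 +
    (24505407/400000) * h 0 0 0 1

theorem psd8 (g : Gram) (h : g.PSD) : 0 ≤
    (11151/8) * g.aa + (33891/8) * g.bb + (54363/8) * g.AA + (265923/8) * g.BB + (7725/2) * g.ab + (6621/2) * g.aA + (9921/2) * g.aB + (19701/2) * g.bA + 18573 * g.bB + (56913/2) * g.AB := by
  linear_combination (16609597/500) * h (3733/50000) (5591/20000) (42831/100000) 1 +
    (404783/250) * h (38227/50000) 1 (14633/25000) 0 +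
    (48219/200) * h 1 0 (-273/500) 0 +
    (10689/200) * h 0 0 1 0 +
    (17139624809/500000000000) * h 1 1 0 0 +
    (27244848629/500000000000) * h 1 0 1 0 +
    (2624399/25000000) * h 1 0 0 1 +
    (70673602763/1000000000000) * h 0 1 1 0 +
    (743173/10000000) * h 0 1 0 1 +
    (6850893/50000000) * h 0 0 1 1 +
    (13125815869729/625000000000) * h 1 0 0 0 +
    (10521715124417/500000000000) * h 0 1 0 0 +
    (52591632299197/2500000000000) * h 0 0 1 0 +
    (260808611/12500000) * h 0 0 0 1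

theorem psd9 (g : Gram) (h : g.PSD) : 0 ≤
    (3137/8) * g.aa + (14421/8) * g.bb + (11169/8) * g.AA + (108805/8) * g.BB + (2275/2) * g.ab + 572 * g.aA + (1545/2) * g.aB + 2834 * g.bA + 7642 * g.bB + 7561 * g.AB := by
  linear_combination (13579283/1000) * h (711/25000) (14069/50000) (174/625) 1 +
    (88264/125) * h (13031/20000) 1 (6253/12500) 0 +
    (72793/500) * h (-7099/20000) 0 1 0 +
    (417/10) * h 1 0 0 0 +
    (19038973303/1250000000000) * h 1 1 0 0 +
    (470720699/31250000000) * h 1 0 1 0 +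
    (1379787/25000000) * h 1 0 0 1 +
    (393950151/15625000000) * h 0 1 1 0 +
    (3067473/50000000) * h 0 1 0 1 +
    (8629/312500) * h 0 0 1 1 +
    (106284970498179/5000000000000) * h 1 0 0 0 +
    (53188722656871/2500000000000) * h 0 1 0 0 +
    (3326576746787/156250000000) * h 0 0 1 0 +
    (1059892313/50000000) * h 0 0 0 1

theorem psd10 (g : Gram) (h : g.PSD) : 0 ≤
    (529/8) * g.aa + (3661/8) * g.bb + (1393/8) * g.AA + (26125/8) * g.BB + (375/2) * g.ab + 44 * g.aA + (-44) * g.aB + (821/2) * g.bA + 1844 * g.bB + 999 * g.AB := by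
  linear_combination (407524/125) * h (-27/4000) (28281/100000) (15321/100000) 1 +
    (38289/200) * h (52219/100000) 1 (2089/6250) 0 +
    (2831/40) * h (-2273/20000) 0 1 0 +
    (928/125) * h 1 0 0 0 +
    (2293767/781250000) * h 1 1 0 0 +
    (121055121/125000000000) * h 1 0 1 0 +
    (787/125000) * h 1 0 0 1 +
    (149861081/312500000000) * h 0 1 (-1) 0 +
    (46561/3125000) * h 0 1 0 (-1) +
    (18699/3125000) * h 0 0 1 1 +
    (542442299297/100000000000) * h 1 0 0 0 +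
    (844789245239/156250000000) * h 0 1 0 0 +
    (3392217608471/625000000000) * h 0 0 1 0 +
    (1689319/312500) * h 0 0 0 1

theorem psd11 (g : Gram) (h : g.PSD) : 0 ≤
    (39/8) * g.aa + (419/8) * g.bb + (103/8) * g.AA + (2799/8) * g.BB + (25/2) * g.ab + 1 * g.aA + (-47/2) * g.aB + (33/2) * g.bA + (397/2) * g.bB + (65/2) * g.AB := by
  linear_combination (34959/100) * h (-3361/100000) (2839/10000) (581/12500) 1 +
    (23913/1000) * h (20043/50000) 1 (15207/100000) 0 +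
    (5641/500) * h (-114/3125) 0 1 0 +
    (169/500) * h 1 0 0 0 +
    (1970039/100000000000) * h 1 (-1) 0 0 +
    (64849853/5000000000000) * h 1 0 (-1) 0 +
    (2801/10000000) * h 1 0 0 (-1) +
    (23199/48828125) * h 0 1 1 0 +
    (1399/1000000) * h 0 1 0 1 +
    (1321/1250000) * h 0 0 1 1 +
    (177634585283/625000000000) * h 1 0 0 0 +
    (28342836019/100000000000) * h 0 1 0 0 +
    (2832092967597/10000000000000) * h 0 0 1 0 +
    (2822641/10000000) * h 0 0 0 1

theorem quad (p q : ℝ) (hp : 0 < p) (hq : 0 < q) (g : Gram) (h : g.PSD) :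
    (1/8 : ℝ) * (p + q) ^ 11 * (g.aa + g.bb + g.AA + g.BB) ≤ (p + q) ^ 8 * (
    ((105/2)*p^3 + 39*p^2*q + (55/2)*p*q^2 + 5*q^3) * g.aa +
     (5*p^3 + (55/2)*p^2*q + 39*p*q^2 + (105/2)*q^3) * g.bb +
     (350*p^3 + 467*p^2*q + (143/2)*p*q^2 + 13*q^3) * g.AA +
     (13*p^3 + (143/2)*p^2*q + 467*p*q^2 + 350*q^3) * g.BB +
     ((25/2)*p^3 + (175/2)*p^2*q + (175/2)*p*q^2 + (25/2)*q^3) * g.ab +
     ((397/2)*p^3 + 256*p^2*q + 36*p*q^2 + 1*q^3) * g.aA +
     ((33/2)*p^3 + (557/2)*p^2*q + 144*p*q^2 + (-47/2)*q^3) * g.aB +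
     ((-47/2)*p^3 + 144*p^2*q + (557/2)*p*q^2 + (33/2)*q^3) * g.bA +
     (1*p^3 + 36*p^2*q + 256*p*q^2 + (397/2)*q^3) * g.bB +
     ((65/2)*p^3 + 739*p^2*q + 739*p*q^2 + (65/2)*q^3) * g.AB) := by
  have h0 := mul_nonneg (mul_nonneg (pow_nonneg hp.le 11) (pow_nonneg hq.le 0)) (psd0 g h)
  have h1 := mul_nonneg (mul_nonneg (pow_nonneg hp.le 10) (pow_nonneg hq.le 1)) (psd1 g h)
  have h2 := mul_nonneg (mul_nonneg (pow_nonneg hp.le 9) (pow_nonneg hq.le 2)) (psd2 g h)
  have h3 := mul_nonneg (mul_nonneg (pow_nonneg hp.le 8) (pow_nonneg hq.le 3)) (psd3 g h)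
  have h4 := mul_nonneg (mul_nonneg (pow_nonneg hp.le 7) (pow_nonneg hq.le 4)) (psd4 g h)
  have h5 := mul_nonneg (mul_nonneg (pow_nonneg hp.le 6) (pow_nonneg hq.le 5)) (psd5 g h)
  have h6 := mul_nonneg (mul_nonneg (pow_nonneg hp.le 5) (pow_nonneg hq.le 6)) (psd6 g h)
  have h7 := mul_nonneg (mul_nonneg (pow_nonneg hp.le 4) (pow_nonneg hq.le 7)) (psd7 g h)
  have h8 := mul_nonneg (mul_nonneg (pow_nonneg hp.le 3) (pow_nonneg hq.le 8)) (psd8 g h)
  have h9 := mul_nonneg (mul_nonneg (pow_nonneg hp.le 2) (pow_nonneg hq.le 9)) (psd9 g h)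
  have h10 := mul_nonneg (mul_nonneg (pow_nonneg hp.le 1) (pow_nonneg hq.le 10)) (psd10 g h)
  have h11 := mul_nonneg (mul_nonneg (pow_nonneg hp.le 0) (pow_nonneg hq.le 11)) (psd11 g h)
  linear_combination h0 + h1 + h2 + h3 + h4 + h5 + h6 + h7 + h8 + h9 + h10 + h11

theorem scal (p q : ℝ) (hp : 0 < p) (hq : 0 < q) :
    (1/8 : ℝ) * (p + q) ^ 12 ≤ (p + q) ^ 8 * (q * mu.f p q + p * mu.f q p) := by
  simp only [mu, hom2, hom3, hom4]
  have h0 := mul_nonneg (pow_nonneg hp.le 12) (pow_nonneg hq.le 0)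
  have h1 := mul_nonneg (pow_nonneg hp.le 11) (pow_nonneg hq.le 1)
  have h2 := mul_nonneg (pow_nonneg hp.le 10) (pow_nonneg hq.le 2)
  have h3 := mul_nonneg (pow_nonneg hp.le 9) (pow_nonneg hq.le 3)
  have h4 := mul_nonneg (pow_nonneg hp.le 8) (pow_nonneg hq.le 4)
  have h5 := mul_nonneg (pow_nonneg hp.le 7) (pow_nonneg hq.le 5)
  have h6 := mul_nonneg (pow_nonneg hp.le 6) (pow_nonneg hq.le 6)
  have h7 := mul_nonneg (pow_nonneg hp.le 5) (pow_nonneg hq.le 7)
  have h8 := mul_nonneg (pow_nonneg hp.le 4) (pow_nonneg hq.le 8)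
  have h9 := mul_nonneg (pow_nonneg hp.le 3) (pow_nonneg hq.le 9)
  have h10 := mul_nonneg (pow_nonneg hp.le 2) (pow_nonneg hq.le 10)
  have h11 := mul_nonneg (pow_nonneg hp.le 1) (pow_nonneg hq.le 11)
  have h12 := mul_nonneg (pow_nonneg hp.le 0) (pow_nonneg hq.le 12)
  linear_combination (7/8) * h0 + (21/2) * h1 + (231/4) * h2 + (385/2) * h3 + (3465/8) * h4 + 693 * h5 + (1617/2) * h6 + 693 * h7 + (3465/8) * h8 + (385/2) * h9 + (231/4) * h10 + (21/2) * h11 + (7/8) * h12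

def cert : CertData 7 where
  d := 2
  Fa := Fa
  FA := FA
  mu := mu
  ε := 1/8
  C := 100
  ε_pos := by norm_num
  C_pos := by norm_num
  main := by
    intro p q hp hq g h
    rw [br]
    have h1 := quad p q hp hq g h
    have h2 := scal p q hp hq
    exact assemble 2 8 p q _ _ _ _ hp hq h1 h2
  boundFa := by
    intro p q hp hq
    have e0 : 0 ≤ (Fa).f p q := by
      simp only [Fa, hom2, hom3]; positivity
    rw [abs_of_nonneg e0]
    simp only [Fa, hom2, hom3]
    have h0 := mul_nonneg (pow_nonneg hp.le 2) (pow_nonneg hq.le 0)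
    have h1 := mul_nonneg (pow_nonneg hp.le 1) (pow_nonneg hq.le 1)
    have h2 := mul_nonneg (pow_nonneg hp.le 0) (pow_nonneg hq.le 2)
    linear_combination 85 * h0 + 188 * h1 + 95 * h2
  boundFA := by
    intro p q hp hq
    have e0 : 0 ≤ (FA).f p q := by
      simp only [FA, hom2, hom3]; positivity
    rw [abs_of_nonneg e0]
    simp only [FA, hom2, hom3]
    have h1 := mul_nonneg (pow_nonneg hp.le 1) (pow_nonneg hq.le 1)
    have h2 := mul_nonneg (pow_nonneg hp.le 0) (pow_nonneg hq.le 2)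
    linear_combination 74 * h1 + 87 * h2

end Crest.Agent.R236.Cert.N7
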