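import Crest.Agent.R236.CertAsm
import Crest.Agent.R236.Cert7_Mg
import Crest.Agent.R236.CertFin0
import Mathlib
import Crest.Agent.R236.Bl2
import Crest.Agent.R236.BApxDefs

-- ▼ part R236/Cert5
section

/-! Row 236, C3: exact certificate for n = 5 (helper194, generated; data of note 13059). -/

set_option autoImplicit false
set_option linter.all false
set_option maxHeartbeats 4000000

noncomputable section

namespace Crest.Agent.R236.Cert.N5

open Crest.Agent.R236.Cert

def Fa : Biv := hom2 8 8 4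
def FA : Biv := hom2 50 66 19
def mu : Biv := hom3 (-24) 3 30 1

theorem br (p q : ℝ) (g : Gram) : bracket 5 2 Fa FA mu p q g =
    ((20*p^3 + 20*p^2*q + 18*p*q^2 + 4*q^3) * g.aa +
     (4*p^3 + 18*p^2*q + 20*p*q^2 + 20*q^3) * g.bb +
     (125*p^3 + 181*p^2*q + (171/2)*p*q^2 + 19*q^3) * g.AA +
     (19*p^3 + (171/2)*p^2*q + 181*p*q^2 + 125*q^3) * g.BB +
     (6*p^3 + 32*p^2*q + 32*p*q^2 + 6*q^3) * g.ab +
     (63*p^3 + 72*p^2*q + (73/2)*p*q^2 + 1*q^3) * g.aA +
     ((25/2)*p^3 + 64*p^2*q + 31*p*q^2 + (-15)*q^3) * g.aB +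
     ((-15)*p^3 + 31*p^2*q + 64*p*q^2 + (25/2)*q^3) * g.bA +
     (1*p^3 + (73/2)*p^2*q + 72*p*q^2 + 63*q^3) * g.bB +
     ((57/2)*p^3 + 236*p^2*q + 236*p*q^2 + (57/2)*q^3) * g.AB)
    + ((mu.f p q) / p + (mu.f q p) / q) := by
  simp only [bracket, bracketV, Biv.swap, Fa, FA, mu, hom2, hom3, hom4]
  push_cast
  ring

theorem psd0 (g : Gram) (h : g.PSD) : 0 ≤
    (159/8) * g.aa + (31/8) * g.bb + (999/8) * g.AA + (151/8) * g.BB + 6 * g.ab + 63 * g.aA + (25/2) * g.aB + (-15) * g.bA + 1 * g.bB + (57/2) * g.AB := by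
  linear_combination (124293/1000) * h (25343/100000) (-3017/50000) 1 (2293/20000) +
    (16659/1000) * h (7919/50000) (8163/100000) 0 1 +
    (2723/250) * h 1 (43017/100000) 0 0 +
    (357/500) * h 0 1 0 0 +
    (26039037/250000000000) * h 1 (-1) 0 0 +
    (42501/100000000) * h 1 0 1 0 +
    (242614793/2000000000000) * h 1 0 0 1 +
    (8019/50000000) * h 0 1 (-1) 0 +
    (17557567/1000000000000) * h 0 1 0 (-1) +
    (3849/20000000) * h 0 0 1 (-1) +
    (2907670712301/5000000000000) * h 1 0 0 0 +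
    (5816475299383/10000000000000) * h 0 1 0 0 +
    (7265277/12500000) * h 0 0 1 0 +
    (145471030161/250000000000) * h 0 0 0 1

theorem psd1 (g : Gram) (h : g.PSD) : 0 ≤
    (157/8) * g.aa + (141/8) * g.bb + (1445/8) * g.AA + (681/8) * g.BB + 32 * g.ab + 72 * g.aA + 64 * g.aB + 31 * g.bA + (73/2) * g.bB + 236 * g.AB := by
  linear_combination (36053/200) * h (19971/100000) (4299/50000) 1 (65459/100000) +
    (3983/250) * h (16199/20000) 1 0 (50863/100000) +
    (3401/1000) * h (55003/100000) 0 0 1 +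
    (297/500) * h 1 0 0 0 +
    (534423563/1000000000000) * h 1 1 0 0 +
    (14463/20000000) * h 1 0 (-1) 0 +
    (420636599/2000000000000) * h 1 0 0 1 +
    (8153/10000000) * h 0 1 1 0 +
    (895527227/1000000000000) * h 0 1 0 1 +
    (6673/20000000) * h 0 0 1 1 +
    (3592182039601/10000000000000) * h 1 0 0 0 +
    (5595857011/15625000000) * h 0 1 0 0 +
    (3581279/10000000) * h 0 0 1 0 +
    (1797395912281/5000000000000) * h 0 0 0 1

theorem psd2 (g : Gram) (h : g.PSD) : 0 ≤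
    (141/8) * g.aa + (157/8) * g.bb + (681/8) * g.AA + (1445/8) * g.BB + 32 * g.ab + (73/2) * g.aA + 31 * g.aB + 64 * g.bA + 72 * g.bB + 236 * g.AB := by
  linear_combination (36053/200) * h (4299/50000) (19971/100000) (65459/100000) 1 +
    (3983/250) * h 1 (16199/20000) (50863/100000) 0 +
    (3401/1000) * h 0 (55003/100000) 1 0 +
    (297/500) * h 0 1 0 0 +
    (534423563/1000000000000) * h 1 1 0 0 +
    (895527227/1000000000000) * h 1 0 1 0 +
    (8153/10000000) * h 1 0 0 1 +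
    (420636599/2000000000000) * h 0 1 1 0 +
    (14463/20000000) * h 0 1 0 (-1) +
    (6673/20000000) * h 0 0 1 1 +
    (5595857011/15625000000) * h 1 0 0 0 +
    (3592182039601/10000000000000) * h 0 1 0 0 +
    (1797395912281/5000000000000) * h 0 0 1 0 +
    (3581279/10000000) * h 0 0 0 1

theorem psd3 (g : Gram) (h : g.PSD) : 0 ≤
    (31/8) * g.aa + (159/8) * g.bb + (151/8) * g.AA + (999/8) * g.BB + 6 * g.ab + 1 * g.aA + (-15) * g.aB + (25/2) * g.bA + 63 * g.bB + (57/2) * g.AB := by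
  linear_combination (124293/1000) * h (-3017/50000) (25343/100000) (2293/20000) 1 +
    (16659/1000) * h (8163/100000) (7919/50000) 1 0 +
    (2723/250) * h (43017/100000) 1 0 0 +
    (357/500) * h 1 0 0 0 +
    (26039037/250000000000) * h 1 (-1) 0 0 +
    (17557567/1000000000000) * h 1 0 (-1) 0 +
    (8019/50000000) * h 1 0 0 (-1) +
    (242614793/2000000000000) * h 0 1 1 0 +
    (42501/100000000) * h 0 1 0 1 +
    (3849/20000000) * h 0 0 1 (-1) +
    (5816475299383/10000000000000) * h 1 0 0 0 +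
    (2907670712301/5000000000000) * h 0 1 0 0 +
    (145471030161/250000000000) * h 0 0 1 0 +
    (7265277/12500000) * h 0 0 0 1

theorem quad (p q : ℝ) (hp : 0 < p) (hq : 0 < q) (g : Gram) (h : g.PSD) :
    (1/8 : ℝ) * (p + q) ^ 3 * (g.aa + g.bb + g.AA + g.BB) ≤ (p + q) ^ 0 * (
    (20*p^3 + 20*p^2*q + 18*p*q^2 + 4*q^3) * g.aa +
     (4*p^3 + 18*p^2*q + 20*p*q^2 + 20*q^3) * g.bb +
     (125*p^3 + 181*p^2*q + (171/2)*p*q^2 + 19*q^3) * g.AA +
     (19*p^3 + (171/2)*p^2*q + 181*p*q^2 + 125*q^3) * g.BB +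
     (6*p^3 + 32*p^2*q + 32*p*q^2 + 6*q^3) * g.ab +
     (63*p^3 + 72*p^2*q + (73/2)*p*q^2 + 1*q^3) * g.aA +
     ((25/2)*p^3 + 64*p^2*q + 31*p*q^2 + (-15)*q^3) * g.aB +
     ((-15)*p^3 + 31*p^2*q + 64*p*q^2 + (25/2)*q^3) * g.bA +
     (1*p^3 + (73/2)*p^2*q + 72*p*q^2 + 63*q^3) * g.bB +
     ((57/2)*p^3 + 236*p^2*q + 236*p*q^2 + (57/2)*q^3) * g.AB) := by
  have h0 := mul_nonneg (mul_nonneg (pow_nonneg hp.le 3) (pow_nonneg hq.le 0)) (psd0 g h)
  have h1 := mul_nonneg (mul_nonneg (pow_nonneg hp.le 2) (pow_nonneg hq.le 1)) (psd1 g h)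
  have h2 := mul_nonneg (mul_nonneg (pow_nonneg hp.le 1) (pow_nonneg hq.le 2)) (psd2 g h)
  have h3 := mul_nonneg (mul_nonneg (pow_nonneg hp.le 0) (pow_nonneg hq.le 3)) (psd3 g h)
  linear_combination h0 + h1 + h2 + h3

theorem scal (p q : ℝ) (hp : 0 < p) (hq : 0 < q) :
    (1/8 : ℝ) * (p + q) ^ 4 ≤ (p + q) ^ 0 * (q * mu.f p q + p * mu.f q p) := by
  simp only [mu, hom2, hom3, hom4]
  have h0 := mul_nonneg (pow_nonneg hp.le 4) (pow_nonneg hq.le 0)
  have h1 := mul_nonneg (pow_nonneg hp.le 3) (pow_nonneg hq.le 1)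
  have h2 := mul_nonneg (pow_nonneg hp.le 2) (pow_nonneg hq.le 2)
  have h3 := mul_nonneg (pow_nonneg hp.le 1) (pow_nonneg hq.le 3)
  have h4 := mul_nonneg (pow_nonneg hp.le 0) (pow_nonneg hq.le 4)
  linear_combination (7/8) * h0 + (11/2) * h1 + (21/4) * h2 + (11/2) * h3 + (7/8) * h4

def cert : CertData 5 where
  d := 2
  Fa := Fa
  FA := FA
  mu := mu
  ε := 1/8
  C := 50
  ε_pos := by norm_num
  C_pos := by norm_num
  main := by
    intro p q hp hq g h
    rw [br]
    have h1 := quad p q hp hq g h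
    have h2 := scal p q hp hq
    exact assemble 2 0 p q _ _ _ _ hp hq h1 h2
  boundFa := by
    intro p q hp hq
    have e0 : 0 ≤ (Fa).f p q := by
      simp only [Fa, hom2, hom3]; positivity
    rw [abs_of_nonneg e0]
    simp only [Fa, hom2, hom3]
    have h0 := mul_nonneg (pow_nonneg hp.le 2) (pow_nonneg hq.le 0)
    have h1 := mul_nonneg (pow_nonneg hp.le 1) (pow_nonneg hq.le 1)
    have h2 := mul_nonneg (pow_nonneg hp.le 0) (pow_nonneg hq.le 2)
    linear_combination 42 * h0 + 92 * h1 + 46 * h2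
  boundFA := by
    intro p q hp hq
    have e0 : 0 ≤ (FA).f p q := by
      simp only [FA, hom2, hom3]; positivity
    rw [abs_of_nonneg e0]
    simp only [FA, hom2, hom3]
    have h1 := mul_nonneg (pow_nonneg hp.le 1) (pow_nonneg hq.le 1)
    have h2 := mul_nonneg (pow_nonneg hp.le 0) (pow_nonneg hq.le 2)
    linear_combination 34 * h1 + 31 * h2

end Crest.Agent.R236.Cert.N5
end
end

-- ▼ part R236/Cert8
section

/-! Row 236, C3: exact certificate for n = 8 (helper194, generated; data of note 13059). -/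

set_option autoImplicit false
set_option linter.all false
set_option maxHeartbeats 4000000

noncomputable section

namespace Crest.Agent.R236.Cert.N8

open Crest.Agent.R236.Cert

def Fa : Biv := hom3 15 3 12 3
def FA : Biv := hom3 100 75 114 11
def mu : Biv := hom4 (-104) 80 (-72) 108 1

theorem br (p q : ℝ) (g : Gram) : bracket 8 3 Fa FA mu p q g =
    ((60*p^4 + (-15)*p^3*q + 69*p^2*q^2 + 21*p*q^3 + 3*q^4) * g.aa +
     (3*p^4 + 21*p^3*q + 69*p^2*q^2 + (-15)*p*q^3 + 60*q^4) * g.bb +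
     (400*p^4 + 175*p^3*q + 609*p^2*q^2 + 77*p*q^3 + 11*q^4) * g.AA +
     (11*p^4 + 77*p^3*q + 609*p^2*q^2 + 175*p*q^3 + 400*q^4) * g.BB +
     (9*p^4 + 126*p^3*q + (-18)*p^2*q^2 + 126*p*q^3 + 9*q^4) * g.ab +
     (241*p^4 + 47*p^3*q + 402*p^2*q^2 + 66*p*q^3 + 1*q^4) * g.aA +
     (17*p^4 + 286*p^3*q + 90*p^2*q^2 + 336*p*q^3 + (-16)*q^4) * g.aB +
     ((-16)*p^4 + 336*p^3*q + 90*p^2*q^2 + 286*p*q^3 + 17*q^4) * g.bA +
     (1*p^4 + 66*p^3*q + 402*p^2*q^2 + 47*p*q^3 + 241*q^4) * g.bB +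
     (33*p^4 + 948*p^3*q + 294*p^2*q^2 + 948*p*q^3 + 33*q^4) * g.AB)
    + ((mu.f p q) / p + (mu.f q p) / q) := by
  simp only [bracket, bracketV, Biv.swap, Fa, FA, mu, hom2, hom3, hom4]
  push_cast
  ring

theorem psd0 (g : Gram) (h : g.PSD) : 0 ≤
    (479/8) * g.aa + (23/8) * g.bb + (3199/8) * g.AA + (87/8) * g.BB + 9 * g.ab + 241 * g.aA + 17 * g.aB + (-16) * g.bA + 1 * g.bB + 33 * g.AB := by
  linear_combination (79913/200) * h (15079/50000) (-1001/50000) 1 (4129/100000) +
    (929/40) * h 1 (7441/25000) 0 (15173/100000) +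
    (9349/1000) * h 0 (-2337/100000) 0 1 +
    (171/500) * h 0 1 0 0 +
    (131364873/500000000000) * h 1 (-1) 0 0 +
    (8127/10000000) * h 1 0 (-1) 0 +
    (592193617/1000000000000) * h 1 0 0 1 +
    (7087/10000000) * h 0 1 (-1) 0 +
    (85434193/1000000000000) * h 0 1 0 (-1) +
    (39223/20000000) * h 0 0 1 1 +
    (307697282571/1000000000000) * h 1 0 0 0 +
    (3091985494169/10000000000000) * h 0 1 0 0 +
    (6130349/20000000) * h 0 0 1 0 +
    (307471412971/1000000000000) * h 0 0 0 1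

theorem psd1 (g : Gram) (h : g.PSD) : 0 ≤
    (2333/4) * g.aa + (197/4) * g.bb + (16693/4) * g.AA + (741/4) * g.BB + 216 * g.ab + 2457 * g.aA + 456 * g.aB + 176 * g.bA + 76 * g.bB + 1278 * g.AB := by
  linear_combination (208321/50) * h (14743/50000) (66/3125) 1 (15337/100000) +
    (53547/250) * h 1 (38309/100000) 0 (9241/50000) +
    (73101/1000) * h 0 (511/4000) 0 1 +
    (1587/200) * h 0 1 0 0 +
    (8987229/15625000000) * h 1 1 0 0 +
    (26503/2500000) * h 1 0 (-1) 0 +
    (724266511/250000000000) * h 1 0 0 (-1) +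
    (407/78125) * h 0 1 1 0 +
    (623583397/1250000000000) * h 0 1 0 1 +
    (19177/5000000) * h 0 0 1 (-1) +
    (1702322670367/250000000000) * h 1 0 0 0 +
    (68234621009231/10000000000000) * h 0 1 0 0 +
    (34051769/5000000) * h 0 0 1 0 +
    (17053560282623/2500000000000) * h 0 0 0 1

theorem psd2 (g : Gram) (h : g.PSD) : 0 ≤
    (20861/8) * g.aa + (3221/8) * g.bb + (162781/8) * g.AA + (14901/8) * g.BB + 1647 * g.ab + 11717 * g.aA + 3715 * g.aB + 2730 * g.bA + 1107 * g.bB + 11259 * g.AB := by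
  linear_combination (1015571/50) * h (28843/100000) (42/625) 1 (6929/25000) +
    (88163/100) * h 1 (48749/100000) 0 (5303/20000) +
    (20417/100) * h 0 (5997/20000) 0 1 +
    (11703/250) * h 0 1 0 0 +
    (176089973/6250000000) * h 1 1 0 0 +
    (385647/5000000) * h 1 0 1 0 +
    (1915335563/125000000000) * h 1 0 0 1 +
    (1134/15625) * h 0 1 1 0 +
    (3726697471/200000000000) * h 0 1 0 1 +
    (16459/1250000) * h 0 0 1 (-1) +
    (18064732476329/500000000000) * h 1 0 0 0 +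
    (36097280047177/1000000000000) * h 0 1 0 0 +
    (180210637/5000000) * h 0 0 1 0 +
    (18074715517657/500000000000) * h 0 0 0 1

theorem psd3 (g : Gram) (h : g.PSD) : 0 ≤
    (14381/2) * g.aa + (3869/2) * g.bb + (123993/2) * g.AA + (22009/2) * g.BB + 6696 * g.ab + 35121 * g.aA + 16146 * g.aB + 14386 * g.bA + 7157 * g.bB + 50508 * g.AB := by
  linear_combination (61893157/1000) * h (7093/25000) (5811/50000) 1 (40803/100000) +
    (1052421/500) * h 1 (7763/12500) 0 (10783/25000) +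
    (102647/500) * h 0 (38849/100000) 0 1 +
    (76211/500) * h 0 1 0 0 +
    (65277474411/1250000000000) * h 1 (-1) 0 0 +
    (4337399/25000000) * h 1 0 1 0 +
    (1187208603/2500000000000) * h 1 0 0 (-1) +
    (11135327/50000000) * h 0 1 (-1) 0 +
    (614908859069/5000000000000) * h 0 1 0 (-1) +
    (26485071/100000000) * h 0 0 1 (-1) +
    (258039928627003/2500000000000) * h 1 0 0 0 +
    (51440955448311/500000000000) * h 0 1 0 0 +
    (10268194679/100000000) * h 0 0 1 0 +
    (1027416356844429/10000000000000) * h 0 0 0 1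

theorem psd4 (g : Gram) (h : g.PSD) : 0 ≤
    (111943/8) * g.aa + (48319/8) * g.bb + (1064487/8) * g.AA + (327839/8) * g.BB + 17469 * g.ab + 75001 * g.aA + 45284 * g.aB + 43887 * g.bA + 26931 * g.bB + 143433 * g.AB := by
  linear_combination (16621347/125) * h (14101/50000) (8251/50000) 1 (26967/50000) +
    (1663431/500) * h 1 (4783/6250) 0 (14527/20000) +
    (454973/1000) * h 0 (-6011/12500) 0 1 +
    (34369/125) * h 0 1 0 0 +
    (62509198203/312500000000) * h 1 1 0 0 +
    (510953/6250000) * h 1 0 1 0 +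
    (18190213301/312500000000) * h 1 0 0 1 +
    (4140903/6250000) * h 0 1 1 0 +
    (56906087423/156250000000) * h 0 1 0 1 +
    (260451/6250000) * h 0 0 1 1 +
    (28064079761749/312500000000) * h 1 0 0 0 +
    (13920374224697/156250000000) * h 0 1 0 0 +
    (558206443/6250000) * h 0 0 1 0 +
    (89683051339709/1000000000000) * h 0 0 0 1

theorem psd5 (g : Gram) (h : g.PSD) : 0 ≤
    (83899/4) * g.aa + (52483/4) * g.bb + (855819/4) * g.AA + (414587/4) * g.BB + 32328 * g.ab + 121822 * g.aA + 90104 * g.aB + 90368 * g.bA + 66877 * g.bB + 285666 * g.AB := by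
  linear_combination (26734904/125) * h (28479/100000) (10563/50000) 1 (33391/50000) +
    (1023048/125) * h (6681/12500) (39877/100000) 0 1 +
    (549557/250) * h (14117/20000) 1 0 0 +
    (29773/250) * h 1 0 0 0 +
    (88087871/4882812500) * h 1 1 0 0 +
    (521123/1562500) * h 1 0 1 0 +
    (19464855593/78125000000) * h 1 0 0 1 +
    (98869/781250) * h 0 1 (-1) 0 +
    (1961009779/39062500000) * h 0 1 0 (-1) +
    (133817/781250) * h 0 0 1 1 +
    (37537207575567/500000000000) * h 1 0 0 0 +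
    (18817060423/250000000) * h 0 1 0 0 +
    (5850519/78125) * h 0 0 1 0 +
    (5880913304243/78125000000) * h 0 0 0 1

theorem psd6 (g : Gram) (h : g.PSD) : 0 ≤
    (204717/8) * g.aa + (167493/8) * g.bb + (2122797/8) * g.AA + (1505829/8) * g.BB + 45387 * g.ab + 154839 * g.aA + 134142 * g.aB + 135297 * g.bA + 117747 * g.bB + 422811 * g.AB := by
  linear_combination (53037819/200) * h (14597/50000) (2551/10000) 1 (79719/100000) +
    (9769109/500) * h (13699/50000) (25309/100000) 0 1 +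
    (1133879/500) * h (70083/100000) 1 0 0 +
    (6167/25) * h 1 0 0 0 +
    (180407641211/625000000000) * h 1 (-1) 0 0 +
    (1956057/10000000) * h 1 0 1 0 +
    (23762267983/1000000000000) * h 1 0 0 1 +
    (2476269/2000000) * h 0 1 (-1) 0 +
    (224467412411/200000000000) * h 0 1 0 (-1) +
    (11892861/20000000) * h 0 0 1 (-1) +
    (40042503591411/250000000000) * h 1 0 0 0 +
    (393144883579429/2500000000000) * h 0 1 0 0 +
    (634006467/4000000) * h 0 0 1 0 +
    (63136667650773/400000000000) * h 0 0 0 1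

theorem psd7 (g : Gram) (h : g.PSD) : 0 ≤
    25779 * g.aa + 25779 * g.bb + 255279 * g.AA + 255279 * g.BB + 50544 * g.ab + 154074 * g.aA + 153420 * g.aB + 153420 * g.bA + 154074 * g.bB + 480168 * g.AB := by
  linear_combination (127514569/500) * h (30207/100000) (30079/100000) 1 (4707/5000) +
    (14507233/500) * h (451/3125) (831/5000) 0 1 +
    (1654107/1000) * h 1 (84887/100000) 0 0 +
    (462187/1000) * h 0 1 0 0 +
    (416020560423/5000000000000) * h 1 1 0 0 +
    (17414217/50000000) * h 1 0 1 0 +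
    (82085439419/250000000000) * h 1 0 0 1 +
    (10720951/50000000) * h 0 1 (-1) 0 +
    (50025816357/250000000000) * h 0 1 0 (-1) +
    (1076283/2500000) * h 0 0 1 (-1) +
    (311688593496181/1250000000000) * h 1 0 0 0 +
    (2492826522061933/10000000000000) * h 0 1 0 0 +
    (3110859793/12500000) * h 0 0 1 0 +
    (15505759790651/62500000000) * h 0 0 0 1

theorem psd8 (g : Gram) (h : g.PSD) : 0 ≤
    (167493/8) * g.aa + (204717/8) * g.bb + (1505829/8) * g.AA + (2122797/8) * g.BB + 45387 * g.ab + 117747 * g.aA + 135297 * g.aB + 134142 * g.bA + 154839 * g.bB + 422811 * g.AB := by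
  linear_combination (53037819/200) * h (2551/10000) (14597/50000) (79719/100000) 1 +
    (9769109/500) * h (25309/100000) (13699/50000) 1 0 +
    (1133879/500) * h 1 (70083/100000) 0 0 +
    (6167/25) * h 0 1 0 0 +
    (180407641211/625000000000) * h 1 (-1) 0 0 +
    (224467412411/200000000000) * h 1 0 (-1) 0 +
    (2476269/2000000) * h 1 0 0 (-1) +
    (23762267983/1000000000000) * h 0 1 1 0 +
    (1956057/10000000) * h 0 1 0 1 +
    (11892861/20000000) * h 0 0 1 (-1) +
    (393144883579429/2500000000000) * h 1 0 0 0 +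
    (40042503591411/250000000000) * h 0 1 0 0 +
    (63136667650773/400000000000) * h 0 0 1 0 +
    (634006467/4000000) * h 0 0 0 1

theorem psd9 (g : Gram) (h : g.PSD) : 0 ≤
    (52483/4) * g.aa + (83899/4) * g.bb + (414587/4) * g.AA + (855819/4) * g.BB + 32328 * g.ab + 66877 * g.aA + 90368 * g.aB + 90104 * g.bA + 121822 * g.bB + 285666 * g.AB := by
  linear_combination (26734904/125) * h (10563/50000) (28479/100000) (33391/50000) 1 +
    (1023048/125) * h (39877/100000) (6681/12500) 1 0 +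
    (549557/250) * h 1 (14117/20000) 0 0 +
    (29773/250) * h 0 1 0 0 +
    (88087871/4882812500) * h 1 1 0 0 +
    (1961009779/39062500000) * h 1 0 (-1) 0 +
    (98869/781250) * h 1 0 0 (-1) +
    (19464855593/78125000000) * h 0 1 1 0 +
    (521123/1562500) * h 0 1 0 1 +
    (133817/781250) * h 0 0 1 1 +
    (18817060423/250000000) * h 1 0 0 0 +
    (37537207575567/500000000000) * h 0 1 0 0 +
    (5880913304243/78125000000) * h 0 0 1 0 +
    (5850519/78125) * h 0 0 0 1

theorem psd10 (g : Gram) (h : g.PSD) : 0 ≤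
    (48319/8) * g.aa + (111943/8) * g.bb + (327839/8) * g.AA + (1064487/8) * g.BB + 17469 * g.ab + 26931 * g.aA + 43887 * g.aB + 45284 * g.bA + 75001 * g.bB + 143433 * g.AB := by
  linear_combination (16621347/125) * h (8251/50000) (14101/50000) (26967/50000) 1 +
    (1663431/500) * h (4783/6250) 1 (14527/20000) 0 +
    (454973/1000) * h (-6011/12500) 0 1 0 +
    (34369/125) * h 1 0 0 0 +
    (62509198203/312500000000) * h 1 1 0 0 +
    (56906087423/156250000000) * h 1 0 1 0 +
    (4140903/6250000) * h 1 0 0 1 +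
    (18190213301/312500000000) * h 0 1 1 0 +
    (510953/6250000) * h 0 1 0 1 +
    (260451/6250000) * h 0 0 1 1 +
    (13920374224697/156250000000) * h 1 0 0 0 +
    (28064079761749/312500000000) * h 0 1 0 0 +
    (89683051339709/1000000000000) * h 0 0 1 0 +
    (558206443/6250000) * h 0 0 0 1

theorem psd11 (g : Gram) (h : g.PSD) : 0 ≤
    (3869/2) * g.aa + (14381/2) * g.bb + (22009/2) * g.AA + (123993/2) * g.BB + 6696 * g.ab + 7157 * g.aA + 14386 * g.aB + 16146 * g.bA + 35121 * g.bB + 50508 * g.AB := by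
  linear_combination (61893157/1000) * h (5811/50000) (7093/25000) (40803/100000) 1 +
    (1052421/500) * h (7763/12500) 1 (10783/25000) 0 +
    (102647/500) * h (38849/100000) 0 1 0 +
    (76211/500) * h 1 0 0 0 +
    (65277474411/1250000000000) * h 1 (-1) 0 0 +
    (614908859069/5000000000000) * h 1 0 (-1) 0 +
    (11135327/50000000) * h 1 0 0 (-1) +
    (1187208603/2500000000000) * h 0 1 (-1) 0 +
    (4337399/25000000) * h 0 1 0 1 +
    (26485071/100000000) * h 0 0 1 (-1) +
    (51440955448311/500000000000) * h 1 0 0 0 +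
    (258039928627003/2500000000000) * h 0 1 0 0 +
    (1027416356844429/10000000000000) * h 0 0 1 0 +
    (10268194679/100000000) * h 0 0 0 1

theorem psd12 (g : Gram) (h : g.PSD) : 0 ≤
    (3221/8) * g.aa + (20861/8) * g.bb + (14901/8) * g.AA + (162781/8) * g.BB + 1647 * g.ab + 1107 * g.aA + 2730 * g.aB + 3715 * g.bA + 11717 * g.bB + 11259 * g.AB := by
  linear_combination (1015571/50) * h (42/625) (28843/100000) (6929/25000) 1 +
    (88163/100) * h (48749/100000) 1 (5303/20000) 0 +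
    (20417/100) * h (5997/20000) 0 1 0 +
    (11703/250) * h 1 0 0 0 +
    (176089973/6250000000) * h 1 1 0 0 +
    (3726697471/200000000000) * h 1 0 1 0 +
    (1134/15625) * h 1 0 0 1 +
    (1915335563/125000000000) * h 0 1 1 0 +
    (385647/5000000) * h 0 1 0 1 +
    (16459/1250000) * h 0 0 1 (-1) +
    (36097280047177/1000000000000) * h 1 0 0 0 +
    (18064732476329/500000000000) * h 0 1 0 0 +
    (18074715517657/500000000000) * h 0 0 1 0 +
    (180210637/5000000) * h 0 0 0 1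

theorem psd13 (g : Gram) (h : g.PSD) : 0 ≤
    (197/4) * g.aa + (2333/4) * g.bb + (741/4) * g.AA + (16693/4) * g.BB + 216 * g.ab + 76 * g.aA + 176 * g.aB + 456 * g.bA + 2457 * g.bB + 1278 * g.AB := by
  linear_combination (208321/50) * h (66/3125) (14743/50000) (15337/100000) 1 +
    (53547/250) * h (38309/100000) 1 (9241/50000) 0 +
    (73101/1000) * h (511/4000) 0 1 0 +
    (1587/200) * h 1 0 0 0 +
    (8987229/15625000000) * h 1 1 0 0 +
    (623583397/1250000000000) * h 1 0 1 0 +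
    (407/78125) * h 1 0 0 1 +
    (724266511/250000000000) * h 0 1 (-1) 0 +
    (26503/2500000) * h 0 1 0 (-1) +
    (19177/5000000) * h 0 0 1 (-1) +
    (68234621009231/10000000000000) * h 1 0 0 0 +
    (1702322670367/250000000000) * h 0 1 0 0 +
    (17053560282623/2500000000000) * h 0 0 1 0 +
    (34051769/5000000) * h 0 0 0 1

theorem psd14 (g : Gram) (h : g.PSD) : 0 ≤
    (23/8) * g.aa + (479/8) * g.bb + (87/8) * g.AA + (3199/8) * g.BB + 9 * g.ab + 1 * g.aA + (-16) * g.aB + 17 * g.bA + 241 * g.bB + 33 * g.AB := by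
  linear_combination (79913/200) * h (-1001/50000) (15079/50000) (4129/100000) 1 +
    (929/40) * h (7441/25000) 1 (15173/100000) 0 +
    (9349/1000) * h (-2337/100000) 0 1 0 +
    (171/500) * h 1 0 0 0 +
    (131364873/500000000000) * h 1 (-1) 0 0 +
    (85434193/1000000000000) * h 1 0 (-1) 0 +
    (7087/10000000) * h 1 0 0 (-1) +
    (592193617/1000000000000) * h 0 1 1 0 +
    (8127/10000000) * h 0 1 0 (-1) +
    (39223/20000000) * h 0 0 1 1 +
    (3091985494169/10000000000000) * h 1 0 0 0 +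
    (307697282571/1000000000000) * h 0 1 0 0 +
    (307471412971/1000000000000) * h 0 0 1 0 +
    (6130349/20000000) * h 0 0 0 1

theorem quad (p q : ℝ) (hp : 0 < p) (hq : 0 < q) (g : Gram) (h : g.PSD) :
    (1/8 : ℝ) * (p + q) ^ 14 * (g.aa + g.bb + g.AA + g.BB) ≤ (p + q) ^ 10 * (
    (60*p^4 + (-15)*p^3*q + 69*p^2*q^2 + 21*p*q^3 + 3*q^4) * g.aa +
     (3*p^4 + 21*p^3*q + 69*p^2*q^2 + (-15)*p*q^3 + 60*q^4) * g.bb +
     (400*p^4 + 175*p^3*q + 609*p^2*q^2 + 77*p*q^3 + 11*q^4) * g.AA +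
     (11*p^4 + 77*p^3*q + 609*p^2*q^2 + 175*p*q^3 + 400*q^4) * g.BB +
     (9*p^4 + 126*p^3*q + (-18)*p^2*q^2 + 126*p*q^3 + 9*q^4) * g.ab +
     (241*p^4 + 47*p^3*q + 402*p^2*q^2 + 66*p*q^3 + 1*q^4) * g.aA +
     (17*p^4 + 286*p^3*q + 90*p^2*q^2 + 336*p*q^3 + (-16)*q^4) * g.aB +
     ((-16)*p^4 + 336*p^3*q + 90*p^2*q^2 + 286*p*q^3 + 17*q^4) * g.bA +
     (1*p^4 + 66*p^3*q + 402*p^2*q^2 + 47*p*q^3 + 241*q^4) * g.bB +
     (33*p^4 + 948*p^3*q + 294*p^2*q^2 + 948*p*q^3 + 33*q^4) * g.AB) := by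
  have h0 := mul_nonneg (mul_nonneg (pow_nonneg hp.le 14) (pow_nonneg hq.le 0)) (psd0 g h)
  have h1 := mul_nonneg (mul_nonneg (pow_nonneg hp.le 13) (pow_nonneg hq.le 1)) (psd1 g h)
  have h2 := mul_nonneg (mul_nonneg (pow_nonneg hp.le 12) (pow_nonneg hq.le 2)) (psd2 g h)
  have h3 := mul_nonneg (mul_nonneg (pow_nonneg hp.le 11) (pow_nonneg hq.le 3)) (psd3 g h)
  have h4 := mul_nonneg (mul_nonneg (pow_nonneg hp.le 10) (pow_nonneg hq.le 4)) (psd4 g h)
  have h5 := mul_nonneg (mul_nonneg (pow_nonneg hp.le 9) (pow_nonneg hq.le 5)) (psd5 g h)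
  have h6 := mul_nonneg (mul_nonneg (pow_nonneg hp.le 8) (pow_nonneg hq.le 6)) (psd6 g h)
  have h7 := mul_nonneg (mul_nonneg (pow_nonneg hp.le 7) (pow_nonneg hq.le 7)) (psd7 g h)
  have h8 := mul_nonneg (mul_nonneg (pow_nonneg hp.le 6) (pow_nonneg hq.le 8)) (psd8 g h)
  have h9 := mul_nonneg (mul_nonneg (pow_nonneg hp.le 5) (pow_nonneg hq.le 9)) (psd9 g h)
  have h10 := mul_nonneg (mul_nonneg (pow_nonneg hp.le 4) (pow_nonneg hq.le 10)) (psd10 g h)
  have h11 := mul_nonneg (mul_nonneg (pow_nonneg hp.le 3) (pow_nonneg hq.le 11)) (psd11 g h)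
  have h12 := mul_nonneg (mul_nonneg (pow_nonneg hp.le 2) (pow_nonneg hq.le 12)) (psd12 g h)
  have h13 := mul_nonneg (mul_nonneg (pow_nonneg hp.le 1) (pow_nonneg hq.le 13)) (psd13 g h)
  have h14 := mul_nonneg (mul_nonneg (pow_nonneg hp.le 0) (pow_nonneg hq.le 14)) (psd14 g h)
  linear_combination h0 + h1 + h2 + h3 + h4 + h5 + h6 + h7 + h8 + h9 + h10 + h11 + h12 + h13 + h14

theorem scal (p q : ℝ) (hp : 0 < p) (hq : 0 < q) :
    (1/8 : ℝ) * (p + q) ^ 15 ≤ (p + q) ^ 10 * (q * mu.f p q + p * mu.f q p) := by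
  simp only [mu, hom2, hom3, hom4]
  have h0 := mul_nonneg (pow_nonneg hp.le 15) (pow_nonneg hq.le 0)
  have h1 := mul_nonneg (pow_nonneg hp.le 14) (pow_nonneg hq.le 1)
  have h2 := mul_nonneg (pow_nonneg hp.le 13) (pow_nonneg hq.le 2)
  have h3 := mul_nonneg (pow_nonneg hp.le 12) (pow_nonneg hq.le 3)
  have h4 := mul_nonneg (pow_nonneg hp.le 11) (pow_nonneg hq.le 4)
  have h5 := mul_nonneg (pow_nonneg hp.le 10) (pow_nonneg hq.le 5)
  have h6 := mul_nonneg (pow_nonneg hp.le 9) (pow_nonneg hq.le 6)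
  have h7 := mul_nonneg (pow_nonneg hp.le 8) (pow_nonneg hq.le 7)
  have h8 := mul_nonneg (pow_nonneg hp.le 7) (pow_nonneg hq.le 8)
  have h9 := mul_nonneg (pow_nonneg hp.le 6) (pow_nonneg hq.le 9)
  have h10 := mul_nonneg (pow_nonneg hp.le 5) (pow_nonneg hq.le 10)
  have h11 := mul_nonneg (pow_nonneg hp.le 4) (pow_nonneg hq.le 11)
  have h12 := mul_nonneg (pow_nonneg hp.le 3) (pow_nonneg hq.le 12)
  have h13 := mul_nonneg (pow_nonneg hp.le 2) (pow_nonneg hq.le 13)
  have h14 := mul_nonneg (pow_nonneg hp.le 1) (pow_nonneg hq.le 14)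
  have h15 := mul_nonneg (pow_nonneg hp.le 0) (pow_nonneg hq.le 15)
  linear_combination (7/8) * h0 + (97/8) * h1 + (639/8) * h2 + (2649/8) * h3 + (7707/8) * h4 + (16621/8) * h5 + (27379/8) * h6 + (35013/8) * h7 + (35013/8) * h8 + (27379/8) * h9 + (16621/8) * h10 + (7707/8) * h11 + (2649/8) * h12 + (639/8) * h13 + (97/8) * h14 + (7/8) * h15

def cert : CertData 8 where
  d := 3
  Fa := Fa
  FA := FA
  mu := mu
  ε := 1/8
  C := 100
  ε_pos := by norm_num
  C_pos := by norm_num
  main := by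
    intro p q hp hq g h
    rw [br]
    have h1 := quad p q hp hq g h
    have h2 := scal p q hp hq
    exact assemble 3 10 p q _ _ _ _ hp hq h1 h2
  boundFa := by
    intro p q hp hq
    have e0 : 0 ≤ (Fa).f p q := by
      simp only [Fa, hom2, hom3]; positivity
    rw [abs_of_nonneg e0]
    simp only [Fa, hom2, hom3]
    have h0 := mul_nonneg (pow_nonneg hp.le 3) (pow_nonneg hq.le 0)
    have h1 := mul_nonneg (pow_nonneg hp.le 2) (pow_nonneg hq.le 1)
    have h2 := mul_nonneg (pow_nonneg hp.le 1) (pow_nonneg hq.le 2)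
    have h3 := mul_nonneg (pow_nonneg hp.le 0) (pow_nonneg hq.le 3)
    linear_combination 85 * h0 + 297 * h1 + 288 * h2 + 97 * h3
  boundFA := by
    intro p q hp hq
    have e0 : 0 ≤ (FA).f p q := by
      simp only [FA, hom2, hom3]; positivity
    rw [abs_of_nonneg e0]
    simp only [FA, hom2, hom3]
    have h1 := mul_nonneg (pow_nonneg hp.le 2) (pow_nonneg hq.le 1)
    have h2 := mul_nonneg (pow_nonneg hp.le 1) (pow_nonneg hq.le 2)
    have h3 := mul_nonneg (pow_nonneg hp.le 0) (pow_nonneg hq.le 3)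
    linear_combination 225 * h1 + 186 * h2 + 89 * h3

end Crest.Agent.R236.Cert.N8
end
end

-- ▼ part R236/Cert9
section

/-! Row 236, C3: exact certificate for n = 9 (helper194, generated; data of note 13059). -/

set_option autoImplicit false
set_option linter.all false
set_option maxHeartbeats 4000000

noncomputable section

namespace Crest.Agent.R236.Cert.N9

open Crest.Agent.R236.Cert

def Fa : Biv := hom3 68 12 66 8
def FA : Biv := hom3 500 324 549 37
def mu : Biv := hom4 (-547) 428 (-414) 552 1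

theorem br (p q : ℝ) (g : Gram) : bracket 9 3 Fa FA mu p q g =
    ((306*p^4 + (-70)*p^3*q + 417*p^2*q^2 + 60*p*q^3 + 8*q^4) * g.aa +
     (8*p^4 + 60*p^3*q + 417*p^2*q^2 + (-70)*p*q^3 + 306*q^4) * g.bb +
     (2250*p^4 + 782*p^3*q + (6489/2)*p^2*q^2 + (555/2)*p*q^3 + 37*q^4) * g.AA +
     (37*p^4 + (555/2)*p^3*q + (6489/2)*p^2*q^2 + 782*p*q^3 + 2250*q^4) * g.BB +
     (28*p^4 + 703*p^3*q + (-132)*p^2*q^2 + 703*p*q^3 + 28*q^4) * g.ab +
     (1441*p^4 + 236*p^3*q + (4593/2)*p^2*q^2 + (459/2)*p*q^3 + 1*q^4) * g.aA +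
     ((129/2)*p^4 + (3283/2)*p^3*q + 330*p^2*q^2 + 1981*p*q^3 + (-45)*q^4) * g.aB +
     ((-45)*p^4 + 1981*p^3*q + 330*p^2*q^2 + (3283/2)*p*q^3 + (129/2)*q^4) * g.bA +
     (1*p^4 + (459/2)*p^3*q + (4593/2)*p^2*q^2 + 236*p*q^3 + 1441*q^4) * g.bB +
     ((259/2)*p^4 + (10571/2)*p^3*q + 1368*p^2*q^2 + (10571/2)*p*q^3 + (259/2)*q^4) * g.AB)
    + ((mu.f p q) / p + (mu.f q p) / q) := by
  simp only [bracket, bracketV, Biv.swap, Fa, FA, mu, hom2, hom3, hom4]
  push_cast
  ring

theorem psd0 (g : Gram) (h : g.PSD) : 0 ≤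
    (2447/8) * g.aa + (63/8) * g.bb + (17999/8) * g.AA + (295/8) * g.BB + 28 * g.ab + 1441 * g.aA + (129/2) * g.aB + (-45) * g.bA + 1 * g.bB + (259/2) * g.AB := by
  linear_combination (2249179/1000) * h (16017/50000) (-1/100) 1 (2879/100000) +
    (595/8) * h 1 (14257/50000) 0 (15473/100000) +
    (16267/500) * h 0 (-3279/50000) 0 1 +
    (767/1000) * h 0 1 0 0 +
    (11337457/5000000000) * h 1 (-1) 0 0 +
    (100043/50000000) * h 1 0 (-1) 0 +
    (6481773797/5000000000000) * h 1 0 0 (-1) +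
    (821/100000) * h 0 1 (-1) 0 +
    (11409631/40000000000) * h 0 1 0 (-1) +
    (386341/100000000) * h 0 0 1 (-1) +
    (3444121691741/5000000000000) * h 1 0 0 0 +
    (3426766260187/5000000000000) * h 0 1 0 0 +
    (68192573/100000000) * h 0 0 1 0 +
    (3453258287271/5000000000000) * h 0 0 0 1

theorem psd1 (g : Gram) (h : g.PSD) : 0 ≤
    (9647/2) * g.aa + (371/2) * g.bb + (73559/2) * g.AA + 867 * g.BB + 1151 * g.ab + 23292 * g.aA + (5347/2) * g.aB + 1261 * g.bA + (491/2) * g.bB + (14715/2) * g.AB := by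
  linear_combination (7351417/200) * h (7921/25000) (343/20000) 1 (1251/12500) +
    (1111203/1000) * h 1 (33813/100000) 0 (3081/20000) +
    (450033/1000) * h 0 (49/12500) 0 1 +
    (5043/200) * h 0 1 0 0 +
    (3806059449/100000000000) * h 1 1 0 0 +
    (574057/5000000) * h 1 0 (-1) 0 +
    (812735159/31250000000) * h 1 0 0 1 +
    (463969/4000000) * h 0 1 1 0 +
    (31335501601/2000000000000) * h 0 1 0 1 +
    (252333/2500000) * h 0 0 1 1 +
    (11081551818223/500000000000) * h 1 0 0 0 +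
    (222513314537351/10000000000000) * h 0 1 0 0 +
    (441665263/20000000) * h 0 0 1 0 +
    (2177225319/97656250) * h 0 0 0 1

theorem psd2 (g : Gram) (h : g.PSD) : 0 ≤
    (143973/4) * g.aa + (9253/4) * g.bb + (1142931/4) * g.AA + (48403/4) * g.BB + 14476 * g.ab + (357985/2) * g.aA + 34334 * g.aB + 26626 * g.bA + (12177/2) * g.bB + 101476 * g.AB := by
  linear_combination (57103631/200) * h (6269/20000) (4663/100000) 1 (1777/10000) +
    (7725873/1000) * h 1 (4959/12500) 0 (16349/100000) +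
    (1331633/500) * h 0 (333/5000) 0 1 +
    (31267/125) * h 0 1 0 0 +
    (76490975957/400000000000) * h 1 (-1) 0 0 +
    (2337261/4000000) * h 1 0 1 0 +
    (20689241997/40000000000) * h 1 0 0 1 +
    (14231353/20000000) * h 0 1 (-1) 0 +
    (341370577997/5000000000000) * h 0 1 0 (-1) +
    (2847713/2000000) * h 0 0 1 1 +
    (42733563475059/200000000000) * h 1 0 0 0 +
    (1067806884879727/5000000000000) * h 0 1 0 0 +
    (1059376303/5000000) * h 0 0 1 0 +
    (2130803519623983/10000000000000) * h 0 0 0 1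

theorem psd3 (g : Gram) (h : g.PSD) : 0 ≤
    (339099/2) * g.aa + (36279/2) * g.bb + 1405887 * g.AA + (213143/2) * g.BB + 98631 * g.ab + (1744507/2) * g.aA + 240361 * g.aB + (438883/2) * g.bA + 65080 * g.bB + (1467907/2) * g.AB := by
  linear_combination (280959879/200) * h (6209/20000) (781/10000) 1 (26123/100000) +
    (33064241/1000) * h 1 (46129/100000) 0 (3781/20000) +
    (4218291/500) * h 0 (1473/12500) 0 1 +
    (664721/500) * h 0 1 0 0 +
    (93057681109/40000000000) * h 1 1 0 0 +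
    (27111289/4000000) * h 1 0 1 0 +
    (833962782547/400000000000) * h 1 0 0 1 +
    (11834501/2000000) * h 0 1 1 0 +
    (3196605286721/2000000000000) * h 0 1 0 1 +
    (20080883/20000000) * h 0 0 1 1 +
    (54031223309171/50000000000) * h 1 0 0 0 +
    (2696614724156343/2500000000000) * h 0 1 0 0 +
    (10739058831/10000000) * h 0 0 1 0 +
    (541721940313537/500000000000) * h 0 0 0 1

theorem psd4 (g : Gram) (h : g.PSD) : 0 ≤
    (4544979/8) * g.aa + (774243/8) * g.bb + (39409051/8) * g.AA + (5009891/8) * g.BB + 440076 * g.ab + 3034033 * g.aA + 1107881 * g.aB + (2186777/2) * g.bA + 411137 * g.bB + (6888855/2) * g.AB := by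
  linear_combination (984493789/200) * h (15409/50000) (5553/50000) 1 (34987/100000) +
    (12117839/125) * h 1 (53183/100000) 0 (5979/25000) +
    (2896327/200) * h 0 (2717/20000) 0 1 +
    (4715129/1000) * h 0 1 0 0 +
    (1108933545347/500000000000) * h 1 1 0 0 +
    (100205299/10000000) * h 1 0 1 0 +
    (624025876113/1000000000000) * h 1 0 0 1 +
    (48489683/10000000) * h 0 1 1 0 +
    (2834282490037/5000000000000) * h 0 1 0 1 +
    (209195743/20000000) * h 0 0 1 (-1) +
    (146229749361511/40000000000) * h 1 0 0 0 +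
    (36554437084560923/10000000000000) * h 0 1 0 0 +
    (72742014293/20000000) * h 0 0 1 0 +
    (36436237397465219/10000000000000) * h 0 0 0 1

theorem psd5 (g : Gram) (h : g.PSD) : 0 ≤
    1448118 * g.aa + 372222 * g.bb + 13100114 * g.AA + 2611488 * g.BB + 1412652 * g.ab + 8037404 * g.aA + 3691066 * g.aB + 3791672 * g.bA + 1759474 * g.bB + 11587678 * g.AB := by
  linear_combination (6545478673/500) * h (15349/50000) (7241/50000) 1 (22129/50000) +
    (102643977/500) * h 1 (60567/100000) 0 (32599/100000) +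
    (1625863/100) * h 0 (853/100000) 0 1 +
    (3300491/250) * h 0 1 0 0 +
    (8251994283643/1250000000000) * h 1 1 0 0 +
    (997848123/25000000) * h 1 0 1 0 +
    (39642275538867/1250000000000) * h 1 0 0 1 +
    (88928807/25000000) * h 0 1 1 0 +
    (41262678871971/5000000000000) * h 0 1 0 1 +
    (1077445183/25000000) * h 0 0 1 1 +
    (11378661844867417/1250000000000) * h 1 0 0 0 +
    (45694724449199817/5000000000000) * h 0 1 0 0 +
    (226752127887/25000000) * h 0 0 1 0 +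
    (11390339127081853/1250000000000) * h 0 0 0 1

theorem psd6 (g : Gram) (h : g.PSD) : 0 ≤
    2933343 * g.aa + 1077759 * g.bb + 27493761 * g.AA + 8116481 * g.BB + 3451728 * g.ab + 16878646 * g.aA + 9391148 * g.aB + 9820228 * g.bA + 5495174 * g.bB + 29589280 * g.AB := by
  linear_combination (6868296463/250) * h (15359/50000) (1117/6250) 1 (53851/100000) +
    (160171447/500) * h 1 (67913/100000) 0 (9421/20000) +
    (57734679/1000) * h 0 (1649/100000) 0 1 +
    (15932167/500) * h 0 1 0 0 +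
    (8334676418347/156250000000) * h 1 1 0 0 +
    (1372124783/12500000) * h 1 0 1 0 +
    (94704105814333/1250000000000) * h 1 0 0 1 +
    (165975829/1562500) * h 0 1 1 0 +
    (338175345580673/5000000000000) * h 0 1 0 1 +
    (1367170987/25000000) * h 0 0 1 1 +
    (5100927701724617/250000000000) * h 1 0 0 0 +
    (203874086787053113/10000000000000) * h 0 1 0 0 +
    (507611666183/25000000) * h 0 0 1 0 +
    (51089554794155347/2500000000000) * h 0 0 0 1

theorem psd7 (g : Gram) (h : g.PSD) : 0 ≤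
    4865526 * g.aa + 2427726 * g.bb + 46690312 * g.AA + 19491026 * g.BB + 6668508 * g.ab + 28824290 * g.aA + 18904672 * g.aB + 19814138 * g.bA + 13116868 * g.bB + 59475318 * g.AB := by
  linear_combination (11661308407/250) * h (30897/100000) (21239/100000) 1 (63753/100000) +
    (97469369/200) * h (54209/100000) (24869/50000) 0 1 +
    (224264033/1000) * h 1 (63243/100000) 0 0 +
    (6820527/100) * h 0 1 0 0 +
    (309833822590493/5000000000000) * h 1 1 0 0 +
    (4179148921/25000000) * h 1 0 1 0 +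
    (204800641035513/2500000000000) * h 1 0 0 1 +
    (2195743727/25000000) * h 0 1 1 0 +
    (99301909577431/2500000000000) * h 0 1 0 1 +
    (1919871471/25000000) * h 0 0 1 (-1) +
    (89739229115249813/2000000000000) * h 1 0 0 0 +
    (89851807085134701/2000000000000) * h 0 1 0 0 +
    (1118664535881/25000000) * h 0 0 1 0 +
    (111955044561396393/2500000000000) * h 0 0 0 1

theorem psd8 (g : Gram) (h : g.PSD) : 0 ≤
    (26950599/4) * g.aa + (17456439/4) * g.bb + (260596999/4) * g.AA + (148511103/4) * g.BB + 10467288 * g.ab + 40640158 * g.aA + 30822623 * g.aB + 32013592 * g.bA + 24682190 * g.bB + 96410483 * g.AB := by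
  linear_combination (65067178311/1000) * h (31229/100000) (123/500) 1 (14817/20000) +
    (166585793/125) * h (6699/25000) (18099/50000) 0 1 +
    (214049899/1000) * h 1 (1541/3125) 0 0 +
    (23525663/200) * h 0 1 0 0 +
    (185365824941431/1250000000000) * h 1 1 0 0 +
    (24988525781/100000000) * h 1 0 1 0 +
    (518935210017077/2000000000000) * h 1 0 0 1 +
    (135067747/500000) * h 0 1 1 0 +
    (2545104796099/10000000000) * h 0 1 0 1 +
    (4448965913/20000000) * h 0 0 1 1 +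
    (25491399351828441/312500000000) * h 1 0 0 0 +
    (10191492228949039/125000000000) * h 0 1 0 0 +
    (4066448497627/50000000) * h 0 0 1 0 +
    (10208076895570483/125000000000) * h 0 0 0 1

theorem psd9 (g : Gram) (h : g.PSD) : 0 ≤
    7864649 * g.aa + 6389253 * g.bb + 75284261 * g.AA + 57181046 * g.BB + 13609778 * g.ab + 47636524 * g.aA + 41306473 * g.aB + 42182738 * g.bA + 37421241 * g.bB + 128047725 * g.AB := by
  linear_combination (75165681683/1000) * h (3961/12500) (1403/5000) 1 (85177/100000) +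
    (2528869999/1000) * h (2891/20000) (5897/20000) 0 1 +
    (72885793/500) * h 1 (377/4000) 0 0 +
    (3283223/25) * h 0 1 0 0 +
    (206572954322113/2000000000000) * h 1 (-1) 0 0 +
    (2990146363/12500000) * h 1 0 (-1) 0 +
    (245544316073751/1250000000000) * h 1 0 0 (-1) +
    (606401249/5000000) * h 0 1 (-1) 0 +
    (57747606761073/500000000000) * h 0 1 0 (-1) +
    (1018712891/100000000) * h 0 0 1 (-1) +
    (2357836602085981/20000000000) * h 1 0 0 0 +
    (23633156748924463/200000000000) * h 0 1 0 0 +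
    (472834551649/4000000) * h 0 0 1 0 +
    (47295937795566873/400000000000) * h 0 0 0 1

theorem psd10 (g : Gram) (h : g.PSD) : 0 ≤
    (15487615/2) * g.aa + (15487615/2) * g.bb + (144337193/2) * g.AA + (144337193/2) * g.BB + 14834248 * g.ab + 46428811 * g.aA + 45844656 * g.aB + 45844656 * g.bA + 46428811 * g.bB + 140612472 * g.AB := by
  linear_combination (7206870511/100) * h (32211/100000) (15903/50000) 1 (48777/50000) +
    (348183633/100) * h (7917/100000) (24489/100000) 0 1 +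
    (72194273/500) * h 1 (-5887/25000) 0 0 +
    (136382231/1000) * h 0 1 0 0 +
    (31608329069169/200000000000) * h 1 1 0 0 +
    (3548970179/10000000) * h 1 0 1 0 +
    (218046260371083/500000000000) * h 1 0 0 1 +
    (778263567/5000000) * h 0 1 1 0 +
    (60647368582559/250000000000) * h 0 1 0 1 +
    (1657084953/5000000) * h 0 0 1 1 +
    (99168319805024021/1000000000000) * h 1 0 0 0 +
    (248566966881791829/2500000000000) * h 0 1 0 0 +
    (990494232781/10000000) * h 0 0 1 0 +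
    (49763957052668761/500000000000) * h 0 0 0 1

theorem psd11 (g : Gram) (h : g.PSD) : 0 ≤
    6389253 * g.aa + 7864649 * g.bb + 57181046 * g.AA + 75284261 * g.BB + 13609778 * g.ab + 37421241 * g.aA + 42182738 * g.aB + 41306473 * g.bA + 47636524 * g.bB + 128047725 * g.AB := by
  linear_combination (75165681683/1000) * h (1403/5000) (3961/12500) (85177/100000) 1 +
    (2528869999/1000) * h (5897/20000) (2891/20000) 1 0 +
    (72885793/500) * h (377/4000) 1 0 0 +
    (3283223/25) * h 1 0 0 0 +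
    (206572954322113/2000000000000) * h 1 (-1) 0 0 +
    (57747606761073/500000000000) * h 1 0 (-1) 0 +
    (606401249/5000000) * h 1 0 0 (-1) +
    (245544316073751/1250000000000) * h 0 1 (-1) 0 +
    (2990146363/12500000) * h 0 1 0 (-1) +
    (1018712891/100000000) * h 0 0 1 (-1) +
    (23633156748924463/200000000000) * h 1 0 0 0 +
    (2357836602085981/20000000000) * h 0 1 0 0 +
    (47295937795566873/400000000000) * h 0 0 1 0 +
    (472834551649/4000000) * h 0 0 0 1

theorem psd12 (g : Gram) (h : g.PSD) : 0 ≤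
    (17456439/4) * g.aa + (26950599/4) * g.bb + (148511103/4) * g.AA + (260596999/4) * g.BB + 10467288 * g.ab + 24682190 * g.aA + 32013592 * g.aB + 30822623 * g.bA + 40640158 * g.bB + 96410483 * g.AB := by
  linear_combination (65067178311/1000) * h (123/500) (31229/100000) (14817/20000) 1 +
    (166585793/125) * h (18099/50000) (6699/25000) 1 0 +
    (214049899/1000) * h (1541/3125) 1 0 0 +
    (23525663/200) * h 1 0 0 0 +
    (185365824941431/1250000000000) * h 1 1 0 0 +
    (2545104796099/10000000000) * h 1 0 1 0 +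
    (135067747/500000) * h 1 0 0 1 +
    (518935210017077/2000000000000) * h 0 1 1 0 +
    (24988525781/100000000) * h 0 1 0 1 +
    (4448965913/20000000) * h 0 0 1 1 +
    (10191492228949039/125000000000) * h 1 0 0 0 +
    (25491399351828441/312500000000) * h 0 1 0 0 +
    (10208076895570483/125000000000) * h 0 0 1 0 +
    (4066448497627/50000000) * h 0 0 0 1

theorem psd13 (g : Gram) (h : g.PSD) : 0 ≤
    2427726 * g.aa + 4865526 * g.bb + 19491026 * g.AA + 46690312 * g.BB + 6668508 * g.ab + 13116868 * g.aA + 19814138 * g.aB + 18904672 * g.bA + 28824290 * g.bB + 59475318 * g.AB := by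
  linear_combination (11661308407/250) * h (21239/100000) (30897/100000) (63753/100000) 1 +
    (97469369/200) * h (24869/50000) (54209/100000) 1 0 +
    (224264033/1000) * h (63243/100000) 1 0 0 +
    (6820527/100) * h 1 0 0 0 +
    (309833822590493/5000000000000) * h 1 1 0 0 +
    (99301909577431/2500000000000) * h 1 0 1 0 +
    (2195743727/25000000) * h 1 0 0 1 +
    (204800641035513/2500000000000) * h 0 1 1 0 +
    (4179148921/25000000) * h 0 1 0 1 +
    (1919871471/25000000) * h 0 0 1 (-1) +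
    (89851807085134701/2000000000000) * h 1 0 0 0 +
    (89739229115249813/2000000000000) * h 0 1 0 0 +
    (111955044561396393/2500000000000) * h 0 0 1 0 +
    (1118664535881/25000000) * h 0 0 0 1

theorem psd14 (g : Gram) (h : g.PSD) : 0 ≤
    1077759 * g.aa + 2933343 * g.bb + 8116481 * g.AA + 27493761 * g.BB + 3451728 * g.ab + 5495174 * g.aA + 9820228 * g.aB + 9391148 * g.bA + 16878646 * g.bB + 29589280 * g.AB := by
  linear_combination (6868296463/250) * h (1117/6250) (15359/50000) (53851/100000) 1 +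
    (160171447/500) * h (67913/100000) 1 (9421/20000) 0 +
    (57734679/1000) * h (1649/100000) 0 1 0 +
    (15932167/500) * h 1 0 0 0 +
    (8334676418347/156250000000) * h 1 1 0 0 +
    (338175345580673/5000000000000) * h 1 0 1 0 +
    (165975829/1562500) * h 1 0 0 1 +
    (94704105814333/1250000000000) * h 0 1 1 0 +
    (1372124783/12500000) * h 0 1 0 1 +
    (1367170987/25000000) * h 0 0 1 1 +
    (203874086787053113/10000000000000) * h 1 0 0 0 +
    (5100927701724617/250000000000) * h 0 1 0 0 +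
    (51089554794155347/2500000000000) * h 0 0 1 0 +
    (507611666183/25000000) * h 0 0 0 1

theorem psd15 (g : Gram) (h : g.PSD) : 0 ≤
    372222 * g.aa + 1448118 * g.bb + 2611488 * g.AA + 13100114 * g.BB + 1412652 * g.ab + 1759474 * g.aA + 3791672 * g.aB + 3691066 * g.bA + 8037404 * g.bB + 11587678 * g.AB := by
  linear_combination (6545478673/500) * h (7241/50000) (15349/50000) (22129/50000) 1 +
    (102643977/500) * h (60567/100000) 1 (32599/100000) 0 +
    (1625863/100) * h (853/100000) 0 1 0 +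
    (3300491/250) * h 1 0 0 0 +
    (8251994283643/1250000000000) * h 1 1 0 0 +
    (41262678871971/5000000000000) * h 1 0 1 0 +
    (88928807/25000000) * h 1 0 0 1 +
    (39642275538867/1250000000000) * h 0 1 1 0 +
    (997848123/25000000) * h 0 1 0 1 +
    (1077445183/25000000) * h 0 0 1 1 +
    (45694724449199817/5000000000000) * h 1 0 0 0 +
    (11378661844867417/1250000000000) * h 0 1 0 0 +
    (11390339127081853/1250000000000) * h 0 0 1 0 +
    (226752127887/25000000) * h 0 0 0 1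

theorem psd16 (g : Gram) (h : g.PSD) : 0 ≤
    (774243/8) * g.aa + (4544979/8) * g.bb + (5009891/8) * g.AA + (39409051/8) * g.BB + 440076 * g.ab + 411137 * g.aA + (2186777/2) * g.aB + 1107881 * g.bA + 3034033 * g.bB + (6888855/2) * g.AB := by
  linear_combination (984493789/200) * h (5553/50000) (15409/50000) (34987/100000) 1 +
    (12117839/125) * h (53183/100000) 1 (5979/25000) 0 +
    (2896327/200) * h (2717/20000) 0 1 0 +
    (4715129/1000) * h 1 0 0 0 +
    (1108933545347/500000000000) * h 1 1 0 0 +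
    (2834282490037/5000000000000) * h 1 0 1 0 +
    (48489683/10000000) * h 1 0 0 1 +
    (624025876113/1000000000000) * h 0 1 1 0 +
    (100205299/10000000) * h 0 1 0 1 +
    (209195743/20000000) * h 0 0 1 (-1) +
    (36554437084560923/10000000000000) * h 1 0 0 0 +
    (146229749361511/40000000000) * h 0 1 0 0 +
    (36436237397465219/10000000000000) * h 0 0 1 0 +
    (72742014293/20000000) * h 0 0 0 1

theorem psd17 (g : Gram) (h : g.PSD) : 0 ≤
    (36279/2) * g.aa + (339099/2) * g.bb + (213143/2) * g.AA + 1405887 * g.BB + 98631 * g.ab + 65080 * g.aA + (438883/2) * g.aB + 240361 * g.bA + (1744507/2) * g.bB + (1467907/2) * g.AB := by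
  linear_combination (280959879/200) * h (781/10000) (6209/20000) (26123/100000) 1 +
    (33064241/1000) * h (46129/100000) 1 (3781/20000) 0 +
    (4218291/500) * h (1473/12500) 0 1 0 +
    (664721/500) * h 1 0 0 0 +
    (93057681109/40000000000) * h 1 1 0 0 +
    (3196605286721/2000000000000) * h 1 0 1 0 +
    (11834501/2000000) * h 1 0 0 1 +
    (833962782547/400000000000) * h 0 1 1 0 +
    (27111289/4000000) * h 0 1 0 1 +
    (20080883/20000000) * h 0 0 1 1 +
    (2696614724156343/2500000000000) * h 1 0 0 0 +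
    (54031223309171/50000000000) * h 0 1 0 0 +
    (541721940313537/500000000000) * h 0 0 1 0 +
    (10739058831/10000000) * h 0 0 0 1

theorem psd18 (g : Gram) (h : g.PSD) : 0 ≤
    (9253/4) * g.aa + (143973/4) * g.bb + (48403/4) * g.AA + (1142931/4) * g.BB + 14476 * g.ab + (12177/2) * g.aA + 26626 * g.aB + 34334 * g.bA + (357985/2) * g.bB + 101476 * g.AB := by
  linear_combination (57103631/200) * h (4663/100000) (6269/20000) (1777/10000) 1 +
    (7725873/1000) * h (4959/12500) 1 (16349/100000) 0 +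
    (1331633/500) * h (333/5000) 0 1 0 +
    (31267/125) * h 1 0 0 0 +
    (76490975957/400000000000) * h 1 (-1) 0 0 +
    (341370577997/5000000000000) * h 1 0 (-1) 0 +
    (14231353/20000000) * h 1 0 0 (-1) +
    (20689241997/40000000000) * h 0 1 1 0 +
    (2337261/4000000) * h 0 1 0 1 +
    (2847713/2000000) * h 0 0 1 1 +
    (1067806884879727/5000000000000) * h 1 0 0 0 +
    (42733563475059/200000000000) * h 0 1 0 0 +
    (2130803519623983/10000000000000) * h 0 0 1 0 +
    (1059376303/5000000) * h 0 0 0 1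

theorem psd19 (g : Gram) (h : g.PSD) : 0 ≤
    (371/2) * g.aa + (9647/2) * g.bb + 867 * g.AA + (73559/2) * g.BB + 1151 * g.ab + (491/2) * g.aA + 1261 * g.aB + (5347/2) * g.bA + 23292 * g.bB + (14715/2) * g.AB := by
  linear_combination (7351417/200) * h (343/20000) (7921/25000) (1251/12500) 1 +
    (1111203/1000) * h (33813/100000) 1 (3081/20000) 0 +
    (450033/1000) * h (49/12500) 0 1 0 +
    (5043/200) * h 1 0 0 0 +
    (3806059449/100000000000) * h 1 1 0 0 +
    (31335501601/2000000000000) * h 1 0 1 0 +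
    (463969/4000000) * h 1 0 0 1 +
    (812735159/31250000000) * h 0 1 1 0 +
    (574057/5000000) * h 0 1 0 (-1) +
    (252333/2500000) * h 0 0 1 1 +
    (222513314537351/10000000000000) * h 1 0 0 0 +
    (11081551818223/500000000000) * h 0 1 0 0 +
    (2177225319/97656250) * h 0 0 1 0 +
    (441665263/20000000) * h 0 0 0 1

theorem psd20 (g : Gram) (h : g.PSD) : 0 ≤
    (63/8) * g.aa + (2447/8) * g.bb + (295/8) * g.AA + (17999/8) * g.BB + 28 * g.ab + 1 * g.aA + (-45) * g.aB + (129/2) * g.bA + 1441 * g.bB + (259/2) * g.AB := by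
  linear_combination (2249179/1000) * h (-1/100) (16017/50000) (2879/100000) 1 +
    (595/8) * h (14257/50000) 1 (15473/100000) 0 +
    (16267/500) * h (-3279/50000) 0 1 0 +
    (767/1000) * h 1 0 0 0 +
    (11337457/5000000000) * h 1 (-1) 0 0 +
    (11409631/40000000000) * h 1 0 (-1) 0 +
    (821/100000) * h 1 0 0 (-1) +
    (6481773797/5000000000000) * h 0 1 (-1) 0 +
    (100043/50000000) * h 0 1 0 (-1) +
    (386341/100000000) * h 0 0 1 (-1) +
    (3426766260187/5000000000000) * h 1 0 0 0 +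
    (3444121691741/5000000000000) * h 0 1 0 0 +
    (3453258287271/5000000000000) * h 0 0 1 0 +
    (68192573/100000000) * h 0 0 0 1

theorem quad (p q : ℝ) (hp : 0 < p) (hq : 0 < q) (g : Gram) (h : g.PSD) :
    (1/8 : ℝ) * (p + q) ^ 20 * (g.aa + g.bb + g.AA + g.BB) ≤ (p + q) ^ 16 * (
    (306*p^4 + (-70)*p^3*q + 417*p^2*q^2 + 60*p*q^3 + 8*q^4) * g.aa +
     (8*p^4 + 60*p^3*q + 417*p^2*q^2 + (-70)*p*q^3 + 306*q^4) * g.bb +
     (2250*p^4 + 782*p^3*q + (6489/2)*p^2*q^2 + (555/2)*p*q^3 + 37*q^4) * g.AA +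
     (37*p^4 + (555/2)*p^3*q + (6489/2)*p^2*q^2 + 782*p*q^3 + 2250*q^4) * g.BB +
     (28*p^4 + 703*p^3*q + (-132)*p^2*q^2 + 703*p*q^3 + 28*q^4) * g.ab +
     (1441*p^4 + 236*p^3*q + (4593/2)*p^2*q^2 + (459/2)*p*q^3 + 1*q^4) * g.aA +
     ((129/2)*p^4 + (3283/2)*p^3*q + 330*p^2*q^2 + 1981*p*q^3 + (-45)*q^4) * g.aB +
     ((-45)*p^4 + 1981*p^3*q + 330*p^2*q^2 + (3283/2)*p*q^3 + (129/2)*q^4) * g.bA +
     (1*p^4 + (459/2)*p^3*q + (4593/2)*p^2*q^2 + 236*p*q^3 + 1441*q^4) * g.bB +
     ((259/2)*p^4 + (10571/2)*p^3*q + 1368*p^2*q^2 + (10571/2)*p*q^3 + (259/2)*q^4) * g.AB) := by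
  have h0 := mul_nonneg (mul_nonneg (pow_nonneg hp.le 20) (pow_nonneg hq.le 0)) (psd0 g h)
  have h1 := mul_nonneg (mul_nonneg (pow_nonneg hp.le 19) (pow_nonneg hq.le 1)) (psd1 g h)
  have h2 := mul_nonneg (mul_nonneg (pow_nonneg hp.le 18) (pow_nonneg hq.le 2)) (psd2 g h)
  have h3 := mul_nonneg (mul_nonneg (pow_nonneg hp.le 17) (pow_nonneg hq.le 3)) (psd3 g h)
  have h4 := mul_nonneg (mul_nonneg (pow_nonneg hp.le 16) (pow_nonneg hq.le 4)) (psd4 g h)
  have h5 := mul_nonneg (mul_nonneg (pow_nonneg hp.le 15) (pow_nonneg hq.le 5)) (psd5 g h)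
  have h6 := mul_nonneg (mul_nonneg (pow_nonneg hp.le 14) (pow_nonneg hq.le 6)) (psd6 g h)
  have h7 := mul_nonneg (mul_nonneg (pow_nonneg hp.le 13) (pow_nonneg hq.le 7)) (psd7 g h)
  have h8 := mul_nonneg (mul_nonneg (pow_nonneg hp.le 12) (pow_nonneg hq.le 8)) (psd8 g h)
  have h9 := mul_nonneg (mul_nonneg (pow_nonneg hp.le 11) (pow_nonneg hq.le 9)) (psd9 g h)
  have h10 := mul_nonneg (mul_nonneg (pow_nonneg hp.le 10) (pow_nonneg hq.le 10)) (psd10 g h)
  have h11 := mul_nonneg (mul_nonneg (pow_nonneg hp.le 9) (pow_nonneg hq.le 11)) (psd11 g h)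
  have h12 := mul_nonneg (mul_nonneg (pow_nonneg hp.le 8) (pow_nonneg hq.le 12)) (psd12 g h)
  have h13 := mul_nonneg (mul_nonneg (pow_nonneg hp.le 7) (pow_nonneg hq.le 13)) (psd13 g h)
  have h14 := mul_nonneg (mul_nonneg (pow_nonneg hp.le 6) (pow_nonneg hq.le 14)) (psd14 g h)
  have h15 := mul_nonneg (mul_nonneg (pow_nonneg hp.le 5) (pow_nonneg hq.le 15)) (psd15 g h)
  have h16 := mul_nonneg (mul_nonneg (pow_nonneg hp.le 4) (pow_nonneg hq.le 16)) (psd16 g h)
  have h17 := mul_nonneg (mul_nonneg (pow_nonneg hp.le 3) (pow_nonneg hq.le 17)) (psd17 g h)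
  have h18 := mul_nonneg (mul_nonneg (pow_nonneg hp.le 2) (pow_nonneg hq.le 18)) (psd18 g h)
  have h19 := mul_nonneg (mul_nonneg (pow_nonneg hp.le 1) (pow_nonneg hq.le 19)) (psd19 g h)
  have h20 := mul_nonneg (mul_nonneg (pow_nonneg hp.le 0) (pow_nonneg hq.le 20)) (psd20 g h)
  linear_combination h0 + h1 + h2 + h3 + h4 + h5 + h6 + h7 + h8 + h9 + h10 + h11 + h12 + h13 + h14 + h15 + h16 + h17 + h18 + h19 + h20

theorem scal (p q : ℝ) (hp : 0 < p) (hq : 0 < q) :
    (1/8 : ℝ) * (p + q) ^ 21 ≤ (p + q) ^ 16 * (q * mu.f p q + p * mu.f q p) := by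
  simp only [mu, hom2, hom3, hom4]
  have h0 := mul_nonneg (pow_nonneg hp.le 21) (pow_nonneg hq.le 0)
  have h1 := mul_nonneg (pow_nonneg hp.le 20) (pow_nonneg hq.le 1)
  have h2 := mul_nonneg (pow_nonneg hp.le 19) (pow_nonneg hq.le 2)
  have h3 := mul_nonneg (pow_nonneg hp.le 18) (pow_nonneg hq.le 3)
  have h4 := mul_nonneg (pow_nonneg hp.le 17) (pow_nonneg hq.le 4)
  have h5 := mul_nonneg (pow_nonneg hp.le 16) (pow_nonneg hq.le 5)
  have h6 := mul_nonneg (pow_nonneg hp.le 15) (pow_nonneg hq.le 6)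
  have h7 := mul_nonneg (pow_nonneg hp.le 14) (pow_nonneg hq.le 7)
  have h8 := mul_nonneg (pow_nonneg hp.le 13) (pow_nonneg hq.le 8)
  have h9 := mul_nonneg (pow_nonneg hp.le 12) (pow_nonneg hq.le 9)
  have h10 := mul_nonneg (pow_nonneg hp.le 11) (pow_nonneg hq.le 10)
  have h11 := mul_nonneg (pow_nonneg hp.le 10) (pow_nonneg hq.le 11)
  have h12 := mul_nonneg (pow_nonneg hp.le 9) (pow_nonneg hq.le 12)
  have h13 := mul_nonneg (pow_nonneg hp.le 8) (pow_nonneg hq.le 13)
  have h14 := mul_nonneg (pow_nonneg hp.le 7) (pow_nonneg hq.le 14)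
  have h15 := mul_nonneg (pow_nonneg hp.le 6) (pow_nonneg hq.le 15)
  have h16 := mul_nonneg (pow_nonneg hp.le 5) (pow_nonneg hq.le 16)
  have h17 := mul_nonneg (pow_nonneg hp.le 4) (pow_nonneg hq.le 17)
  have h18 := mul_nonneg (pow_nonneg hp.le 3) (pow_nonneg hq.le 18)
  have h19 := mul_nonneg (pow_nonneg hp.le 2) (pow_nonneg hq.le 19)
  have h20 := mul_nonneg (pow_nonneg hp.le 1) (pow_nonneg hq.le 20)
  have h21 := mul_nonneg (pow_nonneg hp.le 0) (pow_nonneg hq.le 21)
  linear_combination (7/8) * h0 + (147/8) * h1 + (751/4) * h2 + (4927/4) * h3 + (46247/8) * h4 + (164203/8) * h5 + 57001 * h6 + 126497 * h7 + (910231/4) * h8 + (1339923/4) * h9 + (811733/2) * h10 + (811733/2) * h11 + (1339923/4) * h12 + (910231/4) * h13 + 126497 * h14 + 57001 * h15 + (164203/8) * h16 + (46247/8) * h17 + (4927/4) * h18 + (751/4) * h19 + (147/8) * h20 + (7/8) * h21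

def cert : CertData 9 where
  d := 3
  Fa := Fa
  FA := FA
  mu := mu
  ε := 1/8
  C := 500
  ε_pos := by norm_num
  C_pos := by norm_num
  main := by
    intro p q hp hq g h
    rw [br]
    have h1 := quad p q hp hq g h
    have h2 := scal p q hp hq
    exact assemble 3 16 p q _ _ _ _ hp hq h1 h2
  boundFa := by
    intro p q hp hq
    have e0 : 0 ≤ (Fa).f p q := by
      simp only [Fa, hom2, hom3]; positivity
    rw [abs_of_nonneg e0]
    simp only [Fa, hom2, hom3]
    have h0 := mul_nonneg (pow_nonneg hp.le 3) (pow_nonneg hq.le 0)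
    have h1 := mul_nonneg (pow_nonneg hp.le 2) (pow_nonneg hq.le 1)
    have h2 := mul_nonneg (pow_nonneg hp.le 1) (pow_nonneg hq.le 2)
    have h3 := mul_nonneg (pow_nonneg hp.le 0) (pow_nonneg hq.le 3)
    linear_combination 432 * h0 + 1488 * h1 + 1434 * h2 + 492 * h3
  boundFA := by
    intro p q hp hq
    have e0 : 0 ≤ (FA).f p q := by
      simp only [FA, hom2, hom3]; positivity
    rw [abs_of_nonneg e0]
    simp only [FA, hom2, hom3]
    have h1 := mul_nonneg (pow_nonneg hp.le 2) (pow_nonneg hq.le 1)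
    have h2 := mul_nonneg (pow_nonneg hp.le 1) (pow_nonneg hq.le 2)
    have h3 := mul_nonneg (pow_nonneg hp.le 0) (pow_nonneg hq.le 3)
    linear_combination 1176 * h1 + 951 * h2 + 463 * h3

end Crest.Agent.R236.Cert.N9
end
end

-- ▼ part R236/Cert
section

/-!
Row 236, C3 (helper194): the certificate for all `3 ≤ n ≤ 9` and the algebraic identity
`-div Z = (p+q)^(-n/2-d) * bracket`.
-/

set_option autoImplicit false

noncomputable section

namespace Crest.Agent.R236.Cert

/-- **C3**: the certificate. -/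
theorem cert (n : ℕ) (h3 : 3 ≤ n) (h9 : n ≤ 9) : Nonempty (CertData n) := by
  interval_cases n
  · exact ⟨N3.cert⟩
  · exact ⟨N4.cert⟩
  · exact ⟨N5.cert⟩
  · exact ⟨N6.cert⟩
  · exact ⟨N7.cert⟩
  · exact ⟨N8.cert⟩
  · exact ⟨N9.cert⟩

/-- `θ_i = p[(1-n/2-d) F_i + (p+q) ∂_p F_i]` -/
def th (n d : ℕ) (F : Biv) (p q : ℝ) : ℝ :=
  p * ((1 - (n : ℝ) / 2 - d) * F.f p q + (p + q) * F.f1 p q)

/-- `φ_i = q[(1-n/2-d) F_i + (p+q) ∂_q F_i]` -/
def ph (n d : ℕ) (F : Biv) (p q : ℝ) : ℝ :=
  q * ((1 - (n : ℝ) / 2 - d) * F.f p q + (p + q) * F.f2 p q)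

/-- `(p+q)^(n/2+d) * div Z` for `Z = (p+q)^(1-n/2-d) (F_a a + F_b b + F_A A + F_B B)`, computed by
the product rule, with `div a = n<a,B>-|a|²`, `div b = n<b,A>-|b|²`, `div A = -|A|²`,
`div B = -|B|²`, `∇p = p(a+A)`, `∇q = q(b+B)`. -/
def divZ (n d : ℕ) (Fa FA : Biv) (p q : ℝ) (g : Gram) : ℝ :=
  th n d Fa p q * (g.aa + g.aA) + ph n d Fa p q * (g.ab + g.aB) +
  th n d Fa.swap p q * (g.ab + g.bA) + ph n d Fa.swap p q * (g.bb + g.bB) +
  th n d FA p q * (g.aA + g.AA) + ph n d FA p q * (g.bA + g.AB) +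
  th n d FA.swap p q * (g.aB + g.AB) + ph n d FA.swap p q * (g.bB + g.BB) +
  (p + q) * (Fa.f p q * ((n : ℝ) * g.aB - g.aa) + Fa.swap.f p q * ((n : ℝ) * g.bA - g.bb) +
    FA.f p q * (-g.AA) + FA.swap.f p q * (-g.BB))

theorem neg_divZ (n d : ℕ) (Fa FA mu : Biv) (p q : ℝ) (g : Gram)
    (h1 : g.aA = g.aB - 1 / p) (h2 : g.bB = g.bA - 1 / q) :
    -divZ n d Fa FA p q g = bracket n d Fa FA mu p q g := by
  unfold divZ bracket bracketV th ph
  have e1 : mu.f p q / p = mu.f p q * (g.aB - g.aA) := by rw [h1]; ring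
  have e2 : mu.swap.f p q / q = mu.swap.f p q * (g.bA - g.bB) := by rw [h2]; ring
  rw [e1, e2]
  ring

/-- The pointwise inequality in final form: `-(p+q)^(n/2+d) div Z ≥ ε (p+q)^(d+1) (..)`. -/
theorem CertData.neg_divZ_ge {n : ℕ} (K : CertData n) (p q : ℝ) (hp : 0 < p) (hq : 0 < q)
    (g : Gram) (h : g.PSD) (h1 : g.aA = g.aB - 1 / p) (h2 : g.bB = g.bA - 1 / q) :
    K.ε * (p + q) ^ (K.d + 1) * (g.aa + g.bb + g.AA + g.BB + 1 / p + 1 / q) ≤
      -divZ n K.d K.Fa K.FA p q g := by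
  rw [neg_divZ n K.d K.Fa K.FA K.mu p q g h1 h2]
  exact K.main p q hp hq g h



end Crest.Agent.R236.Cert
end
end

-- ▼ part R236/CertShape
section

/-! Row 236, Part C: the certificate in the shape of `CertFin0` (helper194). -/

set_option autoImplicit false
open scoped ContDiff RealInnerProductSpace

namespace Crest.Agent.R236.Cert

theorem Biv.hasDerivAt1 (F : Biv) (p q : ℝ) : HasDerivAt (fun t => F.f t q) (F.f1 p q) p := by
  have h := F.hasFDerivAt p q
  have h2 : HasDerivAt (fun t : ℝ => (t, q)) ((1 : ℝ), (0 : ℝ)) p :=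
    (hasDerivAt_id p).prodMk (hasDerivAt_const p q)
  have h3 := h.comp_hasDerivAt p (f := fun t : ℝ => (t, q)) h2
  refine h3.congr_deriv ?_
  simp

theorem Biv.hasDerivAt2 (F : Biv) (p q : ℝ) : HasDerivAt (fun t => F.f p t) (F.f2 p q) q := by
  have h := F.hasFDerivAt p q
  have h2 : HasDerivAt (fun t : ℝ => (p, t)) ((0 : ℝ), (1 : ℝ)) q :=
    (hasDerivAt_const q p).prodMk (hasDerivAt_id q)
  have h3 := h.comp_hasDerivAt q (f := fun t : ℝ => (p, t)) h2
  refine h3.congr_deriv ?_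
  simp

theorem CertData.shape {n : ℕ} (K : CertData n) : CertShape n := by
  refine ⟨K.d, K.ε, K.C, ![K.Fa.f, K.Fa.swap.f, K.FA.f, K.FA.swap.f],
    ![K.Fa.f1, K.Fa.swap.f1, K.FA.f1, K.FA.swap.f1],
    ![K.Fa.f2, K.Fa.swap.f2, K.FA.f2, K.FA.swap.f2], K.ε_pos, K.C_pos, ?_, ?_, ?_, ?_⟩
  · intro k
    fin_cases k
    · exact K.Fa.smooth
    · exact K.Fa.swap.smooth
    · exact K.FA.smooth
    · exact K.FA.swap.smooth
  · intro k p q
    fin_cases k
    · exact ⟨K.Fa.hasDerivAt1 p q, K.Fa.hasDerivAt2 p q⟩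
    · exact ⟨K.Fa.swap.hasDerivAt1 p q, K.Fa.swap.hasDerivAt2 p q⟩
    · exact ⟨K.FA.hasDerivAt1 p q, K.FA.hasDerivAt2 p q⟩
    · exact ⟨K.FA.swap.hasDerivAt1 p q, K.FA.swap.hasDerivAt2 p q⟩
  · intro k p q hp hq
    fin_cases k
    · exact K.boundFa p q hp hq
    · have := K.boundFa q p hq hp
      rw [add_comm q p] at this
      exact this
    · exact K.boundFA p q hp hq
    · have := K.boundFA q p hq hp
      rw [add_comm q p] at this
      exact this
  · intro p q hp hq aa bb AA BB ab aA aB bA bB AB h h1 h2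
    have hg : (Gram.mk aa bb AA BB ab aA aB bA bB AB).PSD := by
      intro x y z w
      have := h x y z w
      simp only
      linarith
    have key := K.neg_divZ_ge p q hp hq ⟨aa, bb, AA, BB, ab, aA, aB, bA, bB, AB⟩ hg h1 h2
    refine key.trans (le_of_eq ?_)
    simp only [divZ, Br0, th, ph, Matrix.cons_val_zero, Matrix.cons_val_one, Matrix.cons_val]
    ring

theorem certShape (n : ℕ) (h3 : 3 ≤ n) (h9 : n ≤ 9) : CertShape n := by
  obtain ⟨K⟩ := cert n h3 h9
  exact K.shape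

end Crest.Agent.R236.Cert
end

-- ▼ part R236/CertFin
section

set_option autoImplicit false

namespace Crest.Agent.R236.Cert

theorem certFin (n : ℕ) (h3 : 3 ≤ n) (h9 : n ≤ 9) : CertFin n :=
  certFin_of n (certShape n h3 h9)

end Crest.Agent.R236.Cert
end

-- ▼ part R236/Bl3

/-! Row 236, Part C: C4 in the language of Part B (`B.aff`, `B.sg`). (helper796) -/

set_option autoImplicit false
open scoped ContDiff Topology RealInnerProductSpace
open Crest.GeometryTopology.CoordMetric Crest.GeometryTopology.AffineMaximal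
open Set Filter MeasureTheory

noncomputable section

namespace Crest.Agent.R236.Bl

variable {n : ℕ}

/-- `AA(ξ,ξ)` for a covector `ξ`. -/
def AAc (u : EuclideanSpace ℝ (Fin n) → ℝ) (x : EuclideanSpace ℝ (Fin n))
    (ξ : EuclideanSpace ℝ (Fin n) →L[ℝ] ℝ) : ℝ :=
  rho u x ^ n * ∑ i, ∑ j, cof u x i j * ξ (EuclideanSpace.single i 1) *
    ξ (EuclideanSpace.single j 1)

lemma AAc_eq_AAf (u : EuclideanSpace ℝ (Fin n) → ℝ) (x : EuclideanSpace ℝ (Fin n))
    (ξ : EuclideanSpace ℝ (Fin n) →L[ℝ] ℝ) :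
    AAc u x ξ = AAf u x (fun i => ξ (EuclideanSpace.single i 1)) := rfl




/-- data from two linear forms and two vectors of `E × ℝ` in duality -/
def cdata (P0 W0 : B.VV n →L[ℝ] ℝ) (pc wc : ℝ) (eP eW : B.VV n) (h1 : P0 eP = 1)
    (h2 : P0 eW = 0) (h3 : W0 eP = 0) (h4 : W0 eW = 1) : CData n where
  aP := P0 (0, 1)
  bP := P0.comp (ContinuousLinearMap.inl ℝ _ _)
  cP := pc
  aW := W0 (0, 1)
  bW := W0.comp (ContinuousLinearMap.inl ℝ _ _)
  cW := wc
  zP := eP.2
  vP := eP.1
  zW := eW.2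
  vW := eW.1
  hPP := (split P0 eP).trans h1
  hPW := (split P0 eW).trans h2
  hWP := (split W0 eP).trans h3
  hWW := (split W0 eW).trans h4
where
  split (F : B.VV n →L[ℝ] ℝ) (v : B.VV n) :
      F (0, 1) * v.2 + (F.comp (ContinuousLinearMap.inl ℝ _ _)) v.1 = F v := by
    have : v = v.2 • ((0, 1) : B.VV n) + (v.1, 0) := by
      ext <;> simp
    conv_rhs => rw [this, map_add, map_smul, smul_eq_mul]
    simp [mul_comm]

lemma aff_eq (u : EuclideanSpace ℝ (Fin n) → ℝ) (F : B.VV n →L[ℝ] ℝ) (c : ℝ)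
    (x : EuclideanSpace ℝ (Fin n)) :
    aff u (F (0, 1)) (F.comp (ContinuousLinearMap.inl ℝ _ _)) c x = B.aff F c (x, u x) := by
  have := cdata.split F (x, u x)
  unfold aff B.aff
  rw [← this]

lemma NV_eq (u : EuclideanSpace ℝ (Fin n) → ℝ) (v : B.VV n) (x : EuclideanSpace ℝ (Fin n)) :
    NV u v.2 v.1 0 x = rho u x * B.sg u v x := by
  unfold NV sg B.sg
  rw [fderiv_eq_pd]
  simp

/-- **C4** in the language of Part B. -/
theorem cert (n : ℕ) (h3 : 3 ≤ n) (h9 : n ≤ 9) :
    ∃ K : ℝ, 0 < K ∧ ∀ (Ω : Set (EuclideanSpace ℝ (Fin n))) (u : EuclideanSpace ℝ (Fin n) → ℝ)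
      (P0 W0 : B.VV n →L[ℝ] ℝ) (pc wc : ℝ) (eP eW : B.VV n), SC Ω u →
      (∀ x ∈ Ω, affineMaximalOp n u x = 0) → P0 eP = 1 → P0 eW = 0 → W0 eP = 0 → W0 eW = 1 →
      ∀ ζ : EuclideanSpace ℝ (Fin n) → ℝ, ContDiff ℝ 1 ζ → HasCompactSupport ζ →
      tsupport ζ ⊆ {x | x ∈ Ω ∧ 0 < B.aff P0 pc (x, u x) ∧ 0 < B.aff W0 wc (x, u x) ∧
        0 < rho u x * B.sg u eP x ∧ 0 < rho u x * B.sg u eW x} →
      ∫⁻ x, ENNReal.ofReal (ζ x ^ 2 *
          ((B.aff P0 pc (x, u x) * (rho u x * B.sg u eP x) +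
              B.aff W0 wc (x, u x) * (rho u x * B.sg u eW x)) ^ (1 - (n:ℝ)/2) *
            (1 / (B.aff P0 pc (x, u x) * (rho u x * B.sg u eP x)) +
              1 / (B.aff W0 wc (x, u x) * (rho u x * B.sg u eW x))) / rho u x))
        ≤ ENNReal.ofReal K * ∫⁻ x, ENNReal.ofReal
          ((B.aff P0 pc (x, u x) * (rho u x * B.sg u eP x) +
              B.aff W0 wc (x, u x) * (rho u x * B.sg u eW x)) ^ (1 - (n:ℝ)/2) *
            AAc u x (fderiv ℝ ζ x)) := by
  obtain ⟨K, hK, hmain⟩ := C4_lintegral (n := n) (by omega) (Cert.certFin n h3 h9)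
  refine ⟨K, hK, fun Ω u P0 W0 pc wc eP eW h hm h1 h2 h3 h4 ζ hζ hζc hζs => ?_⟩
  set D := cdata P0 W0 pc wc eP eW h1 h2 h3 h4 with hD
  have f0 : ∀ x, fn D u 0 x = B.aff P0 pc (x, u x) := fun x => aff_eq u P0 pc x
  have f1 : ∀ x, fn D u 1 x = B.aff W0 wc (x, u x) := fun x => aff_eq u W0 wc x
  have f2 : ∀ x, fn D u 2 x = rho u x * B.sg u eP x := fun x => NV_eq u eP x
  have f3 : ∀ x, fn D u 3 x = rho u x * B.sg u eW x := fun x => NV_eq u eW x
  have hsub : tsupport ζ ⊆ PS D Ω u := by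
    intro x hx
    obtain ⟨g0, g1, g2, g3, g4⟩ := hζs hx
    refine ⟨g0, fun k => ?_⟩
    fin_cases k
    · exact (f0 x).symm ▸ g1
    · exact (f1 x).symm ▸ g2
    · exact (f2 x).symm ▸ g3
    · exact (f3 x).symm ▸ g4
  have := hmain Ω u D h hm ζ hζ hζc hsub
  have e1 : ∀ x, gw D u x = (B.aff P0 pc (x, u x) * (rho u x * B.sg u eP x) +
              B.aff W0 wc (x, u x) * (rho u x * B.sg u eW x)) ^ (1 - (n:ℝ)/2) *
            (1 / (B.aff P0 pc (x, u x) * (rho u x * B.sg u eP x)) +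
              1 / (B.aff W0 wc (x, u x) * (rho u x * B.sg u eW x))) / rho u x := by
    intro x
    unfold gw pf qf
    rw [f0, f1, f2, f3]
  have e2 : ∀ x, hw D u ζ x = (B.aff P0 pc (x, u x) * (rho u x * B.sg u eP x) +
              B.aff W0 wc (x, u x) * (rho u x * B.sg u eW x)) ^ (1 - (n:ℝ)/2) *
            AAc u x (fderiv ℝ ζ x) := by
    intro x
    unfold hw pf qf
    rw [f0, f1, f2, f3, AAc_eq_AAf]
    rfl
  simp_rw [e1, e2] at this
  exact this

end Crest.Agent.R236.Bl
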