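import Mathlib

-- ▼ part R236/CertDefs
section

/-!
Row 236, part C3: definitions for the exact certificate (helper194).

`Gram` = the ten inner products of four vectors `a, b, A, B`; `Gram.PSD` = positive semidefinite.
`Biv` = a smooth function of two real variables together with its two partial derivatives.
`bracket` = the bracket `[..]` of C3.
`CertData n` = a certificate in dimension `n`.
-/

set_option autoImplicit false

noncomputable section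

namespace Crest.Agent.R236.Cert

open scoped ContDiff

/-- The ten inner products of four vectors `a, b, A, B`. -/
structure Gram where
  aa : ℝ
  bb : ℝ
  AA : ℝ
  BB : ℝ
  ab : ℝ
  aA : ℝ
  aB : ℝ
  bA : ℝ
  bB : ℝ
  AB : ℝ

/-- Positive semidefiniteness of the Gram data. -/
def Gram.PSD (g : Gram) : Prop :=
  ∀ c0 c1 c2 c3 : ℝ, 0 ≤ c0 ^ 2 * g.aa + c1 ^ 2 * g.bb + c2 ^ 2 * g.AA + c3 ^ 2 * g.BB +
    2 * (c0 * c1) * g.ab + 2 * (c0 * c2) * g.aA + 2 * (c0 * c3) * g.aB +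
    2 * (c1 * c2) * g.bA + 2 * (c1 * c3) * g.bB + 2 * (c2 * c3) * g.AB

/-- `|a|² + |b|² + |A|² + |B|²`. -/
def Gram.tr (g : Gram) : ℝ := g.aa + g.bb + g.AA + g.BB










/-- A smooth function of two real variables with its partial derivatives. -/
structure Biv where
  f : ℝ → ℝ → ℝ
  /-- derivative in the first variable -/
  f1 : ℝ → ℝ → ℝ
  /-- derivative in the second variable -/
  f2 : ℝ → ℝ → ℝ
  smooth : ContDiff ℝ ∞ (fun z : ℝ × ℝ => f z.1 z.2)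
  hasFDerivAt : ∀ p q : ℝ, HasFDerivAt (fun z : ℝ × ℝ => f z.1 z.2)
    ((f1 p q) • ContinuousLinearMap.fst ℝ ℝ ℝ + (f2 p q) • ContinuousLinearMap.snd ℝ ℝ ℝ) (p, q)

/-- `F(q,p)`. -/
def Biv.swap (F : Biv) : Biv where
  f := fun p q => F.f q p
  f1 := fun p q => F.f2 q p
  f2 := fun p q => F.f1 q p
  smooth := F.smooth.comp (contDiff_snd.prodMk contDiff_fst)
  hasFDerivAt := by
    intro p q
    have h := (F.hasFDerivAt q p)
    have h2 : HasFDerivAt (fun z : ℝ × ℝ => (z.2, z.1))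
        ((ContinuousLinearMap.snd ℝ ℝ ℝ).prod (ContinuousLinearMap.fst ℝ ℝ ℝ)) (p, q) :=
      (ContinuousLinearMap.snd ℝ ℝ ℝ).hasFDerivAt.prodMk
        (ContinuousLinearMap.fst ℝ ℝ ℝ).hasFDerivAt
    have h3 := HasFDerivAt.comp (p, q) (f := fun z : ℝ × ℝ => (z.2, z.1)) (by simpa using h) h2
    refine h3.congr_fderiv ?_
    ext <;> simp

/-- The bracket of C3, as a function of the values of `F_i`, their partial derivatives and `mu`.
`e = 1 - n/2 - d`. -/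
def bracketV (n e p q Fa Fa1 Fa2 Fb Fb1 Fb2 FA FA1 FA2 FB FB1 FB2 ma mb : ℝ) (g : Gram) : ℝ :=
  ((p + q) * Fa - p * (e * Fa + (p + q) * Fa1)) * g.aa +
  ((p + q) * Fb - q * (e * Fb + (p + q) * Fb2)) * g.bb +
  ((p + q) * FA - p * (e * FA + (p + q) * FA1)) * g.AA +
  ((p + q) * FB - q * (e * FB + (p + q) * FB2)) * g.BB -
  (q * (e * Fa + (p + q) * Fa2) + p * (e * Fb + (p + q) * Fb1)) * g.ab -
  (p * (e * Fa + (p + q) * Fa1) + p * (e * FA + (p + q) * FA1) - ma) * g.aA -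
  (q * (e * Fa + (p + q) * Fa2) + p * (e * FB + (p + q) * FB1) + n * ((p + q) * Fa) + ma) * g.aB -
  (p * (e * Fb + (p + q) * Fb1) + q * (e * FA + (p + q) * FA2) + n * ((p + q) * Fb) + mb) * g.bA -
  (q * (e * Fb + (p + q) * Fb2) + q * (e * FB + (p + q) * FB2) - mb) * g.bB -
  (q * (e * FA + (p + q) * FA2) + p * (e * FB + (p + q) * FB1)) * g.AB +
  (ma / p + mb / q)

/-- The bracket `[..]` of C3 for given `F_a, F_A, mu_a` (and `F_b = F_a.swap` etc.). -/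
def bracket (n : ℕ) (d : ℕ) (Fa FA mu : Biv) (p q : ℝ) (g : Gram) : ℝ :=
  bracketV n (1 - (n : ℝ) / 2 - d) p q (Fa.f p q) (Fa.f1 p q) (Fa.f2 p q)
    (Fa.swap.f p q) (Fa.swap.f1 p q) (Fa.swap.f2 p q)
    (FA.f p q) (FA.f1 p q) (FA.f2 p q) (FA.swap.f p q) (FA.swap.f1 p q) (FA.swap.f2 p q)
    (mu.f p q) (mu.swap.f p q) g

/-- A certificate in dimension `n`. -/
structure CertData (n : ℕ) where
  d : ℕ
  Fa : Biv
  FA : Biv
  mu : Biv
  ε : ℝ
  C : ℝ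
  ε_pos : 0 < ε
  C_pos : 0 < C
  main : ∀ p q : ℝ, 0 < p → 0 < q → ∀ g : Gram, g.PSD →
    ε * (p + q) ^ (d + 1) * (g.aa + g.bb + g.AA + g.BB + 1 / p + 1 / q) ≤
      bracket n d Fa FA mu p q g
  boundFa : ∀ p q : ℝ, 0 < p → 0 < q → |Fa.f p q| ≤ C * (p + q) ^ d
  boundFA : ∀ p q : ℝ, 0 < p → 0 < q → |FA.f p q| ≤ C * (p + q) ^ d

/-- homogeneous polynomial of degree `d` with coefficients `c`:
`Σ_{k ≤ d} c_k p^(d-k) q^k`, as a `Biv` (used for `d ≤ 4`). -/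
def hom2 (c0 c1 c2 : ℝ) : Biv where
  f := fun p q => c0 * p ^ 2 + c1 * (p * q) + c2 * q ^ 2
  f1 := fun p q => 2 * c0 * p + c1 * q
  f2 := fun p q => c1 * p + 2 * c2 * q
  smooth := by fun_prop
  hasFDerivAt := by
    intro p q
    have h1 : HasFDerivAt (fun z : ℝ × ℝ => z.1) (ContinuousLinearMap.fst ℝ ℝ ℝ) (p, q) :=
      (ContinuousLinearMap.fst ℝ ℝ ℝ).hasFDerivAt
    have h2 : HasFDerivAt (fun z : ℝ × ℝ => z.2) (ContinuousLinearMap.snd ℝ ℝ ℝ) (p, q) :=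
      (ContinuousLinearMap.snd ℝ ℝ ℝ).hasFDerivAt
    have h := (((h1.pow 2).const_mul c0).add ((h1.mul h2).const_mul c1)).add
      ((h2.pow 2).const_mul c2)
    refine h.congr_fderiv ?_
    ext <;> simp <;> ring

def hom3 (c0 c1 c2 c3 : ℝ) : Biv where
  f := fun p q => c0 * p ^ 3 + c1 * (p ^ 2 * q) + c2 * (p * q ^ 2) + c3 * q ^ 3
  f1 := fun p q => 3 * c0 * p ^ 2 + 2 * c1 * (p * q) + c2 * q ^ 2
  f2 := fun p q => c1 * p ^ 2 + 2 * c2 * (p * q) + 3 * c3 * q ^ 2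
  smooth := by fun_prop
  hasFDerivAt := by
    intro p q
    have h1 : HasFDerivAt (fun z : ℝ × ℝ => z.1) (ContinuousLinearMap.fst ℝ ℝ ℝ) (p, q) :=
      (ContinuousLinearMap.fst ℝ ℝ ℝ).hasFDerivAt
    have h2 : HasFDerivAt (fun z : ℝ × ℝ => z.2) (ContinuousLinearMap.snd ℝ ℝ ℝ) (p, q) :=
      (ContinuousLinearMap.snd ℝ ℝ ℝ).hasFDerivAt
    have h := ((((h1.pow 3).const_mul c0).add (((h1.pow 2).mul h2).const_mul c1)).add
      ((h1.mul (h2.pow 2)).const_mul c2)).add ((h2.pow 3).const_mul c3)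
    refine h.congr_fderiv ?_
    ext <;> simp <;> ring

def hom4 (c0 c1 c2 c3 c4 : ℝ) : Biv where
  f := fun p q => c0 * p ^ 4 + c1 * (p ^ 3 * q) + c2 * (p ^ 2 * q ^ 2) + c3 * (p * q ^ 3) +
    c4 * q ^ 4
  f1 := fun p q => 4 * c0 * p ^ 3 + 3 * c1 * (p ^ 2 * q) + 2 * c2 * (p * q ^ 2) + c3 * q ^ 3
  f2 := fun p q => c1 * p ^ 3 + 2 * c2 * (p ^ 2 * q) + 3 * c3 * (p * q ^ 2) + 4 * c4 * q ^ 3
  smooth := by fun_prop
  hasFDerivAt := by
    intro p q
    have h1 : HasFDerivAt (fun z : ℝ × ℝ => z.1) (ContinuousLinearMap.fst ℝ ℝ ℝ) (p, q) :=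
      (ContinuousLinearMap.fst ℝ ℝ ℝ).hasFDerivAt
    have h2 : HasFDerivAt (fun z : ℝ × ℝ => z.2) (ContinuousLinearMap.snd ℝ ℝ ℝ) (p, q) :=
      (ContinuousLinearMap.snd ℝ ℝ ℝ).hasFDerivAt
    have h := (((((h1.pow 4).const_mul c0).add (((h1.pow 3).mul h2).const_mul c1)).add
      (((h1.pow 2).mul (h2.pow 2)).const_mul c2)).add ((h1.mul (h2.pow 3)).const_mul c3)).add
      ((h2.pow 4).const_mul c4)
    refine h.congr_fderiv ?_
    ext <;> simp <;> ring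

end Crest.Agent.R236.Cert
end
end

-- ▼ part R236/CertAsm

set_option autoImplicit false

namespace Crest.Agent.R236.Cert

theorem assemble (d r : ℕ) (p q quad tr ma mb : ℝ) (hp : 0 < p) (hq : 0 < q)
    (h1 : (1/8 : ℝ) * (p + q) ^ (d + 1 + r) * tr ≤ (p + q) ^ r * quad)
    (h2 : (1/8 : ℝ) * (p + q) ^ (d + 2 + r) ≤ (p + q) ^ r * (q * ma + p * mb)) :
    (1/8 : ℝ) * (p + q) ^ (d + 1) * (tr + 1 / p + 1 / q) ≤ quad + (ma / p + mb / q) := by
  have hs : 0 < p + q := by linarith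
  have hr : 0 < (p + q) ^ r := pow_pos hs r
  have a1 : (1/8 : ℝ) * (p + q) ^ (d + 1) * tr ≤ quad := by
    refine le_of_mul_le_mul_left ?_ hr
    calc (p + q) ^ r * ((1/8 : ℝ) * (p + q) ^ (d + 1) * tr)
        = (1/8 : ℝ) * (p + q) ^ (d + 1 + r) * tr := by ring
      _ ≤ _ := h1
  have a2 : (1/8 : ℝ) * (p + q) ^ (d + 2) ≤ q * ma + p * mb := by
    refine le_of_mul_le_mul_left ?_ hr
    calc (p + q) ^ r * ((1/8 : ℝ) * (p + q) ^ (d + 2))
        = (1/8 : ℝ) * (p + q) ^ (d + 2 + r) := by ring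
      _ ≤ _ := h2
  have hpq : 0 < p * q := mul_pos hp hq
  have a3 : (1/8 : ℝ) * (p + q) ^ (d + 1) * (1 / p + 1 / q) ≤ ma / p + mb / q := by
    have e1 : (1/8 : ℝ) * (p + q) ^ (d + 1) * (1 / p + 1 / q)
        = ((1/8 : ℝ) * (p + q) ^ (d + 2)) / (p * q) := by
      rw [pow_succ (p + q) (d + 1)]
      field_simp
      ring
    have e2 : ma / p + mb / q = (q * ma + p * mb) / (p * q) := by
      field_simp
    rw [e1, e2]
    gcongr
  calc (1/8 : ℝ) * (p + q) ^ (d + 1) * (tr + 1 / p + 1 / q)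
      = (1/8 : ℝ) * (p + q) ^ (d + 1) * tr + (1/8 : ℝ) * (p + q) ^ (d + 1) * (1 / p + 1 / q) := by
        ring
    _ ≤ _ := add_le_add a1 a3

end Crest.Agent.R236.Cert
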