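import Mathlib
import Crest.Agent.R236.MPJet
import Crest.Agent.R236.P1

-- ▼ part R236/MPMat
section

/-!
Row 236: matrix facts for the maximum principle and Jacobi's formula.
-/

set_option autoImplicit false

open scoped ContDiff Topology Matrix
open Crest.GeometryTopology.CoordMetric Crest.GeometryTopology.AffineMaximal Filter Matrix

namespace Crest.Agent.R236.Jet

variable {n : ℕ}

section factor
open scoped MatrixOrder

theorem exists_factor {A : Matrix (Fin n) (Fin n) ℝ} (hA : A.PosSemidef) :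
    ∃ B : Matrix (Fin n) (Fin n) ℝ, A = B.conjTranspose * B := by
  obtain ⟨B, hB⟩ := CStarAlgebra.nonneg_iff_eq_star_mul_self.mp hA.nonneg
  exact ⟨B, hB⟩

end factor

theorem sum3 (f : Fin n → Fin n → Fin n → ℝ) :
    ∑ i, ∑ j, ∑ k, f i j k = ∑ k, ∑ i, ∑ j, f i j k := by
  rw [Finset.sum_comm (s := Finset.univ) (t := Finset.univ) (f := fun k i => ∑ j, f i j k)]
  exact Finset.sum_congr rfl fun i _ => Finset.sum_comm

theorem psd_factor {G : Matrix (Fin n) (Fin n) ℝ} (hG : G.PosSemidef) :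
    ∃ B : Matrix (Fin n) (Fin n) ℝ, ∀ i j, G i j = ∑ k, B k i * B k j := by
  obtain ⟨B, hB⟩ := exists_factor hG
  refine ⟨B, fun i j => ?_⟩
  rw [hB, Matrix.mul_apply]
  simp [Matrix.conjTranspose_apply]

/-- trace of (psd) * (negative) is nonpositive -/
theorem sum_mul_nonpos {G Z : Matrix (Fin n) (Fin n) ℝ} (hG : G.PosSemidef)
    (hZ : ∀ v : Fin n → ℝ, ∑ i, ∑ j, Z i j * v i * v j ≤ 0) :
    ∑ i, ∑ j, G i j * Z i j ≤ 0 := by
  obtain ⟨B, hB⟩ := psd_factor hG
  have : ∑ i, ∑ j, G i j * Z i j = ∑ k, ∑ i, ∑ j, Z i j * B k i * B k j := by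
    simp only [hB, Finset.sum_mul]
    rw [sum3]
    refine Finset.sum_congr rfl fun k _ => Finset.sum_congr rfl fun i _ =>
      Finset.sum_congr rfl fun j _ => ?_
    ring
  rw [this]
  exact Finset.sum_nonpos fun k _ => hZ (B k)

/-- `⟨p, G p⟩ ≤ |p|² tr G` for psd `G`. -/
theorem quad_le_trace {G : Matrix (Fin n) (Fin n) ℝ} (hG : G.PosSemidef) (p : Fin n → ℝ) :
    ∑ i, ∑ j, G i j * p i * p j ≤ (∑ i, p i ^ 2) * ∑ i, G i i := by
  obtain ⟨B, hB⟩ := psd_factor hG
  have h1 : ∑ i, ∑ j, G i j * p i * p j = ∑ k, (∑ i, B k i * p i) ^ 2 := by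
    have : ∀ k, (∑ i, B k i * p i) ^ 2 = ∑ i, ∑ j, (B k i * p i) * (B k j * p j) := by
      intro k
      rw [sq, Finset.sum_mul_sum]
    simp only [this, hB, Finset.sum_mul]
    rw [sum3]
    refine Finset.sum_congr rfl fun k _ => Finset.sum_congr rfl fun i _ =>
      Finset.sum_congr rfl fun j _ => ?_
    ring
  have h2 : ∑ i, G i i = ∑ k, ∑ i, B k i ^ 2 := by
    simp only [hB]
    rw [Finset.sum_comm]
    simp only [sq]
  rw [h1, h2, Finset.mul_sum]
  refine Finset.sum_le_sum fun k _ => ?_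
  have := Finset.sum_mul_sq_le_sq_mul_sq Finset.univ (fun i => B k i) p
  linarith [mul_comm (∑ i, B k i ^ 2) (∑ i, p i ^ 2)]

theorem quad_nonneg {G : Matrix (Fin n) (Fin n) ℝ} (hG : G.PosSemidef) (p : Fin n → ℝ) :
    0 ≤ ∑ i, ∑ j, G i j * p i * p j := by
  have := sum_mul_nonpos (G := G) (Z := fun i j => -(p i * p j)) hG (fun v => by
    have : ∑ i, ∑ j, (-(p i * p j)) * v i * v j = - (∑ i, p i * v i) ^ 2 := by
      rw [sq, Finset.sum_mul_sum, ← Finset.sum_neg_distrib]
      refine Finset.sum_congr rfl fun i _ => ?_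
      rw [← Finset.sum_neg_distrib]
      refine Finset.sum_congr rfl fun j _ => by ring
    rw [this]
    nlinarith [sq_nonneg (∑ i, p i * v i)])
  have h2 : ∑ i, ∑ j, G i j * p i * p j = - ∑ i, ∑ j, G i j * (-(p i * p j)) := by
    rw [← Finset.sum_neg_distrib]
    refine Finset.sum_congr rfl fun i _ => ?_
    rw [← Finset.sum_neg_distrib]
    refine Finset.sum_congr rfl fun j _ => by ring
  rw [h2]; linarith

/-- determinant of a positive semidefinite matrix at most (trace / n)^n -/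
theorem det_le_trace_pow {P : Matrix (Fin n) (Fin n) ℝ} (hP : P.PosSemidef) (hr : 0 < n) :
    P.det ≤ ((∑ i, P i i) / n) ^ n := by
  have h1 := hP.1.det_eq_prod_eigenvalues
  have h2 := hP.1.trace_eq_sum_eigenvalues
  simp only [RCLike.ofReal_real_eq_id, id_eq] at h1 h2
  have h2' : ∑ i, P i i = ∑ i, hP.1.eigenvalues i := h2
  rw [h1, h2']
  have hr' : (0 : ℝ) < n := by exact_mod_cast hr
  have hnn : ∀ i, 0 ≤ hP.1.eigenvalues i := fun i => hP.eigenvalues_nonneg i
  have h3 := Real.geom_mean_le_arith_mean_weighted Finset.univ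
    (fun _ : Fin n => (1 : ℝ) / n) (fun i => hP.1.eigenvalues i)
    (fun i _ => by positivity)
    (by simp only [Finset.sum_const, Finset.card_univ, nsmul_eq_mul, Fintype.card_fin]; field_simp)
    (fun i _ => hnn i)
  have h4 : (∏ i, hP.1.eigenvalues i ^ ((1 : ℝ) / n)) ^ n =
      ∏ i, hP.1.eigenvalues i := by
    rw [← Finset.prod_pow]
    refine Finset.prod_congr rfl fun i _ => ?_
    rw [← Real.rpow_natCast, ← Real.rpow_mul (hnn i), one_div,
      inv_mul_cancel₀ hr'.ne', Real.rpow_one]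
  rw [← h4]
  have h5 : (∑ i, (1 : ℝ) / n * hP.1.eigenvalues i) =
      (∑ i, hP.1.eigenvalues i) / n := by
    rw [← Finset.mul_sum]; ring
  rw [← h5]
  exact pow_le_pow_left₀ (Finset.prod_nonneg fun i _ => Real.rpow_nonneg (hnn i) _) h3 _

/-! Jacobi's formula -/

section jacobi

attribute [local instance] Matrix.normedAddCommGroup Matrix.normedSpace

theorem hasDerivAt_matrix {A : ℝ → Matrix (Fin n) (Fin n) ℝ} {A' : Matrix (Fin n) (Fin n) ℝ}
    {t : ℝ} (h : ∀ i j, HasDerivAt (fun s => A s i j) (A' i j) t) : HasDerivAt A A' t :=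
  hasDerivAt_pi.2 fun i => hasDerivAt_pi.2 fun j => h i j

theorem hasFDerivAt_entry (i j : Fin n) (A : Matrix (Fin n) (Fin n) ℝ) :
    ∃ L : Matrix (Fin n) (Fin n) ℝ →L[ℝ] ℝ, HasFDerivAt (fun B : Matrix (Fin n) (Fin n) ℝ => B i j)
      L A := by
  have h1 : HasFDerivAt (fun B : Matrix (Fin n) (Fin n) ℝ => (B i : Fin n → ℝ))
      (ContinuousLinearMap.proj (R := ℝ) (φ := fun _ : Fin n => Fin n → ℝ) i) A :=
    (ContinuousLinearMap.proj (R := ℝ) (φ := fun _ : Fin n => Fin n → ℝ) i).hasFDerivAt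
  have h2 : HasFDerivAt (fun r : Fin n → ℝ => r j)
      (ContinuousLinearMap.proj (R := ℝ) (φ := fun _ : Fin n => ℝ) j) (A i) :=
    (ContinuousLinearMap.proj (R := ℝ) (φ := fun _ : Fin n => ℝ) j).hasFDerivAt
  exact ⟨_, (h2.comp A h1 : HasFDerivAt ((fun r : Fin n → ℝ => r j) ∘
    (fun B : Matrix (Fin n) (Fin n) ℝ => (B i : Fin n → ℝ))) _ A)⟩

theorem differentiableAt_det (A : Matrix (Fin n) (Fin n) ℝ) :
    DifferentiableAt ℝ (fun B : Matrix (Fin n) (Fin n) ℝ => B.det) A := by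
  simp only [Matrix.det_apply]
  refine DifferentiableAt.fun_sum fun σ _ => ?_
  refine DifferentiableAt.fun_const_smul ?_ _
  choose L hL using fun (i : Fin n) => hasFDerivAt_entry (σ i) i A
  exact (HasFDerivAt.finsetProd (u := Finset.univ)
    (g := fun i (B : Matrix (Fin n) (Fin n) ℝ) => B (σ i) i)
    (x := A) (fun i _ => hL i)).differentiableAt

theorem hasDerivAt_det_one_add (B : Matrix (Fin n) (Fin n) ℝ) :
    HasDerivAt (fun t : ℝ => (1 + t • B).det) B.trace 0 := by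
  have h : ∀ t : ℝ, (1 + t • B).det = 1 + B.trace * t
      + (((1 : Matrix (Fin n) (Fin n) (Polynomial ℝ)) + (Polynomial.X : Polynomial ℝ) •
        B.map Polynomial.C).det.divX.divX.eval t) * t ^ 2 := by
    intro t; exact Matrix.det_one_add_smul _ _
  simp only [h]
  have h0 : HasDerivAt (fun t : ℝ => t) 1 0 := hasDerivAt_id 0
  have h1 := (((1 : Matrix (Fin n) (Fin n) (Polynomial ℝ)) + (Polynomial.X : Polynomial ℝ) •
        B.map Polynomial.C).det.divX.divX).hasDerivAt (0 : ℝ)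
  have h2 := ((h0.const_mul B.trace).const_add 1).add (h1.mul (h0.pow 2))
  refine h2.congr_deriv ?_
  simp

theorem hasDerivAt_det {A : ℝ → Matrix (Fin n) (Fin n) ℝ} {A' : Matrix (Fin n) (Fin n) ℝ} {x : ℝ}
    (hA : ∀ i j, HasDerivAt (fun s => A s i j) (A' i j) x) (hd : IsUnit (A x).det) :
    HasDerivAt (fun t => (A t).det) ((A x).det * ((A x)⁻¹ * A').trace) x := by
  have hA' := hasDerivAt_matrix hA
  have h1 := (differentiableAt_det (A x)).hasFDerivAt
  have h2 := h1.comp_hasDerivAt x hA'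
  refine h2.congr_deriv ?_
  -- compute the directional derivative along a line
  have h3 : HasDerivAt (fun t : ℝ => A x + t • A') A' 0 := by
    have := ((hasDerivAt_id (0 : ℝ)).smul_const A').const_add (A x)
    rw [one_smul] at this
    exact this
  have h4 : HasFDerivAt (fun B : Matrix (Fin n) (Fin n) ℝ => B.det)
      (fderiv ℝ (fun B : Matrix (Fin n) (Fin n) ℝ => B.det) (A x)) (A x + (0 : ℝ) • A') := by
    simpa using h1
  have h5 := h4.comp_hasDerivAt (0 : ℝ) h3
  have h6 : ((fun B : Matrix (Fin n) (Fin n) ℝ => B.det) ∘ fun t : ℝ => A x + t • A')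
      = fun t : ℝ => (A x).det * (1 + t • ((A x)⁻¹ * A')).det := by
    ext t
    simp only [Function.comp]
    rw [← Matrix.det_mul, Matrix.mul_add, Matrix.mul_one, Matrix.mul_smul, ← Matrix.mul_assoc,
      Matrix.mul_nonsing_inv _ hd, Matrix.one_mul]
  rw [h6] at h5
  have h7 := (hasDerivAt_det_one_add ((A x)⁻¹ * A')).const_mul (A x).det
  exact h5.unique h7

end jacobi

end Crest.Agent.R236.Jet
end

-- ▼ part R236/Det
section

/-!
Row 236, P3: determinant bounds for affine maximal functions by the maximum principle.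
-/

set_option autoImplicit false

open scoped ContDiff Topology Matrix
open Crest.GeometryTopology.CoordMetric Crest.GeometryTopology.AffineMaximal Filter Matrix

namespace Crest.Agent.R236.Det

open Crest.Agent.R236 Crest.Agent.R236.Jet

variable {n : ℕ} {Ω : Set (EuclideanSpace ℝ (Fin n))} {u : EuclideanSpace ℝ (Fin n) → ℝ}

/-- `log det D²u` -/
noncomputable def ld (u : EuclideanSpace ℝ (Fin n) → ℝ) (x : EuclideanSpace ℝ (Fin n)) : ℝ :=
  Real.log (hessianMat u x).det

section pde_calc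

variable (h : SC Ω u) {x : EuclideanSpace ℝ (Fin n)} (hx : x ∈ Ω)
include h hx

theorem sm_hess (i j : Fin n) : ContDiffAt ℝ ∞ (fun y => hessianMat u y i j) x :=
  sm_pderiv (sm_pderiv (h.contDiffAt hx) j) i

theorem sm_det : ContDiffAt ℝ ∞ (fun y => (hessianMat u y).det) x := by
  simp only [Matrix.det_apply]
  refine ContDiffAt.sum fun σ _ => ?_
  refine ContDiffAt.const_smul _ ?_
  exact contDiffAt_prod fun i _ => sm_hess h hx (σ i) i

theorem det_pos : 0 < (hessianMat u x).det := (h.posDef x hx).det_pos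

theorem sm_ld : ContDiffAt ℝ ∞ (ld u) x := (sm_det h hx).log (det_pos h hx).ne'

theorem pderiv_det (k : Fin n) :
    pderiv k (fun y => (hessianMat u y).det) x =
      (hessianMat u x).det * ∑ i, ∑ j, (hessianMat u x)⁻¹ i j *
        pderiv k (fun y => hessianMat u y i j) x := by
  set e : EuclideanSpace ℝ (Fin n) := EuclideanSpace.single k 1 with he
  have hline : HasDerivAt (fun t : ℝ => x + t • e) e 0 := by
    have h1 := (hasDerivAt_id (0 : ℝ)).smul_const e
    rw [one_smul] at h1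
    exact h1.const_add x
  have hx0 : x + (0 : ℝ) • e = x := by simp
  have h1 : ∀ f : EuclideanSpace ℝ (Fin n) → ℝ, DifferentiableAt ℝ f x →
      HasDerivAt (fun t : ℝ => f (x + t • e)) (pderiv k f x) 0 := by
    intro f hf
    have hf' : HasFDerivAt f (fderiv ℝ f x) (x + (0 : ℝ) • e) := by
      rw [hx0]; exact hf.hasFDerivAt
    exact hf'.comp_hasDerivAt 0 hline
  have hd : IsUnit (hessianMat u (x + (0 : ℝ) • e)).det := by
    rw [hx0]; exact (det_pos h hx).ne'.isUnit
  have h2 := hasDerivAt_det (A := fun t : ℝ => hessianMat u (x + t • e))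
    (A' := Matrix.of fun i j => pderiv k (fun y => hessianMat u y i j) x) (x := 0)
    (fun i j => h1 _ (sm_diff (sm_hess h hx i j))) hd
  have h3 := h1 _ (sm_diff (sm_det h hx))
  have h4 := h3.unique h2
  rw [h4, hx0, Matrix.trace]
  congr 1
  refine Finset.sum_congr rfl fun i _ => ?_
  rw [Matrix.diag_apply, Matrix.mul_apply]
  refine Finset.sum_congr rfl fun j _ => ?_
  rw [Matrix.of_apply]
  congr 1
  -- symmetry of the Hessian entries
  apply pderiv_congr
  filter_upwards [h.isOpen.mem_nhds hx] with y hy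
  exact hess_symm (h.contDiffAt hy) j i

theorem pderiv_hess (i j k : Fin n) :
    pderiv k (fun y => hessianMat u y i j) x = hessianMat (fun y => pderiv k u y) x i j := by
  have h1 : pderiv k (fun y => hessianMat u y i j) x = hessianMat (fun y => pderiv j u y) x k i := rfl
  rw [h1, hess_symm (sm_pderiv (h.contDiffAt hx) j)]
  have h2 : hessianMat (fun y => pderiv j u y) x i k = pderiv i (fun y => hessianMat u y k j) x := rfl
  have h3 : hessianMat (fun y => pderiv k u y) x i j = pderiv i (fun y => hessianMat u y j k) x := rfl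
  rw [h2, h3]
  apply pderiv_congr
  filter_upwards [h.isOpen.mem_nhds hx] with y hy
  exact hess_symm (h.contDiffAt hy) k j

theorem pderiv_ld (k : Fin n) :
    pderiv k (ld u) x = ∑ i, ∑ j, (hessianMat u x)⁻¹ i j *
        hessianMat (fun y => pderiv k u y) x i j := by
  have h1 : pderiv k (ld u) x = ((hessianMat u x).det)⁻¹ *
      pderiv k (fun y => (hessianMat u y).det) x :=
    pderiv_log (sm_diff (sm_det h hx)) (det_pos h hx).ne' k
  rw [h1, pderiv_det h hx, ← mul_assoc, inv_mul_cancel₀ (det_pos h hx).ne', one_mul]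
  refine Finset.sum_congr rfl fun i _ => Finset.sum_congr rfl fun j _ => ?_
  rw [pderiv_hess h hx]

/-- the affine maximal equation for `s = log det D²u`: `u^{ij} s_ij = θ u^{ij} s_i s_j`. -/
theorem pde (hmax : affineMaximalOp n u x = 0) :
    ∑ i, ∑ j, (hessianMat u x)⁻¹ i j * hessianMat (ld u) x i j =
      (((n : ℝ) + 1) / ((n : ℝ) + 2)) *
        ∑ i, ∑ j, (hessianMat u x)⁻¹ i j * (pderiv i (ld u) x * pderiv j (ld u) x) := by
  set c : ℝ := -((n : ℝ) + 1) / ((n : ℝ) + 2) with hc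
  have hN : (0 : ℝ) < (n : ℝ) + 2 := by positivity
  have hc0 : c ≠ 0 := by
    rw [hc]
    apply div_ne_zero _ hN.ne'
    have : (0 : ℝ) < (n : ℝ) + 1 := by positivity
    linarith
  have he : detPower n u =ᶠ[𝓝 x] fun y => Real.exp (c * ld u y) := by
    filter_upwards [h.isOpen.mem_nhds hx] with y hy
    unfold detPower ld
    rw [Real.rpow_def_of_pos (det_pos h hy), mul_comm]
  have hh : ∀ i j, hessianMat (detPower n u) x i j =
      Real.exp (c * ld u x) * (c * hessianMat (ld u) x i j +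
        c ^ 2 * (pderiv i (ld u) x * pderiv j (ld u) x)) := by
    intro i j
    have hs := sm_ld h hx
    rw [hess_congr he, hess_comp_exp (contDiffAt_const.mul hs), hess_cmul hs,
      pderiv_cmul (sm_diff hs), pderiv_cmul (sm_diff hs)]
    ring
  unfold affineMaximalOp at hmax
  have h1 : ∑ i, ∑ j, (hessianMat u x).det * (hessianMat u x)⁻¹ i j *
      hessianMat (detPower n u) x i j =
      ((hessianMat u x).det * Real.exp (c * ld u x) * c) *
        (∑ i, ∑ j, (hessianMat u x)⁻¹ i j * hessianMat (ld u) x i j +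
        c * ∑ i, ∑ j, (hessianMat u x)⁻¹ i j * (pderiv i (ld u) x * pderiv j (ld u) x)) := by
    rw [Finset.mul_sum, ← Finset.sum_add_distrib, Finset.mul_sum]
    refine Finset.sum_congr rfl fun i _ => ?_
    rw [Finset.mul_sum, ← Finset.sum_add_distrib, Finset.mul_sum]
    refine Finset.sum_congr rfl fun j _ => ?_
    rw [hh]; ring
  rw [h1] at hmax
  have h2 : ((hessianMat u x).det * Real.exp (c * ld u x) * c) ≠ 0 :=
    mul_ne_zero (mul_pos (det_pos h hx) (Real.exp_pos _)).ne' hc0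
  have h3 := (mul_eq_zero.1 hmax).resolve_left h2
  have h4 : (((n : ℝ) + 1) / ((n : ℝ) + 2)) = -c := by rw [hc]; ring
  rw [h4]; linarith

end pde_calc

/-! bilinear algebra -/

theorem sum_eq_dot (G : Matrix (Fin n) (Fin n) ℝ) (v w : Fin n → ℝ) :
    ∑ i, ∑ j, G i j * (v i * w j) = v ⬝ᵥ (G *ᵥ w) := by
  simp only [dotProduct, Matrix.mulVec, Finset.mul_sum]
  refine Finset.sum_congr rfl fun i _ => Finset.sum_congr rfl fun j _ => by ring

theorem sum_inv_mul {H : Matrix (Fin n) (Fin n) ℝ} (hH : H.PosDef) :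
    ∑ i, ∑ j, H⁻¹ i j * H i j = n := by
  have h1 : H⁻¹ * H = 1 := Matrix.nonsing_inv_mul _ hH.det_pos.ne'.isUnit
  have h2 : (H⁻¹ * H).trace = n := by rw [h1]; simp
  rw [Matrix.trace] at h2
  simp only [Matrix.diag_apply, Matrix.mul_apply] at h2
  rw [← h2]
  refine Finset.sum_congr rfl fun i _ => Finset.sum_congr rfl fun j _ => ?_
  have : H i j = H j i := by
    have := hH.1.apply i j
    simpa using this.symm
  rw [this]

theorem symm_of_posDef {H : Matrix (Fin n) (Fin n) ℝ} (hH : H.PosDef) (i j : Fin n) :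
    H i j = H j i := by
  have := hH.1.apply i j
  simpa using this.symm

theorem transpose_of_posDef {H : Matrix (Fin n) (Fin n) ℝ} (hH : H.PosDef) : Hᵀ = H := by
  ext i j; exact symm_of_posDef hH j i

theorem inv_mulVec {H : Matrix (Fin n) (Fin n) ℝ} (hH : H.PosDef) (p : Fin n → ℝ) :
    H⁻¹ *ᵥ (H *ᵥ p) = p := by
  rw [Matrix.mulVec_mulVec, Matrix.nonsing_inv_mul _ hH.det_pos.ne'.isUnit, Matrix.one_mulVec]

theorem mulVec_inv {H : Matrix (Fin n) (Fin n) ℝ} (hH : H.PosDef) (p : Fin n → ℝ) :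
    H *ᵥ (H⁻¹ *ᵥ p) = p := by
  rw [Matrix.mulVec_mulVec, Matrix.mul_nonsing_inv _ hH.det_pos.ne'.isUnit, Matrix.one_mulVec]

theorem dot_symm {H : Matrix (Fin n) (Fin n) ℝ} (hH : Hᵀ = H) (p q : Fin n → ℝ) :
    (H *ᵥ p) ⬝ᵥ q = p ⬝ᵥ (H *ᵥ q) := by
  rw [Matrix.dotProduct_mulVec, ← Matrix.mulVec_transpose, hH]

theorem dot_quad_le {G : Matrix (Fin n) (Fin n) ℝ} (hG : G.PosSemidef) (p : Fin n → ℝ) :
    p ⬝ᵥ (G *ᵥ p) ≤ (p ⬝ᵥ p) * G.trace := by
  have h1 := quad_le_trace hG p
  have h2 : ∑ i, ∑ j, G i j * p i * p j = p ⬝ᵥ (G *ᵥ p) := by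
    rw [← sum_eq_dot]
    refine Finset.sum_congr rfl fun i _ => Finset.sum_congr rfl fun j _ => by ring
  have h3 : ∑ i, p i ^ 2 = p ⬝ᵥ p := by
    simp [dotProduct, sq]
  rw [h2, h3] at h1
  exact h1

theorem dot_quad_nonneg {G : Matrix (Fin n) (Fin n) ℝ} (hG : G.PosSemidef) (p : Fin n → ℝ) :
    0 ≤ p ⬝ᵥ (G *ᵥ p) := by
  have h1 := quad_nonneg hG p
  have h2 : ∑ i, ∑ j, G i j * p i * p j = p ⬝ᵥ (G *ᵥ p) := by
    rw [← sum_eq_dot]
    refine Finset.sum_congr rfl fun i _ => Finset.sum_congr rfl fun j _ => by ring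
  rwa [h2] at h1

theorem upper_alg (hn : 2 ≤ n) {H : Matrix (Fin n) (Fin n) ℝ} (hH : H.PosDef) (p s : Fin n → ℝ)
    {η a Γ : ℝ} (hη : 0 < η) (hΓ : 0 < Γ) (ha : a = ((n : ℝ) + 2) / (2 * Γ ^ 2))
    (hp : p ⬝ᵥ p ≤ Γ ^ 2) (hs : s = ((n : ℝ) / η) • p - a • (H *ᵥ p))
    (htr : (((n : ℝ) + 1) / ((n : ℝ) + 2)) * (s ⬝ᵥ (H⁻¹ *ᵥ s))
      + (n : ℝ) * (-(n / η) - (p ⬝ᵥ (H⁻¹ *ᵥ p)) / η ^ 2) + a * (H.trace + p ⬝ᵥ s) ≤ 0) :
    η * H.trace ≤ 6 * (n : ℝ) ^ 2 * Γ ^ 2 / ((n : ℝ) + 2) := by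
  set N : ℝ := (n : ℝ) with hNdef
  have hN2 : (2 : ℝ) ≤ N := by rw [hNdef]; exact_mod_cast hn
  set g : ℝ := p ⬝ᵥ (H⁻¹ *ᵥ p) with hg
  set q : ℝ := p ⬝ᵥ p with hq
  set hh : ℝ := p ⬝ᵥ (H *ᵥ p) with hhh
  set T : ℝ := H.trace with hT
  have hg0 : 0 ≤ g := dot_quad_nonneg hH.inv.posSemidef p
  have hh0 : 0 ≤ hh := dot_quad_nonneg hH.posSemidef p
  have hq0 : 0 ≤ q := by
    rw [hq]; exact Finset.sum_nonneg fun i _ => mul_self_nonneg _
  have hhle : hh ≤ q * T := dot_quad_le hH.posSemidef p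
  have hT0 : 0 ≤ T := hH.posSemidef.trace_nonneg
  have hsG : H⁻¹ *ᵥ s = (N / η) • (H⁻¹ *ᵥ p) - a • p := by
    rw [hs, Matrix.mulVec_sub, Matrix.mulVec_smul, Matrix.mulVec_smul, inv_mulVec hH]
  have hHG : (H *ᵥ p) ⬝ᵥ (H⁻¹ *ᵥ p) = q := by
    rw [dot_symm (transpose_of_posDef hH), mulVec_inv hH]
  have hHp : (H *ᵥ p) ⬝ᵥ p = hh := by rw [dotProduct_comm]
  have h1 : s ⬝ᵥ (H⁻¹ *ᵥ s) = (N / η) ^ 2 * g - 2 * (N / η) * a * q + a ^ 2 * hh := by
    rw [hsG, hs]
    simp only [sub_dotProduct, dotProduct_sub, smul_dotProduct, dotProduct_smul, smul_eq_mul]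
    rw [hHG, hHp]
    ring
  have h2 : p ⬝ᵥ s = (N / η) * q - a * hh := by
    rw [hs]
    simp only [dotProduct_sub, dotProduct_smul, smul_eq_mul]
    rw [← hq, ← hhh]
  rw [h1, h2] at htr
  have hapos : 0 < a := by rw [ha]; positivity
  have haΓ : a * Γ ^ 2 = (N + 2) / 2 := by
    rw [ha]; field_simp
  -- multiply by (N+2) η
  have hN2pos : (0 : ℝ) < N + 2 := by linarith
  have e1 : ((N + 1) / (N + 2)) * ((N / η) ^ 2 * g - 2 * (N / η) * a * q + a ^ 2 * hh)
      + N * (-(N / η) - g / η ^ 2) + a * (T + ((N / η) * q - a * hh)) =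
      ((N * (N ^ 2 - 2)) / (N + 2)) * (g / η ^ 2) - (N ^ 2 / (N + 2)) * (a * q / η)
        - (1 / (N + 2)) * (a ^ 2 * hh) - N ^ 2 / η + a * T := by
    field_simp
    ring
  rw [e1] at htr
  have h3 : 0 ≤ ((N * (N ^ 2 - 2)) / (N + 2)) * (g / η ^ 2) := by
    apply mul_nonneg
    · apply div_nonneg _ hN2pos.le
      apply mul_nonneg (by linarith)
      nlinarith
    · positivity
  have h4 : (1 / (N + 2)) * (a ^ 2 * hh) ≤ (a / 2) * T := by
    have : a ^ 2 * hh ≤ a * ((a * Γ ^ 2) * T) := by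
      have h5 : hh ≤ Γ ^ 2 * T := hhle.trans (mul_le_mul_of_nonneg_right hp hT0)
      calc a ^ 2 * hh ≤ a ^ 2 * (Γ ^ 2 * T) := mul_le_mul_of_nonneg_left h5 (by positivity)
        _ = a * ((a * Γ ^ 2) * T) := by ring
    rw [haΓ] at this
    rw [div_mul_eq_mul_div, one_mul, div_le_iff₀ hN2pos]
    calc a ^ 2 * hh ≤ a * ((N + 2) / 2 * T) := this
      _ = a / 2 * T * (N + 2) := by ring
  have h6 : (N ^ 2 / (N + 2)) * (a * q / η) ≤ N ^ 2 / (2 * η) := by
    have h7 : a * q ≤ (N + 2) / 2 := by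
      rw [← haΓ]; exact mul_le_mul_of_nonneg_left hp hapos.le
    have h8 : a * q / η ≤ ((N + 2) / 2) / η := div_le_div_of_nonneg_right h7 hη.le
    calc (N ^ 2 / (N + 2)) * (a * q / η) ≤ (N ^ 2 / (N + 2)) * (((N + 2) / 2) / η) :=
          mul_le_mul_of_nonneg_left h8 (by positivity)
      _ = N ^ 2 / (2 * η) := by field_simp
  have h9 : (a / 2) * T ≤ (3 / 2) * (N ^ 2 / η) := by
    have : N ^ 2 / (2 * η) = (1 / 2) * (N ^ 2 / η) := by field_simp
    linarith
  have h10 : a * (η * T) ≤ 3 * N ^ 2 := by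
    have := mul_le_mul_of_nonneg_left h9 (by positivity : (0 : ℝ) ≤ 2 * η)
    calc a * (η * T) = 2 * η * (a / 2 * T) := by ring
      _ ≤ 2 * η * (3 / 2 * (N ^ 2 / η)) := this
      _ = 3 * N ^ 2 := by field_simp
  have h11 : η * T ≤ 3 * N ^ 2 / a := by
    rw [le_div_iff₀ hapos]; linarith
  refine h11.trans (le_of_eq ?_)
  rw [ha]; field_simp; ring

theorem lower_alg {H : Matrix (Fin n) (Fin n) ℝ} (hH : H.PosDef) (ξ s : Fin n → ℝ)
    {η A Γ : ℝ} (hη : 0 < η) (hΓ : 0 < Γ) (hA : A = 1 / (2 * ((n : ℝ) + 1) * Γ ^ 2))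
    (hξ : ξ ⬝ᵥ ξ ≤ Γ ^ 2) (hs : s = ((n : ℝ) + 2) • (A • ξ - (1 / η) • (H *ᵥ ξ)))
    (htr : -(1 / ((n : ℝ) + 2)) * ((((n : ℝ) + 1) / ((n : ℝ) + 2)) * (s ⬝ᵥ (H⁻¹ *ᵥ s)))
      - (1 / η) * (n + ξ ⬝ᵥ s) - (ξ ⬝ᵥ (H *ᵥ ξ)) / η ^ 2 + A * (H⁻¹).trace ≤ 0) :
    η * (H⁻¹).trace ≤ 4 * (n : ℝ) * ((n : ℝ) + 1) * Γ ^ 2 := by
  set N : ℝ := (n : ℝ) with hNdef
  have hN0 : (0 : ℝ) ≤ N := by rw [hNdef]; exact Nat.cast_nonneg n
  set g : ℝ := ξ ⬝ᵥ (H⁻¹ *ᵥ ξ) with hg
  set q : ℝ := ξ ⬝ᵥ ξ with hq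
  set hh : ℝ := ξ ⬝ᵥ (H *ᵥ ξ) with hhh
  set T : ℝ := (H⁻¹).trace with hT
  have hg0 : 0 ≤ g := dot_quad_nonneg hH.inv.posSemidef ξ
  have hq0 : 0 ≤ q := by
    rw [hq]; exact Finset.sum_nonneg fun i _ => mul_self_nonneg _
  have hgle : g ≤ q * T := dot_quad_le hH.inv.posSemidef ξ
  have hT0 : 0 ≤ T := hH.inv.posSemidef.trace_nonneg
  have hsG : H⁻¹ *ᵥ s = (N + 2) • (A • (H⁻¹ *ᵥ ξ) - (1 / η) • ξ) := by
    rw [hs, Matrix.mulVec_smul, Matrix.mulVec_sub, Matrix.mulVec_smul, Matrix.mulVec_smul,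
      inv_mulVec hH]
  have hHG : (H *ᵥ ξ) ⬝ᵥ (H⁻¹ *ᵥ ξ) = q := by
    rw [dot_symm (transpose_of_posDef hH), mulVec_inv hH]
  have hHp : (H *ᵥ ξ) ⬝ᵥ ξ = hh := by rw [dotProduct_comm]
  have h1 : s ⬝ᵥ (H⁻¹ *ᵥ s) = (N + 2) ^ 2 * (A ^ 2 * g - 2 * A * q / η + hh / η ^ 2) := by
    rw [hsG, hs]
    simp only [sub_dotProduct, dotProduct_sub, smul_dotProduct, dotProduct_smul, smul_eq_mul]
    rw [hHG, hHp]
    field_simp
    ring
  have h2 : ξ ⬝ᵥ s = (N + 2) * (A * q - hh / η) := by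
    rw [hs]
    simp only [dotProduct_sub, dotProduct_smul, smul_eq_mul]
    rw [← hq, ← hhh]
    ring
  rw [h1, h2] at htr
  have hApos : 0 < A := by rw [hA]; positivity
  have hN2pos : (0 : ℝ) < N + 2 := by linarith
  have e1 : -(1 / (N + 2)) * (((N + 1) / (N + 2)) *
      ((N + 2) ^ 2 * (A ^ 2 * g - 2 * A * q / η + hh / η ^ 2)))
      - (1 / η) * (N + (N + 2) * (A * q - hh / η)) - hh / η ^ 2 + A * T =
      A * T - (N + 1) * A ^ 2 * g - N / η + N * (A * q / η) := by
    field_simp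
    ring
  rw [e1] at htr
  have h3 : (N + 1) * A ^ 2 * g ≤ (A / 2) * T := by
    have h5 : g ≤ Γ ^ 2 * T := hgle.trans (mul_le_mul_of_nonneg_right hξ hT0)
    calc (N + 1) * A ^ 2 * g ≤ (N + 1) * A ^ 2 * (Γ ^ 2 * T) :=
          mul_le_mul_of_nonneg_left h5 (by positivity)
      _ = A * ((N + 1) * A * Γ ^ 2) * T := by ring
      _ = A * (1 / 2) * T := by
          congr 2
          rw [hA]; field_simp
      _ = (A / 2) * T := by ring
  have h4 : 0 ≤ N * (A * q / η) := by positivity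
  have h5 : (A / 2) * T ≤ N / η := by linarith
  have h6 : A * (η * T) ≤ 2 * N := by
    have := mul_le_mul_of_nonneg_left h5 (by positivity : (0 : ℝ) ≤ 2 * η)
    calc A * (η * T) = 2 * η * (A / 2 * T) := by ring
      _ ≤ 2 * η * (N / η) := this
      _ = 2 * N := by field_simp
  have h7 : η * T ≤ 2 * N / A := by
    rw [le_div_iff₀ hApos]; linarith
  refine h7.trans (le_of_eq ?_)
  rw [hA]; field_simp; ring

end Crest.Agent.R236.Det
end

-- ▼ part R236/DetBounds

/-!
Row 236, P3: determinant bounds for affine maximal functions by the maximum principle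
(main theorems `det_upper`, `det_lower`).
-/

set_option autoImplicit false

open scoped ContDiff Topology Matrix
open Crest.GeometryTopology.CoordMetric Crest.GeometryTopology.AffineMaximal Filter Matrix

namespace Crest.Agent.R236.Det

open Crest.Agent.R236 Crest.Agent.R236.Jet

variable {n : ℕ} {Ω : Set (EuclideanSpace ℝ (Fin n))} {u : EuclideanSpace ℝ (Fin n) → ℝ}

theorem trace_hess_nonpos {z : EuclideanSpace ℝ (Fin n) → ℝ} {x : EuclideanSpace ℝ (Fin n)}
    (hz : ContDiffAt ℝ ∞ z x) (hmax : IsLocalMax z x) {G : Matrix (Fin n) (Fin n) ℝ}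
    (hG : G.PosSemidef) : ∑ i, ∑ j, G i j * hessianMat z x i j ≤ 0 := by
  apply sum_mul_nonpos hG
  intro v
  have := quad_nonpos hz hmax (WithLp.toLp 2 v)
  simpa using this

theorem sum_inv_col {H : Matrix (Fin n) (Fin n) ℝ} (hH : H.PosDef) (k : Fin n) :
    ∑ i, ∑ j, H⁻¹ i j * (H i k * H j k) = H k k := by
  rw [sum_eq_dot (H⁻¹) (fun i => H i k) (fun i => H i k)]
  have h1 : (fun i => H i k) = H *ᵥ (Pi.single k 1) := by
    rw [Matrix.mulVec_single_one]; rfl
  conv_lhs => rw [h1]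
  rw [inv_mulVec hH, ← h1]
  simp

/-- gradient of the upper auxiliary function -/
theorem upper_grad (h : SC Ω u) {x : EuclideanSpace ℝ (Fin n)} (hx : x ∈ Ω)
    (l : EuclideanSpace ℝ (Fin n) →L[ℝ] ℝ) (c a : ℝ) (hη : 0 < l x + c - u x) (i : Fin n) :
    pderiv i (fun y => ld u y + ((n : ℝ) * Real.log (l y + c - u y) +
      (a / 2) * ∑ k, (pderiv k u y - l (EuclideanSpace.single k 1)) *
        (pderiv k u y - l (EuclideanSpace.single k 1)))) x =
      pderiv i (ld u) x - (n : ℝ) * ((l x + c - u x)⁻¹ *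
        (pderiv i u x - l (EuclideanSpace.single i 1))) +
      a * ∑ k, hessianMat u x i k * (pderiv k u x - l (EuclideanSpace.single k 1)) := by
  have hu := h.contDiffAt hx
  have hsl : ContDiffAt ℝ ∞ (fun y => l y + c - u y) x :=
    ((l.contDiff.contDiffAt).add contDiffAt_const).sub hu
  have hlog : ContDiffAt ℝ ∞ (fun y => Real.log (l y + c - u y)) x := hsl.log hη.ne'
  have hp : ∀ k, ContDiffAt ℝ ∞ (fun y => pderiv k u y - l (EuclideanSpace.single k 1)) x :=
    fun k => (sm_pderiv hu k).sub contDiffAt_const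
  have hpp : ∀ k, ContDiffAt ℝ ∞ (fun y => (pderiv k u y - l (EuclideanSpace.single k 1)) *
      (pderiv k u y - l (EuclideanSpace.single k 1))) x := fun k => (hp k).mul (hp k)
  have hsum : ContDiffAt ℝ ∞ (fun y => ∑ k, (pderiv k u y - l (EuclideanSpace.single k 1)) *
      (pderiv k u y - l (EuclideanSpace.single k 1))) x := ContDiffAt.sum fun k _ => hpp k
  rw [pderiv_add (sm_diff (sm_ld h hx))
    (sm_diff ((contDiffAt_const.mul hlog).add (contDiffAt_const.mul hsum))),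
    pderiv_add (sm_diff (contDiffAt_const.mul hlog)) (sm_diff (contDiffAt_const.mul hsum)),
    pderiv_cmul (sm_diff hlog), pderiv_cmul (sm_diff hsum),
    pderiv_log (sm_diff hsl) hη.ne',
    pderiv_sub (f := fun y => l y + c) (sm_diff ((l.contDiff.contDiffAt).add contDiffAt_const))
      (sm_diff hu),
    pderiv_add (f := fun y => l y) (g := fun _ => c) (sm_diff l.contDiff.contDiffAt)
      (differentiableAt_const _), pderiv_const,
    pderiv_lin, pderiv_sum (fun k _ => sm_diff (hpp k))]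
  have e1 : ∀ k, pderiv i (fun y => (pderiv k u y - l (EuclideanSpace.single k 1)) *
      (pderiv k u y - l (EuclideanSpace.single k 1))) x =
      2 * (hessianMat u x i k * (pderiv k u x - l (EuclideanSpace.single k 1))) := by
    intro k
    rw [pderiv_mul (sm_diff (hp k)) (sm_diff (hp k)),
      pderiv_sub (sm_diff (sm_pderiv hu k)) (differentiableAt_const _), pderiv_const]
    have : pderiv i (fun y => pderiv k u y) x = hessianMat u x i k := rfl
    rw [this]; ring
  simp only [e1]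
  rw [← Finset.mul_sum]
  ring

/-- Hessian of the upper auxiliary function -/
theorem upper_hess (h : SC Ω u) {x : EuclideanSpace ℝ (Fin n)} (hx : x ∈ Ω)
    (l : EuclideanSpace ℝ (Fin n) →L[ℝ] ℝ) (c a : ℝ) (hη : 0 < l x + c - u x) (i j : Fin n) :
    hessianMat (fun y => ld u y + ((n : ℝ) * Real.log (l y + c - u y) +
      (a / 2) * ∑ k, (pderiv k u y - l (EuclideanSpace.single k 1)) *
        (pderiv k u y - l (EuclideanSpace.single k 1)))) x i j =
      hessianMat (ld u) x i j - (n : ℝ) * ((l x + c - u x)⁻¹ * hessianMat u x i j +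
        ((l x + c - u x) ^ 2)⁻¹ * ((pderiv i u x - l (EuclideanSpace.single i 1)) *
          (pderiv j u x - l (EuclideanSpace.single j 1)))) +
      a * ∑ k, ((pderiv k u x - l (EuclideanSpace.single k 1)) *
        hessianMat (fun y => pderiv k u y) x i j + hessianMat u x i k * hessianMat u x j k) := by
  have hu := h.contDiffAt hx
  have hsl : ContDiffAt ℝ ∞ (fun y => l y + c - u y) x :=
    ((l.contDiff.contDiffAt).add contDiffAt_const).sub hu
  have hlog : ContDiffAt ℝ ∞ (fun y => Real.log (l y + c - u y)) x := hsl.log hη.ne'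
  have hp : ∀ k, ContDiffAt ℝ ∞ (fun y => pderiv k u y - l (EuclideanSpace.single k 1)) x :=
    fun k => (sm_pderiv hu k).sub contDiffAt_const
  have hpp : ∀ k, ContDiffAt ℝ ∞ (fun y => (pderiv k u y - l (EuclideanSpace.single k 1)) *
      (pderiv k u y - l (EuclideanSpace.single k 1))) x := fun k => (hp k).mul (hp k)
  have hsum : ContDiffAt ℝ ∞ (fun y => ∑ k, (pderiv k u y - l (EuclideanSpace.single k 1)) *
      (pderiv k u y - l (EuclideanSpace.single k 1))) x := ContDiffAt.sum fun k _ => hpp k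
  have hlin : ContDiffAt ℝ ∞ (fun y => l y) x := l.contDiff.contDiffAt
  have hlc : ContDiffAt ℝ ∞ (fun y => l y + c) x := hlin.add contDiffAt_const
  rw [hess_add (sm_ld h hx) ((contDiffAt_const.mul hlog).add (contDiffAt_const.mul hsum)),
    hess_add (contDiffAt_const.mul hlog) (contDiffAt_const.mul hsum),
    hess_cmul hlog, hess_cmul hsum, hess_log hsl hη.ne', hess_sub hlc hu,
    hess_add hlin contDiffAt_const, hess_lin, hess_const,
    pderiv_sub (sm_diff hlc) (sm_diff hu), pderiv_sub (sm_diff hlc) (sm_diff hu),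
    pderiv_add (sm_diff hlin) (differentiableAt_const _),
    pderiv_add (sm_diff hlin) (differentiableAt_const _), pderiv_const, pderiv_const,
    pderiv_lin, pderiv_lin, hess_sum (fun k _ => hpp k)]
  have e1 : ∀ k, hessianMat (fun y => (pderiv k u y - l (EuclideanSpace.single k 1)) *
      (pderiv k u y - l (EuclideanSpace.single k 1))) x i j =
      2 * ((pderiv k u x - l (EuclideanSpace.single k 1)) *
        hessianMat (fun y => pderiv k u y) x i j + hessianMat u x i k * hessianMat u x j k) := by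
    intro k
    rw [hess_mul (hp k) (hp k),
      pderiv_sub (sm_diff (sm_pderiv hu k)) (differentiableAt_const _), pderiv_const,
      pderiv_sub (sm_diff (sm_pderiv hu k)) (differentiableAt_const _), pderiv_const,
      hess_sub (sm_pderiv hu k) contDiffAt_const, hess_const]
    have e2 : pderiv i (fun y => pderiv k u y) x = hessianMat u x i k := rfl
    have e3 : pderiv j (fun y => pderiv k u y) x = hessianMat u x j k := rfl
    rw [e2, e3]; ring
  simp only [e1]
  rw [← Finset.mul_sum]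
  ring

theorem upper_point (hn : 2 ≤ n) (h : SC Ω u) {x : EuclideanSpace ℝ (Fin n)} (hx : x ∈ Ω)
    (hmax : affineMaximalOp n u x = 0) (l : EuclideanSpace ℝ (Fin n) →L[ℝ] ℝ) {c a Γ : ℝ}
    (hη : 0 < l x + c - u x) (hΓ : 0 < Γ) (ha : a = ((n : ℝ) + 2) / (2 * Γ ^ 2))
    (hp : ∑ k, (pderiv k u x - l (EuclideanSpace.single k 1)) ^ 2 ≤ Γ ^ 2)
    (hloc : IsLocalMax (fun y => ld u y + ((n : ℝ) * Real.log (l y + c - u y) +
      (a / 2) * ∑ k, (pderiv k u y - l (EuclideanSpace.single k 1)) *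
        (pderiv k u y - l (EuclideanSpace.single k 1)))) x) :
    (l x + c - u x) * (hessianMat u x).trace ≤ 6 * (n : ℝ) ^ 2 * Γ ^ 2 / ((n : ℝ) + 2) := by
  have hu := h.contDiffAt hx
  set H := hessianMat u x with hH
  have hHp : H.PosDef := h.posDef x hx
  set p : Fin n → ℝ := fun k => pderiv k u x - l (EuclideanSpace.single k 1) with hpdef
  set s : Fin n → ℝ := fun k => pderiv k (ld u) x with hsdef
  set η : ℝ := l x + c - u x with hηdef
  have hsl : ContDiffAt ℝ ∞ (fun y => l y + c - u y) x :=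
    ((l.contDiff.contDiffAt).add contDiffAt_const).sub hu
  have hlog : ContDiffAt ℝ ∞ (fun y => Real.log (l y + c - u y)) x := hsl.log hη.ne'
  have hp' : ∀ k, ContDiffAt ℝ ∞ (fun y => pderiv k u y - l (EuclideanSpace.single k 1)) x :=
    fun k => (sm_pderiv hu k).sub contDiffAt_const
  have hsum : ContDiffAt ℝ ∞ (fun y => ∑ k, (pderiv k u y - l (EuclideanSpace.single k 1)) *
      (pderiv k u y - l (EuclideanSpace.single k 1))) x :=
    ContDiffAt.sum fun k _ => (hp' k).mul (hp' k)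
  have hz : ContDiffAt ℝ ∞ (fun y => ld u y + ((n : ℝ) * Real.log (l y + c - u y) +
      (a / 2) * ∑ k, (pderiv k u y - l (EuclideanSpace.single k 1)) *
        (pderiv k u y - l (EuclideanSpace.single k 1)))) x :=
    (sm_ld h hx).add ((contDiffAt_const.mul hlog).add (contDiffAt_const.mul hsum))
  refine upper_alg hn hHp p s hη hΓ ha ?_ ?_ ?_
  · have : p ⬝ᵥ p = ∑ k, (pderiv k u x - l (EuclideanSpace.single k 1)) ^ 2 := by
      simp only [dotProduct, hpdef, sq]
    rw [this]; exact hp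
  · funext i
    have h1 := pderiv_eq_zero_of_max hloc i
    rw [upper_grad h hx l c a hη i] at h1
    have h2 : (H *ᵥ p) i = ∑ k, hessianMat u x i k * (pderiv k u x - l (EuclideanSpace.single k 1)) :=
      rfl
    simp only [Pi.sub_apply, Pi.smul_apply, smul_eq_mul]
    rw [h2]
    have h3 : s i = pderiv i (ld u) x := rfl
    have h4 : p i = pderiv i u x - l (EuclideanSpace.single i 1) := rfl
    rw [h3, h4, div_eq_mul_inv]
    rw [← hηdef] at h1
    linarith
  · have h1 := trace_hess_nonpos hz hloc hHp.inv.posSemidef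
    have h2 : ∀ i j, H⁻¹ i j * hessianMat (fun y => ld u y + ((n : ℝ) * Real.log (l y + c - u y) +
      (a / 2) * ∑ k, (pderiv k u y - l (EuclideanSpace.single k 1)) *
        (pderiv k u y - l (EuclideanSpace.single k 1)))) x i j =
        H⁻¹ i j * hessianMat (ld u) x i j - (n : ℝ) * (η⁻¹ * (H⁻¹ i j * H i j) +
          (η ^ 2)⁻¹ * (H⁻¹ i j * (p i * p j))) + a * ∑ k, (p k * (H⁻¹ i j *
            hessianMat (fun y => pderiv k u y) x i j) + H⁻¹ i j * (H i k * H j k)) := by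
      intro i j
      rw [upper_hess h hx l c a hη i j]
      have e1 : ∑ k, (p k * (H⁻¹ i j * hessianMat (fun y => pderiv k u y) x i j) +
          H⁻¹ i j * (H i k * H j k)) = H⁻¹ i j * ∑ k, (p k *
            hessianMat (fun y => pderiv k u y) x i j + H i k * H j k) := by
        rw [Finset.mul_sum]
        refine Finset.sum_congr rfl fun k _ => by ring
      rw [e1]
      simp only [hpdef, hH]
      rw [← hηdef]
      ring
    simp only [h2] at h1
    have h3 : ∑ i, ∑ j, (H⁻¹ i j * hessianMat (ld u) x i j - (n : ℝ) * (η⁻¹ * (H⁻¹ i j * H i j) +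
          (η ^ 2)⁻¹ * (H⁻¹ i j * (p i * p j))) + a * ∑ k, (p k * (H⁻¹ i j *
            hessianMat (fun y => pderiv k u y) x i j) + H⁻¹ i j * (H i k * H j k))) =
        (∑ i, ∑ j, H⁻¹ i j * hessianMat (ld u) x i j) - (n : ℝ) *
          (η⁻¹ * (∑ i, ∑ j, H⁻¹ i j * H i j) + (η ^ 2)⁻¹ * ∑ i, ∑ j, H⁻¹ i j * (p i * p j)) +
        a * ∑ k, (p k * (∑ i, ∑ j, H⁻¹ i j * hessianMat (fun y => pderiv k u y) x i j) +
          ∑ i, ∑ j, H⁻¹ i j * (H i k * H j k)) := by
      simp only [Finset.sum_add_distrib, Finset.sum_sub_distrib, ← Finset.mul_sum]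
      congr 1
      congr 1
      have e2 : ∑ i, ∑ j, ∑ k, p k * (H⁻¹ i j * hessianMat (fun y => pderiv k u y) x i j) =
          ∑ k, p k * ∑ i, ∑ j, H⁻¹ i j * hessianMat (fun y => pderiv k u y) x i j := by
        rw [sum3]
        refine Finset.sum_congr rfl fun k _ => ?_
        simp only [Finset.mul_sum]
      have e3 : ∑ i, ∑ j, ∑ k, H⁻¹ i j * (H i k * H j k) =
          ∑ k, ∑ i, ∑ j, H⁻¹ i j * (H i k * H j k) := sum3 _
      simp only [Finset.mul_sum] at e2 e3 ⊢
      linarith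
    rw [h3, pde h hx hmax, sum_inv_mul hHp] at h1
    have h4 : ∑ k, (p k * (∑ i, ∑ j, H⁻¹ i j * hessianMat (fun y => pderiv k u y) x i j) +
          ∑ i, ∑ j, H⁻¹ i j * (H i k * H j k)) = H.trace + p ⬝ᵥ s := by
      rw [Finset.sum_add_distrib, add_comm, Matrix.trace, dotProduct]
      congr 1
      · refine Finset.sum_congr rfl fun k _ => ?_
        rw [sum_inv_col hHp, Matrix.diag_apply]
      · refine Finset.sum_congr rfl fun k _ => ?_
        rw [← pderiv_ld h hx]
    rw [h4] at h1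
    have h5 : ∑ i, ∑ j, (hessianMat u x)⁻¹ i j * (pderiv i (ld u) x * pderiv j (ld u) x) =
        s ⬝ᵥ (H⁻¹ *ᵥ s) := sum_eq_dot H⁻¹ s s
    have h6 : ∑ i, ∑ j, H⁻¹ i j * (p i * p j) = p ⬝ᵥ (H⁻¹ *ᵥ p) := sum_eq_dot H⁻¹ p p
    rw [h5, h6] at h1
    refine le_trans (le_of_eq ?_) h1
    field_simp
    ring

/-- **Upper determinant bound.** Gradient bound on a compact sublevel set `u ≤ l + c` gives
`det D²u · (l + c - u)^n ≤ (6Γ²)^n e^{(n+2)/4}`. -/
theorem det_upper (hn : 2 ≤ n) (h : SC Ω u) (hpde : ∀ x ∈ Ω, affineMaximalOp n u x = 0)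
    (l : EuclideanSpace ℝ (Fin n) →L[ℝ] ℝ) (c : ℝ)
    (hK : IsCompact {x | x ∈ Ω ∧ u x ≤ l x + c}) {Γ : ℝ} (hΓ : 0 < Γ)
    (hgrad : ∀ x ∈ Ω, u x ≤ l x + c →
      ∑ k, (pderiv k u x - l (EuclideanSpace.single k 1)) ^ 2 ≤ Γ ^ 2)
    {x : EuclideanSpace ℝ (Fin n)} (hx : x ∈ Ω) (hxl : u x ≤ l x + c) :
    (hessianMat u x).det * (l x + c - u x) ^ n ≤
      (6 * Γ ^ 2) ^ n * Real.exp (((n : ℝ) + 2) / 4) := by
  set a : ℝ := ((n : ℝ) + 2) / (2 * Γ ^ 2) with ha
  have hapos : 0 < a := by rw [ha]; positivity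
  set P : EuclideanSpace ℝ (Fin n) → ℝ := fun y =>
    ∑ k, (pderiv k u y - l (EuclideanSpace.single k 1)) *
      (pderiv k u y - l (EuclideanSpace.single k 1)) with hP
  set F : EuclideanSpace ℝ (Fin n) → ℝ := fun y =>
    (hessianMat u y).det * (l y + c - u y) ^ n * Real.exp ((a / 2) * P y) with hF
  have hPnn : ∀ y, 0 ≤ P y := fun y => Finset.sum_nonneg fun k _ => mul_self_nonneg _
  have hn0 : n ≠ 0 := by omega
  have hcP : ∀ y ∈ Ω, ContinuousAt P y := by
    intro y hy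
    have hp' : ∀ k, ContDiffAt ℝ ∞ (fun y => pderiv k u y - l (EuclideanSpace.single k 1)) y :=
      fun k => (sm_pderiv (h.contDiffAt hy) k).sub contDiffAt_const
    exact (ContDiffAt.sum fun k _ => (hp' k).mul (hp' k)).continuousAt
  have hcF : ContinuousOn F {x | x ∈ Ω ∧ u x ≤ l x + c} := by
    intro y hy
    apply ContinuousAt.continuousWithinAt
    have h1 : ContinuousAt (fun y => (hessianMat u y).det) y := (sm_det h hy.1).continuousAt
    have h2 : ContinuousAt (fun y => l y + c - u y) y :=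
      ((l.continuous.continuousAt).add continuousAt_const).sub (h.contDiffAt hy.1).continuousAt
    have h3 : ContinuousAt (fun y => Real.exp ((a / 2) * P y)) y :=
      (Real.continuous_exp.continuousAt).comp (continuousAt_const.mul (hcP y hy.1))
    exact (h1.mul (h2.pow n)).mul h3
  obtain ⟨x1, hx1, hmax⟩ := hK.exists_isMaxOn ⟨x, hx, hxl⟩ hcF
  have hFx : F x ≤ F x1 := hmax ⟨hx, hxl⟩
  have hdet : 0 < (hessianMat u x).det := det_pos h hx
  have hηx : 0 ≤ l x + c - u x := by linarith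
  have hlow : (hessianMat u x).det * (l x + c - u x) ^ n ≤ F x := by
    have h1 : 1 ≤ Real.exp ((a / 2) * P x) :=
      Real.one_le_exp (mul_nonneg (by positivity) (hPnn x))
    have h2 : 0 ≤ (hessianMat u x).det * (l x + c - u x) ^ n := by positivity
    exact le_mul_of_one_le_right h2 h1
  refine hlow.trans (hFx.trans ?_)
  have hη1 : 0 ≤ l x1 + c - u x1 := by linarith [hx1.2]
  rcases hη1.eq_or_lt with h0 | hpos
  · have : F x1 = 0 := by
      simp only [hF]
      rw [← h0, zero_pow hn0]; ring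
    rw [this]; positivity
  -- local maximum of the logarithm
  have hloc : IsLocalMax (fun y => ld u y + ((n : ℝ) * Real.log (l y + c - u y) +
      (a / 2) * ∑ k, (pderiv k u y - l (EuclideanSpace.single k 1)) *
        (pderiv k u y - l (EuclideanSpace.single k 1)))) x1 := by
    have hcη : ContinuousAt (fun y => l y + c - u y) x1 :=
      ((l.continuous.continuousAt).add continuousAt_const).sub (h.contDiffAt hx1.1).continuousAt
    have hev : ∀ᶠ y in 𝓝 x1, 0 < l y + c - u y := hcη.eventually (lt_mem_nhds hpos)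
    have key : ∀ y ∈ Ω, 0 < l y + c - u y →
        ld u y + ((n : ℝ) * Real.log (l y + c - u y) + (a / 2) * P y) = Real.log (F y) := by
      intro y hy hy0
      simp only [hF]
      have hd := det_pos h hy
      rw [Real.log_mul (mul_pos hd (pow_pos hy0 n)).ne' (Real.exp_pos _).ne',
        Real.log_mul hd.ne' (pow_pos hy0 n).ne', Real.log_pow, Real.log_exp]
      unfold ld
      ring
    filter_upwards [hev, h.isOpen.mem_nhds hx1.1] with y hy0 hy
    have h1 := key y hy hy0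
    have h2 := key x1 hx1.1 hpos
    simp only [hP] at h1 h2
    rw [h1, h2]
    have hFy : 0 < F y := by
      simp only [hF]
      have hd := det_pos h hy
      positivity
    exact Real.log_le_log hFy (hmax ⟨hy, by linarith⟩)
  have hpx1 := hgrad x1 hx1.1 hx1.2
  have hpt := upper_point hn h hx1.1 (hpde x1 hx1.1) l hpos hΓ ha hpx1 hloc
  have hHp := h.posDef x1 hx1.1
  have hT0 : 0 ≤ (hessianMat u x1).trace := hHp.posSemidef.trace_nonneg
  have hdt : (hessianMat u x1).det ≤ ((hessianMat u x1).trace / n) ^ n :=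
    det_le_trace_pow hHp.posSemidef (by omega)
  have hnR : (0 : ℝ) < n := by exact_mod_cast Nat.pos_of_ne_zero hn0
  have e1 : (hessianMat u x1).det * (l x1 + c - u x1) ^ n ≤ (6 * Γ ^ 2) ^ n := by
    calc (hessianMat u x1).det * (l x1 + c - u x1) ^ n
        ≤ ((hessianMat u x1).trace / n) ^ n * (l x1 + c - u x1) ^ n :=
          mul_le_mul_of_nonneg_right hdt (by positivity)
      _ = (((l x1 + c - u x1) * (hessianMat u x1).trace) / n) ^ n := by
          rw [← mul_pow]; congr 1; ring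
      _ ≤ (6 * Γ ^ 2) ^ n := by
          apply pow_le_pow_left₀ (by positivity)
          rw [div_le_iff₀ hnR]
          refine hpt.trans ?_
          rw [div_le_iff₀ (by positivity)]
          nlinarith [sq_nonneg Γ, mul_nonneg hnR.le (sq_nonneg Γ)]
  have e2 : Real.exp ((a / 2) * P x1) ≤ Real.exp (((n : ℝ) + 2) / 4) := by
    apply Real.exp_le_exp.2
    have h1 : P x1 ≤ Γ ^ 2 := by
      refine le_trans (le_of_eq ?_) hpx1
      simp only [hP, sq]
    calc (a / 2) * P x1 ≤ (a / 2) * Γ ^ 2 := mul_le_mul_of_nonneg_left h1 (by positivity)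
      _ = ((n : ℝ) + 2) / 4 := by rw [ha]; field_simp; ring
  exact mul_le_mul e1 e2 (Real.exp_pos _).le (by positivity)

end Crest.Agent.R236.Det
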