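import Mathlib
import Crest.Agent.Lib.ODEFlow
import Crest.Prelude.Def_AffineMaximal

-- ▼ part R236/ExDefs
section

/-!
# Row 236 / S0366: data of the radial profile (`u = √(g(|x'|²) + y²)`)
-/

set_option autoImplicit false
open scoped ContDiff

namespace Crest.Agent.R236.Ex

/-- Local solution at the singular point `s = 0` of the profile system
`a' = a (b - a) / 2`, `σ' = σ (a - 9 b + 12 a (2σ - 1) / (9 + 2 s a)) / 2`, `σ = 1 + s b`. -/
structure Loc where
  eps : ℝ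
  a : ℝ → ℝ
  b : ℝ → ℝ
  heps : 0 < eps
  sa : ContDiffOn ℝ ∞ a (Set.Ioo (-eps) eps)
  sb : ContDiffOn ℝ ∞ b (Set.Ioo (-eps) eps)
  a0 : 0 < a 0
  da : ∀ s, 0 ≤ s → s < eps → HasDerivAt a (a s * (b s - a s) / 2) s
  db : ∀ s, 0 ≤ s → s < eps → HasDerivAt (fun s => 1 + s * b s)
    ((1 + s * b s) * (a s - 9 * b s + 12 * a s * (1 + 2 * s * b s) / (9 + 2 * s * a s)) / 2) s

/-- Global profile. -/
structure GProf where
  e : ℝ
  g : ℝ → ℝ
  a : ℝ → ℝ
  b : ℝ → ℝ
  he : 0 < e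
  sg : ContDiffOn ℝ ∞ g (Set.Ioi (-e))
  sa : ContDiffOn ℝ ∞ a (Set.Ioi (-e))
  sb : ContDiffOn ℝ ∞ b (Set.Ioi (-e))
  g_pos : ∀ s, 0 ≤ s → 0 < g s
  a_pos : ∀ s, 0 ≤ s → 0 < a s
  b_pos : ∀ s, 0 ≤ s → 0 < b s
  dg : ∀ s, 0 ≤ s → HasDerivAt g (a s * g s) s
  da : ∀ s, 0 ≤ s → HasDerivAt a (a s * (b s - a s) / 2) s
  db : ∀ s, 0 ≤ s → HasDerivAt (fun s => 1 + s * b s)
    ((1 + s * b s) * (a s - 9 * b s + 12 * a s * (1 + 2 * s * b s) / (9 + 2 * s * a s)) / 2) s

end Crest.Agent.R236.Ex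
end

-- ▼ part R236/ExGlobA
section

/-!
# Row 236 / S0366: the planar autonomous system and its trapping region
-/

set_option autoImplicit false
open scoped ContDiff
open Set Crest.Agent.Lib.ODEFlow

namespace Crest.Agent.R236.Ex.Glob

def P (z : ℝ × ℝ) : ℝ := z.2 - 2 * z.1 + 1
def Q (z : ℝ × ℝ) : ℝ := 81 + 30 * z.1 + 8 * z.1 ^ 2 - z.2 * (81 - 12 * z.1)

/-- the trapping region -/
def Rg : Set (ℝ × ℝ) := {z | 0 < z.1 ∧ z.1 < 9 / 4 ∧ 0 < z.2 ∧ 0 < P z ∧ 0 < Q z}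

/-- the vector field -/
noncomputable def V (z : ℝ × ℝ) : ℝ × ℝ := (z.1 * P z / 2, z.2 * Q z / (2 * (9 + 4 * z.1)))

lemma continuous_P : Continuous P := by unfold P; fun_prop
lemma continuous_Q : Continuous Q := by unfold Q; fun_prop

lemma isOpen_Rg : IsOpen Rg := by
  have h1 : IsOpen {z : ℝ × ℝ | 0 < z.1} := isOpen_lt continuous_const continuous_fst
  have h2 : IsOpen {z : ℝ × ℝ | z.1 < 9 / 4} := isOpen_lt continuous_fst continuous_const
  have h3 : IsOpen {z : ℝ × ℝ | 0 < z.2} := isOpen_lt continuous_const continuous_snd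
  have h4 : IsOpen {z : ℝ × ℝ | 0 < P z} := isOpen_lt continuous_const continuous_P
  have h5 : IsOpen {z : ℝ × ℝ | 0 < Q z} := isOpen_lt continuous_const continuous_Q
  exact h1.inter (h2.inter (h3.inter (h4.inter h5)))

lemma contDiffOn_V : ContDiffOn ℝ ∞ V Rg := by
  unfold V P Q
  refine ContDiffOn.prodMk (by fun_prop) ?_
  refine ContDiffOn.div (by fun_prop) (by fun_prop) ?_
  intro z hz
  have := hz.1
  positivity

lemma contDiffOn_V1 : ContDiffOn ℝ 1 V Rg := contDiffOn_V.of_le (by exact_mod_cast le_top)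

lemma snd_lt {z : ℝ × ℝ} (hz : z ∈ Rg) : z.2 < 7 / 2 := by
  obtain ⟨h1, h2, h3, h4, h5⟩ := hz
  unfold Q at h5
  by_contra h
  push Not at h
  nlinarith [mul_nonneg (sub_nonneg.2 h) (by linarith : (0:ℝ) ≤ 81 - 12 * z.1),
    mul_pos (by linarith : (0:ℝ) < 9 / 4 - z.1) h1]

lemma exp_lower {f f' : ℝ → ℝ} {C t : ℝ} (ht : 0 ≤ t)
    (hf : ∀ s ∈ Icc 0 t, HasDerivAt f (f' s) s) (hb : ∀ s ∈ Icc 0 t, 0 ≤ f' s + C * f s) :
    f 0 * Real.exp (-(C * t)) ≤ f t := by
  have hd : ∀ s ∈ Icc 0 t, HasDerivAt (fun s => f s * Real.exp (C * s))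
      ((f' s + C * f s) * Real.exp (C * s)) s := by
    intro s hs
    have h2 : HasDerivAt (fun s : ℝ => C * s) C s := by simpa using (hasDerivAt_id s).const_mul C
    exact ((hf s hs).mul h2.exp).congr_deriv (by ring)
  have hm : MonotoneOn (fun s => f s * Real.exp (C * s)) (Icc 0 t) := by
    apply monotoneOn_of_deriv_nonneg (convex_Icc 0 t)
    · exact fun s hs => (hd s hs).continuousAt.continuousWithinAt
    · intro s hs
      exact (hd s (interior_subset hs)).differentiableAt.differentiableWithinAt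
    · intro s hs
      rw [(hd s (interior_subset hs)).deriv]
      exact mul_nonneg (hb s (interior_subset hs)) (Real.exp_pos _).le
  have h := hm (left_mem_Icc.2 ht) (right_mem_Icc.2 ht) ht
  simp only [mul_zero, Real.exp_zero, mul_one] at h
  rw [Real.exp_neg, ← div_eq_mul_inv, div_le_iff₀ (Real.exp_pos _)]
  exact h

variable {z₀ : ℝ × ℝ}

/-- bounds along a flow line in the region -/
lemma bounds (hz₀ : z₀ ∈ Rg) {t : ℝ} (ht : 0 ≤ t) (hd : (z₀, t) ∈ dom V Rg) :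
    z₀.1 ≤ (flow V Rg (z₀, t)).1 ∧ z₀.2 ≤ (flow V Rg (z₀, t)).2 ∧
    P z₀ * Real.exp (-(9 / 4 * t)) ≤ P (flow V Rg (z₀, t)) ∧
    Q z₀ * Real.exp (-(16 * t)) ≤ Q (flow V Rg (z₀, t)) := by
  set c : ℝ → ℝ × ℝ := fun s => flow V Rg (z₀, s) with hc
  have hdom : ∀ s ∈ Icc 0 t, (z₀, s) ∈ dom V Rg := fun s hs =>
    mem_dom_of_uIcc hd (by rwa [uIcc_of_le ht])
  have hmem : ∀ s ∈ Icc 0 t, c s ∈ Rg := fun s hs => flow_mem isOpen_Rg contDiffOn_V1 (hdom s hs)
  have hder : ∀ s ∈ Icc 0 t, HasDerivAt c (V (c s)) s := fun s hs =>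
    hasDerivAt_flow isOpen_Rg contDiffOn_V1 (hdom s hs)
  have h1 : ∀ s ∈ Icc 0 t, HasDerivAt (fun s => (c s).1) ((c s).1 * P (c s) / 2) s := by
    intro s hs
    exact (hasDerivAt_iff_hasFDerivAt.1 (hder s hs)).fst.hasDerivAt.congr_deriv (by simp [V])
  have h2 : ∀ s ∈ Icc 0 t, HasDerivAt (fun s => (c s).2)
      ((c s).2 * Q (c s) / (2 * (9 + 4 * (c s).1))) s := by
    intro s hs
    exact (hasDerivAt_iff_hasFDerivAt.1 (hder s hs)).snd.hasDerivAt.congr_deriv (by simp [V])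
  have hc0 : c 0 = z₀ := flow_zero isOpen_Rg contDiffOn_V1 hz₀
  have e1 := exp_lower (C := 0) ht h1 (by
    intro s hs
    obtain ⟨k1, k2, k3, k4, k5⟩ := hmem s hs
    have := mul_pos k1 k4
    linarith)
  have e2 := exp_lower (C := 0) ht h2 (by
    intro s hs
    obtain ⟨k1, k2, k3, k4, k5⟩ := hmem s hs
    have : 0 < (c s).2 * Q (c s) / (2 * (9 + 4 * (c s).1)) := by positivity
    linarith)
  have e3 := exp_lower (f := fun s => P (c s)) (C := 9 / 4) ht (by
    intro s hs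
    have := ((h2 s hs).sub ((h1 s hs).const_mul 2)).add_const 1
    exact this) (by
    intro s hs
    obtain ⟨k1, k2, k3, k4, k5⟩ := hmem s hs
    have h : 0 < (c s).2 * Q (c s) / (2 * (9 + 4 * (c s).1)) := by positivity
    nlinarith [mul_pos (sub_pos.2 k2) k4])
  have e4 := exp_lower (f := fun s => Q (c s)) (C := 16) ht (by
    intro s hs
    have := ((((h1 s hs).const_mul 30).const_add 81).add (((h1 s hs).pow 2).const_mul 8)).sub
      ((h2 s hs).mul (((h1 s hs).const_mul 12).const_sub 81))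
    exact this) (by
    intro s hs
    have k6 := snd_lt (hmem s hs)
    obtain ⟨k1, k2, k3, k4, k5⟩ := hmem s hs
    have h : 0 < (c s).1 * P (c s) / 2 := by positivity
    have h8 : (c s).2 * Q (c s) / (2 * (9 + 4 * (c s).1)) * (81 - 12 * (c s).1) ≤ 16 * Q (c s) := by
      have h9 : (c s).2 * (81 - 12 * (c s).1) / (2 * (9 + 4 * (c s).1)) ≤ 16 := by
        rw [div_le_iff₀ (by positivity)]
        nlinarith [mul_nonneg (sub_nonneg.2 k6.le) (by linarith : (0:ℝ) ≤ 81 - 12 * (c s).1)]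
      calc _ = (c s).2 * (81 - 12 * (c s).1) / (2 * (9 + 4 * (c s).1)) * Q (c s) := by ring
        _ ≤ _ := mul_le_mul_of_nonneg_right h9 k5.le
    have h10 : 0 ≤ (c s).2 * (12 * ((c s).1 * P (c s) / 2)) := by positivity
    have h11 : 0 ≤ 8 * (2 * (c s).1 ^ (2 - 1) * ((c s).1 * P (c s) / 2)) := by positivity
    norm_num at h11 ⊢
    nlinarith)
  rw [hc0] at e1 e2 e3 e4
  simp only [zero_mul, neg_zero, Real.exp_zero, mul_one] at e1 e2
  exact ⟨e1, e2, e3, e4⟩

/-- compact sets in the region -/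
def K (z₀ : ℝ × ℝ) (T : ℝ) : Set (ℝ × ℝ) :=
  (Icc z₀.1 (9 / 4) ×ˢ Icc z₀.2 (7 / 2)) ∩
    ({z | P z₀ * Real.exp (-(9 / 4 * T)) ≤ P z} ∩ {z | Q z₀ * Real.exp (-(16 * T)) ≤ Q z})

lemma isCompact_K (z₀ : ℝ × ℝ) (T : ℝ) : IsCompact (K z₀ T) := by
  refine (isCompact_Icc.prod isCompact_Icc).inter_right ?_
  exact (isClosed_le continuous_const continuous_P).inter
    (isClosed_le continuous_const continuous_Q)

lemma K_subset (hz₀ : z₀ ∈ Rg) (T : ℝ) : K z₀ T ⊆ Rg := by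
  rintro z ⟨⟨⟨h1, h2⟩, h3, h4⟩, h5, h6⟩
  obtain ⟨k1, k2, k3, k4, k5⟩ := hz₀
  have p1 : 0 < P z := lt_of_lt_of_le (mul_pos k4 (Real.exp_pos _)) h5
  have q1 : 0 < Q z := lt_of_lt_of_le (mul_pos k5 (Real.exp_pos _)) h6
  refine ⟨k1.trans_le h1, ?_, k3.trans_le h3, p1, q1⟩
  unfold P at p1
  linarith

lemma mem_dom (hz₀ : z₀ ∈ Rg) {T : ℝ} (hT : 0 ≤ T) : (z₀, T) ∈ dom V Rg := by
  refine mem_dom_of_compact isOpen_Rg contDiffOn_V1 (isCompact_K z₀ T) (K_subset hz₀ T) hz₀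
    ?_ hT
  intro t ht hd
  obtain ⟨b1, b2, b3, b4⟩ := bounds hz₀ ht.1 hd
  have hm := flow_mem isOpen_Rg contDiffOn_V1 hd
  have h7 := snd_lt hm
  refine ⟨⟨⟨b1, hm.2.1.le⟩, b2, h7.le⟩, ?_, ?_⟩
  · refine le_trans ?_ b3
    apply mul_le_mul_of_nonneg_left _ hz₀.2.2.2.1.le
    apply Real.exp_le_exp.2
    have := ht.2.le
    linarith
  · refine le_trans ?_ b4
    apply mul_le_mul_of_nonneg_left _ hz₀.2.2.2.2.le
    apply Real.exp_le_exp.2
    have := ht.2.le
    linarith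

end Crest.Agent.R236.Ex.Glob
end

-- ▼ part R236/ExGlobB
section

/-!
# Row 236 / S0366: gluing of the local solution with the global flow
-/

set_option autoImplicit false
open scoped ContDiff Topology
open Set Filter Crest.Agent.Lib.ODEFlow

namespace Crest.Agent.R236.Ex.Glob

variable (L : Loc)

/-- the local solution in the coordinates of the planar system -/
noncomputable def zl (s : ℝ) : ℝ × ℝ := (s * L.a s / 2, 1 + s * L.b s)

lemma zl_P (s : ℝ) : P (zl L s) = 2 + s * (L.b s - L.a s) := by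
  simp only [P, zl]; ring

lemma zl_Q (s : ℝ) : Q (zl L s) =
    s * (21 * L.a s - 81 * L.b s + 2 * s * L.a s ^ 2 + 6 * s * L.a s * L.b s) := by
  simp only [Q, zl]; ring

lemma contDiffAt_a {s : ℝ} (h1 : -L.eps < s) (h2 : s < L.eps) : ContDiffAt ℝ ∞ L.a s :=
  L.sa.contDiffAt (Ioo_mem_nhds h1 h2)

lemma contDiffAt_b {s : ℝ} (h1 : -L.eps < s) (h2 : s < L.eps) : ContDiffAt ℝ ∞ L.b s :=
  L.sb.contDiffAt (Ioo_mem_nhds h1 h2)

lemma b_zero : L.b 0 = 7 / 33 * L.a 0 := by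
  have h0 : (0:ℝ) ∈ Ioo (-L.eps) L.eps := ⟨by linarith [L.heps], L.heps⟩
  have hb : DifferentiableAt ℝ L.b 0 :=
    (contDiffAt_b L h0.1 h0.2).differentiableAt (by simp)
  have h1 : HasDerivAt (fun s => 1 + s * L.b s) (L.b 0) 0 := by
    have := ((hasDerivAt_id (0:ℝ)).mul hb.hasDerivAt).const_add 1
    exact this.congr_deriv (by simp)
  have h2 := h1.unique (L.db 0 le_rfl L.heps)
  norm_num at h2
  linarith

/-- radius on which the local solution lies in the region -/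
lemma exists_r1 : ∃ r1 : ℝ, 0 < r1 ∧ r1 ≤ L.eps ∧ (∀ s, |s| < r1 → 0 < L.a s ∧ 0 < L.b s) ∧
    ∀ s, 0 < s → s < r1 → zl L s ∈ Rg := by
  have h0 : (0:ℝ) ∈ Ioo (-L.eps) L.eps := ⟨by linarith [L.heps], L.heps⟩
  have ha : ContinuousAt L.a 0 := (contDiffAt_a L h0.1 h0.2).continuousAt
  have hb : ContinuousAt L.b 0 := (contDiffAt_b L h0.1 h0.2).continuousAt
  have hid : ContinuousAt (fun s : ℝ => s) 0 := continuousAt_id
  have a0 := L.a0
  have b0 := b_zero L
  have e1 : ∀ᶠ s in 𝓝 (0:ℝ), 0 < L.a s := ha.eventually (lt_mem_nhds a0)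
  have e2 : ∀ᶠ s in 𝓝 (0:ℝ), 0 < L.b s := hb.eventually (lt_mem_nhds (by rw [b0]; positivity))
  have e3 : ∀ᶠ s in 𝓝 (0:ℝ), s * L.a s / 2 < 9 / 4 :=
    ((hid.mul ha).div_const 2).eventually (gt_mem_nhds (by norm_num))
  have e4 : ∀ᶠ s in 𝓝 (0:ℝ), 0 < 2 + s * (L.b s - L.a s) :=
    (continuousAt_const.add (hid.mul (hb.sub ha))).eventually (lt_mem_nhds (by norm_num))
  have e5 : ∀ᶠ s in 𝓝 (0:ℝ),
      0 < 21 * L.a s - 81 * L.b s + 2 * s * L.a s ^ 2 + 6 * s * L.a s * L.b s := by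
    have hc : ContinuousAt
        (fun s => 21 * L.a s - 81 * L.b s + 2 * s * L.a s ^ 2 + 6 * s * L.a s * L.b s) 0 := by
      fun_prop
    refine hc.eventually (lt_mem_nhds ?_)
    show 0 < 21 * L.a 0 - 81 * L.b 0 + 2 * 0 * L.a 0 ^ 2 + 6 * 0 * L.a 0 * L.b 0
    rw [b0]
    linarith
  obtain ⟨r, hr, hball⟩ := Metric.eventually_nhds_iff.1 (e1.and (e2.and (e3.and (e4.and e5))))
  refine ⟨min r L.eps, lt_min hr L.heps, min_le_right _ _, ?_, ?_⟩
  · intro s hs
    have := hball (y := s) (by rw [Real.dist_eq, sub_zero]; exact hs.trans_le (min_le_left _ _))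
    exact ⟨this.1, this.2.1⟩
  · intro s hs0 hs
    obtain ⟨k1, k2, k3, k4, k5⟩ := hball (y := s) (by
      rw [Real.dist_eq, sub_zero, abs_of_pos hs0]; exact hs.trans_le (min_le_left _ _))
    refine ⟨?_, k3, ?_, ?_, ?_⟩
    · simp only [zl]; positivity
    · simp only [zl]; positivity
    · rw [zl_P]; exact k4
    · rw [zl_Q]; exact mul_pos hs0 k5

lemma hasDerivAt_zl {s : ℝ} (h0 : 0 < s) (h1 : s < L.eps) (ha : 0 < L.a s) :
    HasDerivAt (zl L) (s⁻¹ • V (zl L s)) s := by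
  have d1 : HasDerivAt (fun s => s * L.a s / 2)
      ((1 * L.a s + s * (L.a s * (L.b s - L.a s) / 2)) / 2) s :=
    ((hasDerivAt_id s).mul (L.da s h0.le h1)).div_const 2
  have d2 := L.db s h0.le h1
  refine (d1.prodMk d2).congr_deriv ?_
  have h9 : (9 : ℝ) + 2 * s * L.a s ≠ 0 := by positivity
  have h9' : (9 : ℝ) + 4 * (s * L.a s / 2) ≠ 0 := by positivity
  ext
  · simp only [V, zl_P, Prod.smul_fst, smul_eq_mul]
    simp only [zl]
    field_simp
    try ring
  · simp only [V, zl_Q, Prod.smul_snd, smul_eq_mul]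
    simp only [zl]
    field_simp
    try ring

section glue

variable {L} {r1 : ℝ} (hr1 : 0 < r1) (hre : r1 ≤ L.eps)
  (hpos : ∀ s, |s| < r1 → 0 < L.a s ∧ 0 < L.b s)
  (hRg : ∀ s, 0 < s → s < r1 → zl L s ∈ Rg)

/-- the global curve -/
noncomputable def G (L : Loc) (r1 : ℝ) (r : ℝ) : ℝ × ℝ :=
  flow V Rg (zl L (r1 / 2), Real.log (r / (r1 / 2)))

include hr1 hre hpos hRg in
lemma local_flow {r : ℝ} (h0 : 0 < r) (h1 : r < r1) :
    (zl L (r1 / 2), Real.log (r / (r1 / 2))) ∈ dom V Rg ∧ G L r1 r = zl L r := by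
  set l := Real.log (r / (r1 / 2)) with hl
  have hq : 0 < r / (r1 / 2) := by positivity
  have hexp : r1 / 2 * Real.exp l = r := by
    rw [hl, Real.exp_log hq]; field_simp
  have key : ∀ t ∈ uIcc 0 l, 0 < r1 / 2 * Real.exp t ∧ r1 / 2 * Real.exp t < r1 := by
    intro t ht
    refine ⟨by positivity, ?_⟩
    rcases le_total 0 l with h | h
    · rw [uIcc_of_le h] at ht
      have : Real.exp t ≤ Real.exp l := Real.exp_le_exp.2 ht.2
      have : r1 / 2 * Real.exp t ≤ r1 / 2 * Real.exp l := by gcongr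
      linarith
    · rw [uIcc_of_ge h] at ht
      have : Real.exp t ≤ Real.exp 0 := Real.exp_le_exp.2 ht.2
      rw [Real.exp_zero] at this
      have : r1 / 2 * Real.exp t ≤ r1 / 2 * 1 := by gcongr
      linarith
  have h := flow_of_integralCurve' isOpen_Rg contDiffOn_V1
    (c := fun t => zl L (r1 / 2 * Real.exp t)) (x := zl L (r1 / 2)) (l := l)
    (by simp) (fun t ht => hRg _ (key t ht).1 (key t ht).2) (fun t ht => by
      obtain ⟨k1, k2⟩ := key t ht
      have d1 : HasDerivAt (fun t => r1 / 2 * Real.exp t) (r1 / 2 * Real.exp t) t :=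
        (Real.hasDerivAt_exp t).const_mul _
      have d2 := hasDerivAt_zl L k1 (k2.trans_le hre) (hpos _ (by rwa [abs_of_pos k1])).1
      have d3 := d2.scomp t d1
      refine d3.congr_deriv ?_
      rw [smul_smul, mul_inv_cancel₀ k1.ne', one_smul])
  refine ⟨h.1, ?_⟩
  rw [G, ← hl, h.2, hexp]

include hr1 hre hpos hRg in
lemma mem_dom_G {r : ℝ} (h0 : 0 < r) :
    (zl L (r1 / 2), Real.log (r / (r1 / 2))) ∈ dom V Rg := by
  rcases lt_or_ge r r1 with h | h
  · exact (local_flow hr1 hre hpos hRg h0 h).1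
  · apply mem_dom (hRg _ (by linarith) (by linarith))
    apply Real.log_nonneg
    rw [le_div_iff₀ (by linarith)]
    linarith

include hr1 hre hpos hRg in
lemma G_mem {r : ℝ} (h0 : 0 < r) : G L r1 r ∈ Rg :=
  flow_mem isOpen_Rg contDiffOn_V1 (mem_dom_G hr1 hre hpos hRg h0)

include hr1 hre hpos hRg in
lemma G_snd {r : ℝ} (h0 : r1 / 2 ≤ r) : 1 < (G L r1 r).2 := by
  have hr : 0 < r := by linarith
  have hm := hRg (r1 / 2) (by linarith) (by linarith)
  have h := (bounds hm (t := Real.log (r / (r1 / 2))) (by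
    apply Real.log_nonneg
    rw [le_div_iff₀ (by linarith)]
    linarith) (mem_dom_G hr1 hre hpos hRg hr)).2.1
  have hb := (hpos (r1 / 2) (by rw [abs_of_pos (by linarith)]; linarith)).2
  have : 1 < (zl L (r1 / 2)).2 := by
    simp only [zl]
    have : 0 < r1 / 2 * L.b (r1 / 2) := by positivity
    linarith
  exact this.trans_le h

include hr1 hre hpos hRg in
lemma hasDerivAt_G {r : ℝ} (h0 : 0 < r) : HasDerivAt (G L r1) (r⁻¹ • V (G L r1 r)) r := by
  have d1 : HasDerivAt (fun r => Real.log (r / (r1 / 2))) r⁻¹ r := by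
    have h2 : HasDerivAt (fun r : ℝ => r / (r1 / 2)) (1 / (r1 / 2)) r :=
      (hasDerivAt_id r).div_const _
    refine (h2.log (by positivity)).congr_deriv ?_
    field_simp
  have d2 := hasDerivAt_flow isOpen_Rg contDiffOn_V1 (mem_dom_G hr1 hre hpos hRg h0)
  exact d2.scomp r d1

include hr1 hre hpos hRg in
lemma contDiffAt_G {r : ℝ} (h0 : 0 < r) : ContDiffAt ℝ ∞ (G L r1) r := by
  have hdom := mem_dom_G hr1 hre hpos hRg h0
  have h1 : ContDiffAt ℝ ∞ (flow V Rg) (zl L (r1 / 2), Real.log (r / (r1 / 2))) :=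
    (contDiffOn_flow (n := ⊤) (by exact_mod_cast le_top) isOpen_Rg contDiffOn_V).contDiffAt
      ((isOpen_dom isOpen_Rg contDiffOn_V1).mem_nhds hdom)
  have h2 : ContDiffAt ℝ ∞ (fun r : ℝ => (zl L (r1 / 2), Real.log (r / (r1 / 2)))) r := by
    refine contDiffAt_const.prodMk ?_
    exact (contDiffAt_id.div_const _).log (by positivity)
  exact h1.comp r h2

/-- global `a` -/
noncomputable def A (L : Loc) (r1 : ℝ) (s : ℝ) : ℝ :=
  if s < r1 / 2 then L.a s else 2 * (G L r1 s).1 / s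

/-- global `b` -/
noncomputable def B (L : Loc) (r1 : ℝ) (s : ℝ) : ℝ :=
  if s < r1 / 2 then L.b s else ((G L r1 s).2 - 1) / s

include hr1 hre hpos hRg in
lemma A_eq_local {s : ℝ} (h : s < r1) : A L r1 s = L.a s := by
  unfold A
  split_ifs with h1
  · rfl
  · have h0 : 0 < s := by linarith
    rw [(local_flow hr1 hre hpos hRg h0 h).2]
    simp only [zl]
    field_simp

include hr1 hre hpos hRg in
lemma B_eq_local {s : ℝ} (h : s < r1) : B L r1 s = L.b s := by
  unfold B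
  split_ifs with h1
  · rfl
  · have h0 : 0 < s := by linarith
    rw [(local_flow hr1 hre hpos hRg h0 h).2]
    simp only [zl]
    field_simp
    ring

include hr1 hre hpos hRg in
lemma A_eq_global {s : ℝ} (h : 0 < s) : A L r1 s = 2 * (G L r1 s).1 / s := by
  unfold A
  split_ifs with h1
  · rw [(local_flow hr1 hre hpos hRg h (by linarith)).2]
    simp only [zl]
    field_simp
  · rfl

include hr1 hre hpos hRg in
lemma B_eq_global {s : ℝ} (h : 0 < s) : B L r1 s = ((G L r1 s).2 - 1) / s := by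
  unfold B
  split_ifs with h1
  · rw [(local_flow hr1 hre hpos hRg h (by linarith)).2]
    simp only [zl]
    field_simp
    ring
  · rfl

include hr1 hre hpos hRg in
lemma contDiffOn_A : ContDiffOn ℝ ∞ (A L r1) (Ioi (-L.eps)) := by
  intro s hs
  apply ContDiffAt.contDiffWithinAt
  rcases lt_or_ge s r1 with h | h
  · refine (contDiffAt_a L hs (h.trans_le hre)).congr_of_eventuallyEq ?_
    filter_upwards [Iio_mem_nhds h] with y hy using A_eq_local hr1 hre hpos hRg hy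
  · have h0 : 0 < s := by linarith
    have h1 : ContDiffAt ℝ ∞ (fun s => 2 * (G L r1 s).1 / s) s :=
      (contDiffAt_const.mul (contDiffAt_G hr1 hre hpos hRg h0).fst).div contDiffAt_id h0.ne'
    refine h1.congr_of_eventuallyEq ?_
    filter_upwards [Ioi_mem_nhds h0] with y hy using A_eq_global hr1 hre hpos hRg hy

include hr1 hre hpos hRg in
lemma contDiffOn_B : ContDiffOn ℝ ∞ (B L r1) (Ioi (-L.eps)) := by
  intro s hs
  apply ContDiffAt.contDiffWithinAt
  rcases lt_or_ge s r1 with h | h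
  · refine (contDiffAt_b L hs (h.trans_le hre)).congr_of_eventuallyEq ?_
    filter_upwards [Iio_mem_nhds h] with y hy using B_eq_local hr1 hre hpos hRg hy
  · have h0 : 0 < s := by linarith
    have h1 : ContDiffAt ℝ ∞ (fun s => ((G L r1 s).2 - 1) / s) s :=
      ((contDiffAt_G hr1 hre hpos hRg h0).snd.sub contDiffAt_const).div contDiffAt_id h0.ne'
    refine h1.congr_of_eventuallyEq ?_
    filter_upwards [Ioi_mem_nhds h0] with y hy using B_eq_global hr1 hre hpos hRg hy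

include hr1 hre hpos hRg in
lemma A_pos {s : ℝ} (h : 0 ≤ s) : 0 < A L r1 s := by
  rcases lt_or_ge s r1 with h1 | h1
  · rw [A_eq_local hr1 hre hpos hRg h1]
    exact (hpos s (by rwa [abs_of_nonneg h])).1
  · have h0 : 0 < s := by linarith
    rw [A_eq_global hr1 hre hpos hRg h0]
    have := (G_mem hr1 hre hpos hRg h0).1
    positivity

include hr1 hre hpos hRg in
lemma B_pos {s : ℝ} (h : 0 ≤ s) : 0 < B L r1 s := by
  rcases lt_or_ge s r1 with h1 | h1
  · rw [B_eq_local hr1 hre hpos hRg h1]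
    exact (hpos s (by rwa [abs_of_nonneg h])).2
  · have h0 : 0 < s := by linarith
    rw [B_eq_global hr1 hre hpos hRg h0]
    have := G_snd hr1 hre hpos hRg (r := s) (by linarith)
    exact div_pos (by linarith) h0

include hr1 hre hpos hRg in
lemma hasDerivAt_A {s : ℝ} (h : 0 ≤ s) :
    HasDerivAt (A L r1) (A L r1 s * (B L r1 s - A L r1 s) / 2) s := by
  rcases lt_or_ge s r1 with h1 | h1
  · rw [A_eq_local hr1 hre hpos hRg h1, B_eq_local hr1 hre hpos hRg h1]
    refine (L.da s h (h1.trans_le hre)).congr_of_eventuallyEq ?_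
    filter_upwards [Iio_mem_nhds h1] with y hy using A_eq_local hr1 hre hpos hRg hy
  · have h0 : 0 < s := by linarith
    rw [A_eq_global hr1 hre hpos hRg h0, B_eq_global hr1 hre hpos hRg h0]
    have dG := hasDerivAt_G hr1 hre hpos hRg h0
    have dG1 : HasDerivAt (fun s => (G L r1 s).1) (s⁻¹ * ((G L r1 s).1 * P (G L r1 s) / 2)) s :=
      (hasDerivAt_iff_hasFDerivAt.1 dG).fst.hasDerivAt.congr_deriv (by simp [V])
    have d : HasDerivAt (fun s => 2 * (G L r1 s).1 / s)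
        ((2 * (s⁻¹ * ((G L r1 s).1 * P (G L r1 s) / 2)) * s - 2 * (G L r1 s).1 * 1) / s ^ 2) s :=
      (dG1.const_mul 2).div (hasDerivAt_id s) h0.ne'
    refine (d.congr_of_eventuallyEq ?_).congr_deriv ?_
    · filter_upwards [Ioi_mem_nhds h0] with y hy using A_eq_global hr1 hre hpos hRg hy
    · simp only [P]
      field_simp
      ring

include hr1 hre hpos hRg in
lemma hasDerivAt_sB {s : ℝ} (h : 0 ≤ s) :
    HasDerivAt (fun s => 1 + s * B L r1 s)
      ((1 + s * B L r1 s) * (A L r1 s - 9 * B L r1 s +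
        12 * A L r1 s * (1 + 2 * s * B L r1 s) / (9 + 2 * s * A L r1 s)) / 2) s := by
  rcases lt_or_ge s r1 with h1 | h1
  · rw [A_eq_local hr1 hre hpos hRg h1, B_eq_local hr1 hre hpos hRg h1]
    refine (L.db s h (h1.trans_le hre)).congr_of_eventuallyEq ?_
    filter_upwards [Iio_mem_nhds h1] with y hy
    rw [B_eq_local hr1 hre hpos hRg hy]
  · have h0 : 0 < s := by linarith
    rw [A_eq_global hr1 hre hpos hRg h0, B_eq_global hr1 hre hpos hRg h0]
    have dG := hasDerivAt_G hr1 hre hpos hRg h0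
    have dG2 : HasDerivAt (fun s => (G L r1 s).2)
        (s⁻¹ * ((G L r1 s).2 * Q (G L r1 s) / (2 * (9 + 4 * (G L r1 s).1)))) s :=
      (hasDerivAt_iff_hasFDerivAt.1 dG).snd.hasDerivAt.congr_deriv (by simp [V])
    have hG1 := (G_mem hr1 hre hpos hRg h0).1
    have h9 : 9 + 4 * (G L r1 s).1 ≠ 0 := by positivity
    have h9' : 9 + 2 * s * (2 * (G L r1 s).1 / s) ≠ 0 := by positivity
    refine (dG2.congr_of_eventuallyEq ?_).congr_deriv ?_
    · filter_upwards [Ioi_mem_nhds h0] with y hy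
      have hy' : y ≠ 0 := ne_of_gt hy
      rw [B_eq_global hr1 hre hpos hRg hy]
      field_simp
      ring
    · have e9 : 9 + 2 * s * (2 * (G L r1 s).1 / s) = 9 + 4 * (G L r1 s).1 := by
        field_simp
        ring
      rw [e9]
      simp only [Q]
      field_simp
      ring

include hr1 hre hpos hRg in
lemma hasDerivAt_int {s : ℝ} (h : -L.eps < s) :
    HasDerivAt (fun s => ∫ t in (0:ℝ)..s, A L r1 t) (A L r1 s) s := by
  have hc := (contDiffOn_A hr1 hre hpos hRg).continuousOn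
  have h0 : -L.eps < 0 := by linarith [L.heps]
  have hsub : uIcc 0 s ⊆ Ioi (-L.eps) := by
    intro y hy
    rcases le_total 0 s with h1 | h1
    · rw [uIcc_of_le h1] at hy; exact lt_of_lt_of_le h0 hy.1
    · rw [uIcc_of_ge h1] at hy; exact lt_of_lt_of_le h hy.1
  refine intervalIntegral.integral_hasDerivAt_right (hc.mono hsub).intervalIntegrable ?_ ?_
  · exact hc.stronglyMeasurableAtFilter isOpen_Ioi s h
  · exact hc.continuousAt (Ioi_mem_nhds h)

include hr1 hre hpos hRg in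
lemma contDiffOn_int : ContDiffOn ℝ ∞ (fun s => ∫ t in (0:ℝ)..s, A L r1 t) (Ioi (-L.eps)) := by
  rw [contDiffOn_infty_iff_deriv_of_isOpen isOpen_Ioi]
  refine ⟨fun s hs => (hasDerivAt_int hr1 hre hpos hRg hs).differentiableAt.differentiableWithinAt,
    (contDiffOn_A hr1 hre hpos hRg).congr ?_⟩
  intro s hs
  exact (hasDerivAt_int hr1 hre hpos hRg hs).deriv

end glue

end Crest.Agent.R236.Ex.Glob

namespace Crest.Agent.R236.Ex

open Glob in
/-- Every local solution extends to a global profile. -/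
theorem prof_of_loc (L : Loc) : Nonempty GProf := by
  obtain ⟨r1, hr1, hre, hpos, hRg⟩ := exists_r1 L
  refine ⟨{
    e := L.eps
    g := fun s => Real.exp (∫ t in (0:ℝ)..s, A L r1 t)
    a := A L r1
    b := B L r1
    he := L.heps
    sg := (contDiffOn_int hr1 hre hpos hRg).exp
    sa := contDiffOn_A hr1 hre hpos hRg
    sb := contDiffOn_B hr1 hre hpos hRg
    g_pos := fun s _ => Real.exp_pos _
    a_pos := fun s hs => A_pos hr1 hre hpos hRg hs
    b_pos := fun s hs => B_pos hr1 hre hpos hRg hs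
    dg := fun s hs => ?_
    da := fun s hs => hasDerivAt_A hr1 hre hpos hRg hs
    db := fun s hs => hasDerivAt_sB hr1 hre hpos hRg hs }⟩
  have := (hasDerivAt_int hr1 hre hpos hRg (s := s) (by linarith [L.heps])).exp
  exact this.congr_deriv (by ring)

end Crest.Agent.R236.Ex
end

-- ▼ part R236/ExC
section

/-!
Row 236, S0366, part (C): from the scalar ODE to the affine maximal equation on `ℝ¹⁰`
for `u = √(g(|x'|²) + x₁₀²)`.
-/

set_option autoImplicit false
open scoped ContDiff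
open Crest.GeometryTopology.CoordMetric Crest.GeometryTopology.AffineMaximal

noncomputable section
namespace Crest.Agent.R236.Ex

abbrev E10 := EuclideanSpace ℝ (Fin 10)

/-- sum of squares of the first nine coordinates -/
def S (x : E10) : ℝ := ∑ i : Fin 9, (x (Fin.castSucc i)) ^ 2

def cv (x : E10) : Fin 10 → ℝ := fun i => if i = 9 then 0 else 2 * x i

def dv : Fin 10 → ℝ := fun i => if i = 9 then 1 else 0

/-- diagonal of the projection on the first nine coordinates -/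
def pv : Fin 10 → ℝ := fun i => if i = 9 then 0 else 1

/-- coordinate functional -/
def pr (i : Fin 10) : E10 →L[ℝ] ℝ := EuclideanSpace.proj (𝕜 := ℝ) i

def dS (x : E10) : E10 →L[ℝ] ℝ :=
  ∑ i : Fin 9, (2 * x (Fin.castSucc i)) • pr (Fin.castSucc i)

def dcv (i : Fin 10) : E10 →L[ℝ] ℝ := (if i = 9 then (0 : ℝ) else 2) • pr i

def p9 : E10 →L[ℝ] ℝ := pr 9

lemma S_nonneg (x : E10) : 0 ≤ S x := Finset.sum_nonneg (fun i _ => sq_nonneg _)

lemma hasFDerivAt_coord (i : Fin 10) (x : E10) :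
    HasFDerivAt (fun x : E10 => x i) (pr i) x :=
  (pr i).hasFDerivAt

lemma hasFDerivAt_S (x : E10) : HasFDerivAt S (dS x) x := by
  unfold S dS
  have := HasFDerivAt.fun_sum (u := (Finset.univ : Finset (Fin 9)))
    (A := fun i (x : E10) => (x (Fin.castSucc i)) ^ 2)
    (A' := fun i => (2 * x (Fin.castSucc i)) • pr (Fin.castSucc i)) (x := x)
    (by
      intro i _
      have h := (hasFDerivAt_coord (Fin.castSucc i) x).pow 2
      simpa [smul_smul] using h)
  exact this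

lemma hasFDerivAt_cv (i : Fin 10) (x : E10) : HasFDerivAt (fun x => cv x i) (dcv i) x := by
  unfold cv dcv
  by_cases h : i = 9
  · simp only [h, if_true, zero_smul]
    exact hasFDerivAt_const _ _
  · simp only [h, if_false]
    exact (hasFDerivAt_coord i x).const_mul 2

lemma hasFDerivAt_y (x : E10) : HasFDerivAt (fun x : E10 => x 9) p9 x := hasFDerivAt_coord 9 x

lemma proj_single (i j : Fin 10) :
    pr i (EuclideanSpace.single j 1) = if i = j then 1 else 0 := by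
  change (EuclideanSpace.single j (1 : ℝ)) i = _
  simp

lemma p9_single (j : Fin 10) : p9 (EuclideanSpace.single j 1) = dv j := by
  rw [p9, proj_single, dv]
  simp [eq_comm]

lemma dcv_single (i j : Fin 10) : dcv i (EuclideanSpace.single j 1) = if i = j then 2 * pv i else 0 := by
  simp only [dcv, pv, smul_apply, proj_single, smul_eq_mul]
  by_cases h : i = j
  · subst h
    by_cases h9 : i = 9 <;> simp [h9]
  · simp [h]

lemma dS_single (x : E10) (j : Fin 10) : dS x (EuclideanSpace.single j 1) = cv x j := by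
  simp only [dS, sum_apply, smul_apply, proj_single, smul_eq_mul, cv]
  induction j using Fin.lastCases with
  | last =>
    have h9 : (Fin.last 9 : Fin 10) = 9 := rfl
    simp only [h9, if_true]
    apply Finset.sum_eq_zero
    intro i _
    have hne : Fin.castSucc i ≠ (9 : Fin 10) := by
      have := Fin.castSucc_lt_last i
      rw [h9] at this
      exact ne_of_lt this
    simp [hne]
  | cast k =>
    have hne : Fin.castSucc k ≠ (9 : Fin 10) := by
      have := Fin.castSucc_lt_last k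
      exact ne_of_lt this
    simp only [hne, if_false]
    rw [Finset.sum_eq_single k]
    · simp
    · intro i _ hik
      have : Fin.castSucc i ≠ Fin.castSucc k := fun h => hik (Fin.castSucc_injective _ h)
      rw [if_neg this]; simp
    · simp

/-- algebra of the vectors `cv`, `dv`, `pv` -/
lemma cv_mul_dv (x : E10) (i : Fin 10) : cv x i * dv i = 0 := by
  unfold cv dv; by_cases h : i = 9 <;> simp [h]

lemma pv_mul_dv (i : Fin 10) : pv i * dv i = 0 := by
  unfold pv dv; by_cases h : i = 9 <;> simp [h]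

lemma pv_mul_cv (x : E10) (i : Fin 10) : pv i * cv x i = cv x i := by
  unfold cv pv; by_cases h : i = 9 <;> simp [h]

lemma pv_mul_pv (i : Fin 10) : pv i * pv i = pv i := by
  unfold pv; by_cases h : i = 9 <;> simp [h]

lemma dv_mul_dv (i : Fin 10) : dv i * dv i = dv i := by
  unfold dv; by_cases h : i = 9 <;> simp [h]

lemma sum_dv : ∑ i, dv i = 1 := by
  simp [dv]

lemma sum_pv : ∑ i, pv i = 9 := by
  simp [pv, Finset.sum_ite, Finset.filter_ne']

lemma sum_cv_sq (x : E10) : ∑ i, cv x i * cv x i = 4 * S x := by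
  rw [Fin.sum_univ_castSucc]
  have h9 : cv x (Fin.last 9) = 0 := by
    simp [cv]
  rw [h9, S, Finset.mul_sum]
  simp only [mul_zero, add_zero]
  apply Finset.sum_congr rfl
  intro i _
  have hne : Fin.castSucc i ≠ (9 : Fin 10) := ne_of_lt (Fin.castSucc_lt_last i)
  simp only [cv, hne, if_false]; ring

lemma pv_add_dv (i : Fin 10) : pv i + dv i = 1 := by
  unfold pv dv; by_cases h : i = 9 <;> simp [h]

end Crest.Agent.R236.Ex
end
end

-- ▼ part R236/ExM
section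

/-!
Row 236, S0366: linear algebra of the matrices `α P + β cc + γ (cd+dc) + δ dd`.
-/

set_option autoImplicit false
open scoped ContDiff

noncomputable section
namespace Crest.Agent.R236.Ex

def Idp (i j : Fin 10) : ℝ := if i = j then pv i else 0

/-- the matrix family -/
def MM (α β γ δ : ℝ) (x : E10) : Matrix (Fin 10) (Fin 10) ℝ := fun i j =>
  α * Idp i j + β * (cv x i * cv x j) + γ * (cv x i * dv j + dv i * cv x j) + δ * (dv i * dv j)

lemma Idp_symm (i j : Fin 10) : Idp i j = Idp j i := by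
  unfold Idp
  by_cases h : i = j
  · subst h; rfl
  · rw [if_neg h, if_neg (Ne.symm h)]

lemma sum_Idp_mul (i : Fin 10) (f : Fin 10 → ℝ) : ∑ j, Idp i j * f j = pv i * f i := by
  unfold Idp
  rw [Finset.sum_eq_single i]
  · simp
  · intro j _ hj; rw [if_neg (Ne.symm hj)]; simp
  · simp

lemma sum_mul_Idp (k : Fin 10) (f : Fin 10 → ℝ) : ∑ j, f j * Idp j k = f k * pv k := by
  have := sum_Idp_mul k f
  calc ∑ j, f j * Idp j k = ∑ j, Idp k j * f j := by
        apply Finset.sum_congr rfl; intro j _; rw [Idp_symm]; ring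
    _ = pv k * f k := this
    _ = _ := by ring

lemma sum_Idp_Idp (i k : Fin 10) : ∑ j, Idp i j * Idp j k = Idp i k := by
  rw [sum_Idp_mul]
  unfold Idp
  by_cases h : i = k
  · subst h; simp [pv_mul_pv]
  · simp [h]

lemma sum_cc (x : E10) : ∑ j, cv x j * cv x j = 4 * S x := sum_cv_sq x
lemma sum_cd (x : E10) : ∑ j, cv x j * dv j = 0 :=
  Finset.sum_eq_zero (fun j _ => cv_mul_dv x j)
lemma sum_dd : ∑ j, dv j * dv j = 1 := by
  simp only [dv_mul_dv]; exact sum_dv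

lemma MM_mul (α β γ δ α' β' γ' δ' : ℝ) (x : E10) :
    MM α β γ δ x * MM α' β' γ' δ' x = fun i k =>
      α * α' * Idp i k
      + (α * β' + β * α' + β * β' * (4 * S x) + γ * γ') * (cv x i * cv x k)
      + (α * γ' + β * γ' * (4 * S x) + γ * δ') * (cv x i * dv k)
      + (γ * α' + γ * β' * (4 * S x) + δ * γ') * (dv i * cv x k)
      + (γ * γ' * (4 * S x) + δ * δ') * (dv i * dv k) := by
  ext i k
  rw [Matrix.mul_apply]
  have h : ∀ j, MM α β γ δ x i j * MM α' β' γ' δ' x j k =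
      α * α' * (Idp i j * Idp j k)
      + α * ((β' * cv x k + γ' * dv k) * (Idp i j * cv x j) + (γ' * cv x k + δ' * dv k) * (Idp i j * dv j))
      + α' * ((β * cv x i + γ * dv i) * (cv x j * Idp j k) + (γ * cv x i + δ * dv i) * (dv j * Idp j k))
      + (β * cv x i + γ * dv i) * (β' * cv x k + γ' * dv k) * (cv x j * cv x j)
      + ((β * cv x i + γ * dv i) * (γ' * cv x k + δ' * dv k)
          + (γ * cv x i + δ * dv i) * (β' * cv x k + γ' * dv k)) * (cv x j * dv j)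
      + (γ * cv x i + δ * dv i) * (γ' * cv x k + δ' * dv k) * (dv j * dv j) := by
    intro j; simp only [MM]; ring
  simp only [h, Finset.sum_add_distrib, ← Finset.mul_sum, sum_Idp_Idp, sum_Idp_mul, sum_mul_Idp,
    sum_cc, sum_cd, sum_dd, pv_mul_dv, pv_mul_cv]
  have h1 : cv x k * pv k = cv x k := by rw [mul_comm]; exact pv_mul_cv x k
  have h2 : dv k * pv k = 0 := by rw [mul_comm]; exact pv_mul_dv k
  rw [h1, h2]
  ring

lemma one_eq : (1 : Matrix (Fin 10) (Fin 10) ℝ) = fun i k => Idp i k + dv i * dv k := by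
  ext i k
  unfold Idp
  by_cases h : i = k
  · subst h
    simp only [Matrix.one_apply_eq, if_true, dv_mul_dv]
    exact (pv_add_dv i).symm
  · simp only [Matrix.one_apply_ne h, if_neg h, zero_add]
    unfold dv
    by_cases h1 : i = 9
    · have : k ≠ 9 := fun hk => h (h1.trans hk.symm)
      simp [this]
    · simp [h1]

lemma MM_inv (α β γ δ : ℝ) (x : E10) (hα : α ≠ 0)
    (hΔ : (α + β * (4 * S x)) * δ - γ ^ 2 * (4 * S x) ≠ 0) :
    (MM α β γ δ x)⁻¹ = MM (1 / α)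
      ((γ ^ 2 - β * δ) / (α * ((α + β * (4 * S x)) * δ - γ ^ 2 * (4 * S x))))
      (-γ / ((α + β * (4 * S x)) * δ - γ ^ 2 * (4 * S x)))
      ((α + β * (4 * S x)) / ((α + β * (4 * S x)) * δ - γ ^ 2 * (4 * S x))) x := by
  apply Matrix.inv_eq_right_inv
  rw [MM_mul, one_eq]
  ext i k
  set n := 4 * S x
  set Δ := (α + β * n) * δ - γ ^ 2 * n with hΔd
  have e1 : α * (1 / α) = 1 := by field_simp
  have e2 : α * ((γ ^ 2 - β * δ) / (α * Δ)) + β * (1 / α) + β * ((γ ^ 2 - β * δ) / (α * Δ)) * n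
      + γ * (-γ / Δ) = 0 := by
    field_simp
    rw [hΔd]; ring
  have e3 : α * (-γ / Δ) + β * (-γ / Δ) * n + γ * ((α + β * n) / Δ) = 0 := by
    field_simp; ring
  have e4 : γ * (1 / α) + γ * ((γ ^ 2 - β * δ) / (α * Δ)) * n + δ * (-γ / Δ) = 0 := by
    field_simp
    rw [hΔd]; ring
  have e5 : γ * (-γ / Δ) * n + δ * ((α + β * n) / Δ) = 1 := by
    field_simp
    rw [hΔd]; ring
  rw [e1, e2, e3, e4, e5]
  ring

lemma sum_Idp_diag : ∑ i, Idp i i = 9 := by
  simp only [Idp, if_true]; exact sum_pv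

lemma frob (α β γ δ α' β' γ' δ' : ℝ) (x : E10) :
    ∑ i, ∑ j, MM α β γ δ x i j * MM α' β' γ' δ' x i j =
      9 * (α * α') + (α * β' + β * α' + β * β' * (4 * S x)) * (4 * S x) + 2 * (γ * γ') * (4 * S x)
        + δ * δ' := by
  have hs : ∀ i j, MM α' β' γ' δ' x i j = MM α' β' γ' δ' x j i := by
    intro i j; simp only [MM]; rw [Idp_symm]; ring
  have h1 : ∑ i, ∑ j, MM α β γ δ x i j * MM α' β' γ' δ' x i j =
      ∑ i, (MM α β γ δ x * MM α' β' γ' δ' x) i i := by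
    apply Finset.sum_congr rfl; intro i _
    rw [Matrix.mul_apply]
    apply Finset.sum_congr rfl; intro j _
    rw [hs i j]
  rw [h1, MM_mul]
  simp only [Finset.sum_add_distrib, ← Finset.mul_sum, sum_Idp_diag, sum_cc, sum_cd, sum_dd]
  have h2 : ∑ i, dv i * cv x i = 0 := by
    rw [← sum_cd x]; apply Finset.sum_congr rfl; intro i _; ring
  rw [h2]; ring

lemma MM_det (α β γ δ : ℝ) (x : E10) (hα : α ≠ 0) (hδ : δ ≠ 0) :
    (MM α β γ δ x).det = α ^ 8 * ((α + β * (4 * S x)) * δ - γ ^ 2 * (4 * S x)) := by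
  set A : Matrix (Fin 10) (Fin 10) ℝ := Matrix.diagonal (fun i => if i = 9 then δ else α) with hA
  set U : Matrix (Fin 10) (Fin 2) ℝ := fun i k => if k = 0 then cv x i / α else dv i / δ with hU
  set V : Matrix (Fin 2) (Fin 10) ℝ := fun k j =>
    if k = 0 then β * cv x j + γ * dv j else γ * cv x j with hV
  have hfac : MM α β γ δ x = A * (1 + U * V) := by
    ext i j
    rw [mul_add, Matrix.mul_one, Matrix.add_apply]
    have h1 : (A * (U * V)) i j = (if i = 9 then δ else α) *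
        (cv x i / α * (β * cv x j + γ * dv j) + dv i / δ * (γ * cv x j)) := by
      rw [hA, Matrix.diagonal_mul, Matrix.mul_apply]
      simp [hU, hV, Fin.sum_univ_two]
    rw [h1, hA, Matrix.diagonal_apply]
    unfold MM Idp
    by_cases h9 : i = 9
    · have hc : cv x i = 0 := by simp [cv, h9]
      have hd : dv i = 1 := by simp [dv, h9]
      have hp : pv i = 0 := by simp [pv, h9]
      rw [hc, hd, hp]
      simp only [h9, if_true]
      by_cases hj : (9 : Fin 10) = j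
      · subst hj; simp [dv, cv]
      · have : dv j = 0 := by simp [dv, Ne.symm hj]
        rw [this]; simp [hj]; field_simp
    · have hd : dv i = 0 := by simp [dv, h9]
      have hp : pv i = 1 := by simp [pv, h9]
      rw [hd, hp]
      simp only [h9, if_false]
      by_cases hj : i = j
      · simp [hj]; first | (field_simp; ring) | field_simp
      · simp [hj]; first | (field_simp; ring) | field_simp
  rw [hfac, Matrix.det_mul, Matrix.det_one_add_mul_comm, hA, Matrix.det_diagonal]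
  have hprod : ∏ i : Fin 10, (if i = 9 then δ else α) = α ^ 9 * δ := by
    rw [Fin.prod_univ_castSucc]
    have : ∀ i : Fin 9, (if (Fin.castSucc i) = (9 : Fin 10) then δ else α) = α := by
      intro i
      have hne : Fin.castSucc i ≠ (9 : Fin 10) := ne_of_lt (Fin.castSucc_lt_last i)
      simp [hne]
    simp only [this, Finset.prod_const, Finset.card_univ, Fintype.card_fin]
    have h9 : (Fin.last 9 : Fin 10) = 9 := rfl
    simp [h9]
  rw [hprod, Matrix.det_fin_two]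
  have v00 : (V * U) 0 0 = β * (4 * S x) / α := by
    rw [Matrix.mul_apply]
    have : ∀ j, V 0 j * U j 0 = (β / α) * (cv x j * cv x j) + (γ / α) * (cv x j * dv j) := by
      intro j; simp [hU, hV]; ring
    simp only [this, Finset.sum_add_distrib, ← Finset.mul_sum, sum_cc, sum_cd]; ring
  have v01 : (V * U) 0 1 = γ / δ := by
    rw [Matrix.mul_apply]
    have : ∀ j, V 0 j * U j 1 = (β / δ) * (cv x j * dv j) + (γ / δ) * (dv j * dv j) := by
      intro j; simp [hU, hV]; ring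
    simp only [this, Finset.sum_add_distrib, ← Finset.mul_sum, sum_dd, sum_cd]; ring
  have v10 : (V * U) 1 0 = γ * (4 * S x) / α := by
    rw [Matrix.mul_apply]
    have : ∀ j, V 1 j * U j 0 = (γ / α) * (cv x j * cv x j) := by
      intro j; simp [hU, hV]; ring
    simp only [this, ← Finset.mul_sum, sum_cc]; ring
  have v11 : (V * U) 1 1 = 0 := by
    rw [Matrix.mul_apply]
    have : ∀ j, V 1 j * U j 1 = (γ / δ) * (cv x j * dv j) := by
      intro j; simp [hU, hV]; ring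
    simp only [this, ← Finset.mul_sum, sum_cd]; ring
  simp only [Matrix.add_apply, v00, v01, v10, v11, Matrix.one_apply_eq]
  rw [Matrix.one_apply_ne (by decide : (0 : Fin 2) ≠ 1), Matrix.one_apply_ne (by decide : (1 : Fin 2) ≠ 0)]
  field_simp
  ring

lemma MM_posDef (α β γ δ : ℝ) (x : E10) (hα : 0 < α) (hδ : 0 < δ)
    (hΔ : 0 < (α + β * (4 * S x)) * δ - γ ^ 2 * (4 * S x)) :
    (MM α β γ δ x).PosDef := by
  set n := 4 * S x with hn
  have hn0 : 0 ≤ n := by have := S_nonneg x; positivity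
  apply Matrix.PosDef.of_dotProduct_mulVec_pos
  · ext i j
    simp only [Matrix.conjTranspose_apply, star_trivial, MM]
    rw [Idp_symm]; ring
  · intro v hv
    simp only [star_trivial]
    set p := ∑ i, cv x i * v i with hp
    set q := ∑ i, dv i * v i with hq
    set w := ∑ i, pv i * (v i * v i) with hw
    have hform : v ⬝ᵥ (MM α β γ δ x).mulVec v = α * w + β * p ^ 2 + 2 * γ * (p * q) + δ * q ^ 2 := by
      simp only [dotProduct, Matrix.mulVec]
      have h1 : ∀ i, ∑ j, MM α β γ δ x i j * v j =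
          α * (pv i * v i) + β * cv x i * p + γ * (cv x i * q + dv i * p) + δ * dv i * q := by
        intro i
        have : ∀ j, MM α β γ δ x i j * v j = α * (Idp i j * v j) + (β * cv x i + γ * dv i) * (cv x j * v j)
            + (γ * cv x i + δ * dv i) * (dv j * v j) := by
          intro j; simp only [MM]; ring
        simp only [this, Finset.sum_add_distrib, ← Finset.mul_sum, sum_Idp_mul]
        rw [← hp, ← hq]; ring
      simp only [h1]
      have h2 : ∀ i, v i * (α * (pv i * v i) + β * cv x i * p + γ * (cv x i * q + dv i * p) + δ * dv i * q)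
          = α * (pv i * (v i * v i)) + (β * p + γ * q) * (cv x i * v i) + (γ * p + δ * q) * (dv i * v i) := by
        intro i; ring
      simp only [h2, Finset.sum_add_distrib, ← Finset.mul_sum]
      rw [← hp, ← hq, ← hw]; ring
    rw [hform]
    have hw0 : 0 ≤ w := by
      apply Finset.sum_nonneg; intro i _
      have : 0 ≤ pv i := by unfold pv; split_ifs <;> norm_num
      exact mul_nonneg this (mul_self_nonneg _)
    -- Cauchy-Schwarz
    have hcs : p ^ 2 ≤ n * w := by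
      have h := Finset.sum_mul_sq_le_sq_mul_sq Finset.univ (fun i => cv x i) (fun i => pv i * v i)
      have e1 : ∑ i, cv x i * (pv i * v i) = p := by
        rw [hp]; apply Finset.sum_congr rfl; intro i _
        have := pv_mul_cv x i
        calc cv x i * (pv i * v i) = (pv i * cv x i) * v i := by ring
          _ = _ := by rw [this]
      have e2 : ∑ i, (cv x i) ^ 2 = n := by
        rw [hn, ← sum_cc]; apply Finset.sum_congr rfl; intro i _; ring
      have e3 : ∑ i, (pv i * v i) ^ 2 = w := by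
        rw [hw]; apply Finset.sum_congr rfl; intro i _
        have := pv_mul_pv i
        calc (pv i * v i) ^ 2 = (pv i * pv i) * (v i * v i) := by ring
          _ = _ := by rw [this]
      rw [e1, e2, e3] at h
      exact h
    have hpos : 0 < w ∨ q ≠ 0 := by
      by_contra hcon
      push Not at hcon
      have hw' : w = 0 := le_antisymm hcon.1 hw0
      apply hv
      ext i
      by_cases h9 : i = 9
      · subst h9
        have : q = v 9 := by
          rw [hq]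
          simp [dv]
        rw [← this]; simpa using hcon.2
      · have hz := (Finset.sum_eq_zero_iff_of_nonneg (fun i _ => by
            have : 0 ≤ pv i := by unfold pv; split_ifs <;> norm_num
            exact mul_nonneg this (mul_self_nonneg (v i)))).1 hw' i (Finset.mem_univ i)
        have hpi : pv i = 1 := by simp [pv, h9]
        rw [hpi, one_mul] at hz
        simpa using mul_self_eq_zero.1 hz
    by_cases hn1 : n = 0
    · have hp0 : p = 0 := by
        have : p ^ 2 ≤ 0 := by rw [hn1] at hcs; simpa using hcs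
        exact pow_eq_zero_iff (two_ne_zero) |>.1 (le_antisymm this (sq_nonneg _))
      rw [hp0]
      rcases hpos with h | h
      · have := mul_pos hα h
        nlinarith [mul_nonneg hδ.le (sq_nonneg q)]
      · have : 0 < δ * q ^ 2 := mul_pos hδ (by positivity)
        nlinarith [mul_nonneg hα.le hw0]
    · have hnpos : 0 < n := lt_of_le_of_ne hn0 (Ne.symm hn1)
      -- n * form ≥ (α + β n) p² + 2 γ n p q + δ n q² when w ≥ p²/n
      by_cases hpq : p = 0 ∧ q = 0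
      · rcases hpos with h | h
        · rw [hpq.1, hpq.2]
          have := mul_pos hα h
          nlinarith
        · exact absurd hpq.2 h
      · have key : 0 < (α + β * n) * p ^ 2 + 2 * (γ * n) * (p * q) + (δ * n) * q ^ 2 := by
          -- multiply by δ n > 0
          have hdn : 0 < δ * n := mul_pos hδ hnpos
          have h1 : (δ * n) * ((α + β * n) * p ^ 2 + 2 * (γ * n) * (p * q) + (δ * n) * q ^ 2) =
              n * ((α + β * n) * δ - γ ^ 2 * n) * p ^ 2 + (γ * n * p + δ * n * q) ^ 2 := by ring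
          have h2 : 0 < (δ * n) * ((α + β * n) * p ^ 2 + 2 * (γ * n) * (p * q) + (δ * n) * q ^ 2) := by
            rw [h1]
            by_cases hp0 : p = 0
            · have hq0 : q ≠ 0 := fun h => hpq ⟨hp0, h⟩
              rw [hp0]
              have : 0 < (δ * n * q) ^ 2 := by positivity
              nlinarith
            · have : 0 < n * ((α + β * n) * δ - γ ^ 2 * n) * p ^ 2 := by positivity
              nlinarith [sq_nonneg (γ * n * p + δ * n * q)]
          exact (mul_pos_iff_of_pos_left hdn).1 h2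
        have h3 : 0 < n * (α * w + β * p ^ 2 + 2 * γ * (p * q) + δ * q ^ 2) := by
          have : α * p ^ 2 ≤ α * (n * w) := mul_le_mul_of_nonneg_left hcs hα.le
          nlinarith
        exact (mul_pos_iff_of_pos_left hnpos).1 h3

end Crest.Agent.R236.Ex
end
end

-- ▼ part R236/ExU
section

/-!
Row 236, S0366, part (C): the function `u = √(g(|x'|²) + x₁₀²)`, its Hessian, and the affine
maximal operator.
-/

set_option autoImplicit false
open scoped ContDiff
open Crest.GeometryTopology.CoordMetric Crest.GeometryTopology.AffineMaximal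

noncomputable section
namespace Crest.Agent.R236.Ex

/-- `u` -/
def UU (g : ℝ → ℝ) (x : E10) : ℝ := Real.sqrt (g (S x) + (x 9) ^ 2)

/-- the scalar data -/
structure Dat (g g1 g2 ψ ψ1 ψ2 : ℝ → ℝ) : Prop where
  dg : ∀ s, 0 ≤ s → HasDerivAt g (g1 s) s
  dg1 : ∀ s, 0 ≤ s → HasDerivAt g1 (g2 s) s
  dψ : ∀ s, 0 ≤ s → HasDerivAt ψ (ψ1 s) s
  dψ1 : ∀ s, 0 ≤ s → HasDerivAt ψ1 (ψ2 s) s
  gpos : ∀ s, 0 ≤ s → 0 < g s
  g1pos : ∀ s, 0 ≤ s → 0 < g1 s
  Kpos : ∀ s, 0 ≤ s → 0 < g s * g1 s + s * (2 * g s * g2 s - g1 s ^ 2)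
  ψeq : ∀ s, 0 ≤ s → ψ s = (g1 s ^ 8 * (g s * g1 s + s * (2 * g s * g2 s - g1 s ^ 2))) ^ (-(11 : ℝ) / 12)
  ode : ∀ s, 0 ≤ s → 4 * s * g s * g1 s * ψ2 s +
    (16 * (g s * g1 s + s * (2 * g s * g2 s - g1 s ^ 2)) + 2 * g s * g1 s + 44 * s * g1 s ^ 2) * ψ1 s +
    110 * g1 s * (g1 s + 2 * s * g2 s) * ψ s = 0

variable {g g1 g2 ψ ψ1 ψ2 : ℝ → ℝ}

lemma E_pos (h : Dat g g1 g2 ψ ψ1 ψ2) (x : E10) : 0 < g (S x) + (x 9) ^ 2 := by
  have := h.gpos (S x) (S_nonneg x); positivity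

lemma UU_pos (h : Dat g g1 g2 ψ ψ1 ψ2) (x : E10) : 0 < UU g x := Real.sqrt_pos.2 (E_pos h x)

lemma UU_sq (h : Dat g g1 g2 ψ ψ1 ψ2) (x : E10) : UU g x ^ 2 = g (S x) + (x 9) ^ 2 :=
  Real.sq_sqrt (E_pos h x).le

lemma hasFDerivAt_compS {f f' : ℝ → ℝ} (x : E10) (hf : HasDerivAt f (f' (S x)) (S x)) :
    HasFDerivAt (fun x => f (S x)) (f' (S x) • dS x) x :=
  hf.comp_hasFDerivAt x (hasFDerivAt_S x)

/-- differential of `u` -/
def dU (g g1 : ℝ → ℝ) (x : E10) : E10 →L[ℝ] ℝ :=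
  (1 / (2 * UU g x)) • (g1 (S x) • dS x + (2 * x 9) • p9)

lemma hasFDerivAt_UU (h : Dat g g1 g2 ψ ψ1 ψ2) (x : E10) :
    HasFDerivAt (UU g) (dU g g1 x) x := by
  have h1 : HasFDerivAt (fun x : E10 => g (S x) + (x 9) ^ 2) (g1 (S x) • dS x + (2 * x 9) • p9) x := by
    have ha := hasFDerivAt_compS x (h.dg (S x) (S_nonneg x))
    have hb := (hasFDerivAt_y x).pow 2
    have h3 := ha.add hb
    have h4 : HasFDerivAt (fun x : E10 => g (S x) + (x 9) ^ 2) _ x := h3
    refine h4.congr_fderiv ?_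
    ext v
    simp
  exact h1.sqrt (E_pos h x).ne'

lemma dU_single (h : Dat g g1 g2 ψ ψ1 ψ2) (x : E10) (j : Fin 10) :
    dU g g1 x (EuclideanSpace.single j 1) =
      (g1 (S x) * cv x j + 2 * x 9 * dv j) / (2 * UU g x) := by
  have := UU_pos h x
  simp only [dU, smul_apply, add_apply, dS_single, p9_single, smul_eq_mul]
  field_simp

lemma pderiv_UU (h : Dat g g1 g2 ψ ψ1 ψ2) (j : Fin 10) (x : E10) :
    pderiv j (UU g) x = (g1 (S x) * cv x j + 2 * x 9 * dv j) / (2 * UU g x) := by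
  unfold pderiv
  rw [(hasFDerivAt_UU h x).fderiv]
  exact dU_single h x j

/-- gradient numerator -/
def AA (g1 : ℝ → ℝ) (j : Fin 10) (x : E10) : ℝ := g1 (S x) * cv x j + 2 * x 9 * dv j

def dA (g1 g2 : ℝ → ℝ) (j : Fin 10) (x : E10) : E10 →L[ℝ] ℝ :=
  g1 (S x) • dcv j + cv x j • (g2 (S x) • dS x) + (2 * dv j) • p9

lemma hasFDerivAt_AA (h : Dat g g1 g2 ψ ψ1 ψ2) (j : Fin 10) (x : E10) :
    HasFDerivAt (AA g1 j) (dA g1 g2 j x) x := by
  have ha := (hasFDerivAt_compS x (h.dg1 (S x) (S_nonneg x))).mul (hasFDerivAt_cv j x)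
  have hb := ((hasFDerivAt_y x).const_mul 2).mul_const (dv j)
  have := ha.add hb
  refine this.congr_fderiv ?_
  ext v
  simp only [dA, add_apply, smul_apply, smul_eq_mul]
  ring

lemma dA_single (x : E10) (i j : Fin 10) :
    dA g1 g2 j x (EuclideanSpace.single i 1) =
      2 * g1 (S x) * Idp i j + g2 (S x) * (cv x i * cv x j) + 2 * (dv i * dv j) := by
  simp only [dA, smul_apply, add_apply, dS_single, p9_single, dcv_single, smul_eq_mul]
  rw [Idp_symm]
  unfold Idp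
  by_cases hij : j = i
  · simp [hij]; ring
  · simp [hij]; ring

lemma hess_UU (h : Dat g g1 g2 ψ ψ1 ψ2) (x : E10) :
    hessianMat (UU g) x = MM (g1 (S x) / UU g x)
      (g2 (S x) / (2 * UU g x) - g1 (S x) ^ 2 / (4 * UU g x ^ 3))
      (-(g1 (S x) * x 9) / (2 * UU g x ^ 3))
      (1 / UU g x - (x 9) ^ 2 / UU g x ^ 3) x := by
  ext i j
  unfold hessianMat
  have hfun : (fun y => pderiv j (UU g) y) = fun y => AA g1 j y * ((1 / 2) * (UU g y)⁻¹) := by
    funext y; rw [pderiv_UU h]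
    have := UU_pos h y
    unfold AA
    field_simp
  rw [hfun]
  have hU := UU_pos h x
  have hinv : HasFDerivAt (fun y => (UU g y)⁻¹) (-((UU g x) ^ 2)⁻¹ • dU g g1 x) x :=
    (hasDerivAt_inv hU.ne').comp_hasFDerivAt x (hasFDerivAt_UU h x)
  have hd : HasFDerivAt (fun y => AA g1 j y * ((1 / 2) * (UU g y)⁻¹)) _ x :=
    (hasFDerivAt_AA h j x).mul (hinv.const_mul (1 / 2))
  unfold pderiv
  rw [hd.fderiv]
  simp only [smul_apply, add_apply, smul_eq_mul, dU_single h x i, dA_single]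
  unfold MM AA
  field_simp
  ring

/-- the scalar `K` -/
def KK (g g1 g2 : ℝ → ℝ) (s : ℝ) : ℝ := g s * g1 s + s * (2 * g s * g2 s - g1 s ^ 2)

lemma Delta_UU (h : Dat g g1 g2 ψ ψ1 ψ2) (x : E10) :
    (g1 (S x) / UU g x + (g2 (S x) / (2 * UU g x) - g1 (S x) ^ 2 / (4 * UU g x ^ 3)) * (4 * S x)) *
      (1 / UU g x - (x 9) ^ 2 / UU g x ^ 3) - (-(g1 (S x) * x 9) / (2 * UU g x ^ 3)) ^ 2 * (4 * S x)
      = KK g g1 g2 (S x) / UU g x ^ 4 := by
  have hU := UU_pos h x
  have hy : (x 9) ^ 2 = UU g x ^ 2 - g (S x) := by rw [UU_sq h]; ring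
  have e : (-(g1 (S x) * x 9) / (2 * UU g x ^ 3)) ^ 2 = g1 (S x) ^ 2 * (UU g x ^ 2 - g (S x)) / (4 * UU g x ^ 6) := by
    rw [← hy]; field_simp; ring
  rw [e, hy]
  unfold KK
  field_simp
  ring

lemma det_UU (h : Dat g g1 g2 ψ ψ1 ψ2) (x : E10) :
    (hessianMat (UU g) x).det = (g1 (S x) ^ 8 * KK g g1 g2 (S x)) / UU g x ^ 12 := by
  have hU := UU_pos h x
  have hg1 := h.g1pos (S x) (S_nonneg x)
  have hg := h.gpos (S x) (S_nonneg x)
  have hδ : (1 / UU g x - (x 9) ^ 2 / UU g x ^ 3) = g (S x) / UU g x ^ 3 := by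
    have hy : (x 9) ^ 2 = UU g x ^ 2 - g (S x) := by rw [UU_sq h]; ring
    rw [hy]; field_simp; ring
  rw [hess_UU h, MM_det _ _ _ _ x (by positivity) (by rw [hδ]; positivity), Delta_UU h]
  field_simp

lemma posDef_UU (h : Dat g g1 g2 ψ ψ1 ψ2) (x : E10) : (hessianMat (UU g) x).PosDef := by
  have hU := UU_pos h x
  have hg1 := h.g1pos (S x) (S_nonneg x)
  have hg := h.gpos (S x) (S_nonneg x)
  have hK := h.Kpos (S x) (S_nonneg x)
  have hδ : (1 / UU g x - (x 9) ^ 2 / UU g x ^ 3) = g (S x) / UU g x ^ 3 := by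
    have hy : (x 9) ^ 2 = UU g x ^ 2 - g (S x) := by rw [UU_sq h]; ring
    rw [hy]; field_simp; ring
  rw [hess_UU h]
  apply MM_posDef _ _ _ _ x (by positivity) (by rw [hδ]; positivity)
  rw [Delta_UU h]
  have : 0 < KK g g1 g2 (S x) := hK
  positivity

lemma detPower_UU (h : Dat g g1 g2 ψ ψ1 ψ2) :
    detPower 10 (UU g) = fun x => ψ (S x) * UU g x ^ 11 := by
  funext x
  unfold detPower
  have hU := UU_pos h x
  have hg1 := h.g1pos (S x) (S_nonneg x)
  have hK := h.Kpos (S x) (S_nonneg x)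
  have hK' : 0 < KK g g1 g2 (S x) := hK
  rw [det_UU h, h.ψeq (S x) (S_nonneg x)]
  have e : (-(((10 : ℕ) : ℝ) + 1) / (((10 : ℕ) : ℝ) + 2)) = -(11 : ℝ) / 12 := by norm_num
  rw [e, Real.div_rpow (by positivity) (by positivity)]
  have e2 : (UU g x ^ 12) ^ (-(11 : ℝ) / 12) = (UU g x ^ 11)⁻¹ := by
    rw [← Real.rpow_natCast (UU g x) 12, ← Real.rpow_mul hU.le, ← Real.rpow_natCast (UU g x) 11,
      ← Real.rpow_neg hU.le]
    congr 1; norm_num
  rw [e2]
  unfold KK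
  field_simp

/-- `w` and its gradient -/
def WW (g ψ : ℝ → ℝ) (x : E10) : ℝ := ψ (S x) * UU g x ^ 11

lemma pderiv_WW (h : Dat g g1 g2 ψ ψ1 ψ2) (j : Fin 10) (x : E10) :
    pderiv j (WW g ψ) x = ψ1 (S x) * cv x j * UU g x ^ 11 + 11 / 2 * (ψ (S x) * UU g x ^ 9) * AA g1 j x := by
  have hU := UU_pos h x
  have hd : HasFDerivAt (WW g ψ) _ x :=
    (hasFDerivAt_compS x (h.dψ (S x) (S_nonneg x))).mul ((hasFDerivAt_UU h x).pow 11)
  unfold pderiv
  rw [hd.fderiv]
  simp only [smul_apply, add_apply, smul_eq_mul, dU_single h x j, dS_single]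
  unfold AA
  field_simp
  ring

lemma hess_WW (h : Dat g g1 g2 ψ ψ1 ψ2) (x : E10) :
    hessianMat (WW g ψ) x = MM (2 * ψ1 (S x) * UU g x ^ 11 + 11 * ψ (S x) * UU g x ^ 9 * g1 (S x))
      (ψ2 (S x) * UU g x ^ 11 + 11 * ψ1 (S x) * g1 (S x) * UU g x ^ 9
        + 99 / 4 * ψ (S x) * UU g x ^ 7 * g1 (S x) ^ 2 + 11 / 2 * ψ (S x) * UU g x ^ 9 * g2 (S x))
      (11 * ψ1 (S x) * x 9 * UU g x ^ 9 + 99 / 2 * ψ (S x) * g1 (S x) * x 9 * UU g x ^ 7)
      (99 * ψ (S x) * (x 9) ^ 2 * UU g x ^ 7 + 11 * ψ (S x) * UU g x ^ 9) x := by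
  ext i j
  unfold hessianMat
  have hfun : (fun y => pderiv j (WW g ψ) y) = fun y => ψ1 (S y) * cv y j * UU g y ^ 11
      + 11 / 2 * (ψ (S y) * UU g y ^ 9) * AA g1 j y := by
    funext y; rw [pderiv_WW h]
  rw [hfun]
  have hU := UU_pos h x
  have hd : HasFDerivAt (fun y => ψ1 (S y) * cv y j * UU g y ^ 11
      + 11 / 2 * (ψ (S y) * UU g y ^ 9) * AA g1 j y) _ x :=
    (((hasFDerivAt_compS x (h.dψ1 (S x) (S_nonneg x))).mul (hasFDerivAt_cv j x)).mul
      ((hasFDerivAt_UU h x).pow 11)).add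
    ((((hasFDerivAt_compS x (h.dψ (S x) (S_nonneg x))).mul ((hasFDerivAt_UU h x).pow 9)).const_mul
      (11 / 2)).mul (hasFDerivAt_AA h j x))
  unfold pderiv
  rw [hd.fderiv]
  simp only [smul_apply, add_apply, smul_eq_mul, dU_single h x i, dA_single, dS_single, dcv_single,
    Pi.mul_apply]
  have hI : (if j = i then 2 * pv j else 0) = 2 * Idp i j := by
    rw [Idp_symm]; unfold Idp; split_ifs <;> ring
  rw [hI]
  unfold MM AA
  field_simp
  ring

lemma alg1 (α β γ δ αw βw γw δw n : ℝ) (hα : α ≠ 0) (hΔ : (α + β * n) * δ - γ ^ 2 * n ≠ 0) :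
    9 * (1 / α * αw) + (1 / α * βw + (γ ^ 2 - β * δ) / (α * ((α + β * n) * δ - γ ^ 2 * n)) * αw +
      (γ ^ 2 - β * δ) / (α * ((α + β * n) * δ - γ ^ 2 * n)) * βw * n) * n +
      2 * (-γ / ((α + β * n) * δ - γ ^ 2 * n) * γw) * n +
      (α + β * n) / ((α + β * n) * δ - γ ^ 2 * n) * δw =
    (8 * αw * ((α + β * n) * δ - γ ^ 2 * n) / α + δ * (αw + n * βw) - 2 * n * (γ * γw) +
      (α + β * n) * δw) / ((α + β * n) * δ - γ ^ 2 * n) := by
  generalize hDD : (α + β * n) * δ - γ ^ 2 * n = D at *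
  field_simp
  rw [← hDD]
  ring

lemma alg2 (U Y s g g1 g2 ψ ψ1 ψ2 : ℝ) (hU : 0 < U) (hg1 : 0 < g1) (hY : Y = U ^ 2 - g)
    (hode : 4 * s * g * g1 * ψ2 + (16 * (g * g1 + s * (2 * g * g2 - g1 ^ 2)) + 2 * g * g1
      + 44 * s * g1 ^ 2) * ψ1 + 110 * g1 * (g1 + 2 * s * g2) * ψ = 0) :
    8 * (2 * ψ1 * U ^ 11 + 11 * ψ * U ^ 9 * g1) * ((g * g1 + s * (2 * g * g2 - g1 ^ 2)) / U ^ 4) / (g1 / U)
      + (g / U ^ 3) * ((2 * ψ1 * U ^ 11 + 11 * ψ * U ^ 9 * g1) + (4 * s) * (ψ2 * U ^ 11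
        + 11 * ψ1 * g1 * U ^ 9 + 99 / 4 * ψ * U ^ 7 * g1 ^ 2 + 11 / 2 * ψ * U ^ 9 * g2))
      - 2 * (4 * s) * (-(g1 * Y) / (2 * U ^ 3) * (11 * ψ1 * U ^ 9 + 99 / 2 * ψ * g1 * U ^ 7))
      + (g1 / U + (g2 / (2 * U) - g1 ^ 2 / (4 * U ^ 3)) * (4 * s)) *
        (99 * ψ * Y * U ^ 7 + 11 * ψ * U ^ 9) = 0 := by
  subst hY
  have : 8 * (2 * ψ1 * U ^ 11 + 11 * ψ * U ^ 9 * g1) * ((g * g1 + s * (2 * g * g2 - g1 ^ 2)) / U ^ 4) / (g1 / U)
      + (g / U ^ 3) * ((2 * ψ1 * U ^ 11 + 11 * ψ * U ^ 9 * g1) + (4 * s) * (ψ2 * U ^ 11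
        + 11 * ψ1 * g1 * U ^ 9 + 99 / 4 * ψ * U ^ 7 * g1 ^ 2 + 11 / 2 * ψ * U ^ 9 * g2))
      - 2 * (4 * s) * (-(g1 * (U ^ 2 - g)) / (2 * U ^ 3) * (11 * ψ1 * U ^ 9 + 99 / 2 * ψ * g1 * U ^ 7))
      + (g1 / U + (g2 / (2 * U) - g1 ^ 2 / (4 * U ^ 3)) * (4 * s)) *
        (99 * ψ * (U ^ 2 - g) * U ^ 7 + 11 * ψ * U ^ 9) =
      U ^ 8 / g1 * (4 * s * g * g1 * ψ2 + (16 * (g * g1 + s * (2 * g * g2 - g1 ^ 2)) + 2 * g * g1
      + 44 * s * g1 ^ 2) * ψ1 + 110 * g1 * (g1 + 2 * s * g2) * ψ) := by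
    field_simp
    ring
  rw [this, hode, mul_zero]

theorem op_zero (h : Dat g g1 g2 ψ ψ1 ψ2) (x : E10) : affineMaximalOp 10 (UU g) x = 0 := by
  unfold affineMaximalOp
  have hW : detPower 10 (UU g) = WW g ψ := detPower_UU h
  rw [hW, hess_WW h, hess_UU h]
  have hU := UU_pos h x
  have hg1 := h.g1pos (S x) (S_nonneg x)
  have hg := h.gpos (S x) (S_nonneg x)
  have hK : 0 < KK g g1 g2 (S x) := h.Kpos (S x) (S_nonneg x)
  have hD := Delta_UU h x
  have hDne : (g1 (S x) / UU g x + (g2 (S x) / (2 * UU g x) - g1 (S x) ^ 2 / (4 * UU g x ^ 3)) * (4 * S x)) *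
      (1 / UU g x - (x 9) ^ 2 / UU g x ^ 3) - (-(g1 (S x) * x 9) / (2 * UU g x ^ 3)) ^ 2 * (4 * S x) ≠ 0 := by
    rw [hD]; positivity
  rw [MM_inv _ _ _ _ x (by positivity) hDne]
  have hpull : ∀ (d : ℝ) (B W : Matrix (Fin 10) (Fin 10) ℝ),
      ∑ i, ∑ j, d * B i j * W i j = d * ∑ i, ∑ j, B i j * W i j := by
    intro d B W
    rw [Finset.mul_sum]
    apply Finset.sum_congr rfl; intro i _
    rw [Finset.mul_sum]
    apply Finset.sum_congr rfl; intro j _
    ring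
  rw [hpull]
  apply mul_eq_zero_of_right
  rw [frob, alg1 _ _ _ _ _ _ _ _ _ (by positivity) hDne, hD]
  apply div_eq_zero_iff.2
  left
  have hy : (x 9) ^ 2 = UU g x ^ 2 - g (S x) := by rw [UU_sq h]; ring
  have hδ : (1 / UU g x - (x 9) ^ 2 / UU g x ^ 3) = g (S x) / UU g x ^ 3 := by
    rw [hy]; field_simp; ring
  have hγ : (-(g1 (S x) * x 9) / (2 * UU g x ^ 3)) * (11 * ψ1 (S x) * x 9 * UU g x ^ 9
      + 99 / 2 * ψ (S x) * g1 (S x) * x 9 * UU g x ^ 7) =
      -(g1 (S x) * (x 9) ^ 2) / (2 * UU g x ^ 3) * (11 * ψ1 (S x) * UU g x ^ 9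
        + 99 / 2 * ψ (S x) * g1 (S x) * UU g x ^ 7) := by
    ring
  rw [hδ, hγ]
  have := alg2 (UU g x) ((x 9) ^ 2) (S x) (g (S x)) (g1 (S x)) (g2 (S x)) (ψ (S x)) (ψ1 (S x)) (ψ2 (S x))
    hU hg1 hy (h.ode (S x) (S_nonneg x))
  unfold KK
  exact this

/-- nonquadratic -/
theorem not_quadratic (h : Dat g g1 g2 ψ ψ1 ψ2) :
    ¬ ∃ (A : Matrix (Fin 10) (Fin 10) ℝ) (b : EuclideanSpace ℝ (Fin 10)) (c : ℝ),
        ∀ x, UU g x = (1 / 2) * (∑ i, ∑ j, A i j * x i * x j) + (∑ i, b i * x i) + c := by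
  rintro ⟨A, b, c, hq⟩
  have hS : ∀ t : ℝ, S (EuclideanSpace.single (9 : Fin 10) t) = 0 := by
    intro t
    unfold S
    apply Finset.sum_eq_zero
    intro i _
    have hne : Fin.castSucc i ≠ (9 : Fin 10) := ne_of_lt (Fin.castSucc_lt_last i)
    simp [hne]
  have h9 : ∀ t : ℝ, (EuclideanSpace.single (9 : Fin 10) t) 9 = t := by intro t; simp
  have hv : ∀ t : ℝ, Real.sqrt (g 0 + t ^ 2) = (1 / 2) * (A 9 9 * t * t) + b 9 * t + c := by
    intro t
    have h1 := hq (EuclideanSpace.single (9 : Fin 10) t)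
    unfold UU at h1
    rw [hS, h9] at h1
    rw [h1]
    congr 2
    · congr 1
      rw [Finset.sum_eq_single (9 : Fin 10)]
      · rw [Finset.sum_eq_single (9 : Fin 10)]
        · simp
        · intro j _ hj; simp [hj]
        · simp
      · intro i _ hi
        apply Finset.sum_eq_zero; intro j _; simp [hi]
      · simp
    · rw [Finset.sum_eq_single (9 : Fin 10)]
      · simp
      · intro i _ hi; simp [hi]
      · simp
  have hg0 := h.gpos 0 le_rfl
  have hsq : ∀ t : ℝ, g 0 + t ^ 2 = ((1 / 2) * (A 9 9 * t * t) + b 9 * t + c) ^ 2 := by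
    intro t; rw [← hv t, Real.sq_sqrt (by positivity)]
  have e0 := hsq 0
  have hb : b 9 = 0 := by
    have h1 := hv 1
    have h2 := hv (-1)
    have : (1 : ℝ) ^ 2 = (-1) ^ 2 := by norm_num
    rw [this] at h1
    rw [h1] at h2
    linarith
  have e1 := hsq 1
  have e2 := hsq 2
  rw [hb] at e1 e2
  have hA : (A 9 9) ^ 2 = 0 := by nlinarith
  have hA' : A 9 9 = 0 := by simpa using hA
  rw [hA'] at e1
  nlinarith

end Crest.Agent.R236.Ex
end
end

-- ▼ part R236/ExTop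
section

/-!
Row 236, S0366: from the profile (solution of the planar system) to the entire affine maximal graph.
-/

set_option autoImplicit false
open scoped ContDiff
open Crest.GeometryTopology.CoordMetric Crest.GeometryTopology.AffineMaximal

noncomputable section
namespace Crest.Agent.R236.Ex

/-- logarithmic derivative of `ψ` -/
def LL (a b : ℝ → ℝ) (s : ℝ) : ℝ := -11 * (a s * (4 + s * a s + (1 + s * b s))) / (9 + 2 * (s * a s))

def PS (g a b : ℝ → ℝ) (s : ℝ) : ℝ := (a s ^ 9 * g s ^ 10 * (1 + s * b s)) ^ (-(11 : ℝ) / 12)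

def aD (a b : ℝ → ℝ) (s : ℝ) : ℝ := a s * (b s - a s) / 2

def sD (a b : ℝ → ℝ) (s : ℝ) : ℝ :=
  (1 + s * b s) * (a s - 9 * b s + 12 * a s * (1 + 2 * s * b s) / (9 + 2 * s * a s)) / 2

def LD (a b : ℝ → ℝ) (s : ℝ) : ℝ :=
  (-11 * (aD a b s * (4 + s * a s + (1 + s * b s)) + a s * ((a s + s * aD a b s) + sD a b s)) *
    (9 + 2 * (s * a s)) - (-11 * (a s * (4 + s * a s + (1 + s * b s)))) * (2 * (a s + s * aD a b s)))
    / (9 + 2 * (s * a s)) ^ 2

structure Prof (g a b : ℝ → ℝ) : Prop where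
  gpos : ∀ s, 0 ≤ s → 0 < g s
  apos : ∀ s, 0 ≤ s → 0 < a s
  spos : ∀ s, 0 ≤ s → 0 < 1 + s * b s
  dg : ∀ s, 0 ≤ s → HasDerivAt g (a s * g s) s
  da : ∀ s, 0 ≤ s → HasDerivAt a (a s * (b s - a s) / 2) s
  ds : ∀ s, 0 ≤ s → HasDerivAt (fun s => 1 + s * b s)
    ((1 + s * b s) * (a s - 9 * b s + 12 * a s * (1 + 2 * s * b s) / (9 + 2 * s * a s)) / 2) s

variable {g a b : ℝ → ℝ}

lemma den_pos (h : Prof g a b) (s : ℝ) (hs : 0 ≤ s) : 0 < 9 + 2 * (s * a s) := by
  have := h.apos s hs; positivity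

lemma algP (A B G s P σ : ℝ) (hA : A ≠ 0) (hG : G ≠ 0) (hσ : σ ≠ 0) (hd : 9 + 2 * s * A ≠ 0)
    (hsig : σ = 1 + s * B) :
    ((9 * A ^ (9 - 1) * (A * (B - A) / 2) * G ^ 10 + A ^ 9 * (10 * G ^ (10 - 1) * (A * G))) * σ +
      A ^ 9 * G ^ 10 * (σ * (A - 9 * B + 12 * A * (1 + 2 * s * B) / (9 + 2 * s * A)) / 2)) *
      (-(11 : ℝ) / 12) * (P / (A ^ 9 * G ^ 10 * σ)) =
    P * (-11 * (A * (4 + s * A + σ)) / (9 + 2 * (s * A))) := by
  have e : 9 + 2 * (s * A) = 9 + 2 * s * A := by ring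
  rw [e]
  generalize hdd : 9 + 2 * s * A = d at *
  field_simp
  rw [hsig, ← hdd]
  ring

lemma hasDerivAt_PS (h : Prof g a b) (s : ℝ) (hs : 0 ≤ s) :
    HasDerivAt (PS g a b) (PS g a b s * LL a b s) s := by
  have hg := h.gpos s hs
  have ha := h.apos s hs
  have hσ := h.spos s hs
  have hden := den_pos h s hs
  have hden' : 0 < 9 + 2 * s * a s := by rw [mul_assoc]; exact hden
  have hbase : HasDerivAt (fun s => a s ^ 9 * g s ^ 10 * (1 + s * b s)) _ s :=
    (((h.da s hs).pow 9).mul ((h.dg s hs).pow 10)).mul (h.ds s hs)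
  have hpos : 0 < a s ^ 9 * g s ^ 10 * (1 + s * b s) := by positivity
  have hr := hbase.rpow_const (p := (-(11 : ℝ) / 12)) (Or.inl hpos.ne')
  have hr' : HasDerivAt (PS g a b) _ s := hr
  refine hr'.congr_deriv ?_
  have e : (a s ^ 9 * g s ^ 10 * (1 + s * b s)) ^ (-(11 : ℝ) / 12 - 1) =
      PS g a b s / (a s ^ 9 * g s ^ 10 * (1 + s * b s)) := by
    unfold PS; rw [Real.rpow_sub_one hpos.ne']
  simp only [Pi.mul_apply, Pi.pow_apply]
  rw [e]
  have := algP (a s) (b s) (g s) s (PS g a b s) (1 + s * b s) ha.ne' hg.ne' hσ.ne' hden'.ne' rfl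
  push_cast
  unfold LL
  rw [← this]

lemma hasDerivAt_LL (h : Prof g a b) (s : ℝ) (hs : 0 ≤ s) :
    HasDerivAt (LL a b) (LD a b s) s := by
  have hden := den_pos h s hs
  have h1 : HasDerivAt (fun s => s * a s) (1 * a s + s * aD a b s) s :=
    (hasDerivAt_id s).mul (h.da s hs)
  have h2 : HasDerivAt (fun s => 4 + s * a s + (1 + s * b s)) ((1 * a s + s * aD a b s) + sD a b s) s :=
    (h1.const_add 4).add (h.ds s hs)
  have h3 : HasDerivAt (fun s => -11 * (a s * (4 + s * a s + (1 + s * b s)))) _ s :=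
    ((h.da s hs).mul h2).const_mul (-11)
  have h4 : HasDerivAt (fun s => 9 + 2 * (s * a s)) _ s := (h1.const_mul 2).const_add 9
  have h5 : HasDerivAt (LL a b) _ s := h3.fun_div h4 hden.ne'
  refine h5.congr_deriv ?_
  unfold LD
  congr 1
  unfold aD
  ring

theorem dat_of_prof (h : Prof g a b) : Dat g (fun s => a s * g s)
    (fun s => aD a b s * g s + a s * (a s * g s)) (PS g a b) (fun s => PS g a b s * LL a b s)
    (fun s => (PS g a b s * LL a b s) * LL a b s + PS g a b s * LD a b s) where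
  dg := h.dg
  dg1 := fun s hs => (h.da s hs).mul (h.dg s hs)
  dψ := hasDerivAt_PS h
  dψ1 := fun s hs => (hasDerivAt_PS h s hs).mul (hasDerivAt_LL h s hs)
  gpos := h.gpos
  g1pos := fun s hs => mul_pos (h.apos s hs) (h.gpos s hs)
  Kpos := fun s hs => by
    have hg := h.gpos s hs
    have ha := h.apos s hs
    have hσ := h.spos s hs
    have : g s * (a s * g s) + s * (2 * g s * (aD a b s * g s + a s * (a s * g s)) - (a s * g s) ^ 2)
        = g s ^ 2 * a s * (1 + s * b s) := by unfold aD; ring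
    rw [this]; positivity
  ψeq := fun s hs => by
    unfold PS
    congr 1
    unfold aD
    ring
  ode := fun s hs => by
    have hg := h.gpos s hs
    have ha := h.apos s hs
    have hσ := h.spos s hs
    have hden := den_pos h s hs
    have hden' : 0 < 9 + 2 * s * a s := by rw [mul_assoc]; exact hden
    generalize PS g a b s = P
    unfold LD LL sD aD
    field_simp
    ring

lemma contDiff_S : ContDiff ℝ ∞ S := by
  unfold S
  apply ContDiff.sum
  intro i _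
  have : ContDiff ℝ ∞ (fun x : E10 => x (Fin.castSucc i)) := (pr (Fin.castSucc i)).contDiff
  exact this.pow 2

lemma contDiff_UU (h : Prof g a b) {e : ℝ} (he : 0 < e) (hg : ContDiffOn ℝ ∞ g (Set.Ioi (-e))) :
    ContDiff ℝ ∞ (UU g) := by
  have h1 : ContDiff ℝ ∞ (fun x : E10 => g (S x)) := by
    rw [← contDiffOn_univ]
    refine hg.comp contDiff_S.contDiffOn ?_
    intro x _
    have := S_nonneg x
    show -e < S x
    linarith
  have h2 : ContDiff ℝ ∞ (fun x : E10 => x 9) := (pr 9).contDiff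
  have h3 : ContDiff ℝ ∞ (fun x : E10 => g (S x) + (x 9) ^ 2) := h1.add (h2.pow 2)
  exact h3.sqrt (fun x => (E_pos (dat_of_prof h) x).ne')

theorem S0366_of_prof (h : Prof g a b) {e : ℝ} (he : 0 < e) (hg : ContDiffOn ℝ ∞ g (Set.Ioi (-e))) :
    ∃ u : EuclideanSpace ℝ (Fin 10) → ℝ, ContDiff ℝ ∞ u ∧ (∀ x, (hessianMat u x).PosDef) ∧
      (∀ x, affineMaximalOp 10 u x = 0) ∧
      ¬ ∃ (A : Matrix (Fin 10) (Fin 10) ℝ) (b : EuclideanSpace ℝ (Fin 10)) (c : ℝ),
        ∀ x, u x = (1 / 2) * (∑ i, ∑ j, A i j * x i * x j) + (∑ i, b i * x i) + c :=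
  ⟨UU g, contDiff_UU h he hg, posDef_UU (dat_of_prof h), op_zero (dat_of_prof h),
    not_quadratic (dat_of_prof h)⟩

end Crest.Agent.R236.Ex
end
end

-- ▼ part R236/ExGlob
section

/-!
# Row 236 / S0366: statement S0366 from a local solution
-/

set_option autoImplicit false
open scoped ContDiff
open Crest.GeometryTopology.CoordMetric Crest.GeometryTopology.AffineMaximal

namespace Crest.Agent.R236.Ex

/-- S0366 follows from the existence of a local solution of the profile system. -/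
theorem S0366_of_loc (h : Nonempty Loc) :
    ∃ u : EuclideanSpace ℝ (Fin 10) → ℝ, ContDiff ℝ ∞ u ∧ (∀ x, (hessianMat u x).PosDef) ∧
      (∀ x, affineMaximalOp 10 u x = 0) ∧
      ¬ ∃ (A : Matrix (Fin 10) (Fin 10) ℝ) (b : EuclideanSpace ℝ (Fin 10)) (c : ℝ),
        ∀ x, u x = (1 / 2) * (∑ i, ∑ j, A i j * x i * x j) + (∑ i, b i * x i) + c := by
  obtain ⟨L⟩ := h
  obtain ⟨p⟩ := prof_of_loc L
  refine S0366_of_prof (g := p.g) (a := p.a) (b := p.b) ⟨p.g_pos, p.a_pos, fun s hs => ?_,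
    p.dg, p.da, p.db⟩ p.he p.sg
  have := p.b_pos s hs
  positivity

end Crest.Agent.R236.Ex
end

-- ▼ part R236/ExJ
section

/-!
Row 236 (S0366), part (A), preliminaries: the averaging operators
`J m h s = ∫₀¹ 2 τ^m h(τ² s) dτ` and primitives.
-/

set_option autoImplicit false

open Set Filter Topology MeasureTheory
open scoped ContDiff

noncomputable section

namespace Crest.Agent.R236.ExLoc

/-- the averaging operator -/
def J (m : ℕ) (h : ℝ → ℝ) (s : ℝ) : ℝ := ∫ τ in (0:ℝ)..1, 2 * τ ^ m * h (τ ^ 2 * s)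

/-- clamp to `[-r, r]` -/
def clamp (l u x : ℝ) : ℝ := max l (min u x)

lemma continuous_clamp (l u : ℝ) : Continuous (clamp l u) := by
  unfold clamp; fun_prop

lemma clamp_mem {l u : ℝ} (h : l ≤ u) (x : ℝ) : clamp l u x ∈ Icc l u := by
  unfold clamp
  exact ⟨le_max_left _ _, max_le h (min_le_left _ _)⟩

lemma clamp_eq {l u x : ℝ} (h : x ∈ Icc l u) : clamp l u x = x := by
  unfold clamp
  rw [min_eq_right h.2, max_eq_right h.1]

lemma abs_clamp_sub (l u x y : ℝ) : |clamp l u x - clamp l u y| ≤ |x - y| := by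
  unfold clamp
  calc |max l (min u x) - max l (min u y)| ≤ |min u x - min u y| := by
        have := abs_max_sub_max_le_max l (min u x) l (min u y)
        simpa using this
    _ ≤ |x - y| := by
        have := abs_min_sub_min_le_max u x u y
        simpa using this

lemma sq_mul_mem {ρ s τ : ℝ} (hs : s ∈ Icc (-ρ) ρ) (hτ : τ ∈ Icc (0:ℝ) 1) :
    τ ^ 2 * s ∈ Icc (-ρ) ρ := by
  have h1 : 0 ≤ τ ^ 2 := by positivity
  have h2 : τ ^ 2 ≤ 1 := by nlinarith [hτ.1, hτ.2]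
  have h3 : |τ ^ 2 * s| ≤ ρ := by
    rw [abs_mul, abs_of_nonneg h1]
    have : |s| ≤ ρ := abs_le.2 hs
    calc τ ^ 2 * |s| ≤ 1 * |s| := by gcongr
      _ ≤ ρ := by linarith
  exact abs_le.1 h3

lemma sq_mul_mem' {ρ s τ : ℝ} (hs : s ∈ Ioo (-ρ) ρ) (hτ : τ ∈ Icc (0:ℝ) 1) :
    τ ^ 2 * s ∈ Ioo (-ρ) ρ := by
  have h3 : |s| < ρ := abs_lt.2 hs
  have h4 := sq_mul_mem (ρ := |s|) (s := s) (abs_le.1 le_rfl) hτ
  exact ⟨by linarith [h4.1], by linarith [h4.2]⟩

lemma J_congr {m : ℕ} {h k : ℝ → ℝ} {ρ s : ℝ} (hs : s ∈ Icc (-ρ) ρ)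
    (hhk : ∀ x ∈ Icc (-ρ) ρ, h x = k x) : J m h s = J m k s := by
  unfold J
  refine intervalIntegral.integral_congr fun τ hτ => ?_
  rw [uIcc_of_le zero_le_one] at hτ
  change 2 * τ ^ m * h (τ ^ 2 * s) = 2 * τ ^ m * k (τ ^ 2 * s)
  rw [hhk _ (sq_mul_mem hs hτ)]

lemma continuous_J {m : ℕ} {h : ℝ → ℝ} (hh : Continuous h) : Continuous (J m h) := by
  unfold J
  refine intervalIntegral.continuous_parametric_intervalIntegral_of_continuous' ?_ 0 1
  change Continuous fun p : ℝ × ℝ => 2 * p.2 ^ m * h (p.2 ^ 2 * p.1)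
  fun_prop

/-- local continuity -/
lemma continuousOn_J {m : ℕ} {h : ℝ → ℝ} {ε : ℝ} (hh : ContinuousOn h (Ioo (-ε) ε)) :
    ContinuousOn (J m h) (Ioo (-ε) ε) := by
  intro s hs
  have h1 : |s| < ε := abs_lt.2 hs
  obtain ⟨r, hr1, hr2⟩ := exists_between h1
  have hr0 : 0 < r := (abs_nonneg s).trans_lt hr1
  have hsub : Icc (-r) r ⊆ Ioo (-ε) ε := fun x hx => ⟨by linarith [hx.1], by linarith [hx.2]⟩
  have hc : Continuous fun x => h (clamp (-r) r x) :=
    hh.comp_continuous (continuous_clamp _ _) fun x => hsub (clamp_mem (by linarith) x)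
  have h2 : J m h =ᶠ[𝓝 s] J m fun x => h (clamp (-r) r x) := by
    have hn : Icc (-r) r ∈ 𝓝 s := Icc_mem_nhds (by linarith [(abs_lt.1 hr1).1]) (abs_lt.1 hr1).2
    filter_upwards [hn] with x hx
    exact J_congr hx fun y hy => by rw [clamp_eq hy]
  exact ((continuous_J hc).continuousAt.congr h2.symm).continuousWithinAt

lemma abs_J_le {m : ℕ} {h : ℝ → ℝ} {ρ s C : ℝ} (hs : s ∈ Icc (-ρ) ρ)
    (hC : ∀ x ∈ Icc (-ρ) ρ, |h x| ≤ C) : |J m h s| ≤ 2 / (m + 1) * C := by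
  unfold J
  have h1 : ∀ τ ∈ Ioc (0:ℝ) 1, ‖2 * τ ^ m * h (τ ^ 2 * s)‖ ≤ 2 * C * τ ^ m := by
    intro τ hτ
    have hτ' : τ ∈ Icc (0:ℝ) 1 := ⟨hτ.1.le, hτ.2⟩
    rw [Real.norm_eq_abs, abs_mul, abs_of_nonneg (by have := hτ'.1; positivity : 0 ≤ 2 * τ ^ m)]
    have := hC _ (sq_mul_mem hs hτ')
    have h2 : 0 ≤ τ ^ m := by have := hτ'.1; positivity
    nlinarith
  have h2 := intervalIntegral.norm_integral_le_of_norm_le (a := 0) (b := 1) zero_le_one
    (Filter.Eventually.of_forall h1)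
    ((by fun_prop : Continuous fun τ : ℝ => 2 * C * τ ^ m).intervalIntegrable (μ := volume) 0 1)
  rw [Real.norm_eq_abs] at h2
  refine h2.trans (le_of_eq ?_)
  rw [intervalIntegral.integral_const_mul, integral_pow]
  simp
  ring

lemma J_sub {m : ℕ} {h k : ℝ → ℝ} (hh : Continuous h) (hk : Continuous k) (s : ℝ) :
    J m (fun x => h x - k x) s = J m h s - J m k s := by
  unfold J
  rw [← intervalIntegral.integral_sub (μ := volume)
    ((by fun_prop : Continuous fun τ : ℝ => 2 * τ ^ m * h (τ ^ 2 * s)).intervalIntegrable 0 1)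
    ((by fun_prop : Continuous fun τ : ℝ => 2 * τ ^ m * k (τ ^ 2 * s)).intervalIntegrable 0 1)]
  refine intervalIntegral.integral_congr fun τ _ => ?_
  change 2 * τ ^ m * (h (τ ^ 2 * s) - k (τ ^ 2 * s)) =
    2 * τ ^ m * h (τ ^ 2 * s) - 2 * τ ^ m * k (τ ^ 2 * s)
  ring

/-- differentiation under the integral -/
lemma hasDerivAt_J {m : ℕ} {h h' : ℝ → ℝ} {ε : ℝ}
    (hh : ∀ x ∈ Ioo (-ε) ε, HasDerivAt h (h' x) x) (hc : ContinuousOn h' (Ioo (-ε) ε)) {s : ℝ}
    (hs : s ∈ Ioo (-ε) ε) : HasDerivAt (J m h) (J (m + 2) h' s) s := by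
  have h1 : |s| < ε := abs_lt.2 hs
  obtain ⟨r, hr1, hr2⟩ := exists_between h1
  have hr0 : 0 < r := (abs_nonneg s).trans_lt hr1
  have hsub : Icc (-r) r ⊆ Ioo (-ε) ε := fun x hx => ⟨by linarith [hx.1], by linarith [hx.2]⟩
  have hsr : s ∈ Ioo (-r) r := abs_lt.1 hr1
  obtain ⟨C, hC⟩ := isCompact_Icc.exists_bound_of_continuousOn (hc.mono hsub)
  have hhc : ContinuousOn h (Ioo (-ε) ε) := fun x hx => (hh x hx).continuousAt.continuousWithinAt
  have hcomp : ∀ x ∈ Ioo (-r) r, ∀ k : ℝ → ℝ, ContinuousOn k (Ioo (-ε) ε) → ∀ n : ℕ,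
      ContinuousOn (fun τ : ℝ => 2 * τ ^ n * k (τ ^ 2 * x)) (uIcc 0 1) := by
    intro x hx k hk n
    refine ContinuousOn.mul (by fun_prop) ?_
    refine hk.comp (by fun_prop) fun τ hτ => ?_
    rw [uIcc_of_le zero_le_one] at hτ
    exact hsub (sq_mul_mem ⟨hx.1.le, hx.2.le⟩ hτ)
  have hmeas : ∀ x ∈ Ioo (-r) r, ∀ k : ℝ → ℝ, ContinuousOn k (Ioo (-ε) ε) → ∀ n : ℕ,
      AEStronglyMeasurable (fun τ : ℝ => 2 * τ ^ n * k (τ ^ 2 * x)) (volume.restrict (uIoc 0 1)) := by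
    intro x hx k hk n
    exact ((hcomp x hx k hk n).mono uIoc_subset_uIcc).aestronglyMeasurable measurableSet_uIoc
  have key := intervalIntegral.hasDerivAt_integral_of_dominated_loc_of_deriv_le
    (μ := volume) (a := 0) (b := 1) (s := Ioo (-r) r) (x₀ := s)
    (F := fun x τ => 2 * τ ^ m * h (τ ^ 2 * x)) (F' := fun x τ => 2 * τ ^ (m + 2) * h' (τ ^ 2 * x))
    (bound := fun _ => 2 * C) (Ioo_mem_nhds hsr.1 hsr.2)
    (by
      filter_upwards [Ioo_mem_nhds hsr.1 hsr.2] with x hx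
      exact hmeas x hx h hhc m)
    ((hcomp s hsr h hhc m).intervalIntegrable)
    (hmeas s hsr h' hc (m + 2))
    (by
      refine Filter.Eventually.of_forall fun τ hτ x hx => ?_
      rw [uIoc_of_le zero_le_one] at hτ
      have hτ' : τ ∈ Icc (0:ℝ) 1 := ⟨hτ.1.le, hτ.2⟩
      have h2 := hC _ (sq_mul_mem (ρ := r) ⟨hx.1.le, hx.2.le⟩ hτ')
      rw [norm_mul]
      have h3 : ‖2 * τ ^ (m + 2)‖ ≤ 2 := by
        rw [Real.norm_eq_abs, abs_of_nonneg (by have := hτ'.1; positivity)]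
        have := pow_le_one₀ (n := m + 2) hτ'.1 hτ'.2
        linarith
      have h4 : 0 ≤ ‖h' (τ ^ 2 * x)‖ := norm_nonneg _
      calc ‖2 * τ ^ (m + 2)‖ * ‖h' (τ ^ 2 * x)‖ ≤ 2 * ‖h' (τ ^ 2 * x)‖ := by gcongr
        _ ≤ 2 * C := by linarith)
    (continuous_const.intervalIntegrable 0 1)
    (by
      refine Filter.Eventually.of_forall fun τ hτ x hx => ?_
      rw [uIoc_of_le zero_le_one] at hτ
      have hτ' : τ ∈ Icc (0:ℝ) 1 := ⟨hτ.1.le, hτ.2⟩
      have h2 := hh _ (hsub (sq_mul_mem (ρ := r) ⟨hx.1.le, hx.2.le⟩ hτ'))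
      have h3 : HasDerivAt (fun x : ℝ => τ ^ 2 * x) (τ ^ 2) x := by
        simpa using (hasDerivAt_id x).const_mul (τ ^ 2)
      have h4 := (h2.comp x h3).const_mul (2 * τ ^ m)
      refine h4.congr_deriv ?_
      ring)
  exact key.2

/-- `J` preserves smoothness -/
lemma contDiffOn_J {ε : ℝ} (n : ℕ) : ∀ {m : ℕ} {h : ℝ → ℝ}, ContDiffOn ℝ n h (Ioo (-ε) ε) →
    ContDiffOn ℝ n (J m h) (Ioo (-ε) ε) := by
  induction n with
  | zero =>
    intro m h hh
    simp only [Nat.cast_zero, contDiffOn_zero] at hh ⊢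
    exact continuousOn_J hh
  | succ n ih =>
    intro m h hh
    push_cast at hh ⊢
    rw [contDiffOn_succ_iff_deriv_of_isOpen isOpen_Ioo] at hh ⊢
    obtain ⟨hd, -, hc⟩ := hh
    have hd' : ∀ x ∈ Ioo (-ε) ε, HasDerivAt h (deriv h x) x := fun x hx =>
      (hd.differentiableAt (isOpen_Ioo.mem_nhds hx)).hasDerivAt
    have h1 : ∀ s ∈ Ioo (-ε) ε, HasDerivAt (J m h) (J (m + 2) (deriv h) s) s := fun s hs =>
      hasDerivAt_J hd' hc.continuousOn hs
    refine ⟨fun s hs => (h1 s hs).differentiableAt.differentiableWithinAt, by simp, ?_⟩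
    exact (ih (m := m + 2) hc).congr fun s hs => (h1 s hs).deriv

/-- integration by parts -/
lemma J_parts {m : ℕ} {h h' : ℝ → ℝ} {ε : ℝ}
    (hh : ∀ x ∈ Ioo (-ε) ε, HasDerivAt h (h' x) x) (hc : ContinuousOn h' (Ioo (-ε) ε)) {s : ℝ}
    (hs : s ∈ Ioo (-ε) ε) : s * J (m + 2) h' s = h s - (m + 1) / 2 * J m h s := by
  have hhc : ContinuousOn h (Ioo (-ε) ε) := fun x hx => (hh x hx).continuousAt.continuousWithinAt
  have hcomp : ∀ k : ℝ → ℝ, ContinuousOn k (Ioo (-ε) ε) → ∀ n : ℕ,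
      ContinuousOn (fun τ : ℝ => τ ^ n * k (τ ^ 2 * s)) (uIcc 0 1) := by
    intro k hk n
    refine ContinuousOn.mul (by fun_prop) ?_
    refine hk.comp (by fun_prop) fun τ hτ => ?_
    rw [uIcc_of_le zero_le_one] at hτ
    exact sq_mul_mem' hs hτ
  have h1 : ∀ τ ∈ uIcc (0:ℝ) 1, HasDerivAt (fun τ : ℝ => τ ^ (m + 1) * h (τ ^ 2 * s))
      ((m + 1) * (τ ^ m * h (τ ^ 2 * s)) + 2 * s * (τ ^ (m + 2) * h' (τ ^ 2 * s))) τ := by
    intro τ hτ
    rw [uIcc_of_le zero_le_one] at hτ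
    have h2 := hh _ (sq_mul_mem' hs hτ)
    have h3 : HasDerivAt (fun τ : ℝ => τ ^ 2 * s) (2 * τ * s) τ := by
      simpa using (hasDerivAt_pow 2 τ).mul_const s
    have h4 := h2.comp τ h3
    have h5 : HasDerivAt (fun τ : ℝ => τ ^ (m + 1)) ((m + 1 : ℕ) * τ ^ m) τ := by
      simpa using hasDerivAt_pow (m + 1) τ
    have h6 := h5.mul h4
    refine h6.congr_deriv ?_
    push_cast
    simp only [Function.comp]
    ring
  have hi1 : IntervalIntegrable (fun τ : ℝ => ((m:ℝ) + 1) * (τ ^ m * h (τ ^ 2 * s))) volume 0 1 :=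
    ((hcomp h hhc m).intervalIntegrable).const_mul _
  have hi2 : IntervalIntegrable (fun τ : ℝ => 2 * s * (τ ^ (m + 2) * h' (τ ^ 2 * s))) volume 0 1 :=
    ((hcomp h' hc (m + 2)).intervalIntegrable).const_mul _
  have h2 := intervalIntegral.integral_eq_sub_of_hasDerivAt h1 (hi1.add hi2)
  rw [intervalIntegral.integral_add hi1 hi2,
    intervalIntegral.integral_const_mul, intervalIntegral.integral_const_mul] at h2
  have h3 : J m h s = 2 * ∫ τ in (0:ℝ)..1, τ ^ m * h (τ ^ 2 * s) := by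
    unfold J
    rw [← intervalIntegral.integral_const_mul]
    refine intervalIntegral.integral_congr fun τ _ => ?_
    change 2 * τ ^ m * h (τ ^ 2 * s) = 2 * (τ ^ m * h (τ ^ 2 * s))
    ring
  have h4 : J (m + 2) h' s = 2 * ∫ τ in (0:ℝ)..1, τ ^ (m + 2) * h' (τ ^ 2 * s) := by
    unfold J
    rw [← intervalIntegral.integral_const_mul]
    refine intervalIntegral.integral_congr fun τ _ => ?_
    change 2 * τ ^ (m + 2) * h' (τ ^ 2 * s) = 2 * (τ ^ (m + 2) * h' (τ ^ 2 * s))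
    ring
  rw [h3, h4]
  simp at h2
  linarith

/-- primitives gain one derivative -/
lemma contDiffOn_prim {ε : ℝ} {n : ℕ} {h : ℝ → ℝ} (hc : Continuous h)
    (hh : ContDiffOn ℝ n h (Ioo (-ε) ε)) :
    ContDiffOn ℝ (n + 1 : ℕ) (fun s => ∫ r in (0:ℝ)..s, h r) (Ioo (-ε) ε) := by
  have h1 : ∀ s, HasDerivAt (fun s => ∫ r in (0:ℝ)..s, h r) (h s) s := fun s =>
    intervalIntegral.integral_hasDerivAt_right (hc.intervalIntegrable _ _)
      hc.stronglyMeasurable.stronglyMeasurableAtFilter hc.continuousAt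
  push_cast
  rw [contDiffOn_succ_iff_deriv_of_isOpen isOpen_Ioo]
  refine ⟨fun s _ => (h1 s).differentiableAt.differentiableWithinAt, by simp, ?_⟩
  exact hh.congr fun s _ => (h1 s).deriv

end Crest.Agent.R236.ExLoc
end
end

-- ▼ part R236/ExLoc

/-!
Row 236 (S0366), part (A): local smooth solution at `s = 0` of the singular system
`a' = a (b - a) / 2`, `(1 + s b)' = (1 + s b) (a - 9 b + 12 a (1 + 2 s b) / (9 + 2 s a)) / 2`.
-/

set_option autoImplicit false
set_option linter.unusedSectionVars false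

open Set Filter Topology MeasureTheory
open scoped ContDiff BoundedContinuousFunction NNReal

noncomputable section

namespace Crest.Agent.R236.ExLoc

/-- the remainder in `s b' = -(11/2) b + (7/6) a + s H(s,a,b)` -/
def H (s a b : ℝ) : ℝ :=
  (8 * a * (9 * b - a) / (3 * (9 + 2 * s * a)) +
    b * (a - 9 * b + 12 * a * (1 + 2 * s * b) / (9 + 2 * s * a))) / 2

lemma H_identity {s a b : ℝ} (h : 9 + 2 * s * a ≠ 0) :
    b + (-(11 / 2) * b + 7 / 6 * a + s * H s a b) =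
      (1 + s * b) * (a - 9 * b + 12 * a * (1 + 2 * s * b) / (9 + 2 * s * a)) / 2 := by
  unfold H
  have h3 : 8 * a * (9 * b - a) / (3 * (9 + 2 * s * a)) =
      8 * a * (9 * b - a) / 3 * (9 + 2 * s * a)⁻¹ := by
    rw [div_mul_eq_div_div, div_eq_mul_inv _ (9 + 2 * s * a)]
  rw [h3, div_eq_mul_inv _ (9 + 2 * s * a)]
  have h4 : (9 + 2 * s * a) * (9 + 2 * s * a)⁻¹ = 1 := mul_inv_cancel₀ h
  set D := (9 + 2 * s * a)⁻¹ with hD
  linear_combination (-2 / 3 * a) * h4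

/-- the compact box -/
def Box : Set (ℝ × ℝ × ℝ) := Icc (-1) 1 ×ˢ Icc (1 / 2) (3 / 2) ×ˢ Icc (-1) 1

lemma isCompact_Box : IsCompact Box := isCompact_Icc.prod (isCompact_Icc.prod isCompact_Icc)

/-- `H` as a function on triples -/
def HT (p : ℝ × ℝ × ℝ) : ℝ := H p.1 p.2.1 p.2.2

lemma den_pos {p : ℝ × ℝ × ℝ} (hp : p ∈ Box) : 0 < 9 + 2 * p.1 * p.2.1 := by
  obtain ⟨h1, h2, h3⟩ := hp
  have h4 : -1 ≤ p.1 := h1.1
  have h5 : 1 / 2 ≤ p.2.1 := h2.1
  have h6 : p.2.1 ≤ 3 / 2 := h2.2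
  nlinarith [h1.2]

lemma contDiffAt_HT {n : WithTop ℕ∞} {p : ℝ × ℝ × ℝ} (hp : 9 + 2 * p.1 * p.2.1 ≠ 0) :
    ContDiffAt ℝ n HT p := by
  have h1 : 3 * (9 + 2 * p.1 * p.2.1) ≠ 0 := by simpa using hp
  unfold HT H
  refine ContDiffAt.div ?_ contDiffAt_const (by norm_num)
  refine ContDiffAt.add ?_ ?_
  · refine ContDiffAt.div ?_ ?_ h1 <;> fun_prop
  · refine ContDiffAt.mul (by fun_prop) ?_
    refine ContDiffAt.add (by fun_prop) ?_
    refine ContDiffAt.div ?_ ?_ hp <;> fun_prop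

lemma exists_lip : ∃ L : ℝ, 0 ≤ L ∧ ∀ p ∈ Box, ∀ q ∈ Box, |HT p - HT q| ≤ L * dist p q := by
  have h1 : LocallyLipschitzOn Box HT := by
    intro p hp
    obtain ⟨K, t, ht, hK⟩ := (contDiffAt_HT (n := 1) (den_pos hp).ne').exists_lipschitzOnWith
    exact ⟨K, t, mem_nhdsWithin_of_mem_nhds ht, hK⟩
  obtain ⟨K, hK⟩ := h1.exists_lipschitzOnWith_of_compact isCompact_Box
  exact ⟨K, K.2, fun p hp q hq => by simpa [Real.dist_eq] using hK.dist_le_mul p hp q hq⟩

lemma exists_bd : ∃ M : ℝ, 0 ≤ M ∧ ∀ p ∈ Box, |HT p| ≤ M := by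
  have h1 : ContinuousOn HT Box := fun p hp =>
    (contDiffAt_HT (n := 0) (den_pos hp).ne').continuousAt.continuousWithinAt
  obtain ⟨M, hM⟩ := isCompact_Box.exists_bound_of_continuousOn h1
  exact ⟨max M 0, le_max_right _ _, fun p hp => (hM p hp).trans (le_max_left _ _)⟩

/-- clamped triple -/
def cl (r : ℝ) (p : ℝ × ℝ) : ℝ × ℝ × ℝ :=
  (clamp (-1) 1 r, clamp (1 / 2) (3 / 2) p.1, clamp (-1) 1 p.2)

lemma cl_mem (r : ℝ) (p : ℝ × ℝ) : cl r p ∈ Box :=
  ⟨clamp_mem (by norm_num) _, clamp_mem (by norm_num) _, clamp_mem (by norm_num) _⟩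

lemma continuous_cl : Continuous fun q : ℝ × ℝ × ℝ => cl q.1 q.2 := by
  unfold cl
  exact ((continuous_clamp _ _).comp continuous_fst).prodMk
    (((continuous_clamp _ _).comp (continuous_fst.comp continuous_snd)).prodMk
      ((continuous_clamp _ _).comp (continuous_snd.comp continuous_snd)))

lemma dist_cl (r : ℝ) (p q : ℝ × ℝ) : dist (cl r p) (cl r q) ≤ dist p q := by
  have h1 : |p.1 - q.1| ≤ dist p q := by
    rw [Prod.dist_eq, Real.dist_eq, Real.dist_eq]; exact le_max_left _ _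
  have h2 : |p.2 - q.2| ≤ dist p q := by
    rw [Prod.dist_eq, Real.dist_eq, Real.dist_eq]; exact le_max_right _ _
  rw [Prod.dist_eq, Prod.dist_eq]
  refine max_le ?_ (max_le ?_ ?_)
  · simp [cl, dist_nonneg]
  · rw [Real.dist_eq]; exact (abs_clamp_sub _ _ _ _).trans h1
  · rw [Real.dist_eq]; exact (abs_clamp_sub _ _ _ _).trans h2

/-- the clamped remainder -/
def Hc (r : ℝ) (p : ℝ × ℝ) : ℝ := HT (cl r p)

lemma continuous_Hc : Continuous fun q : ℝ × ℝ × ℝ => Hc q.1 q.2 := by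
  unfold Hc
  rw [continuous_iff_continuousAt]
  intro q
  exact (contDiffAt_HT (n := 0) (den_pos (cl_mem q.1 q.2)).ne').continuousAt.comp
    (f := fun q : ℝ × ℝ × ℝ => cl q.1 q.2) continuous_cl.continuousAt

/-- the clamped right-hand side of the equation for `a` -/
def G0 (p : ℝ × ℝ) : ℝ :=
  clamp (1 / 2) (3 / 2) p.1 * (clamp (-1) 1 p.2 - clamp (1 / 2) (3 / 2) p.1) / 2

lemma continuous_G0 : Continuous G0 := by
  unfold G0
  have h1 : Continuous fun p : ℝ × ℝ => clamp (1 / 2) (3 / 2) p.1 :=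
    (continuous_clamp _ _).comp continuous_fst
  have h2 : Continuous fun p : ℝ × ℝ => clamp (-1) 1 p.2 :=
    (continuous_clamp _ _).comp continuous_snd
  fun_prop

lemma abs_G0_le (p : ℝ × ℝ) : |G0 p| ≤ 2 := by
  have h1 := clamp_mem (l := 1 / 2) (u := 3 / 2) (by norm_num) p.1
  have h2 := clamp_mem (l := -1) (u := 1) (by norm_num) p.2
  unfold G0
  set x := clamp (1 / 2) (3 / 2) p.1
  set y := clamp (-1) 1 p.2
  rw [abs_le]
  constructor <;> nlinarith [h1.1, h1.2, h2.1, h2.2]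

lemma abs_G0_sub (p q : ℝ × ℝ) : |G0 p - G0 q| ≤ 4 * dist p q := by
  have h1 := clamp_mem (l := 1 / 2) (u := 3 / 2) (by norm_num) p.1
  have h2 := clamp_mem (l := -1) (u := 1) (by norm_num) p.2
  have h3 := clamp_mem (l := 1 / 2) (u := 3 / 2) (by norm_num) q.1
  have h4 := clamp_mem (l := -1) (u := 1) (by norm_num) q.2
  have h5 : |clamp (1 / 2) (3 / 2) p.1 - clamp (1 / 2) (3 / 2) q.1| ≤ dist p q := by
    refine (abs_clamp_sub _ _ _ _).trans ?_
    rw [Prod.dist_eq, Real.dist_eq, Real.dist_eq]; exact le_max_left _ _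
  have h6 : |clamp (-1) 1 p.2 - clamp (-1) 1 q.2| ≤ dist p q := by
    refine (abs_clamp_sub _ _ _ _).trans ?_
    rw [Prod.dist_eq, Real.dist_eq, Real.dist_eq]; exact le_max_right _ _
  unfold G0
  set x := clamp (1 / 2) (3 / 2) p.1
  set y := clamp (-1) 1 p.2
  set z := clamp (1 / 2) (3 / 2) q.1
  set w := clamp (-1) 1 q.2
  set d := dist p q
  have e : x * (y - x) / 2 - z * (w - z) / 2 = ((x - z) * (y - x) + z * ((y - w) - (x - z))) / 2 := by
    ring
  have hd : 0 ≤ d := dist_nonneg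
  rw [e, abs_div, abs_of_pos (by norm_num : (0:ℝ) < 2)]
  have h7 : |(x - z) * (y - x)| ≤ d * (5 / 2) := by
    rw [abs_mul]
    have : |y - x| ≤ 5 / 2 := abs_le.2 ⟨by linarith [h1.2, h2.1], by linarith [h1.1, h2.2]⟩
    exact mul_le_mul h5 this (abs_nonneg _) hd
  have h8 : |z * ((y - w) - (x - z))| ≤ 3 / 2 * (2 * d) := by
    rw [abs_mul]
    have h9 : |z| ≤ 3 / 2 := abs_le.2 ⟨by linarith [h3.1], h3.2⟩
    have h10 : |(y - w) - (x - z)| ≤ 2 * d := (abs_sub _ _).trans (by linarith)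
    exact mul_le_mul h9 h10 (abs_nonneg _) (by norm_num)
  have h11 := abs_add_le ((x - z) * (y - x)) (z * ((y - w) - (x - z)))
  have h12 : |(x - z) * (y - x) + z * ((y - w) - (x - z))| ≤ d * (5 / 2) + 3 / 2 * (2 * d) := by
    linarith
  linarith

/-! ### The fixed point operator -/

/-- `h_f` -/
def hf (f : ℝ → ℝ × ℝ) (r : ℝ) : ℝ := Hc r (f r)

/-- primitive of `h_f` -/
def Pf (f : ℝ → ℝ × ℝ) (s : ℝ) : ℝ := ∫ r in (0:ℝ)..s, hf f r

/-- the averaged function -/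
def uf (f : ℝ → ℝ × ℝ) (r : ℝ) : ℝ := 7 / 6 * clamp (1 / 2) (3 / 2) (f r).1 - 11 / 2 * Pf f r

lemma continuous_hf {f : ℝ → ℝ × ℝ} (hfc : Continuous f) : Continuous (hf f) := by
  unfold hf
  exact continuous_Hc.comp (continuous_id.prodMk hfc)

lemma continuous_Pf {f : ℝ → ℝ × ℝ} (hfc : Continuous f) : Continuous (Pf f) := by
  unfold Pf
  exact intervalIntegral.continuous_primitive
    (fun a b => (continuous_hf hfc).intervalIntegrable a b) 0

lemma continuous_uf {f : ℝ → ℝ × ℝ} (hfc : Continuous f) : Continuous (uf f) := by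
  unfold uf
  have h1 := continuous_Pf hfc
  have h2 : Continuous fun r => clamp (1 / 2) (3 / 2) (f r).1 :=
    (continuous_clamp _ _).comp (continuous_fst.comp hfc)
  fun_prop

/-- the operator on functions -/
def Top (ε : ℝ) (f : ℝ → ℝ × ℝ) (s : ℝ) : ℝ × ℝ :=
  (1 + ∫ r in (0:ℝ)..(clamp (-ε) ε s), G0 (f r),
    J 10 (uf f) (clamp (-ε) ε s) + Pf f (clamp (-ε) ε s))

lemma continuous_Top {ε : ℝ} {f : ℝ → ℝ × ℝ} (hfc : Continuous f) : Continuous (Top ε f) := by
  unfold Top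
  have h0 := continuous_clamp (-ε) ε
  refine Continuous.prodMk ?_ ?_
  · refine continuous_const.add ?_
    exact (intervalIntegral.continuous_primitive
      (fun a b => (continuous_G0.comp hfc).intervalIntegrable a b) 0).comp h0
  · exact ((continuous_J (continuous_uf hfc)).comp h0).add ((continuous_Pf hfc).comp h0)

lemma abs_integral_le {h : ℝ → ℝ} {ρ s C : ℝ} (hs : s ∈ Icc (-ρ) ρ) (hC0 : 0 ≤ C)
    (hC : ∀ x, |h x| ≤ C) : |∫ r in (0:ℝ)..s, h r| ≤ C * ρ := by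
  have h1 := intervalIntegral.norm_integral_le_of_norm_le_const (a := 0) (b := s) (f := h) (C := C)
    (fun x _ => hC x)
  rw [Real.norm_eq_abs, sub_zero] at h1
  exact h1.trans (mul_le_mul_of_nonneg_left (abs_le.2 hs) hC0)

section
variable {ε L M : ℝ} (hε : 0 < ε) (hε8 : ε ≤ 1 / 8) (hL0 : 0 ≤ L) (hM0 : 0 ≤ M)
  (hL : ∀ p ∈ Box, ∀ q ∈ Box, |HT p - HT q| ≤ L * dist p q) (hM : ∀ p ∈ Box, |HT p| ≤ M)
  (hεL : ε * L ≤ 1 / 8) (hεM : ε * M ≤ 1 / 8)
include hε hε8 hL0 hM0 hL hM hεL hεM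

lemma abs_Pf_le (f : ℝ → ℝ × ℝ) {s : ℝ} (hs : s ∈ Icc (-ε) ε) : |Pf f s| ≤ 1 / 8 := by
  have := abs_integral_le (h := hf f) hs hM0 (fun x => hM _ (cl_mem _ _))
  unfold Pf
  linarith [mul_comm M ε]

lemma Top_bd (f : ℝ → ℝ × ℝ) (s : ℝ) :
    (Top ε f s).1 ∈ Icc (1 / 2 : ℝ) (3 / 2) ∧ (Top ε f s).2 ∈ Icc (-1 : ℝ) 1 := by
  have hs := clamp_mem (l := -ε) (u := ε) (by linarith) s
  set t := clamp (-ε) ε s with ht
  have h1 := abs_integral_le (h := fun r => G0 (f r)) hs (by norm_num : (0:ℝ) ≤ 2)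
    (fun x => abs_G0_le _)
  have h2 := abs_Pf_le hε hε8 hL0 hM0 hL hM hεL hεM f hs
  have h3 : |J 10 (uf f) t| ≤ 2 / ((10:ℕ) + 1) * (7 / 4 + 11 / 16) := by
    refine abs_J_le hs fun x hx => ?_
    have h4 := abs_Pf_le hε hε8 hL0 hM0 hL hM hεL hεM f hx
    have h5 := clamp_mem (l := 1 / 2) (u := 3 / 2) (by norm_num) (f x).1
    unfold uf
    rw [abs_le] at h4 ⊢
    constructor <;> linarith [h5.1, h5.2, h4.1, h4.2]
  unfold Top
  rw [← ht]
  rw [abs_le] at h1 h2 h3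
  push_cast at h3
  refine ⟨⟨?_, ?_⟩, ⟨?_, ?_⟩⟩ <;> simp only <;> linarith [h1.1, h1.2, h2.1, h2.2, h3.1, h3.2]

lemma Top_dist {f g : ℝ → ℝ × ℝ} (hfc : Continuous f) (hgc : Continuous g) {d : ℝ} (hd : 0 ≤ d)
    (hfg : ∀ r, dist (f r) (g r) ≤ d) (s : ℝ) :
    dist (Top ε f s) (Top ε g s) ≤ 1 / 2 * d := by
  have hs := clamp_mem (l := -ε) (u := ε) (by linarith) s
  set t := clamp (-ε) ε s with ht
  have hh : ∀ r, |hf f r - hf g r| ≤ L * d := fun r => by
    refine (hL _ (cl_mem _ _) _ (cl_mem _ _)).trans ?_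
    exact mul_le_mul_of_nonneg_left ((dist_cl _ _ _).trans (hfg r)) hL0
  have hP : ∀ x ∈ Icc (-ε) ε, |Pf f x - Pf g x| ≤ 1 / 8 * d := by
    intro x hx
    unfold Pf
    rw [← intervalIntegral.integral_sub ((continuous_hf hfc).intervalIntegrable _ _)
      ((continuous_hf hgc).intervalIntegrable _ _)]
    refine (abs_integral_le hx (by positivity) hh).trans ?_
    nlinarith
  have h1 : |(∫ r in (0:ℝ)..t, G0 (f r)) - ∫ r in (0:ℝ)..t, G0 (g r)| ≤ 1 / 2 * d := by
    have i1 : Continuous fun r => G0 (f r) := continuous_G0.comp hfc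
    have i2 : Continuous fun r => G0 (g r) := continuous_G0.comp hgc
    rw [← intervalIntegral.integral_sub (i1.intervalIntegrable _ _) (i2.intervalIntegrable _ _)]
    have h2 : ∀ r, |G0 (f r) - G0 (g r)| ≤ 4 * d := fun r =>
      (abs_G0_sub _ _).trans (by linarith [hfg r])
    refine (abs_integral_le hs (by positivity) h2).trans ?_
    nlinarith
  have h3 : |J 10 (uf f) t - J 10 (uf g) t| ≤ 2 / ((10:ℕ) + 1) * ((7 / 6 + 11 / 16) * d) := by
    rw [← J_sub (continuous_uf hfc) (continuous_uf hgc)]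
    refine abs_J_le hs fun x hx => ?_
    have h4 := hP x hx
    have h5 : |clamp (1 / 2) (3 / 2) (f x).1 - clamp (1 / 2) (3 / 2) (g x).1| ≤ d := by
      refine (abs_clamp_sub _ _ _ _).trans ((le_trans ?_ (hfg x)))
      rw [Prod.dist_eq, Real.dist_eq, Real.dist_eq]; exact le_max_left _ _
    unfold uf
    rw [abs_le] at h4 h5 ⊢
    constructor <;> linarith [h4.1, h4.2, h5.1, h5.2]
  have h6 := hP t hs
  rw [Prod.dist_eq, Real.dist_eq, Real.dist_eq]
  unfold Top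
  rw [← ht]
  refine max_le ?_ ?_
  · simp only
    rw [abs_le] at h1 ⊢
    constructor <;> linarith [h1.1, h1.2]
  · simp only
    push_cast at h3
    rw [abs_le] at h3 h6 ⊢
    constructor <;> linarith [h3.1, h3.2, h6.1, h6.2]

lemma exists_fixed : ∃ f : ℝ → ℝ × ℝ, Continuous f ∧ ∀ s, f s = Top ε f s := by
  have hbd : ∀ f : ℝ → ℝ × ℝ, ∀ s, ‖Top ε f s‖ ≤ 2 := by
    intro f s
    obtain ⟨h1, h2⟩ := Top_bd hε hε8 hL0 hM0 hL hM hεL hεM f s
    rw [Prod.norm_def, Real.norm_eq_abs, Real.norm_eq_abs]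
    refine max_le (abs_le.2 ⟨by linarith [h1.1], by linarith [h1.2]⟩)
      (abs_le.2 ⟨by linarith [h2.1], by linarith [h2.2]⟩)
  let T : (ℝ →ᵇ ℝ × ℝ) → (ℝ →ᵇ ℝ × ℝ) := fun f =>
    BoundedContinuousFunction.ofNormedAddCommGroup (Top ε f) (continuous_Top f.continuous) 2 (hbd f)
  have hT : ContractingWith (1 / 2 : ℝ≥0) T := by
    refine ⟨by rw [← NNReal.coe_lt_coe]; norm_num, LipschitzWith.of_dist_le_mul fun f g => ?_⟩
    rw [BoundedContinuousFunction.dist_le (by positivity)]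
    intro s
    have h1 := Top_dist hε hε8 hL0 hM0 hL hM hεL hεM f.continuous g.continuous
      (dist_nonneg (x := f) (y := g)) (fun r => BoundedContinuousFunction.dist_coe_le_dist r) s
    have h2 : ((1 / 2 : ℝ≥0) : ℝ) = 1 / 2 := by norm_num
    rw [h2]
    exact h1
  set F : ℝ →ᵇ ℝ × ℝ := ContractingWith.fixedPoint T hT with hF
  have h1 : T F = F := hT.fixedPoint_isFixedPt
  refine ⟨F, F.continuous, fun s => ?_⟩
  conv_lhs => rw [← h1]
  rfl

end

/-! ### Smoothness and the differential equations -/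

section
variable {ε : ℝ} {f : ℝ → ℝ × ℝ} (hε : 0 < ε) (hε8 : ε ≤ 1 / 8) (hfc : Continuous f)
  (hfix : ∀ s, f s = Top ε f s) (ha : ∀ s, (f s).1 ∈ Icc (1 / 2 : ℝ) (3 / 2))
  (hb : ∀ s, (f s).2 ∈ Icc (-1 : ℝ) 1)
include hε hε8 hfc hfix ha hb

lemma G0_eq (r : ℝ) : G0 (f r) = (f r).1 * ((f r).2 - (f r).1) / 2 := by
  unfold G0
  rw [clamp_eq (ha r), clamp_eq (hb r)]

lemma hf_eq {r : ℝ} (hr : r ∈ Icc (-1 : ℝ) 1) : hf f r = H r (f r).1 (f r).2 := by
  unfold hf Hc HT cl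
  simp only
  rw [clamp_eq (ha r), clamp_eq (hb r), clamp_eq hr]

lemma uf_eq (r : ℝ) : uf f r = 7 / 6 * (f r).1 - 11 / 2 * Pf f r := by
  unfold uf
  rw [clamp_eq (ha r)]

lemma fst_eq {s : ℝ} (hs : s ∈ Icc (-ε) ε) : (f s).1 = 1 + ∫ r in (0:ℝ)..s, G0 (f r) := by
  conv_lhs => rw [hfix s]
  unfold Top
  simp only
  rw [clamp_eq hs]

lemma snd_eq {s : ℝ} (hs : s ∈ Icc (-ε) ε) : (f s).2 = J 10 (uf f) s + Pf f s := by
  conv_lhs => rw [hfix s]
  unfold Top
  simp only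
  rw [clamp_eq hs]

lemma contDiffOn_hf {n : ℕ} (h1 : ContDiffOn ℝ n (fun s => (f s).1) (Ioo (-ε) ε))
    (h2 : ContDiffOn ℝ n (fun s => (f s).2) (Ioo (-ε) ε)) :
    ContDiffOn ℝ n (hf f) (Ioo (-ε) ε) := by
  have h3 : ContDiffOn ℝ n (fun s => HT (s, (f s).1, (f s).2)) (Ioo (-ε) ε) := by
    intro s hs
    have h4 : (s, (f s).1, (f s).2) ∈ Box :=
      ⟨⟨by linarith [hs.1], by linarith [hs.2]⟩, ha s, hb s⟩
    have h5 := contDiffAt_HT (n := n) (den_pos h4).ne'
    exact h5.comp_contDiffWithinAt (f := fun s => (s, (f s).1, (f s).2)) s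
      (contDiffWithinAt_id.prodMk ((h1 s hs).prodMk (h2 s hs)))
  refine h3.congr fun s hs => ?_
  rw [hf_eq hε hε8 hfc hfix ha hb ⟨by linarith [hs.1], by linarith [hs.2]⟩]
  rfl

lemma contDiffOn_nat (n : ℕ) : ContDiffOn ℝ n (fun s => (f s).1) (Ioo (-ε) ε) ∧
    ContDiffOn ℝ n (fun s => (f s).2) (Ioo (-ε) ε) := by
  induction n with
  | zero =>
    simp only [Nat.cast_zero, contDiffOn_zero]
    exact ⟨(continuous_fst.comp hfc).continuousOn, (continuous_snd.comp hfc).continuousOn⟩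
  | succ n ih =>
    obtain ⟨h1, h2⟩ := ih
    have hsub : Ioo (-ε) ε ⊆ Icc (-ε) ε := Ioo_subset_Icc_self
    have h3 : ContDiffOn ℝ n (fun s => G0 (f s)) (Ioo (-ε) ε) := by
      have : ContDiffOn ℝ n (fun s => (f s).1 * ((f s).2 - (f s).1) / 2) (Ioo (-ε) ε) :=
        (h1.mul (h2.sub h1)).div_const 2
      exact this.congr fun s _ => G0_eq hε hε8 hfc hfix ha hb s
    have h4 : ContDiffOn ℝ (n + 1 : ℕ) (fun s => (f s).1) (Ioo (-ε) ε) := by
      have h5 : ContDiffOn ℝ (n + 1 : ℕ) (fun s => 1 + ∫ r in (0:ℝ)..s, G0 (f r)) (Ioo (-ε) ε) :=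
        contDiffOn_const.add (contDiffOn_prim (continuous_G0.comp hfc) h3)
      exact h5.congr fun s hs => fst_eq hε hε8 hfc hfix ha hb (hsub hs)
    have h6 : ContDiffOn ℝ (n + 1 : ℕ) (Pf f) (Ioo (-ε) ε) :=
      contDiffOn_prim (continuous_hf hfc) (contDiffOn_hf hε hε8 hfc hfix ha hb h1 h2)
    have h7 : ContDiffOn ℝ (n + 1 : ℕ) (uf f) (Ioo (-ε) ε) := by
      have : ContDiffOn ℝ (n + 1 : ℕ) (fun s => 7 / 6 * (f s).1 - 11 / 2 * Pf f s) (Ioo (-ε) ε) :=
        (contDiffOn_const.mul h4).sub (contDiffOn_const.mul h6)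
      exact this.congr fun s _ => uf_eq hε hε8 hfc hfix ha hb s
    refine ⟨h4, ?_⟩
    have h8 : ContDiffOn ℝ (n + 1 : ℕ) (fun s => J 10 (uf f) s + Pf f s) (Ioo (-ε) ε) :=
      (contDiffOn_J (n + 1) h7).add h6
    exact h8.congr fun s hs => snd_eq hε hε8 hfc hfix ha hb (hsub hs)

lemma hasDerivAt_fst {s : ℝ} (hs : s ∈ Ioo (-ε) ε) :
    HasDerivAt (fun s => (f s).1) ((f s).1 * ((f s).2 - (f s).1) / 2) s := by
  have hc : Continuous fun r => G0 (f r) := continuous_G0.comp hfc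
  have h1 : HasDerivAt (fun s => ∫ r in (0:ℝ)..s, G0 (f r)) (G0 (f s)) s :=
    intervalIntegral.integral_hasDerivAt_right (hc.intervalIntegrable _ _)
      hc.stronglyMeasurable.stronglyMeasurableAtFilter hc.continuousAt
  have h2 := h1.const_add 1
  rw [G0_eq hε hε8 hfc hfix ha hb s] at h2
  refine h2.congr_of_eventuallyEq ?_
  filter_upwards [Ioo_mem_nhds hs.1 hs.2] with x hx
  exact fst_eq hε hε8 hfc hfix ha hb ⟨hx.1.le, hx.2.le⟩

lemma hasDerivAt_Pf (s : ℝ) : HasDerivAt (Pf f) (hf f s) s := by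
  have hc := continuous_hf hfc
  exact intervalIntegral.integral_hasDerivAt_right (hc.intervalIntegrable _ _)
      hc.stronglyMeasurable.stronglyMeasurableAtFilter hc.continuousAt

lemma exists_deriv_snd {s : ℝ} (hs : s ∈ Ioo (-ε) ε) : ∃ d, HasDerivAt (fun s => (f s).2) d s ∧
    s * d = -(11 / 2) * (f s).2 + 7 / 6 * (f s).1 + s * H s (f s).1 (f s).2 := by
  set u' : ℝ → ℝ := fun x => 7 / 6 * ((f x).1 * ((f x).2 - (f x).1) / 2) - 11 / 2 * hf f x with hu'
  have h1 : ∀ x ∈ Ioo (-ε) ε, HasDerivAt (uf f) (u' x) x := by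
    intro x hx
    have h2 := ((hasDerivAt_fst hε hε8 hfc hfix ha hb hx).const_mul (7 / 6)).sub
      ((hasDerivAt_Pf hε hε8 hfc hfix ha hb x).const_mul (11 / 2))
    refine h2.congr_of_eventuallyEq (Filter.Eventually.of_forall fun y => ?_)
    exact uf_eq hε hε8 hfc hfix ha hb y
  have h2 : Continuous u' := by
    have := continuous_hf hfc
    have h3 : Continuous fun x => (f x).1 := continuous_fst.comp hfc
    have h4 : Continuous fun x => (f x).2 := continuous_snd.comp hfc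
    fun_prop
  have h3 := hasDerivAt_J (m := 10) h1 h2.continuousOn hs
  have h4 := J_parts (m := 10) h1 h2.continuousOn hs
  have h5 := h3.add (hasDerivAt_Pf hε hε8 hfc hfix ha hb s)
  refine ⟨J (10 + 2) u' s + hf f s, ?_, ?_⟩
  · refine h5.congr_of_eventuallyEq ?_
    filter_upwards [Ioo_mem_nhds hs.1 hs.2] with x hx
    exact snd_eq hε hε8 hfc hfix ha hb ⟨hx.1.le, hx.2.le⟩
  · have h6 := snd_eq hε hε8 hfc hfix ha hb (s := s) ⟨hs.1.le, hs.2.le⟩
    have h7 := uf_eq hε hε8 hfc hfix ha hb s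
    have h8 := hf_eq hε hε8 hfc hfix ha hb (r := s) ⟨by linarith [hs.1], by linarith [hs.2]⟩
    rw [mul_add, h4, ← h8, h7]
    push_cast
    linarith

end

/-- **Part (A)**: the local smooth profile. -/
theorem exists_local : ∃ (ε : ℝ) (a b : ℝ → ℝ), 0 < ε ∧ ε ≤ 1 / 8 ∧
    ContDiffOn ℝ ∞ a (Ioo (-ε) ε) ∧ ContDiffOn ℝ ∞ b (Ioo (-ε) ε) ∧ a 0 = 1 ∧ b 0 = 7 / 33 ∧
    (∀ s, a s ∈ Icc (1 / 2 : ℝ) (3 / 2)) ∧ (∀ s, b s ∈ Icc (-1 : ℝ) 1) ∧
    (∀ s ∈ Ioo (-ε) ε, HasDerivAt a (a s * (b s - a s) / 2) s) ∧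
    (∀ s ∈ Ioo (-ε) ε, HasDerivAt (fun s => 1 + s * b s)
      ((1 + s * b s) * (a s - 9 * b s + 12 * a s * (1 + 2 * s * b s) / (9 + 2 * s * a s)) / 2) s) := by
  obtain ⟨L, hL0, hL⟩ := exists_lip
  obtain ⟨M, hM0, hM⟩ := exists_bd
  set ε : ℝ := 1 / (8 * (L + M + 1)) with hεd
  have hpos : 0 < L + M + 1 := by positivity
  have hε : 0 < ε := by positivity
  have hεe : ε * (L + M + 1) = 1 / 8 := by
    rw [hεd]; field_simp
  have hε8 : ε ≤ 1 / 8 := by nlinarith
  have hεL : ε * L ≤ 1 / 8 := by nlinarith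
  have hεM : ε * M ≤ 1 / 8 := by nlinarith
  obtain ⟨f, hfc, hfix⟩ := exists_fixed hε hε8 hL0 hM0 hL hM hεL hεM
  have hbd := Top_bd hε hε8 hL0 hM0 hL hM hεL hεM f
  have ha : ∀ s, (f s).1 ∈ Icc (1 / 2 : ℝ) (3 / 2) := fun s => by rw [hfix s]; exact (hbd s).1
  have hb : ∀ s, (f s).2 ∈ Icc (-1 : ℝ) 1 := fun s => by rw [hfix s]; exact (hbd s).2
  have h0 : (0 : ℝ) ∈ Ioo (-ε) ε := ⟨by linarith, hε⟩
  have ha0 : (f 0).1 = 1 := by
    rw [fst_eq hε hε8 hfc hfix ha hb ⟨h0.1.le, h0.2.le⟩]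
    simp
  refine ⟨ε, fun s => (f s).1, fun s => (f s).2, hε, hε8, ?_, ?_, ha0, ?_, ha, hb, ?_, ?_⟩
  · rw [contDiffOn_infty]
    exact fun n => (contDiffOn_nat hε hε8 hfc hfix ha hb n).1
  · rw [contDiffOn_infty]
    exact fun n => (contDiffOn_nat hε hε8 hfc hfix ha hb n).2
  · obtain ⟨d, -, hd⟩ := exists_deriv_snd hε hε8 hfc hfix ha hb h0
    rw [ha0] at hd
    simp only
    linarith
  · exact fun s hs => hasDerivAt_fst hε hε8 hfc hfix ha hb hs
  · intro s hs
    obtain ⟨d, hd1, hd2⟩ := exists_deriv_snd hε hε8 hfc hfix ha hb hs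
    have h1 : HasDerivAt (fun s => 1 + s * (f s).2) (1 * (f s).2 + s * d) s :=
      ((hasDerivAt_id s).mul hd1).const_add 1
    refine h1.congr_deriv ?_
    have h2 : (s, (f s).1, (f s).2) ∈ Box :=
      ⟨⟨by linarith [hs.1], by linarith [hs.2]⟩, ha s, hb s⟩
    rw [← H_identity (s := s) (a := (f s).1) (b := (f s).2) (den_pos h2).ne', hd2]
    ring

end Crest.Agent.R236.ExLoc
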