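import Mathlib
import Crest.Prelude.Def_AffineMaximal
import Crest.Agent.R236.ADefs
import Crest.Agent.R236.BApxDefs
import Crest.Agent.R236.Vol
import Crest.Agent.R236.Bla
import Crest.Agent.R236.CalcA
import Crest.Agent.R236.AAuer

-- ▼ part R236/Bmass
section

/-!
# Row 236, Part B, node B6 (lower mass): abstract measure theory
-/

open MeasureTheory Set
open scoped ENNReal

namespace Crest.Agent.R236.Bmass

/-- Hölder: area bounded by `m1^{(n+1)/(n+2)} m2^{1/(n+2)}`. -/
theorem holder_area {X : Type*} [MeasurableSpace X] (μ : Measure X) (n : ℕ) (N : X → ℝ)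
    (hN : AEMeasurable N μ) (hpos : ∀ᵐ x ∂μ, 0 < N x) :
    μ univ ≤ (∫⁻ x, ENNReal.ofReal (N x) ∂μ) ^ (((n : ℝ) + 1) / ((n : ℝ) + 2)) *
      (∫⁻ x, ENNReal.ofReal ((N x) ^ (-((n : ℝ) + 1))) ∂μ) ^ (1 / ((n : ℝ) + 2)) := by
  have hn2 : (0 : ℝ) < (n : ℝ) + 2 := by positivity
  have hg : AEMeasurable (fun x => ENNReal.ofReal ((N x) ^ (-((n : ℝ) + 1)))) μ :=
    (hN.pow_const _).ennreal_ofReal
  have h := ENNReal.lintegral_mul_norm_pow_le (μ := μ)
    (f := fun x => ENNReal.ofReal (N x)) (g := fun x => ENNReal.ofReal ((N x) ^ (-((n : ℝ) + 1))))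
    hN.ennreal_ofReal hg
    (p := ((n : ℝ) + 1) / ((n : ℝ) + 2)) (q := 1 / ((n : ℝ) + 2)) (by positivity) (by positivity)
    (by field_simp; ring)
  refine le_trans (le_of_eq ?_) h
  rw [← setLIntegral_univ, ← setLIntegral_one, setLIntegral_univ, setLIntegral_univ]
  refine lintegral_congr_ae ?_
  filter_upwards [hpos] with x hx
  rw [ENNReal.ofReal_rpow_of_pos hx, ENNReal.ofReal_rpow_of_pos (Real.rpow_pos_of_pos hx _),
    ← ENNReal.ofReal_mul (Real.rpow_nonneg hx.le _), ← Real.rpow_mul hx.le, ← Real.rpow_add hx]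
  have : ((n : ℝ) + 1) / ((n : ℝ) + 2) + -((n : ℝ) + 1) * (1 / ((n : ℝ) + 2)) = 0 := by
    field_simp; ring
  rw [this, Real.rpow_zero, ENNReal.ofReal_one]

/-- Hölder: area bounded by `(∫ N^{-n/2})^{2/(n+2)} m1^{n/(n+2)}`. -/
theorem holder_area' {X : Type*} [MeasurableSpace X] (μ : Measure X) (n : ℕ) (N : X → ℝ)
    (hN : AEMeasurable N μ) (hpos : ∀ᵐ x ∂μ, 0 < N x) :
    μ univ ≤ (∫⁻ x, ENNReal.ofReal ((N x) ^ (-((n : ℝ) / 2))) ∂μ) ^ (2 / ((n : ℝ) + 2)) *
      (∫⁻ x, ENNReal.ofReal (N x) ∂μ) ^ ((n : ℝ) / ((n : ℝ) + 2)) := by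
  have hn2 : (0 : ℝ) < (n : ℝ) + 2 := by positivity
  have hg : AEMeasurable (fun x => ENNReal.ofReal ((N x) ^ (-((n : ℝ) / 2)))) μ :=
    (hN.pow_const _).ennreal_ofReal
  have h := ENNReal.lintegral_mul_norm_pow_le (μ := μ)
    (f := fun x => ENNReal.ofReal ((N x) ^ (-((n : ℝ) / 2)))) (g := fun x => ENNReal.ofReal (N x))
    hg hN.ennreal_ofReal
    (p := 2 / ((n : ℝ) + 2)) (q := (n : ℝ) / ((n : ℝ) + 2)) (by positivity) (by positivity)
    (by field_simp; ring)
  refine le_trans (le_of_eq ?_) h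
  rw [← setLIntegral_univ, ← setLIntegral_one, setLIntegral_univ, setLIntegral_univ]
  refine lintegral_congr_ae ?_
  filter_upwards [hpos] with x hx
  rw [ENNReal.ofReal_rpow_of_pos hx, ENNReal.ofReal_rpow_of_pos (Real.rpow_pos_of_pos hx _),
    ← ENNReal.ofReal_mul (Real.rpow_nonneg (Real.rpow_nonneg hx.le _) _), ← Real.rpow_mul hx.le,
    ← Real.rpow_add hx]
  have : -((n : ℝ) / 2) * (2 / ((n : ℝ) + 2)) + (n : ℝ) / ((n : ℝ) + 2) = 0 := by
    field_simp; ring
  rw [this, Real.rpow_zero, ENNReal.ofReal_one]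


/-- upper bound for the area of a set `S` where `m1(S) ≤ A`, `m2(S) ≤ B`. -/
theorem area_le {X : Type*} [MeasurableSpace X] (μ : Measure X) (n : ℕ) (N : X → ℝ)
    (hN : AEMeasurable N μ) (hpos : ∀ᵐ x ∂μ, 0 < N x) (S : Set X) {A B : ℝ} (hA : 0 ≤ A)
    (hB : 0 ≤ B)
    (h1 : ∫⁻ x in S, ENNReal.ofReal (N x) ∂μ ≤ ENNReal.ofReal A)
    (h2 : ∫⁻ x in S, ENNReal.ofReal ((N x) ^ (-((n : ℝ) + 1))) ∂μ ≤ ENNReal.ofReal B) :
    μ S ≤ ENNReal.ofReal (A ^ (((n : ℝ) + 1) / ((n : ℝ) + 2)) * B ^ (1 / ((n : ℝ) + 2))) := by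
  have hn2 : (0 : ℝ) < (n : ℝ) + 2 := by positivity
  have h := holder_area (μ.restrict S) n N hN.restrict (ae_restrict_of_ae hpos)
  rw [Measure.restrict_apply_univ] at h
  refine h.trans ?_
  rw [ENNReal.ofReal_mul (Real.rpow_nonneg hA _),
    ← ENNReal.ofReal_rpow_of_nonneg hA (by positivity),
    ← ENNReal.ofReal_rpow_of_nonneg hB (by positivity)]
  exact mul_le_mul' (ENNReal.rpow_le_rpow h1 (by positivity))
    (ENNReal.rpow_le_rpow h2 (by positivity))

/-- **B6 (lower mass), abstract form.** -/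
theorem lower_mass (n : ℕ) (hn : 2 ≤ n) (c C Θ : ℝ) (hc : 0 < c) (hC : 0 < C) (hcC : c ≤ C)
    (hΘ : 0 < Θ) :
    ∃ δ0 : ℝ, 0 < δ0 ∧ ∃ ε0 : ℝ, (0 < ε0 ∧ ε0 ≤ 1) ∧ ∃ c4 : ℝ, 0 < c4 ∧
    ∀ {X : Type} [MeasurableSpace X] (μ : Measure X) (K : ℝ) (_ : 0 < K)
      (N a b P W : X → ℝ) (_ : AEMeasurable N μ) (_ : AEMeasurable a μ) (_ : AEMeasurable b μ)
      (_ : AEMeasurable P μ) (_ : AEMeasurable W μ)
      (_ : ∀ᵐ x ∂μ, 0 < N x ∧ 0 < a x ∧ 0 < b x ∧ a x ≤ C * N x ∧ b x ≤ C * N x ∧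
        P x + W x ≤ Θ)
      (_ : ENNReal.ofReal (c * K ^ ((n : ℝ) / ((n : ℝ) + 2))) ≤ μ univ)
      (_ : ∫⁻ x, ENNReal.ofReal (N x) ∂μ ≤ ENNReal.ofReal (C * K))
      (_ : ∫⁻ x, ENNReal.ofReal ((N x) ^ (-((n : ℝ) + 1))) ∂μ ≤ ENNReal.ofReal (C / K))
      (_ : ∫⁻ x in {x | a x < δ0 * N x}, ENNReal.ofReal ((N x) ^ (-((n : ℝ) + 1))) ∂μ
        ≤ ENNReal.ofReal (C * δ0 / K))
      (_ : ∫⁻ x in {x | b x < δ0 * N x}, ENNReal.ofReal ((N x) ^ (-((n : ℝ) + 1))) ∂μ
        ≤ ENNReal.ofReal (C * δ0 / K))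
      (_ : ∫⁻ x in {x | P x < ε0}, ENNReal.ofReal (b x) ∂μ ≤ ENNReal.ofReal (C * ε0 * K))
      (_ : ∫⁻ x in {x | W x < ε0}, ENNReal.ofReal (a x) ∂μ ≤ ENNReal.ofReal (C * ε0 * K)),
      ENNReal.ofReal c4 ≤ ∫⁻ x in {x | ε0 ≤ P x ∧ P x ≤ Θ ∧ ε0 ≤ W x ∧ W x ≤ Θ},
        ENNReal.ofReal ((P x * a x + W x * b x) ^ (1 - (n : ℝ) / 2) *
          (1 / (P x * a x) + 1 / (W x * b x))) ∂μ := by
  have hn2 : (0 : ℝ) < (n : ℝ) + 2 := by positivity
  have hn1 : (0 : ℝ) < (n : ℝ) + 1 := by positivity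
  set α : ℝ := ((n : ℝ) + 1) / ((n : ℝ) + 2) with hα
  set β : ℝ := 1 / ((n : ℝ) + 2) with hβ
  set γ : ℝ := (n : ℝ) / ((n : ℝ) + 2) with hγ
  have hαpos : 0 < α := by positivity
  have hβpos : 0 < β := by positivity
  have hγnn : 0 ≤ γ := by positivity
  have hαβ1 : α + β = 1 := by rw [hα, hβ]; field_simp; ring
  have hαβγ : α - β = γ := by rw [hα, hβ, hγ]; field_simp; ring
  have hr : 0 < c / (8 * C) := by positivity
  have hr1 : c / (8 * C) ≤ 1 := by
    rw [div_le_one (by positivity)]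
    linarith
  set δ0 : ℝ := (c / (8 * C)) ^ ((n : ℝ) + 2) with hδ0
  have hδ0pos : 0 < δ0 := Real.rpow_pos_of_pos hr _
  have hδ0β : δ0 ^ β = c / (8 * C) := by
    rw [hδ0, ← Real.rpow_mul hr.le, hβ, mul_one_div_cancel hn2.ne', Real.rpow_one]
  set ε0 : ℝ := δ0 * (c / (8 * C)) ^ (1 / α) with hε0
  have hε0pos : 0 < ε0 := mul_pos hδ0pos (Real.rpow_pos_of_pos hr _)
  have hε0α : (ε0 / δ0) ^ α = c / (8 * C) := by
    rw [hε0, mul_div_cancel_left₀ _ hδ0pos.ne', ← Real.rpow_mul hr.le,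
      one_div_mul_cancel hαpos.ne', Real.rpow_one]
  set κ : ℝ := (2 * Θ * C) ^ (1 - (n : ℝ) / 2) * (2 / (Θ * C)) with hκ
  have hκpos : 0 < κ := by positivity
  set ι : ℝ := (c / 2 / C ^ γ) ^ (((n : ℝ) + 2) / 2) with hι
  have hιpos : 0 < ι := by positivity
  have hε01 : ε0 ≤ 1 :=
    mul_le_one₀ (Real.rpow_le_one hr.le hr1 (by positivity)) (Real.rpow_nonneg hr.le _)
      (Real.rpow_le_one hr.le hr1 (by positivity))
  refine ⟨δ0, hδ0pos, ε0, ⟨hε0pos, hε01⟩, κ * ι, by positivity, ?_⟩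
  intro X _ μ K hK N a b P W hN hma' hmb' hmP' hmW' hae harea hm1 hm2 hδa hδb hεP hεW
  have hma : NullMeasurableSet {x | a x < δ0 * N x} μ :=
    nullMeasurableSet_lt hma' (hN.const_mul δ0)
  have hmb : NullMeasurableSet {x | b x < δ0 * N x} μ :=
    nullMeasurableSet_lt hmb' (hN.const_mul δ0)
  have hmP : NullMeasurableSet {x | P x < ε0} μ := nullMeasurableSet_lt hmP' aemeasurable_const
  have hmW : NullMeasurableSet {x | W x < ε0} μ := nullMeasurableSet_lt hmW' aemeasurable_const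
  have hNpos : ∀ᵐ x ∂μ, 0 < N x := by filter_upwards [hae] with x hx using hx.1
  have hCK : 0 < C * K := by positivity
  -- area of the sets B3, B4
  have key1 : (C * K) ^ α * (C * δ0 / K) ^ β = c / 8 * K ^ γ := by
    have e1 : C * δ0 / K = C * K⁻¹ * δ0 := by field_simp
    rw [e1, Real.mul_rpow (by positivity) hδ0pos.le, hδ0β,
      Real.mul_rpow hC.le hK.le, Real.mul_rpow hC.le (by positivity), Real.inv_rpow hK.le]
    have e2 : C ^ α * C ^ β = C := by rw [← Real.rpow_add hC, hαβ1, Real.rpow_one]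
    have e3 : K ^ α * (K ^ β)⁻¹ = K ^ γ := by
      rw [← Real.rpow_neg hK.le, ← Real.rpow_add hK, ← hαβγ, sub_eq_add_neg]
    calc C ^ α * K ^ α * (C ^ β * (K ^ β)⁻¹ * (c / (8 * C)))
        = (C ^ α * C ^ β) * (K ^ α * (K ^ β)⁻¹) * (c / (8 * C)) := by ring
      _ = c / 8 * K ^ γ := by rw [e2, e3]; field_simp
  have key2 : (C * ε0 * K / δ0) ^ α * (C / K) ^ β = c / 8 * K ^ γ := by
    have e1 : C * ε0 * K / δ0 = C * K * (ε0 / δ0) := by field_simp
    have e1' : C / K = C * K⁻¹ := by field_simp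
    rw [e1, e1', Real.mul_rpow (by positivity) (by positivity), hε0α,
      Real.mul_rpow hC.le hK.le, Real.mul_rpow hC.le (by positivity), Real.inv_rpow hK.le]
    have e2 : C ^ α * C ^ β = C := by rw [← Real.rpow_add hC, hαβ1, Real.rpow_one]
    have e3 : K ^ α * (K ^ β)⁻¹ = K ^ γ := by
      rw [← Real.rpow_neg hK.le, ← Real.rpow_add hK, ← hαβγ, sub_eq_add_neg]
    calc C ^ α * K ^ α * (c / (8 * C)) * (C ^ β * (K ^ β)⁻¹)
        = (C ^ α * C ^ β) * (K ^ α * (K ^ β)⁻¹) * (c / (8 * C)) := by ring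
      _ = c / 8 * K ^ γ := by rw [e2, e3]; field_simp
  have hB3 : μ {x | a x < δ0 * N x} ≤ ENNReal.ofReal (c / 8 * K ^ γ) := by
    rw [← key1]
    exact area_le μ n N hN hNpos _ hCK.le (by positivity)
      ((setLIntegral_le_lintegral _ _).trans hm1) hδa
  have hB4 : μ {x | b x < δ0 * N x} ≤ ENNReal.ofReal (c / 8 * K ^ γ) := by
    rw [← key1]
    exact area_le μ n N hN hNpos _ hCK.le (by positivity)
      ((setLIntegral_le_lintegral _ _).trans hm1) hδb
  have slab : ∀ (f g : X → ℝ), NullMeasurableSet {x | f x < δ0 * N x} μ →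
      NullMeasurableSet {x | g x < ε0} μ →
      ∫⁻ x in {x | g x < ε0}, ENNReal.ofReal (f x) ∂μ ≤ ENNReal.ofReal (C * ε0 * K) →
      μ ({x | g x < ε0} \ {x | f x < δ0 * N x}) ≤ ENNReal.ofReal (c / 8 * K ^ γ) := by
    intro f g hf hg hint
    rw [← key2]
    refine area_le μ n N hN hNpos _ (by positivity) (by positivity) ?_
      ((setLIntegral_le_lintegral _ _).trans hm2)
    calc ∫⁻ x in {x | g x < ε0} \ {x | f x < δ0 * N x}, ENNReal.ofReal (N x) ∂μ
        ≤ ∫⁻ x in {x | g x < ε0} \ {x | f x < δ0 * N x},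
            ENNReal.ofReal δ0⁻¹ * ENNReal.ofReal (f x) ∂μ := by
          refine lintegral_mono_ae ((ae_restrict_iff'₀ (hg.diff hf)).mpr
            (Filter.Eventually.of_forall ?_))
          intro x hx
          rw [← ENNReal.ofReal_mul (by positivity)]
          apply ENNReal.ofReal_le_ofReal
          have : δ0 * N x ≤ f x := not_lt.mp hx.2
          rw [inv_mul_eq_div, le_div_iff₀ hδ0pos]
          linarith
      _ = ENNReal.ofReal δ0⁻¹ * ∫⁻ x in {x | g x < ε0} \ {x | f x < δ0 * N x},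
            ENNReal.ofReal (f x) ∂μ := lintegral_const_mul' _ _ ENNReal.ofReal_ne_top
      _ ≤ ENNReal.ofReal δ0⁻¹ * ENNReal.ofReal (C * ε0 * K) := by
          refine mul_le_mul_right ?_ _
          refine le_trans ?_ hint
          exact lintegral_mono_set sdiff_subset
      _ = ENNReal.ofReal (C * ε0 * K / δ0) := by
          rw [← ENNReal.ofReal_mul (by positivity)]
          congr 1
          field_simp
  have hB1 := slab b P hmb hmP hεP
  have hB2 := slab a W hma hmW hεW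
  -- the good set
  set G : Set X := {x | ¬ (a x < δ0 * N x) ∧ ¬ (b x < δ0 * N x) ∧ ¬ (P x < ε0) ∧ ¬ (W x < ε0)}
    with hG
  have hGmeas : NullMeasurableSet G μ :=
    hma.compl.inter (hmb.compl.inter (hmP.compl.inter hmW.compl))
  have hcover : μ univ ≤ μ G + (μ {x | a x < δ0 * N x} + (μ {x | b x < δ0 * N x} +
      (μ ({x | P x < ε0} \ {x | b x < δ0 * N x}) + μ ({x | W x < ε0} \ {x | a x < δ0 * N x})))) := by
    have hsub : (univ : Set X) ⊆ G ∪ ({x | a x < δ0 * N x} ∪ ({x | b x < δ0 * N x} ∪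
        (({x | P x < ε0} \ {x | b x < δ0 * N x}) ∪ ({x | W x < ε0} \ {x | a x < δ0 * N x})))) := by
      intro x _
      simp only [hG, mem_union, mem_ofPred_eq, mem_sdiff]
      tauto
    refine (measure_mono hsub).trans ((measure_union_le _ _).trans ?_)
    refine add_le_add le_rfl ((measure_union_le _ _).trans ?_)
    refine add_le_add le_rfl ((measure_union_le _ _).trans ?_)
    exact add_le_add le_rfl (measure_union_le _ _)
  have hKγ : 0 < K ^ γ := Real.rpow_pos_of_pos hK _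
  have hGarea : ENNReal.ofReal (c / 2 * K ^ γ) ≤ μ G := by
    have h1 : ENNReal.ofReal (c * K ^ γ) ≤ μ G + ENNReal.ofReal (c / 2 * K ^ γ) := by
      refine harea.trans (hcover.trans ?_)
      refine add_le_add le_rfl ?_
      refine (add_le_add hB3 (add_le_add hB4 (add_le_add hB1 hB2))).trans (le_of_eq ?_)
      rw [← ENNReal.ofReal_add (by positivity) (by positivity),
        ← ENNReal.ofReal_add (by positivity) (by positivity),
        ← ENNReal.ofReal_add (by positivity) (by positivity)]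
      congr 1
      ring
    have h2 : ENNReal.ofReal (c * K ^ γ) =
        ENNReal.ofReal (c / 2 * K ^ γ) + ENNReal.ofReal (c / 2 * K ^ γ) := by
      rw [← ENNReal.ofReal_add (by positivity) (by positivity)]
      congr 1
      ring
    rw [h2] at h1
    exact (ENNReal.add_le_add_iff_right ENNReal.ofReal_ne_top).mp h1
  -- Hölder on the good set
  have hH := holder_area' (μ.restrict G) n N hN.restrict (ae_restrict_of_ae hNpos)
  rw [Measure.restrict_apply_univ] at hH
  set I : ℝ≥0∞ := ∫⁻ x in G, ENNReal.ofReal ((N x) ^ (-((n : ℝ) / 2))) ∂μ with hI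
  have hI1 : ENNReal.ofReal (c / 2 * K ^ γ) ≤ I ^ (2 / ((n : ℝ) + 2)) *
      ENNReal.ofReal ((C * K) ^ γ) := by
    refine hGarea.trans (hH.trans ?_)
    rw [← ENNReal.ofReal_rpow_of_nonneg hCK.le hγnn]
    exact mul_le_mul' le_rfl (ENNReal.rpow_le_rpow ((setLIntegral_le_lintegral _ _).trans hm1) hγnn)
  have hI2 : ENNReal.ofReal (c / 2 / C ^ γ) ≤ I ^ (2 / ((n : ℝ) + 2)) := by
    have hCKγ : 0 < (C * K) ^ γ := by positivity
    have e : ENNReal.ofReal (c / 2 * K ^ γ) =
        ENNReal.ofReal (c / 2 / C ^ γ) * ENNReal.ofReal ((C * K) ^ γ) := by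
      rw [← ENNReal.ofReal_mul (by positivity)]
      congr 1
      rw [Real.mul_rpow hC.le hK.le]
      field_simp
    rw [e] at hI1
    exact (ENNReal.mul_le_mul_iff_left (by simpa using hCKγ) ENNReal.ofReal_ne_top).mp hI1
  have hI3 : ENNReal.ofReal ι ≤ I := by
    have h3 := ENNReal.rpow_le_rpow hI2 (z := ((n : ℝ) + 2) / 2) (by positivity)
    rw [← ENNReal.rpow_mul, ENNReal.ofReal_rpow_of_nonneg (by positivity) (by positivity)] at h3
    have e : 2 / ((n : ℝ) + 2) * (((n : ℝ) + 2) / 2) = 1 := by field_simp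
    rw [e, ENNReal.rpow_one] at h3
    exact h3
  -- pointwise comparison on G
  have hptw : ∀ᵐ x ∂(μ.restrict G), ENNReal.ofReal κ * ENNReal.ofReal ((N x) ^ (-((n : ℝ) / 2))) ≤
      ENNReal.ofReal ((P x * a x + W x * b x) ^ (1 - (n : ℝ) / 2) *
          (1 / (P x * a x) + 1 / (W x * b x))) := by
    rw [ae_restrict_iff'₀ hGmeas]
    filter_upwards [hae] with x hx hxG
    obtain ⟨hN0, ha0, hb0, haN, hbN, hPW⟩ := hx
    obtain ⟨h1, h2, h3, h4⟩ := hxG
    have h1' := not_lt.mp h1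
    have h2' := not_lt.mp h2
    have h3' := not_lt.mp h3
    have h4' := not_lt.mp h4
    have hP0 : 0 < P x := lt_of_lt_of_le hε0pos h3'
    have hW0 : 0 < W x := lt_of_lt_of_le hε0pos h4'
    have hPΘ : P x ≤ Θ := by linarith
    have hWΘ : W x ≤ Θ := by linarith
    rw [← ENNReal.ofReal_mul hκpos.le]
    apply ENNReal.ofReal_le_ofReal
    have hp0 : 0 < P x * a x := by positivity
    have hq0 : 0 < W x * b x := by positivity
    have hM0 : 0 < Θ * C * N x := by positivity
    have hp1 : P x * a x ≤ Θ * C * N x := by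
      calc P x * a x ≤ Θ * (C * N x) := mul_le_mul hPΘ haN ha0.le hΘ.le
        _ = Θ * C * N x := by ring
    have hq1 : W x * b x ≤ Θ * C * N x := by
      calc W x * b x ≤ Θ * (C * N x) := mul_le_mul hWΘ hbN hb0.le hΘ.le
        _ = Θ * C * N x := by ring
    have hexp : 1 - (n : ℝ) / 2 ≤ 0 := by
      have : (2 : ℝ) ≤ n := by exact_mod_cast hn
      linarith
    have hA1 : (2 * Θ * C * N x) ^ (1 - (n : ℝ) / 2) ≤ (P x * a x + W x * b x) ^ (1 - (n : ℝ) / 2) :=
      Real.rpow_le_rpow_of_nonpos (by positivity) (by linarith) hexp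
    have hA2 : 2 / (Θ * C * N x) ≤ 1 / (P x * a x) + 1 / (W x * b x) := by
      have e1 : 1 / (Θ * C * N x) ≤ 1 / (P x * a x) := one_div_le_one_div_of_le hp0 hp1
      have e2 : 1 / (Θ * C * N x) ≤ 1 / (W x * b x) := one_div_le_one_div_of_le hq0 hq1
      have e3 : 2 / (Θ * C * N x) = 1 / (Θ * C * N x) + 1 / (Θ * C * N x) := by ring
      linarith
    have hA3 : κ * N x ^ (-((n : ℝ) / 2)) =
        (2 * Θ * C * N x) ^ (1 - (n : ℝ) / 2) * (2 / (Θ * C * N x)) := by
      rw [Real.mul_rpow (by positivity) hN0.le, hκ]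
      have e : N x ^ (1 - (n : ℝ) / 2) = N x * N x ^ (-((n : ℝ) / 2)) := by
        rw [sub_eq_add_neg, Real.rpow_add hN0, Real.rpow_one]
      rw [e]
      field_simp
    rw [hA3]
    exact mul_le_mul hA1 hA2 (by positivity) (by positivity)
  have hbox : ∀ᵐ x ∂μ, x ∈ G → x ∈ {x | ε0 ≤ P x ∧ P x ≤ Θ ∧ ε0 ≤ W x ∧ W x ≤ Θ} := by
    filter_upwards [hae] with x hx hxG
    obtain ⟨h1, h2, h3, h4⟩ := hxG
    have h3' := not_lt.mp h3
    have h4' := not_lt.mp h4
    refine ⟨h3', ?_, h4', ?_⟩ <;> linarith [hx.2.2.2.2.2]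
  calc ENNReal.ofReal (κ * ι) = ENNReal.ofReal κ * ENNReal.ofReal ι := ENNReal.ofReal_mul hκpos.le
    _ ≤ ENNReal.ofReal κ * I := mul_le_mul_right hI3 _
    _ = ∫⁻ x in G, ENNReal.ofReal κ * ENNReal.ofReal ((N x) ^ (-((n : ℝ) / 2))) ∂μ :=
        (lintegral_const_mul' _ _ ENNReal.ofReal_ne_top).symm
    _ ≤ ∫⁻ x in G, ENNReal.ofReal ((P x * a x + W x * b x) ^ (1 - (n : ℝ) / 2) *
          (1 / (P x * a x) + 1 / (W x * b x))) ∂μ := lintegral_mono_ae hptw
    _ ≤ _ := lintegral_mono_set' hbox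


/-- **B6 in Lebesgue form.** `D` the domain, `ρ` the density, `d = ρ^{-(n+2)}` the determinant,
`sN, sa, sb` the conormals without the factor `ρ`. -/
theorem lower_mass_leb (n : ℕ) (hn : 2 ≤ n) (c C Θ : ℝ) (hc : 0 < c) (hC : 0 < C)
    (hcC : c ≤ C) (hΘ : 0 < Θ) :
    ∃ δ0 : ℝ, 0 < δ0 ∧ ∃ ε0 : ℝ, (0 < ε0 ∧ ε0 ≤ 1) ∧ ∃ c4 : ℝ, 0 < c4 ∧
    ∀ {X : Type} [MeasurableSpace X] (ν : Measure X) (D : Set X) (_ : MeasurableSet D)
      (K : ℝ) (_ : 0 < K)
      (d ρ sN sa sb P W : X → ℝ) (_ : AEMeasurable ρ (ν.restrict D))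
      (_ : AEMeasurable sN (ν.restrict D)) (_ : AEMeasurable sa (ν.restrict D))
      (_ : AEMeasurable sb (ν.restrict D))
      (_ : AEMeasurable P (ν.restrict D)) (_ : AEMeasurable W (ν.restrict D))
      (_ : ∀ x ∈ D, 0 < d x ∧ ρ x = d x ^ (-(1 / ((n : ℝ) + 2))))
      (_ : ∀ x ∈ D, 0 < sN x ∧ 0 < sa x ∧ 0 < sb x ∧ sa x ≤ C * sN x ∧ sb x ≤ C * sN x ∧
        P x + W x ≤ Θ)
      (_ : ENNReal.ofReal (c * K ^ ((n : ℝ) / ((n : ℝ) + 2))) ≤
        ∫⁻ x in D, ENNReal.ofReal (1 / ρ x) ∂ν)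
      (_ : ∫⁻ x in D, ENNReal.ofReal (sN x) ∂ν ≤ ENNReal.ofReal (C * K))
      (_ : ∫⁻ x in D, ENNReal.ofReal (d x / (sN x) ^ (n + 1)) ∂ν ≤ ENNReal.ofReal (C / K))
      (_ : ∫⁻ x in D ∩ {x | sa x < δ0 * sN x}, ENNReal.ofReal (d x / (sN x) ^ (n + 1)) ∂ν
        ≤ ENNReal.ofReal (C * δ0 / K))
      (_ : ∫⁻ x in D ∩ {x | sb x < δ0 * sN x}, ENNReal.ofReal (d x / (sN x) ^ (n + 1)) ∂ν
        ≤ ENNReal.ofReal (C * δ0 / K))
      (_ : ∫⁻ x in D ∩ {x | P x < ε0}, ENNReal.ofReal (sb x) ∂ν ≤ ENNReal.ofReal (C * ε0 * K))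
      (_ : ∫⁻ x in D ∩ {x | W x < ε0}, ENNReal.ofReal (sa x) ∂ν ≤ ENNReal.ofReal (C * ε0 * K)),
      ENNReal.ofReal c4 ≤
        ∫⁻ x in D ∩ {x | ε0 ≤ P x ∧ P x ≤ Θ ∧ ε0 ≤ W x ∧ W x ≤ Θ},
          ENNReal.ofReal ((P x * (ρ x * sa x) + W x * (ρ x * sb x)) ^ (1 - (n : ℝ) / 2) *
          (1 / (P x * (ρ x * sa x)) + 1 / (W x * (ρ x * sb x))) / ρ x) ∂ν := by
  obtain ⟨δ0, hδ0, ε0, hε0, c4, hc4, H⟩ := lower_mass n hn c C Θ hc hC hcC hΘ
  refine ⟨δ0, hδ0, ε0, hε0, c4, hc4, ?_⟩
  intro X _ ν D hD K hK d ρ sN sa sb P W hρm hNm ham hbm hPm hWm hd hpos harea hm1 hm2 hδa hδb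
    hεP hεW
  have hρpos : ∀ x ∈ D, 0 < ρ x := by
    intro x hx
    rw [(hd x hx).2]
    exact Real.rpow_pos_of_pos (hd x hx).1 _
  set w : X → ℝ≥0∞ := fun x => ENNReal.ofReal (1 / ρ x) with hw
  have hwm : AEMeasurable w (ν.restrict D) := (hρm.const_div 1).ennreal_ofReal
  set μ : Measure X := (ν.restrict D).withDensity w with hμ
  have hμac : μ ≪ ν.restrict D := withDensity_absolutelyContinuous _ _
  have hwtop : ∀ᵐ x ∂(ν.restrict D), w x < ∞ := Filter.Eventually.of_forall fun x =>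
    ENNReal.ofReal_lt_top
  -- the basic conversion
  have conv' : ∀ f : X → ℝ≥0∞, ∫⁻ x, f x ∂μ = ∫⁻ x in D, w x * f x ∂ν := fun f =>
    lintegral_withDensity_eq_lintegral_mul_non_measurable₀ _ hwm hwtop f
  have conv : ∀ (S : Set X), NullMeasurableSet S (ν.restrict D) → ∀ f : X → ℝ≥0∞,
      ∫⁻ x in S, f x ∂μ = ∫⁻ x in D ∩ S, w x * f x ∂ν := by
    intro S hS f
    rw [← lintegral_indicator₀ (hS.mono_ac hμac), conv']
    have e1 : ∀ x, w x * S.indicator f x = S.indicator (fun x => w x * f x) x := by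
      intro x
      by_cases hx : x ∈ S
      · simp [hx]
      · simp [hx]
    simp_rw [e1]
    rw [lintegral_indicator₀ hS, Measure.restrict_restrict₀ hS, inter_comm]
  have eN : ∀ x ∈ D, ∀ t : ℝ, 0 ≤ t → w x * ENNReal.ofReal (ρ x * t) = ENNReal.ofReal t := by
    intro x hx t ht
    have := hρpos x hx
    rw [hw, ← ENNReal.ofReal_mul (by positivity)]
    congr 1
    field_simp
  have eD : ∀ x ∈ D, w x * ENNReal.ofReal ((ρ x * sN x) ^ (-((n : ℝ) + 1))) =
      ENNReal.ofReal (d x / (sN x) ^ (n + 1)) := by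
    intro x hx
    have h1 := hρpos x hx
    have h2 := (hpos x hx).1
    have h3 := (hd x hx).1
    rw [hw, ← ENNReal.ofReal_mul (by positivity)]
    congr 1
    rw [Real.mul_rpow h1.le h2.le]
    have e1 : (sN x) ^ (-((n : ℝ) + 1)) = ((sN x) ^ (n + 1))⁻¹ := by
      rw [Real.rpow_neg h2.le]
      congr 1
      have : ((n : ℝ) + 1) = ((n + 1 : ℕ) : ℝ) := by push_cast; ring
      rw [this, Real.rpow_natCast]
    have e2 : 1 / ρ x * ρ x ^ (-((n : ℝ) + 1)) = d x := by
      have e3 : 1 / ρ x = ρ x ^ (-1 : ℝ) := by rw [Real.rpow_neg_one, one_div]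
      rw [e3, ← Real.rpow_add h1, (hd x hx).2, ← Real.rpow_mul h3.le]
      have : -(1 / ((n : ℝ) + 2)) * (-1 + -((n : ℝ) + 1)) = 1 := by field_simp; ring
      rw [this, Real.rpow_one]
    rw [← mul_assoc, e2, e1, div_eq_mul_inv]
  have hDae : ∀ {p : X → Prop}, (∀ x ∈ D, p x) → ∀ᵐ x ∂μ, p x := fun h =>
    hμac.ae_le (ae_restrict_of_forall_mem hD h)
  have hNμ : AEMeasurable (fun x => ρ x * sN x) μ := (hρm.mul hNm).mono_ac hμac
  have haμ : AEMeasurable (fun x => ρ x * sa x) μ := (hρm.mul ham).mono_ac hμac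
  have hbμ : AEMeasurable (fun x => ρ x * sb x) μ := (hρm.mul hbm).mono_ac hμac
  have hset : ∀ f : X → ℝ, D ∩ {x | ρ x * f x < δ0 * (ρ x * sN x)} = D ∩ {x | f x < δ0 * sN x} := by
    intro f
    ext x
    simp only [mem_inter_iff, mem_ofPred_eq]
    refine and_congr_right fun hx => ?_
    have h1 := hρpos x hx
    rw [show δ0 * (ρ x * sN x) = ρ x * (δ0 * sN x) by ring, mul_lt_mul_iff_right₀ h1]
  have hbox : NullMeasurableSet {x | ε0 ≤ P x ∧ P x ≤ Θ ∧ ε0 ≤ W x ∧ W x ≤ Θ} (ν.restrict D) :=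
    (nullMeasurableSet_le aemeasurable_const hPm).inter
      ((nullMeasurableSet_le hPm aemeasurable_const).inter
      ((nullMeasurableSet_le aemeasurable_const hWm).inter
        (nullMeasurableSet_le hWm aemeasurable_const)))
  have congrDS : ∀ (S : Set X) (f g : X → ℝ≥0∞), (∀ x ∈ D, f x = g x) →
      ∫⁻ x in D ∩ S, f x ∂ν = ∫⁻ x in D ∩ S, g x ∂ν := fun S f g h =>
    lintegral_congr_ae (ae_mono (Measure.restrict_mono inter_subset_left le_rfl)
      (ae_restrict_of_forall_mem hD h))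
  have R := H μ K hK (fun x => ρ x * sN x) (fun x => ρ x * sa x) (fun x => ρ x * sb x) P W
    hNμ haμ hbμ (hPm.mono_ac hμac) (hWm.mono_ac hμac)
    (hDae fun x hx => by
      obtain ⟨h1, h2, h3, h4, h5, h6⟩ := hpos x hx
      have h0 := hρpos x hx
      refine ⟨by positivity, by positivity, by positivity, ?_, ?_, h6⟩
      · calc ρ x * sa x ≤ ρ x * (C * sN x) := mul_le_mul_of_nonneg_left h4 h0.le
          _ = C * (ρ x * sN x) := by ring
      · calc ρ x * sb x ≤ ρ x * (C * sN x) := mul_le_mul_of_nonneg_left h5 h0.le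
          _ = C * (ρ x * sN x) := by ring)
    (by
      refine harea.trans (le_of_eq ?_)
      rw [← lintegral_one, conv']
      simp [hw])
    (by
      rw [conv']
      refine le_trans (le_of_eq ?_) hm1
      exact setLIntegral_congr_fun hD fun x hx => eN x hx _ (hpos x hx).1.le)
    (by
      rw [conv']
      refine le_trans (le_of_eq ?_) hm2
      exact setLIntegral_congr_fun hD fun x hx => eD x hx)
    (by
      have hs : NullMeasurableSet {x | ρ x * sa x < δ0 * (ρ x * sN x)} (ν.restrict D) :=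
        nullMeasurableSet_lt (hρm.mul ham) ((hρm.mul hNm).const_mul δ0)
      rw [conv _ hs, hset sa, congrDS _ _ _ eD]
      exact hδa)
    (by
      have hs : NullMeasurableSet {x | ρ x * sb x < δ0 * (ρ x * sN x)} (ν.restrict D) :=
        nullMeasurableSet_lt (hρm.mul hbm) ((hρm.mul hNm).const_mul δ0)
      rw [conv _ hs, hset sb, congrDS _ _ _ eD]
      exact hδb)
    (by
      rw [conv _ (nullMeasurableSet_lt hPm aemeasurable_const),
        congrDS _ _ _ fun x hx => eN x hx _ (hpos x hx).2.2.1.le]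
      exact hεP)
    (by
      rw [conv _ (nullMeasurableSet_lt hWm aemeasurable_const),
        congrDS _ _ _ fun x hx => eN x hx _ (hpos x hx).2.1.le]
      exact hεW)
  refine R.trans (le_of_eq ?_)
  rw [conv _ hbox]
  refine congrDS _ _ _ fun x hx => ?_
  have h0 := hρpos x hx
  rw [hw, ← ENNReal.ofReal_mul (by positivity)]
  congr 1
  ring

end Crest.Agent.R236.Bmass
end

-- ▼ part R236/BA
section

/-! Row 236, Part B, node B5': sublevel sets of an affine functional on the graph: compactness,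
positivity of the vertical slope, lower bound of the affine area (from B5). (helper913) -/

set_option autoImplicit false
open scoped ContDiff Topology ENNReal
open Crest.GeometryTopology.CoordMetric Crest.GeometryTopology.AffineMaximal
open Set Filter MeasureTheory
open Crest.Agent.R236.A

noncomputable section

namespace Crest.Agent.R236.BA

variable {n : ℕ} {Ω : Set (EE n)} {u : EE n → ℝ}





theorem apply_eq (F : EE n × ℝ →L[ℝ] ℝ) (x : EE n) (z : ℝ) :
    F (x, z) = F (x, 0) + F (0, 1) * z := by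
  have : (x, z) = (x, (0:ℝ)) + z • ((0 : EE n), (1 : ℝ)) := by ext <;> simp
  conv_lhs => rw [this]
  rw [map_add, map_smul, smul_eq_mul, mul_comm]

/-- the affine function whose graph is `{F = c}` -/
def slopeL (F : EE n × ℝ →L[ℝ] ℝ) : EE n →L[ℝ] ℝ :=
  -((F (0, 1))⁻¹ • F.comp (ContinuousLinearMap.inl ℝ (EE n) ℝ))

theorem lt_iff {F : EE n × ℝ →L[ℝ] ℝ} (hF : 0 < F (0, 1)) (c : ℝ) (x : EE n) (z : ℝ) :
    F (x, z) < c ↔ z < slopeL F x + c / F (0, 1) := by
  rw [apply_eq, slopeL]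
  simp only [neg_apply, smul_apply, smul_eq_mul,
    ContinuousLinearMap.coe_comp, Function.comp_apply, ContinuousLinearMap.inl_apply]
  constructor
  · intro h
    have : z = (F (0,1))⁻¹ * (F (0,1) * z) := by field_simp
    rw [this]
    have h2 : (F (0,1))⁻¹ * (F (0,1) * z) < (F (0,1))⁻¹ * (c - F (x, 0)) := by
      apply mul_lt_mul_of_pos_left _ (inv_pos.mpr hF)
      linarith
    calc _ < _ := h2
      _ = _ := by ring
  · intro h
    have h2 : F (0,1) * z < F (0,1) * (-((F (0,1))⁻¹ * F (x, 0)) + c / F (0,1)) :=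
      mul_lt_mul_of_pos_left h hF
    have h3 : F (0,1) * (-((F (0,1))⁻¹ * F (x, 0)) + c / F (0,1)) = -F (x,0) + c := by
      field_simp
    linarith

theorem le_iff {F : EE n × ℝ →L[ℝ] ℝ} (hF : 0 < F (0, 1)) (c : ℝ) (x : EE n) (z : ℝ) :
    F (x, z) ≤ c ↔ z ≤ slopeL F x + c / F (0, 1) := by
  rw [apply_eq, slopeL]
  simp only [neg_apply, smul_apply, smul_eq_mul,
    ContinuousLinearMap.coe_comp, Function.comp_apply, ContinuousLinearMap.inl_apply]
  constructor
  · intro h
    have : z = (F (0,1))⁻¹ * (F (0,1) * z) := by field_simp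
    rw [this]
    have h2 : (F (0,1))⁻¹ * (F (0,1) * z) ≤ (F (0,1))⁻¹ * (c - F (x, 0)) := by
      apply mul_le_mul_of_nonneg_left _ (inv_pos.mpr hF).le
      linarith
    calc _ ≤ _ := h2
      _ = _ := by ring
  · intro h
    have h2 : F (0,1) * z ≤ F (0,1) * (-((F (0,1))⁻¹ * F (x, 0)) + c / F (0,1)) :=
      mul_le_mul_of_nonneg_left h hF.le
    have h3 : F (0,1) * (-((F (0,1))⁻¹ * F (x, 0)) + c / F (0,1)) = -F (x,0) + c := by
      field_simp
    linarith

/-- `D` as a sublevel set of `u` minus an affine function -/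
theorem Dset_eq {F : EE n × ℝ →L[ℝ] ℝ} (hF : 0 < F (0, 1)) (c : ℝ) :
    {x | x ∈ Ω ∧ F (x, u x) < c} = {x | x ∈ Ω ∧ u x < slopeL F x + c / F (0, 1)} := by
  ext x
  simp only [mem_ofPred_eq, lt_iff hF]

theorem Dset_le_eq {F : EE n × ℝ →L[ℝ] ℝ} (hF : 0 < F (0, 1)) (c : ℝ) :
    {x | x ∈ Ω ∧ F (x, u x) ≤ c} = {x | x ∈ Ω ∧ u x ≤ slopeL F x + c / F (0, 1)} := by
  ext x
  simp only [mem_ofPred_eq, le_iff hF]

theorem isOpen_D (hΩ : IsOpen Ω) (hu : ContinuousOn u Ω) {g : EE n → ℝ} (hg : Continuous g) :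
    IsOpen {x | x ∈ Ω ∧ u x < g x} := by
  have : {x | x ∈ Ω ∧ u x < g x} = Ω ∩ (fun x => u x - g x) ⁻¹' (Iio 0) := by
    ext x
    simp
  rw [this]
  exact (hu.sub hg.continuousOn).isOpen_inter_preimage hΩ isOpen_Iio

/-- volume of a subset of the cap -/
theorem volume_cap_le {g : EE n → ℝ} (hΩ : IsOpen Ω) (hu : ContinuousOn u Ω) (hg : Continuous g)
    {h : ℝ} (hh : ∀ x ∈ Ω, g x - u x ≤ h) {S : Set (EE n × ℝ)} (hS : MeasurableSet S)
    (hSs : ∀ p ∈ S, p ∈ epi Ω u ∧ p.2 < g p.1) :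
    volume S ≤ ENNReal.ofReal h * volume {x | x ∈ Ω ∧ u x < g x} := by
  have hD : MeasurableSet {x | x ∈ Ω ∧ u x < g x} := (isOpen_D hΩ hu hg).measurableSet
  rw [Measure.volume_eq_prod, Measure.prod_apply hS]
  calc ∫⁻ x, volume (Prod.mk x ⁻¹' S)
      ≤ ∫⁻ x, {x | x ∈ Ω ∧ u x < g x}.indicator (fun _ => ENNReal.ofReal h) x := by
        refine lintegral_mono fun x => ?_
        by_cases hx : x ∈ {x | x ∈ Ω ∧ u x < g x}
        · rw [indicator_of_mem hx]
          calc volume (Prod.mk x ⁻¹' S) ≤ volume (Icc (u x) (g x)) := by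
                refine measure_mono fun z hz => ?_
                have := hSs (x, z) hz
                exact ⟨this.1.2, this.2.le⟩
            _ = ENNReal.ofReal (g x - u x) := Real.volume_Icc
            _ ≤ ENNReal.ofReal h := ENNReal.ofReal_le_ofReal (hh x hx.1)
        · rw [indicator_of_notMem hx]
          have : Prod.mk x ⁻¹' S = ∅ := by
            ext z
            simp only [mem_preimage, mem_empty_iff_false, iff_false]
            intro hz
            have := hSs (x, z) hz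
            exact hx ⟨this.1.1, this.1.2.trans_lt this.2⟩
          rw [this, measure_empty]
    _ = ENNReal.ofReal h * volume {x | x ∈ Ω ∧ u x < g x} := by
        rw [lintegral_indicator hD, lintegral_const, Measure.restrict_apply MeasurableSet.univ,
          univ_inter]

end Crest.Agent.R236.BA
end
end

-- ▼ part R236/BA2
section

/-! Row 236, Part B, node B5': lower bound of the affine area of `D_s`, from B5. (helper913) -/

set_option autoImplicit false
open scoped ContDiff Topology ENNReal Pointwise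
open Crest.GeometryTopology.CoordMetric Crest.GeometryTopology.AffineMaximal
open Set Filter MeasureTheory
open Crest.Agent.R236.A

noncomputable section

namespace Crest.Agent.R236.BA

open Crest.Agent.R236.B

/-- the statement B5 (with constant `c`) -/
def B5Hyp (n : ℕ) (c : ℝ) : Prop :=
  ∀ (Ω : Set (EE n)) (u : EE n → ℝ), SC Ω u → (∀ x ∈ Ω, affineMaximalOp n u x = 0) →
    ∀ (l : EE n →L[ℝ] ℝ) (b h : ℝ), IsCompact {x | x ∈ Ω ∧ u x ≤ l x + b} → 0 < h →
      (∃ x0 ∈ Ω, l x0 + b - u x0 = h) → (∀ x ∈ Ω, l x + b - u x ≤ h) →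
      ENNReal.ofReal c * (ENNReal.ofReal h * volume {x | x ∈ Ω ∧ u x < l x + b}) ^
        ((n : ℝ) / ((n : ℝ) + 2)) ≤
      ∫⁻ x in {x | x ∈ Ω ∧ u x < l x + b},
        ENNReal.ofReal ((hessianMat u x).det ^ ((1 : ℝ) / ((n : ℝ) + 2)))

variable {n : ℕ} {Ω : Set (EE n)} {u : EE n → ℝ}

/-- area of a sublevel set of an affine functional, in terms of the volume of a subset of the cap -/
theorem area_ge_of_volume {c : ℝ} (hB : B5Hyp n c) (hsc : SC Ω u)
    (hpde : ∀ x ∈ Ω, affineMaximalOp n u x = 0) {F : EE n × ℝ →L[ℝ] ℝ} {θ : ℝ}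
    (hF : 0 < F (0, 1)) (hcpt : IsCompact {x | x ∈ Ω ∧ F (x, u x) ≤ θ})
    {S : Set (EE n × ℝ)} (hS : MeasurableSet S) (hSs : ∀ p ∈ S, p ∈ epi Ω u ∧ F p < θ)
    (hSne : S.Nonempty) :
    ENNReal.ofReal c * (volume S) ^ ((n : ℝ) / ((n : ℝ) + 2)) ≤
      ∫⁻ x in {x | x ∈ Ω ∧ F (x, u x) < θ},
        ENNReal.ofReal ((hessianMat u x).det ^ ((1 : ℝ) / ((n : ℝ) + 2))) := by
  rw [Dset_eq hF θ]
  rw [Dset_le_eq hF θ] at hcpt
  set l := slopeL F with hl
  set b := θ / F (0, 1) with hb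
  have hg : Continuous fun x => l x + b := by fun_prop
  -- the maximum
  obtain ⟨p, hp⟩ := hSne
  have hp1 := hSs p hp
  have hplt : p.2 < l p.1 + b := (lt_iff hF θ p.1 p.2).mp hp1.2
  have hne : {x | x ∈ Ω ∧ u x ≤ l x + b}.Nonempty := ⟨p.1, hp1.1.1, hp1.1.2.trans hplt.le⟩
  obtain ⟨x0, hx0, hmax⟩ := hcpt.exists_isMaxOn hne
    (f := fun x => l x + b - u x)
    (hg.continuousOn.sub (hsc.continuousOn.mono fun x hx => hx.1))
  set h := l x0 + b - u x0 with hh
  have hpos : 0 < h := by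
    have h1 : l p.1 + b - u p.1 ≤ h := hmax (a := p.1) ⟨hp1.1.1, hp1.1.2.trans hplt.le⟩
    have h2 := hp1.1.2
    linarith
  have hle : ∀ x ∈ Ω, l x + b - u x ≤ h := by
    intro x hx
    by_cases hx' : u x ≤ l x + b
    · exact hmax (a := x) ⟨hx, hx'⟩
    · push Not at hx'
      linarith
  refine le_trans ?_ (hB Ω u hsc hpde l b h hcpt hpos ⟨x0, hx0.1, rfl⟩ hle)
  gcongr
  exact volume_cap_le hsc.isOpen hsc.continuousOn hg hle hS fun q hq =>
    ⟨(hSs q hq).1, (lt_iff hF θ q.1 q.2).mp (hSs q hq).2⟩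

theorem seminorm_continuous {E : Type*} [NormedAddCommGroup E] [NormedSpace ℝ E]
    [FiniteDimensional ℝ E] (p : Seminorm ℝ E) : Continuous p := by
  rw [← continuousOn_univ]
  exact p.convexOn.continuousOn isOpen_univ

/-- volume of a translated and scaled ball -/
theorem volume_ball_image (p : Seminorm ℝ (VV n)) {r : ℝ} (hr : 0 < r) (Q : VV n) :
    volume {X : VV n | p (X - Q) ≤ r} =
      ENNReal.ofReal (r ^ (n + 1)) * volume {v : VV n | p v ≤ 1} := by
  have e1 : {X : VV n | p (X - Q) ≤ r} = (fun X => X + (-Q)) ⁻¹' {X : VV n | p X ≤ r} := by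
    ext X
    simp [sub_eq_add_neg]
  have e2 : {X : VV n | p X ≤ r} = r • {v : VV n | p v ≤ 1} := by
    ext v
    rw [mem_smul_set_iff_inv_smul_mem₀ hr.ne']
    simp only [mem_ofPred_eq, map_smul_eq_mul, norm_inv, Real.norm_eq_abs, abs_of_pos hr]
    rw [inv_mul_le_iff₀ hr, mul_one]
  have e3 : Module.finrank ℝ (VV n) = n + 1 := by
    simp [VV, EE]
  have : (volume : Measure (VV n)).IsAddHaarMeasure := by
    rw [Measure.volume_eq_prod]; infer_instance
  rw [e1, measure_preimage_add_right, e2, Measure.addHaar_smul, e3, abs_of_pos (by positivity)]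

variable {Θ K c2 C0 : ℝ} {N : ℕ} {ε0 : ℝ} {P0 W0 : VV n →L[ℝ] ℝ} {pc wc : ℝ} {eP eW O : VV n}
  {es Q : ℝ → ℝ → VV n} {nrm : ℝ → ℝ → Seminorm ℝ (VV n)}

/-- the region `{x ∈ Ω | P/lam + W/tau < θ}` -/
def Dr (Ω : Set (EE n)) (u : EE n → ℝ) (P0 W0 : VV n →L[ℝ] ℝ) (pc wc lam tau θ : ℝ) : Set (EE n) :=
  {x | x ∈ Ω ∧ aff P0 pc (x, u x) / lam + aff W0 wc (x, u x) / tau < θ}

/-- **B5'**: lower bound of the affine area of `D_s`. -/
theorem area_lower {c : ℝ} (hB : B5Hyp n c)
    (h : APX n Θ K c2 C0 N ε0 Ω u P0 W0 pc wc eP eW O es Q nrm) {lam tau : ℝ}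
    (hg : Grid N lam tau) {θ : ℝ} (hθ : Θ / 8 ≤ θ) (hθ' : θ ≤ Θ) :
    ENNReal.ofReal c * (ENNReal.ofReal (c2 ^ (n + 1)) * volume {v : VV n | nrm lam tau v ≤ 1}) ^
        ((n : ℝ) / ((n : ℝ) + 2)) ≤
      ∫⁻ x in Dr Ω u P0 W0 pc wc lam tau θ,
        ENNReal.ofReal ((hessianMat u x).det ^ ((1 : ℝ) / ((n : ℝ) + 2))) := by
  obtain ⟨a, b, -, -, hlam, htau⟩ := id hg
  have hl0 : 0 < lam := by rw [hlam]; positivity
  have ht0 : 0 < tau := by rw [htau]; positivity
  set F : VV n →L[ℝ] ℝ := lam⁻¹ • P0 + tau⁻¹ • W0 with hF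
  have hFv : ∀ X : VV n, aff P0 pc X / lam + aff W0 wc X / tau = F X + (pc / lam + wc / tau) := by
    intro X
    simp only [hF, aff, add_apply, smul_apply, smul_eq_mul]
    field_simp
    ring
  have hup : 0 < F (0, 1) := by
    have := h.up lam tau hg 1 1 le_rfl (by norm_num) le_rfl (by norm_num)
    simp only [hF, add_apply, smul_apply, smul_eq_mul]
    calc (0:ℝ) < _ := this
      _ = _ := by ring
  have hDr : Dr Ω u P0 W0 pc wc lam tau θ =
      {x | x ∈ Ω ∧ F (x, u x) < θ - (pc / lam + wc / tau)} := by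
    ext x
    simp only [Dr, mem_ofPred_eq, hFv, lt_sub_iff_add_lt]
  have hcpt : IsCompact {x | x ∈ Ω ∧ F (x, u x) ≤ θ - (pc / lam + wc / tau)} := by
    have := h.cpt lam tau hg 1 1 le_rfl (by norm_num) le_rfl (by norm_num) θ hθ'
    convert this using 1
    ext x
    simp only [mem_ofPred_eq, one_mul, hFv, le_sub_iff_add_le]
  have hball := volume_ball_image (nrm lam tau) h.c2_pos (Q lam tau)
  rw [hDr, ← hball]
  refine area_ge_of_volume hB h.sol.sc h.sol.pde hup hcpt ?_ ?_ ?_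
  · have hcont := seminorm_continuous (nrm lam tau)
    exact (isClosed_le (hcont.comp (continuous_id.sub continuous_const))
      continuous_const).measurableSet
  · intro X hX
    have h1 := h.Q_mem lam tau hg (X - Q lam tau) hX
    rw [add_sub_cancel] at h1
    refine ⟨h1.1, ?_⟩
    have h2 := h1.2
    rw [hFv] at h2
    linarith
  · exact ⟨Q lam tau, by simp [h.c2_pos.le]⟩

/-- real form: `κ v_s = (volume {nrm ≤ 1}).toReal` -/
theorem area_lower' {c : ℝ} (hc : 0 ≤ c) (hB : B5Hyp n c)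
    (h : APX n Θ K c2 C0 N ε0 Ω u P0 W0 pc wc eP eW O es Q nrm) {lam tau : ℝ}
    (hg : Grid N lam tau) {θ : ℝ} (hθ : Θ / 8 ≤ θ) (hθ' : θ ≤ Θ) :
    ENNReal.ofReal (c * (c2 ^ (n + 1)) ^ ((n : ℝ) / ((n : ℝ) + 2)) *
      (volume {v : VV n | nrm lam tau v ≤ 1}).toReal ^ ((n : ℝ) / ((n : ℝ) + 2))) ≤
      ∫⁻ x in Dr Ω u P0 W0 pc wc lam tau θ,
        ENNReal.ofReal ((hessianMat u x).det ^ ((1 : ℝ) / ((n : ℝ) + 2))) := by
  refine le_trans ?_ (area_lower hB h hg hθ hθ')
  have hγ : (0 : ℝ) ≤ (n : ℝ) / ((n : ℝ) + 2) := by positivity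
  have h2 : (0 : ℝ) ≤ c2 ^ (n + 1) := pow_nonneg h.c2_pos.le _
  rw [ENNReal.mul_rpow_of_nonneg _ _ hγ, mul_assoc, ENNReal.ofReal_mul hc,
    ENNReal.ofReal_mul (Real.rpow_nonneg h2 _), ENNReal.ofReal_rpow_of_nonneg h2 hγ]
  gcongr
  rw [← ENNReal.ofReal_rpow_of_nonneg ENNReal.toReal_nonneg hγ]
  gcongr
  exact ENNReal.ofReal_toReal_le

end Crest.Agent.R236.BA
end
end

-- ▼ part R236/BmassV
section

/-!
# Row 236, Part B, volumes of seminorm balls and of slabs (coordinate free)  (helper218)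
-/

set_option autoImplicit false
noncomputable section
open MeasureTheory Set
open scoped ENNReal Pointwise

namespace Crest.Agent.R236.BmassV

variable {V : Type*} [NormedAddCommGroup V] [NormedSpace ℝ V] [FiniteDimensional ℝ V]
  [MeasurableSpace V] [BorelSpace V] (μ : Measure V) [μ.IsAddHaarMeasure]

omit [MeasurableSpace V] [BorelSpace V] in
lemma seminorm_continuous (g : Seminorm ℝ V) : Continuous g :=
  g.convexOn.locallyLipschitz.continuous

/-- volume of a ball of radius `R` around `O` -/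
lemma vol_ball (g : Seminorm ℝ V) (O : V) {R : ℝ} (hR : 0 < R) :
    μ {X | g (X - O) ≤ R} =
      ENNReal.ofReal (R ^ Module.finrank ℝ V) * μ {v | g v ≤ 1} := by
  have h1 : {X | g (X - O) ≤ R} = (fun X => X + (-O)) ⁻¹' (R • {v | g v ≤ 1}) := by
    ext X
    simp only [mem_ofPred_eq, mem_preimage]
    rw [mem_smul_set_iff_inv_smul_mem₀ hR.ne']
    simp only [mem_ofPred_eq, map_smul_eq_mul, norm_inv, Real.norm_eq_abs, abs_of_pos hR]
    rw [← sub_eq_add_neg, inv_mul_le_iff₀ hR, mul_one]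
  rw [h1, measure_preimage_add_right, Measure.addHaar_smul, abs_of_nonneg (by positivity)]

/-- **slab lemma**: in the ball `{g ≤ R}` of a seminorm, the slab `|F + κ| ≤ ε` has volume
`≤ ε (R + 6c)^{dim}` times the volume of the unit ball. -/
lemma vol_slab (g : Seminorm ℝ V) (O : V) {R c ε : ℝ} (hR : 0 < R) (hc : 0 ≤ c) (hε : 0 < ε)
    (F : V →L[ℝ] ℝ) (f : V) (hF : F f = 1) (hf : g f ≤ c) (κ : ℝ) :
    μ {X | g (X - O) ≤ R ∧ |F X + κ| ≤ ε} ≤
      ENNReal.ofReal (ε * (R + 6 * c) ^ Module.finrank ℝ V) * μ {v | g v ≤ 1} := by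
  rcases le_or_gt ε 1 with hε1 | hε1
  · set m : ℕ := ⌈1 / ε⌉₊ with hm
    have hm1 : 1 / ε ≤ m := Nat.le_ceil _
    have hm2 : (m : ℝ) ≤ 1 / ε + 1 := (Nat.ceil_lt_add_one (by positivity)).le
    have hm0 : 0 < (m : ℝ) := lt_of_lt_of_le (by positivity) hm1
    set S : Set V := {X | g (X - O) ≤ R ∧ |F X + κ| ≤ ε} with hS
    have hSm : MeasurableSet S := by
      have hgc := seminorm_continuous g
      have h1 : IsClosed {X | g (X - O) ≤ R} :=
        isClosed_le (hgc.comp (continuous_id.sub continuous_const)) continuous_const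
      have h2 : IsClosed {X | |F X + κ| ≤ ε} :=
        isClosed_le ((F.continuous.add continuous_const).abs) continuous_const
      exact (h1.inter h2).measurableSet
    -- translates
    set T : Fin m → Set V := fun k => (fun X => X + (-((3 * (k : ℝ) * ε) • f))) ⁻¹' S with hT
    have hTm : ∀ k, MeasurableSet (T k) := fun k =>
      (measurable_id.add_const _) hSm
    have hTv : ∀ k, μ (T k) = μ S := fun k => measure_preimage_add_right _ _ _
    have hdisj : Pairwise (Function.onFun Disjoint T) := by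
      intro i j hij
      rw [Function.onFun, Set.disjoint_left]
      rintro X ⟨-, h1⟩ ⟨-, h2⟩
      simp only [map_add, map_neg, map_smul, hF, smul_eq_mul, mul_one] at h1 h2
      rw [abs_le] at h1 h2
      have hij' : (i : ℕ) ≠ (j : ℕ) := fun h => hij (Fin.ext h)
      rcases lt_or_gt_of_ne hij' with h | h
      · have h' : (i : ℝ) + 1 ≤ (j : ℝ) := by exact_mod_cast h
        nlinarith
      · have h' : (j : ℝ) + 1 ≤ (i : ℝ) := by exact_mod_cast h
        nlinarith
    have hsub : (⋃ k, T k) ⊆ {X | g (X - O) ≤ R + 6 * c} := by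
      intro X hX
      obtain ⟨k, hk⟩ := mem_iUnion.mp hX
      obtain ⟨h1, -⟩ := hk
      simp only [mem_ofPred_eq]
      have hk1 : (k : ℝ) ≤ m := by exact_mod_cast k.2.le
      have hk0 : (0 : ℝ) ≤ k := Nat.cast_nonneg _
      have e : X - O = (X + (-((3 * (k : ℝ) * ε) • f)) - O) + (3 * (k : ℝ) * ε) • f := by abel
      rw [e]
      refine (map_add_le_add g _ _).trans ?_
      have h3 : g ((3 * (k : ℝ) * ε) • f) ≤ 6 * c := by
        rw [map_smul_eq_mul, Real.norm_eq_abs, abs_of_nonneg (by positivity)]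
        have h4 : 3 * (k : ℝ) * ε ≤ 6 := by
          have h5 : (m : ℝ) * ε ≤ 2 := by
            calc (m : ℝ) * ε ≤ (1 / ε + 1) * ε := mul_le_mul_of_nonneg_right hm2 hε.le
              _ = 1 + ε := by field_simp
              _ ≤ 2 := by linarith
          have h6 : (k : ℝ) * ε ≤ m * ε := mul_le_mul_of_nonneg_right hk1 hε.le
          linarith
        calc 3 * (k : ℝ) * ε * g f ≤ 6 * g f := mul_le_mul_of_nonneg_right h4 (apply_nonneg g f)
          _ ≤ 6 * c := by linarith
      linarith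
    have hsum : (m : ℝ≥0∞) * μ S ≤ ENNReal.ofReal ((R + 6 * c) ^ Module.finrank ℝ V) *
        μ {v | g v ≤ 1} := by
      rw [← vol_ball μ g O (by positivity : (0:ℝ) < R + 6 * c)]
      calc (m : ℝ≥0∞) * μ S = ∑ k : Fin m, μ (T k) := by
            simp [hTv]
        _ = μ (⋃ k, T k) := by
            rw [measure_iUnion hdisj hTm, tsum_fintype]
        _ ≤ _ := measure_mono hsub
    have h1 : (1 : ℝ≥0∞) ≤ ENNReal.ofReal ε * m := by
      rw [← ENNReal.ofReal_natCast m, ← ENNReal.ofReal_mul hε.le, ENNReal.one_le_ofReal]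
      calc (1 : ℝ) = ε * (1 / ε) := by field_simp
        _ ≤ ε * m := mul_le_mul_of_nonneg_left hm1 hε.le
    calc μ S = 1 * μ S := (one_mul _).symm
      _ ≤ (ENNReal.ofReal ε * m) * μ S := mul_le_mul_left h1 _
      _ = ENNReal.ofReal ε * (m * μ S) := mul_assoc _ _ _
      _ ≤ ENNReal.ofReal ε * (ENNReal.ofReal ((R + 6 * c) ^ Module.finrank ℝ V) *
            μ {v | g v ≤ 1}) := mul_le_mul_right hsum _
      _ = _ := by rw [← mul_assoc, ← ENNReal.ofReal_mul hε.le]
  · calc μ {X | g (X - O) ≤ R ∧ |F X + κ| ≤ ε} ≤ μ {X | g (X - O) ≤ R} :=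
          measure_mono fun X hX => hX.1
      _ = ENNReal.ofReal (R ^ Module.finrank ℝ V) * μ {v | g v ≤ 1} := vol_ball μ g O hR
      _ ≤ _ := by
          refine mul_le_mul_left (ENNReal.ofReal_le_ofReal ?_) _
          have h1 : R ^ Module.finrank ℝ V ≤ (R + 6 * c) ^ Module.finrank ℝ V :=
            pow_le_pow_left₀ hR.le (by linarith) _
          have h2 : 0 ≤ (R + 6 * c) ^ Module.finrank ℝ V := by positivity
          nlinarith

end Crest.Agent.R236.BmassV
end
end

-- ▼ part R236/BmassM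
section

/-!
# Row 236, Part B: (M1), (M1P), (M1W) in terms of `APX`  (helper218)
-/

set_option autoImplicit false
noncomputable section
open MeasureTheory Set
open scoped ENNReal
open Crest.GeometryTopology.CoordMetric Crest.GeometryTopology.AffineMaximal

namespace Crest.Agent.R236.BmassM

open Crest.Agent.R236.A (EE epi SOL STRUCT IsStruct ConeData Appr)
open Crest.Agent.R236.B Crest.Agent.R236.BA Crest.Agent.R236.BVol

variable {n : ℕ} {Θ K c2 C0 : ℝ} {N : ℕ} {ε0 : ℝ} {Ω : Set (EE n)} {u : EE n → ℝ}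
  {P0 W0 : VV n →L[ℝ] ℝ} {pc wc : ℝ} {eP eW O : VV n} {es Q : ℝ → ℝ → VV n}
  {nrm : ℝ → ℝ → Seminorm ℝ (VV n)}

lemma grid_pos {lam tau : ℝ} (hg : Grid N lam tau) : 0 < lam ∧ 0 < tau := by
  obtain ⟨a, b, -, -, rfl, rfl⟩ := hg
  exact ⟨by positivity, by positivity⟩

lemma finrank_VV : Module.finrank ℝ (VV n) = n + 1 := by
  simp [VV, EE]


lemma sg_smul (t : ℝ) (v : VV n) (x : EE n) : sg u (t • v) x = t * sg u v x := by
  simp only [sg, Prod.smul_snd, Prod.smul_fst, map_smul, smul_eq_mul]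
  ring

lemma continuousOn_aff (h : SC Ω u) (F : VV n →L[ℝ] ℝ) (c : ℝ) :
    ContinuousOn (fun x => aff F c (x, u x)) Ω := by
  unfold aff
  exact (F.continuous.comp_continuousOn (continuousOn_id.prodMk h.smooth.continuousOn)).add
    continuousOn_const

lemma isOpen_Dr (h : SC Ω u) (lam tau θ : ℝ) : IsOpen (Dr Ω u P0 W0 pc wc lam tau θ) := by
  have h1 : ContinuousOn (fun x => aff P0 pc (x, u x) / lam + aff W0 wc (x, u x) / tau) Ω :=
    ((continuousOn_aff h P0 pc).div_const _).add ((continuousOn_aff h W0 wc).div_const _)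
  have := h1.isOpen_inter_preimage h.isOpen (isOpen_Iio (a := θ))
  exact this

lemma Dr_subset (lam tau θ : ℝ) : Dr Ω u P0 W0 pc wc lam tau θ ⊆ Ω := fun _ hx => hx.1

lemma nrm_le (h : APX n Θ K c2 C0 N ε0 Ω u P0 W0 pc wc eP eW O es Q nrm) {lam tau : ℝ}
    (hg : Grid N lam tau) {x : EE n} (hx : x ∈ Dr Ω u P0 W0 pc wc lam tau Θ) :
    nrm lam tau ((x, u x) - O) ≤ K ∧ -(ε0 * lam) ≤ aff P0 pc (x, u x) ∧
      -(ε0 * tau) ≤ aff W0 wc (x, u x) := by
  refine h.bdd lam tau hg 1 1 le_rfl (by norm_num) le_rfl (by norm_num) (x, u x) ⟨hx.1, le_rfl⟩ ?_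
  rw [one_mul, one_mul]
  exact hx.2.le

/-- (M1) -/
theorem M1 (h : APX n Θ K c2 C0 N ε0 Ω u P0 W0 pc wc eP eW O es Q nrm) {lam tau : ℝ}
    (hg : Grid N lam tau) :
    ∫⁻ x in Dr Ω u P0 W0 pc wc lam tau Θ, ENNReal.ofReal (sg u (es lam tau) x) ≤
      ENNReal.ofReal ((K + C0) ^ (n + 1)) * volume {v : VV n | nrm lam tau v ≤ 1} := by
  have hsc := h.sol.sc
  have hC0 := h.C0_ge
  have hK := h.K_pos
  have hV := V1 (B := Dr Ω u P0 W0 pc wc lam tau Θ) (v := es lam tau)
    (S := {X : VV n | nrm lam tau (X - O) ≤ K + C0}) hsc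
    (isOpen_Dr hsc lam tau Θ).measurableSet (Dr_subset _ _ _)
    (fun x hx => h.sg_es lam tau hg x hx.1 hx.2.le)
    (fun x hx r hr => by
      simp only [mem_ofPred_eq]
      have e : ((x, u x) : VV n) - r • es lam tau - O = ((x, u x) - O) + (-r) • es lam tau := by
        rw [neg_smul]; abel
      rw [e]
      refine (map_add_le_add _ _ _).trans ?_
      have h1 := (nrm_le h hg hx).1
      have h2 : nrm lam tau ((-r) • es lam tau) ≤ C0 := by
        rw [map_smul_eq_mul, norm_neg, Real.norm_eq_abs, abs_of_pos hr.1]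
        have h3 := h.es_le lam tau hg
        have h4 : 0 ≤ nrm lam tau (es lam tau) := apply_nonneg _ _
        nlinarith [hr.1, hr.2]
      linarith)
  refine hV.trans (le_of_eq ?_)
  rw [BmassV.vol_ball volume (nrm lam tau) O (by linarith : 0 < K + C0), finrank_VV]

/-- general slab version -/
theorem M1slab (h : APX n Θ K c2 C0 N ε0 Ω u P0 W0 pc wc eP eW O es Q nrm) (hε0 : 0 < ε0)
    {lam tau : ℝ} (hg : Grid N lam tau) (F : VV n →L[ℝ] ℝ) (f v : VV n) (κ : ℝ)
    (hFf : F f = 1) (hf : nrm lam tau f ≤ C0) (hFv : F v = 0) (hv : nrm lam tau v ≤ C0)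
    (B : Set (EE n)) (hB : MeasurableSet B) (hBD : B ⊆ Dr Ω u P0 W0 pc wc lam tau Θ)
    (hpos : ∀ x ∈ B, 0 < sg u v x) (hF : ∀ x ∈ B, |F (x, u x) + κ| ≤ ε0) :
    ∫⁻ x in B, ENNReal.ofReal (sg u v x) ≤
      ENNReal.ofReal (ε0 * (K + 7 * C0) ^ (n + 1)) * volume {v : VV n | nrm lam tau v ≤ 1} := by
  have hsc := h.sol.sc
  have hC0 := h.C0_ge
  have hK := h.K_pos
  have hV := V1 (B := B) (v := v)
    (S := {X : VV n | nrm lam tau (X - O) ≤ K + C0 ∧ |F X + κ| ≤ ε0}) hsc hB
    (hBD.trans (Dr_subset _ _ _)) hpos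
    (fun x hx r hr => by
      refine ⟨?_, ?_⟩
      · have e : ((x, u x) : VV n) - r • v - O = ((x, u x) - O) + (-r) • v := by
          rw [neg_smul]; abel
        rw [e]
        refine (map_add_le_add _ _ _).trans ?_
        have h1 := (nrm_le h hg (hBD hx)).1
        have h2 : nrm lam tau ((-r) • v) ≤ C0 := by
          rw [map_smul_eq_mul, norm_neg, Real.norm_eq_abs, abs_of_pos hr.1]
          have h4 : 0 ≤ nrm lam tau v := apply_nonneg _ _
          nlinarith [hr.1, hr.2]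
        linarith
      · have e : F ((x, u x) - r • v) = F (x, u x) := by
          rw [map_sub, map_smul, hFv, smul_zero, sub_zero]
        rw [e]
        exact hF x hx)
  refine hV.trans ((BmassV.vol_slab volume (nrm lam tau) O (by linarith : 0 < K + C0)
    (by linarith : 0 ≤ C0) hε0 F f hFf hf κ).trans (le_of_eq ?_))
  rw [finrank_VV]
  congr 3
  ring

/-- (M1P) -/
theorem M1P (h : APX n Θ K c2 C0 N ε0 Ω u P0 W0 pc wc eP eW O es Q nrm) (hε0 : 0 < ε0)
    {lam tau : ℝ} (hg : Grid N lam tau) :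
    ∫⁻ x in Dr Ω u P0 W0 pc wc lam tau Θ ∩ {x | aff P0 pc (x, u x) / lam < ε0},
        ENNReal.ofReal (tau * sg u eW x) ≤
      ENNReal.ofReal (ε0 * (K + 7 * C0) ^ (n + 1)) * volume {v : VV n | nrm lam tau v ≤ 1} := by
  have hsc := h.sol.sc
  obtain ⟨hl, ht⟩ := grid_pos hg
  have hmeas : MeasurableSet
      (Dr Ω u P0 W0 pc wc lam tau Θ ∩ {x | aff P0 pc (x, u x) / lam < ε0}) := by
    have h1 : ContinuousOn (fun x => aff P0 pc (x, u x) / lam) (Dr Ω u P0 W0 pc wc lam tau Θ) :=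
      ((continuousOn_aff hsc P0 pc).div_const _).mono (Dr_subset _ _ _)
    exact (h1.isOpen_inter_preimage (isOpen_Dr hsc lam tau Θ) (isOpen_Iio (a := ε0))).measurableSet
  have := M1slab h hε0 hg (lam⁻¹ • P0) (lam • eP) (tau • eW) (pc / lam)
    (by simp [h.PP, hl.ne']) (h.eP_le lam tau hg) (by simp [h.PW]) (h.eW_le lam tau hg)
    _ hmeas inter_subset_left
    (fun x hx => by
      rw [sg_smul]
      exact mul_pos ht (h.sg_eW lam tau hg x hx.1.1 hx.1.2.le))
    (fun x hx => by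
      have e : (lam⁻¹ • P0) (x, u x) + pc / lam = aff P0 pc (x, u x) / lam := by
        simp only [ContinuousLinearMap.smul_apply, smul_eq_mul, aff]
        field_simp
      rw [e, abs_le]
      refine ⟨?_, hx.2.le⟩
      rw [le_div_iff₀ hl]
      linarith [(nrm_le h hg hx.1).2.1])
  simpa only [sg_smul] using this

/-- (M1W) -/
theorem M1W (h : APX n Θ K c2 C0 N ε0 Ω u P0 W0 pc wc eP eW O es Q nrm) (hε0 : 0 < ε0)
    {lam tau : ℝ} (hg : Grid N lam tau) :
    ∫⁻ x in Dr Ω u P0 W0 pc wc lam tau Θ ∩ {x | aff W0 wc (x, u x) / tau < ε0},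
        ENNReal.ofReal (lam * sg u eP x) ≤
      ENNReal.ofReal (ε0 * (K + 7 * C0) ^ (n + 1)) * volume {v : VV n | nrm lam tau v ≤ 1} := by
  have hsc := h.sol.sc
  obtain ⟨hl, ht⟩ := grid_pos hg
  have hmeas : MeasurableSet
      (Dr Ω u P0 W0 pc wc lam tau Θ ∩ {x | aff W0 wc (x, u x) / tau < ε0}) := by
    have h1 : ContinuousOn (fun x => aff W0 wc (x, u x) / tau) (Dr Ω u P0 W0 pc wc lam tau Θ) :=
      ((continuousOn_aff hsc W0 wc).div_const _).mono (Dr_subset _ _ _)
    exact (h1.isOpen_inter_preimage (isOpen_Dr hsc lam tau Θ) (isOpen_Iio (a := ε0))).measurableSet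
  have := M1slab h hε0 hg (tau⁻¹ • W0) (tau • eW) (lam • eP) (wc / tau)
    (by simp [h.WW, ht.ne']) (h.eW_le lam tau hg) (by simp [h.WP]) (h.eP_le lam tau hg)
    _ hmeas inter_subset_left
    (fun x hx => by
      rw [sg_smul]
      exact mul_pos hl (h.sg_eP lam tau hg x hx.1.1 hx.1.2.le))
    (fun x hx => by
      have e : (tau⁻¹ • W0) (x, u x) + wc / tau = aff W0 wc (x, u x) / tau := by
        simp only [ContinuousLinearMap.smul_apply, smul_eq_mul, aff]
        field_simp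
      rw [e, abs_le]
      refine ⟨?_, hx.2.le⟩
      rw [le_div_iff₀ ht]
      linarith [(nrm_le h hg hx.1).2.2])
  simpa only [sg_smul] using this

end Crest.Agent.R236.BmassM
end
end

-- ▼ part R236/BmassF
section

/-!
# Row 236, Part B, node B6 (lower mass) in terms of `APX`  (helper218)
-/

set_option autoImplicit false
noncomputable section
open MeasureTheory Set
open scoped ENNReal ContDiff
open Crest.GeometryTopology.CoordMetric Crest.GeometryTopology.AffineMaximal

namespace Crest.Agent.R236.BmassF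

open Crest.Agent.R236.A (EE epi SOL STRUCT IsStruct ConeData Appr)
open Crest.Agent.R236.B Crest.Agent.R236.BA Crest.Agent.R236.BVol Crest.Agent.R236.BmassM

/-- the second-moment bounds (M2), (M2P), (M2W), with constant `CM` -/
def M2Hyp (n : ℕ) (Θ K c2 C0 CM : ℝ) : Prop :=
  ∀ (N : ℕ) (ε0 : ℝ) (Ω : Set (EE n)) (u : EE n → ℝ)
    (P0 W0 : VV n →L[ℝ] ℝ) (pc wc : ℝ) (eP eW O : VV n) (es Q : ℝ → ℝ → VV n)
    (nrm : ℝ → ℝ → Seminorm ℝ (VV n)), APX n Θ K c2 C0 N ε0 Ω u P0 W0 pc wc eP eW O es Q nrm →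
    ∀ lam tau : ℝ, Grid N lam tau →
      0 < (volume {v : VV n | nrm lam tau v ≤ 1}).toReal ∧
      ∫⁻ x in Dr Ω u P0 W0 pc wc lam tau Θ,
          ENNReal.ofReal ((hessianMat u x).det / (sg u (es lam tau) x) ^ (n + 1)) ≤
        ENNReal.ofReal (CM / (volume {v : VV n | nrm lam tau v ≤ 1}).toReal) ∧
      ∀ δ : ℝ, 0 < δ →
        ∫⁻ x in Dr Ω u P0 W0 pc wc lam tau Θ ∩ {x | lam * sg u eP x < δ * sg u (es lam tau) x},
            ENNReal.ofReal ((hessianMat u x).det / (sg u (es lam tau) x) ^ (n + 1)) ≤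
          ENNReal.ofReal (CM * δ / (volume {v : VV n | nrm lam tau v ≤ 1}).toReal) ∧
        ∫⁻ x in Dr Ω u P0 W0 pc wc lam tau Θ ∩ {x | tau * sg u eW x < δ * sg u (es lam tau) x},
            ENNReal.ofReal ((hessianMat u x).det / (sg u (es lam tau) x) ^ (n + 1)) ≤
          ENNReal.ofReal (CM * δ / (volume {v : VV n | nrm lam tau v ≤ 1}).toReal)

/-- **B6 (lower mass)** for the approximants. -/
theorem lower (n : ℕ) (hn : 2 ≤ n) (Θ K c2 C0 : ℝ) (hΘ : 0 < Θ) (hK : 0 < K) (hc2 : 0 < c2)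
    (hC0 : 1 ≤ C0) (cB : ℝ) (hcB : 0 < cB) (hB : B5Hyp n cB) (CM : ℝ) (hCM : 0 < CM)
    (hM2 : M2Hyp n Θ K c2 C0 CM) :
    ∃ ε0 : ℝ, (0 < ε0 ∧ ε0 ≤ 1) ∧ ∃ c4 : ℝ, 0 < c4 ∧
    ∀ (N : ℕ) (Ω : Set (EE n)) (u : EE n → ℝ)
    (P0 W0 : VV n →L[ℝ] ℝ) (pc wc : ℝ) (eP eW O : VV n) (es Q : ℝ → ℝ → VV n)
    (nrm : ℝ → ℝ → Seminorm ℝ (VV n)), APX n Θ K c2 C0 N ε0 Ω u P0 W0 pc wc eP eW O es Q nrm →
    ∀ lam tau : ℝ, Grid N lam tau →
      ENNReal.ofReal c4 ≤ ∫⁻ x in {x | x ∈ Ω ∧ ε0 * lam ≤ aff P0 pc (x, u x) ∧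
          aff P0 pc (x, u x) ≤ Θ * lam ∧ ε0 * tau ≤ aff W0 wc (x, u x) ∧
          aff W0 wc (x, u x) ≤ Θ * tau},
        ENNReal.ofReal ((aff P0 pc (x, u x) * (Bla.rho u x * sg u eP x) +
          aff W0 wc (x, u x) * (Bla.rho u x * sg u eW x)) ^ (1 - (n : ℝ) / 2) *
          (1 / (aff P0 pc (x, u x) * (Bla.rho u x * sg u eP x)) +
            1 / (aff W0 wc (x, u x) * (Bla.rho u x * sg u eW x))) / Bla.rho u x) := by
  -- constants
  set c : ℝ := cB * (c2 ^ (n + 1)) ^ ((n : ℝ) / ((n : ℝ) + 2)) with hc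
  have hcpos : 0 < c := by positivity
  set C : ℝ := (K + 7 * C0) ^ (n + 1) + CM + C0 * C0 + c with hC
  have hC1 : (K + 7 * C0) ^ (n + 1) ≤ C := by
    have : 0 ≤ C0 * C0 := by positivity
    linarith
  have hC2 : CM ≤ C := by
    have h1 : 0 ≤ C0 * C0 := by positivity
    have h2 : 0 ≤ (K + 7 * C0) ^ (n + 1) := by positivity
    linarith
  have hC3 : C0 * C0 ≤ C := by
    have h2 : 0 ≤ (K + 7 * C0) ^ (n + 1) := by positivity
    linarith
  have hC5 : c ≤ C := by
    have h1 : 0 ≤ C0 * C0 := by positivity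
    have h2 : 0 ≤ (K + 7 * C0) ^ (n + 1) := by positivity
    linarith
  have hC4 : (K + C0) ^ (n + 1) ≤ C :=
    (pow_le_pow_left₀ (by linarith) (by linarith) _).trans hC1
  have hCpos : 0 < C := lt_of_lt_of_le hCM hC2
  obtain ⟨δ0, hδ0, ε0, ⟨hε0, hε1⟩, c4, hc4, H⟩ :=
    Bmass.lower_mass_leb n hn c C Θ hcpos hCpos hC5 hΘ
  refine ⟨ε0, ⟨hε0, hε1⟩, c4, hc4, ?_⟩
  intro N Ω u P0 W0 pc wc eP eW O es Q nrm h lam tau hg
  have hsc := h.sol.sc
  obtain ⟨hl, ht⟩ := grid_pos hg
  set D : Set (EE n) := Dr Ω u P0 W0 pc wc lam tau Θ with hD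
  have hDo : IsOpen D := isOpen_Dr hsc lam tau Θ
  have hDm : MeasurableSet D := hDo.measurableSet
  have hDΩ : D ⊆ Ω := Dr_subset _ _ _
  set V : ℝ≥0∞ := volume {v : VV n | nrm lam tau v ≤ 1} with hVdef
  obtain ⟨hVpos, hm2, hδ⟩ := hM2 N ε0 Ω u P0 W0 pc wc eP eW O es Q nrm h lam tau hg
  rw [← hVdef] at hVpos hm2
  have hVtop : V ≠ ⊤ := fun h0 => by
    rw [h0, ENNReal.toReal_top] at hVpos
    exact lt_irrefl _ hVpos
  have hVof : ENNReal.ofReal V.toReal = V := ENNReal.ofReal_toReal hVtop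
  have hconv : ∀ t : ℝ, 0 ≤ t → ENNReal.ofReal t * V = ENNReal.ofReal (t * V.toReal) := by
    intro t ht'
    rw [ENNReal.ofReal_mul ht', hVof]
  have cont : ∀ f : EE n → ℝ, ContinuousOn f Ω → AEMeasurable f (volume.restrict D) :=
    fun f hf => (hf.mono hDΩ).aemeasurable hDm
  have csg : ∀ v : VV n, ContinuousOn (sg u v) Ω := fun v => continuousOn_sig hsc v
  have R := H (volume : Measure (EE n)) D hDm V.toReal hVpos
    (fun x => (hessianMat u x).det) (Bla.rho u) (sg u (es lam tau))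
    (fun x => lam * sg u eP x) (fun x => tau * sg u eW x)
    (fun x => aff P0 pc (x, u x) / lam) (fun x => aff W0 wc (x, u x) / tau)
    (cont _ (Bla.contDiffOn_rho hsc).continuousOn) (cont _ (csg _))
    (cont _ (continuousOn_const.mul (csg _))) (cont _ (continuousOn_const.mul (csg _)))
    (cont _ ((continuousOn_aff hsc P0 pc).div_const _))
    (cont _ ((continuousOn_aff hsc W0 wc).div_const _))
    (fun x hx => ⟨(hsc.posDef x (hDΩ hx)).det_pos, by unfold Bla.rho; congr 1; ring⟩)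
    (fun x hx => by
      have h1 := h.sg_es lam tau hg x hx.1 hx.2.le
      have h2 := h.sg_eP lam tau hg x hx.1 hx.2.le
      have h3 := h.sg_eW lam tau hg x hx.1 hx.2.le
      have hle : ∀ v : VV n, nrm lam tau v ≤ C0 → sg u v x ≤ C * sg u (es lam tau) x := by
        intro v hv
        have h4 := h.sg_le lam tau hg x hx.1 hx.2.le v
        calc sg u v x ≤ |sg u v x| := le_abs_self _
          _ ≤ C0 * nrm lam tau v * sg u (es lam tau) x := h4
          _ ≤ C0 * C0 * sg u (es lam tau) x := by gcongr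
          _ ≤ C * sg u (es lam tau) x := by gcongr
      refine ⟨h1, mul_pos hl h2, mul_pos ht h3, ?_, ?_, hx.2.le⟩
      · have := hle (lam • eP) (h.eP_le lam tau hg)
        rwa [sg_smul] at this
      · have := hle (tau • eW) (h.eW_le lam tau hg)
        rwa [sg_smul] at this)
    (by
      have h1 := area_lower' hcB.le hB h hg (θ := Θ) (by linarith) le_rfl
      refine h1.trans (le_of_eq ?_)
      refine setLIntegral_congr_fun hDm fun x hx => ?_
      congr 1
      have hdet := (hsc.posDef x (hDΩ hx)).det_pos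
      have e : (1 : ℝ) / (hessianMat u x).det ^ (-(1 : ℝ) / ((n : ℝ) + 2)) =
          (hessianMat u x).det ^ ((1 : ℝ) / ((n : ℝ) + 2)) := by
        rw [one_div, ← Real.rpow_neg hdet.le]
        congr 1
        ring
      exact e.symm)
    (by
      refine (M1 h hg).trans ?_
      rw [hconv _ (by positivity)]
      exact ENNReal.ofReal_le_ofReal (mul_le_mul_of_nonneg_right hC4 hVpos.le))
    (hm2.trans (ENNReal.ofReal_le_ofReal (by gcongr)))
    ((hδ δ0 hδ0).1.trans (ENNReal.ofReal_le_ofReal (by gcongr)))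
    ((hδ δ0 hδ0).2.trans (ENNReal.ofReal_le_ofReal (by gcongr)))
    (by
      refine (M1P h hε0 hg).trans ?_
      rw [hconv _ (by positivity)]
      refine ENNReal.ofReal_le_ofReal (mul_le_mul_of_nonneg_right ?_ hVpos.le)
      rw [mul_comm]
      exact mul_le_mul_of_nonneg_right hC1 hε0.le)
    (by
      refine (M1W h hε0 hg).trans ?_
      rw [hconv _ (by positivity)]
      refine ENNReal.ofReal_le_ofReal (mul_le_mul_of_nonneg_right ?_ hVpos.le)
      rw [mul_comm]
      exact mul_le_mul_of_nonneg_right hC1 hε0.le)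
  refine R.trans ?_
  have hset : D ∩ {x | ε0 ≤ aff P0 pc (x, u x) / lam ∧ aff P0 pc (x, u x) / lam ≤ Θ ∧
      ε0 ≤ aff W0 wc (x, u x) / tau ∧ aff W0 wc (x, u x) / tau ≤ Θ} ⊆
      {x | x ∈ Ω ∧ ε0 * lam ≤ aff P0 pc (x, u x) ∧
          aff P0 pc (x, u x) ≤ Θ * lam ∧ ε0 * tau ≤ aff W0 wc (x, u x) ∧
          aff W0 wc (x, u x) ≤ Θ * tau} := by
    rintro x ⟨hx, h1, h2, h3, h4⟩
    exact ⟨hDΩ hx, (le_div_iff₀ hl).mp h1, (div_le_iff₀ hl).mp h2, (le_div_iff₀ ht).mp h3,
      (div_le_iff₀ ht).mp h4⟩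
  refine (lintegral_mono_set hset).trans' (le_of_eq ?_)
  refine lintegral_congr fun x => ?_
  congr 1
  have e1 : aff P0 pc (x, u x) / lam * (Bla.rho u x * (lam * sg u eP x)) =
      aff P0 pc (x, u x) * (Bla.rho u x * sg u eP x) := by
    field_simp
  have e2 : aff W0 wc (x, u x) / tau * (Bla.rho u x * (tau * sg u eW x)) =
      aff W0 wc (x, u x) * (Bla.rho u x * sg u eW x) := by
    field_simp
  rw [e1, e2]

end Crest.Agent.R236.BmassF
end
end

-- ▼ part R236/GP0
section

/-! Row 236, node GP: concavity of `det^{1/(n+2)}` (tangent inequality). (helper616) -/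

set_option autoImplicit false
open Matrix Finset
open scoped MatrixOrder

noncomputable section

namespace Crest.Agent.R236.GP

variable {n : ℕ}

/-- weighted AM-GM for a positive semidefinite matrix:
`det(B)^{1/(n+2)} ≤ (tr B + 2)/(n+2)`. -/
lemma det_rpow_le_trace {B : Matrix (Fin n) (Fin n) ℝ} (hB : B.PosSemidef) :
    B.det ^ (1 / ((n : ℝ) + 2)) ≤ (B.trace + 2) / ((n : ℝ) + 2) := by
  have hn2 : (0 : ℝ) < (n : ℝ) + 2 := by positivity
  have hdet : B.det = ∏ i, hB.1.eigenvalues i := by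
    simpa using hB.1.det_eq_prod_eigenvalues
  have htr : B.trace = ∑ i, hB.1.eigenvalues i := by
    simpa using hB.1.trace_eq_sum_eigenvalues
  have hev : ∀ i, 0 ≤ hB.1.eigenvalues i := hB.eigenvalues_nonneg
  -- weights on `Option (Fin n)`
  let z : Option (Fin n) → ℝ := fun o => o.elim 1 hB.1.eigenvalues
  let w : Option (Fin n) → ℝ := fun o => o.elim (2 / ((n : ℝ) + 2)) fun _ => 1 / ((n : ℝ) + 2)
  have h := Real.geom_mean_le_arith_mean_weighted (Finset.univ : Finset (Option (Fin n))) w z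
    (by
      intro o _
      cases o with
      | none => simp only [w, Option.elim]; positivity
      | some i => simp only [w, Option.elim]; positivity)
    (by
      rw [Fintype.sum_option]
      simp only [w, Option.elim, Finset.sum_const, Finset.card_univ, Fintype.card_fin,
        nsmul_eq_mul]
      field_simp
      ring)
    (by
      intro o _
      cases o with
      | none => simp [z]
      | some i => simpa [z] using hev i)
  rw [Fintype.prod_option, Fintype.sum_option] at h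
  simp only [w, z, Option.elim, Real.one_rpow, one_mul, mul_one] at h
  rw [Real.finsetProd_rpow _ _ (fun i _ => hev i), ← hdet, ← Finset.mul_sum, ← htr] at h
  refine h.trans (le_of_eq ?_)
  field_simp
  ring

/-- **GP0**: tangent inequality for the concave function `A ↦ det(A)^{1/(n+2)}`. -/
theorem det_rpow_tangent {A B : Matrix (Fin n) (Fin n) ℝ} (hA : A.PosDef) (hB : B.PosSemidef) :
    B.det ^ (1 / ((n : ℝ) + 2)) ≤ A.det ^ (1 / ((n : ℝ) + 2)) *
      (1 + ((A⁻¹ * B).trace - n) / ((n : ℝ) + 2)) := by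
  have hn2 : (0 : ℝ) < (n : ℝ) + 2 := by positivity
  have hAi : (A⁻¹).PosSemidef := hA.inv.posSemidef
  obtain ⟨C, hC⟩ := CStarAlgebra.nonneg_iff_eq_star_mul_self.mp hAi.nonneg
  rw [star_eq_conjTranspose] at hC
  have hBC : (C * B * Cᴴ).PosSemidef := hB.mul_mul_conjTranspose_same C
  have h1 := det_rpow_le_trace hBC
  have htr : (C * B * Cᴴ).trace = (A⁻¹ * B).trace := by
    rw [hC, Matrix.trace_mul_cycle]
  have hdet : (C * B * Cᴴ).det = A.det⁻¹ * B.det := by
    have : A.det⁻¹ = (Cᴴ * C).det := by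
      rw [← hC, Matrix.det_nonsing_inv, Ring.inverse_eq_inv']
    rw [this, Matrix.det_mul, Matrix.det_mul, Matrix.det_mul]
    ring
  have hAd : 0 < A.det := hA.det_pos
  have hBd : 0 ≤ B.det := hB.det_nonneg
  rw [htr, hdet, Real.mul_rpow (by positivity) hBd, Real.inv_rpow hAd.le] at h1
  have hp : 0 < A.det ^ (1 / ((n : ℝ) + 2)) := Real.rpow_pos_of_pos hAd _
  have h2 : B.det ^ (1 / ((n : ℝ) + 2)) ≤
      A.det ^ (1 / ((n : ℝ) + 2)) * (((A⁻¹ * B).trace + 2) / ((n : ℝ) + 2)) := by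
    calc B.det ^ (1 / ((n : ℝ) + 2)) = A.det ^ (1 / ((n : ℝ) + 2)) *
          ((A.det ^ (1 / ((n : ℝ) + 2)))⁻¹ * B.det ^ (1 / ((n : ℝ) + 2))) := by
            field_simp
      _ ≤ _ := mul_le_mul_of_nonneg_left h1 hp.le
  refine h2.trans (le_of_eq ?_)
  congr 1
  field_simp
  ring

end Crest.Agent.R236.GP
end
end

-- ▼ part R236/GP1
section

/-! Row 236, node GP (B5): maximality of the affine area, step 1. (helper616) -/

set_option autoImplicit false
open scoped ContDiff Topology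
open Crest.GeometryTopology.CoordMetric Crest.GeometryTopology.AffineMaximal
open Set Filter MeasureTheory

noncomputable section

namespace Crest.Agent.R236.GP

variable {n : ℕ}

/-! ### the convex cut-off `sp ε` -/

/-- `sp' ε t = χ((t-ε)/ε)` -/
def spd (ε t : ℝ) : ℝ := Real.smoothTransition ((t - ε) / ε)

/-- convex smooth function, `0` on `(-∞, ε]`, with derivative in `[0,1]`. -/
def sp (ε t : ℝ) : ℝ := ∫ s in (0:ℝ)..t, spd ε s

lemma spd_contDiff (ε : ℝ) : ContDiff ℝ ∞ (spd ε) := by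
  unfold spd
  exact Real.smoothTransition.contDiff.comp ((contDiff_id.sub contDiff_const).div_const _)

lemma spd_continuous (ε : ℝ) : Continuous (spd ε) := (spd_contDiff ε).continuous

lemma spd_nonneg (ε t : ℝ) : 0 ≤ spd ε t := Real.smoothTransition.nonneg _
lemma spd_le_one (ε t : ℝ) : spd ε t ≤ 1 := Real.smoothTransition.le_one _

lemma spd_zero {ε t : ℝ} (hε : 0 < ε) (h : t ≤ ε) : spd ε t = 0 := by
  unfold spd
  apply Real.smoothTransition.zero_of_nonpos
  exact div_nonpos_of_nonpos_of_nonneg (by linarith) hε.le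

lemma spd_one {ε t : ℝ} (hε : 0 < ε) (h : 2 * ε ≤ t) : spd ε t = 1 := by
  unfold spd
  apply Real.smoothTransition.one_of_one_le
  rw [le_div_iff₀ hε]
  linarith

lemma spd_mono {ε : ℝ} (hε : 0 < ε) : Monotone (spd ε) := by
  intro a b hab
  unfold spd
  apply Real.smoothTransition.monotone
  gcongr

lemma hasDerivAt_sp (ε t : ℝ) : HasDerivAt (sp ε) (spd ε t) t :=
  intervalIntegral.integral_hasDerivAt_right ((spd_continuous ε).intervalIntegrable _ _)
    ((spd_continuous ε).stronglyMeasurableAtFilter _ _) (spd_continuous ε).continuousAt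

lemma sp_contDiff (ε : ℝ) : ContDiff ℝ ∞ (sp ε) := by
  rw [contDiff_infty_iff_deriv]
  refine ⟨fun t => (hasDerivAt_sp ε t).differentiableAt, ?_⟩
  have : deriv (sp ε) = spd ε := funext fun t => (hasDerivAt_sp ε t).deriv
  rw [this]
  exact spd_contDiff ε

lemma sp_zero {ε t : ℝ} (hε : 0 < ε) (h : t ≤ ε) : sp ε t = 0 := by
  unfold sp
  rw [intervalIntegral.integral_congr (g := fun _ => (0:ℝ))]
  · simp
  · intro s hs
    apply spd_zero hε
    rw [Set.mem_uIcc] at hs
    rcases hs with hs | hs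
    · linarith [hs.2]
    · linarith [hs.2]

lemma deriv_spd_nonneg {ε : ℝ} (hε : 0 < ε) (t : ℝ) : 0 ≤ deriv (spd ε) t :=
  (spd_mono hε).deriv_nonneg

lemma hasDerivAt_spd (ε t : ℝ) : HasDerivAt (spd ε) (deriv (spd ε) t) t :=
  ((spd_contDiff ε).differentiable (by simp)).differentiableAt.hasDerivAt

lemma tendsto_spd {t : ℝ} : Tendsto (fun k : ℕ => spd (1 / ((k:ℝ) + 1)) t) atTop
    (𝓝 (if 0 < t then 1 else 0)) := by
  split_ifs with h
  · have h1 : Tendsto (fun k : ℕ => 1 / ((k:ℝ) + 1)) atTop (𝓝 0) :=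
      tendsto_one_div_add_atTop_nhds_zero_nat
    refine tendsto_const_nhds.congr' ?_
    filter_upwards [h1.eventually (gt_mem_nhds (half_pos h))] with k hk
    exact (spd_one (by positivity) (by linarith)).symm
  · push Not at h
    refine tendsto_const_nhds.congr fun k => ?_
    exact (spd_zero (by positivity) (h.trans (by positivity))).symm

/-! ### the test function -/

/-- the test function `ψ_ε(q - u)` on `D`, extended by zero -/
def tst (D : Set (EuclideanSpace ℝ (Fin n))) (q u : EuclideanSpace ℝ (Fin n) → ℝ) (ε : ℝ) :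
    EuclideanSpace ℝ (Fin n) → ℝ :=
  open Classical in fun x => if x ∈ D then sp ε (q x - u x) else 0

structure Dom (D Ω : Set (EuclideanSpace ℝ (Fin n))) (q u : EuclideanSpace ℝ (Fin n) → ℝ) :
    Prop where
  isOpen : IsOpen D
  compact : IsCompact (closure D)
  sub : closure D ⊆ Ω
  fr : ∀ x ∈ frontier D, q x ≤ u x

variable {D Ω : Set (EuclideanSpace ℝ (Fin n))} {q u : EuclideanSpace ℝ (Fin n) → ℝ}

/-- the support set -/
def Kset (D : Set (EuclideanSpace ℝ (Fin n))) (q u : EuclideanSpace ℝ (Fin n) → ℝ) (ε : ℝ) :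
    Set (EuclideanSpace ℝ (Fin n)) := {x | x ∈ closure D ∧ ε ≤ q x - u x}

lemma Kset_sub (hD : Dom D Ω q u) {ε : ℝ} (hε : 0 < ε) : Kset D q u ε ⊆ D := by
  rintro x ⟨hx, hx2⟩
  by_contra hxD
  have : x ∈ frontier D := by
    rw [frontier, hD.isOpen.interior_eq]
    exact ⟨hx, hxD⟩
  linarith [hD.fr x this]

lemma Kset_compact (h : SC Ω u) (hD : Dom D Ω q u) (hq : Continuous q) (ε : ℝ) :
    IsCompact (Kset D q u ε) := by
  have hc : ContinuousOn (fun x => q x - u x) (closure D) :=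
    hq.continuousOn.sub ((h.smooth.continuousOn).mono hD.sub)
  have : Kset D q u ε = closure D ∩ (fun x => q x - u x) ⁻¹' Ici ε := by
    ext x; simp [Kset]
  rw [this]
  exact hD.compact.of_isClosed_subset (hc.preimage_isClosed_of_isClosed isClosed_closure
    isClosed_Ici) inter_subset_left

lemma tst_zero {ε : ℝ} (hε : 0 < ε) {x : EuclideanSpace ℝ (Fin n)} (hx : x ∉ Kset D q u ε) :
    tst D q u ε x = 0 := by
  unfold tst
  split_ifs with hxD
  · apply sp_zero hε
    by_contra hlt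
    push Not at hlt
    exact hx ⟨subset_closure hxD, hlt.le⟩
  · rfl

lemma tst_eq {ε : ℝ} {x : EuclideanSpace ℝ (Fin n)} (hx : x ∈ D) :
    tst D q u ε x = sp ε (q x - u x) := by
  unfold tst; rw [if_pos hx]

lemma tsupport_tst (h : SC Ω u) (hD : Dom D Ω q u) (hq : Continuous q) {ε : ℝ} (hε : 0 < ε) :
    tsupport (tst D q u ε) ⊆ Kset D q u ε := by
  apply closure_minimal _ (Kset_compact h hD hq ε).isClosed
  intro x hx
  by_contra hxK
  exact hx (tst_zero hε hxK)

lemma hasCompactSupport_tst (h : SC Ω u) (hD : Dom D Ω q u) (hq : Continuous q) {ε : ℝ}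
    (hε : 0 < ε) : HasCompactSupport (tst D q u ε) :=
  (Kset_compact h hD hq ε).of_isClosed_subset (isClosed_tsupport _) (tsupport_tst h hD hq hε)

lemma contDiffOn_diff (h : SC Ω u) (hD : Dom D Ω q u) (hq : ContDiff ℝ ∞ q) :
    ContDiffOn ℝ ∞ (fun x => q x - u x) D :=
  hq.contDiffOn.sub (h.smooth.mono (subset_closure.trans hD.sub))

lemma contDiff_tst (h : SC Ω u) (hD : Dom D Ω q u) (hq : ContDiff ℝ ∞ q) {ε : ℝ} (hε : 0 < ε) :
    ContDiff ℝ ∞ (tst D q u ε) := by
  rw [contDiff_iff_contDiffAt]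
  intro x
  by_cases hx : x ∈ D
  · have h1 : ContDiffAt ℝ ∞ (fun x => sp ε (q x - u x)) x :=
      (sp_contDiff ε).contDiffAt.comp x
        ((contDiffOn_diff h hD hq).contDiffAt (hD.isOpen.mem_nhds hx))
    refine h1.congr_of_eventuallyEq ?_
    filter_upwards [hD.isOpen.mem_nhds hx] with y hy using tst_eq hy
  · have hxK : x ∉ Kset D q u ε := fun hK => hx (Kset_sub hD hε hK)
    have hO : IsOpen (Kset D q u ε)ᶜ := (Kset_compact h hD hq.continuous ε).isClosed.isOpen_compl
    refine (contDiffAt_const (c := (0:ℝ))).congr_of_eventuallyEq ?_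
    filter_upwards [hO.mem_nhds hxK] with y hy using tst_zero hε hy

/-- second derivatives of the test function on `D` -/
lemma hess_tst (h : SC Ω u) (hD : Dom D Ω q u) (hq : ContDiff ℝ ∞ q) {ε : ℝ}
    {x : EuclideanSpace ℝ (Fin n)} (hx : x ∈ D) (i j : Fin n) :
    hessianMat (tst D q u ε) x i j =
      spd ε (q x - u x) * (hessianMat q x i j - hessianMat u x i j) +
      deriv (spd ε) (q x - u x) * pderiv i (fun y => q y - u y) x *
        pderiv j (fun y => q y - u y) x := by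
  have hsm := contDiffOn_diff h hD hq
  have hdiff : ∀ y ∈ D, DifferentiableAt ℝ (fun x => q x - u x) y := fun y hy =>
    (hsm.contDiffAt (hD.isOpen.mem_nhds hy)).differentiableAt (by simp)
  have h1 : ∀ y ∈ D, pderiv j (tst D q u ε) y =
      spd ε (q y - u y) * pderiv j (fun y => q y - u y) y := by
    intro y hy
    rw [pderiv_congr_of_isOpen hD.isOpen (fun z hz => tst_eq hz) hy]
    exact pderiv_comp (hasDerivAt_sp ε _) (hdiff y hy) j
  have h2 : hessianMat (tst D q u ε) x i j =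
      pderiv i (fun y => spd ε (q y - u y) * pderiv j (fun y => q y - u y) y) x :=
    pderiv_congr_of_isOpen hD.isOpen h1 hx i
  have hpj : ContDiffOn ℝ ∞ (pderiv j (fun y => q y - u y)) D :=
    contDiffOn_pderiv_infty hD.isOpen hsm j
  have hd1 : DifferentiableAt ℝ (fun y => spd ε (q y - u y)) x :=
    ((hasDerivAt_spd ε _).differentiableAt).comp x (hdiff x hx)
  have hd2 : DifferentiableAt ℝ (pderiv j (fun y => q y - u y)) x :=
    (hpj.contDiffAt (hD.isOpen.mem_nhds hx)).differentiableAt (by simp)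
  have h3 : pderiv i (fun y => pderiv j (fun y => q y - u y) y) x =
      hessianMat q x i j - hessianMat u x i j := by
    have hxΩ : x ∈ Ω := hD.sub (subset_closure hx)
    have hdu : ∀ y ∈ D, DifferentiableAt ℝ u y := fun y hy =>
      h.differentiableAt (hD.sub (subset_closure hy))
    have hdq : ∀ y, DifferentiableAt ℝ q y := fun y =>
      (hq.differentiable (by simp)).differentiableAt
    rw [pderiv_congr_of_isOpen hD.isOpen (fun y hy => pderiv_sub (hdq y) (hdu y hy) j) hx]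
    rw [pderiv_sub]
    · rfl
    · exact ((contDiffOn_pderiv_infty isOpen_univ hq.contDiffOn j).contDiffAt
        (univ_mem)).differentiableAt (by simp)
    · exact ((contDiffOn_pderiv_infty h.isOpen h.smooth j).contDiffAt
        (h.isOpen.mem_nhds hxΩ)).differentiableAt (by simp)
  rw [h2, pderiv_mul hd1 hd2, h3, pderiv_comp (hasDerivAt_spd ε _) (hdiff x hx) i]
  ring

end Crest.Agent.R236.GP
end
end

-- ▼ part R236/GP2
section

/-! Row 236, node GP (B5): Green's formula and maximality of the affine area. (helper616) -/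

set_option autoImplicit false
open scoped ContDiff Topology
open Crest.GeometryTopology.CoordMetric Crest.GeometryTopology.AffineMaximal
open Set Filter MeasureTheory

noncomputable section

namespace Crest.Agent.R236.GP

variable {n : ℕ} {D Ω : Set (EuclideanSpace ℝ (Fin n))} {q u : EuclideanSpace ℝ (Fin n) → ℝ}

/-! ### Integration by parts -/

lemma continuous_pderiv {X : EuclideanSpace ℝ (Fin n) → ℝ} (hX : ContDiff ℝ 1 X) (i : Fin n) :
    Continuous (pderiv i X) := by
  have := hX.continuous_fderiv (by simp)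
  exact this.clm_apply continuous_const

lemma tsupport_pderiv_subset (X : EuclideanSpace ℝ (Fin n) → ℝ) (i : Fin n) :
    tsupport (pderiv i X) ⊆ tsupport X := by
  refine (closure_mono ?_).trans (tsupport_fderiv_subset ℝ (f := X))
  intro x hx
  rw [Function.mem_support] at hx ⊢
  intro h0
  apply hx
  unfold pderiv
  rw [h0]; rfl

lemma integral_pderiv_eq_zero {X : EuclideanSpace ℝ (Fin n) → ℝ} (hX : ContDiff ℝ 1 X)
    (hc : HasCompactSupport X) (i : Fin n) : ∫ x, pderiv i X x = 0 := by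
  have hXd : Differentiable ℝ X := hX.differentiable (by simp)
  have hc' : HasCompactSupport (pderiv i X) :=
    hc.of_isClosed_subset (isClosed_tsupport _) (tsupport_pderiv_subset X i)
  have h1 := integral_mul_fderiv_eq_neg_fderiv_mul_of_integrable (μ := (volume :
    Measure (EuclideanSpace ℝ (Fin n)))) (f := fun _ => (1:ℝ)) (g := X)
    (v := EuclideanSpace.single i (1:ℝ)) (by simp)
    (by
      simp only [one_mul]
      exact (continuous_pderiv hX i).integrable_of_hasCompactSupport hc')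
    (by
      simp only [one_mul]
      exact hX.continuous.integrable_of_hasCompactSupport hc)
    (fun x _ => differentiableAt_const _) (fun x _ => hXd.differentiableAt)
  simpa [pderiv] using h1

lemma contDiff_mul_of_tsupport (hΩ : IsOpen Ω) {a φ : EuclideanSpace ℝ (Fin n) → ℝ}
    (ha : ContDiffOn ℝ ∞ a Ω) (hφ : ContDiff ℝ ∞ φ) (hs : tsupport φ ⊆ Ω) :
    ContDiff ℝ ∞ (fun x => a x * φ x) := by
  rw [contDiff_iff_contDiffAt]
  intro x
  by_cases hx : x ∈ Ω
  · exact (ha.contDiffAt (hΩ.mem_nhds hx)).mul hφ.contDiffAt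
  · have hxs : x ∉ tsupport φ := fun h => hx (hs h)
    refine (contDiffAt_const (c := (0:ℝ))).congr_of_eventuallyEq ?_
    filter_upwards [(isClosed_tsupport φ).isOpen_compl.mem_nhds hxs] with y hy
    rw [image_eq_zero_of_notMem_tsupport hy, mul_zero]

/-- **Green's formula** for the operator `U^{ij} ∂_i ∂_j`. -/
theorem int_green (h : SC Ω u) {φ f : EuclideanSpace ℝ (Fin n) → ℝ} (hφ : ContDiff ℝ ∞ φ)
    (hc : HasCompactSupport φ) (hs : tsupport φ ⊆ Ω) (hf : ContDiffOn ℝ ∞ f Ω) :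
    ∫ x, φ x * (∑ i, ∑ j, cof u x i j * hessianMat f x i j) =
      ∫ x, f x * (∑ i, ∑ j, cof u x i j * hessianMat φ x i j) := by
  -- the fields
  set G : Fin n → EuclideanSpace ℝ (Fin n) → ℝ :=
    fun i x => f x * ∑ j, cof u x i j * pderiv j φ x with hG
  set K : Fin n → EuclideanSpace ℝ (Fin n) → ℝ :=
    fun i x => φ x * ∑ j, cof u x i j * pderiv j f x with hK
  have hpφ : ∀ j, ContDiff ℝ ∞ (pderiv j φ) := fun j => by
    have := contDiffOn_pderiv_infty isOpen_univ (contDiffOn_univ.mpr hφ) j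
    exact contDiffOn_univ.mp this
  have hG1 : ∀ i, ContDiff ℝ ∞ (G i) := by
    intro i
    have : G i = fun x => ∑ j, (f x * cof u x i j) * pderiv j φ x := by
      funext x
      rw [hG]
      simp only [Finset.mul_sum]
      exact Finset.sum_congr rfl fun j _ => by ring
    rw [this]
    refine ContDiff.sum fun j _ => ?_
    exact contDiff_mul_of_tsupport h.isOpen (hf.mul (h.contDiffOn_cof i j)) (hpφ j)
      ((tsupport_pderiv_subset φ j).trans hs)
  have hK1 : ∀ i, ContDiff ℝ ∞ (K i) := by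
    intro i
    have : K i = fun x => (∑ j, cof u x i j * pderiv j f x) * φ x := by
      funext x; rw [hK]; simp only; ring
    rw [this]
    refine contDiff_mul_of_tsupport h.isOpen ?_ hφ hs
    exact ContDiffOn.sum fun j _ => (h.contDiffOn_cof i j).mul
      (contDiffOn_pderiv_infty h.isOpen hf j)
  have hz : ∀ x, x ∉ tsupport φ → φ x = 0 ∧ ∀ j, pderiv j φ x = 0 := by
    intro x hx
    refine ⟨image_eq_zero_of_notMem_tsupport hx, fun j => ?_⟩
    exact image_eq_zero_of_notMem_tsupport fun h' => hx (tsupport_pderiv_subset φ j h')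
  have hzz : ∀ x, x ∉ tsupport φ → ∀ i j, hessianMat φ x i j = 0 := by
    intro x hx i j
    have : x ∉ tsupport (pderiv i (pderiv j φ)) := fun h' =>
      hx (tsupport_pderiv_subset φ j (tsupport_pderiv_subset _ i h'))
    exact image_eq_zero_of_notMem_tsupport (f := pderiv i (pderiv j φ)) this
  have hGs : ∀ i, tsupport (G i) ⊆ tsupport φ := by
    intro i
    apply closure_minimal _ (isClosed_tsupport φ)
    intro x hx
    by_contra hxs
    apply hx
    rw [hG]
    simp only [(hz x hxs).2, mul_zero, Finset.sum_const_zero]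
  have hKs : ∀ i, tsupport (K i) ⊆ tsupport φ := by
    intro i
    apply closure_minimal _ (isClosed_tsupport φ)
    intro x hx
    by_contra hxs
    apply hx
    rw [hK]
    simp only [(hz x hxs).1, zero_mul]
  have hGc : ∀ i, HasCompactSupport (G i) := fun i =>
    hc.of_isClosed_subset (isClosed_tsupport _) (hGs i)
  have hKc : ∀ i, HasCompactSupport (K i) := fun i =>
    hc.of_isClosed_subset (isClosed_tsupport _) (hKs i)
  -- pointwise identity
  have hpt : ∀ x, f x * (∑ i, ∑ j, cof u x i j * hessianMat φ x i j) -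
      φ x * (∑ i, ∑ j, cof u x i j * hessianMat f x i j) =
      ∑ i, pderiv i (G i) x - ∑ i, pderiv i (K i) x := by
    intro x
    by_cases hx : x ∈ Ω
    · have e1 := h.div_cof_grad hx (h.differentiableAt_of hf hx)
        (hφ.contDiffAt.of_le (m := 2) (by norm_cast))
      have e2 := h.div_cof_grad hx ((hφ.differentiable (by simp)).differentiableAt)
        ((hf.contDiffAt (h.isOpen.mem_nhds hx)).of_le (m := 2) (by norm_cast))
      rw [show ∑ i, pderiv i (G i) x = ∑ i, pderiv i (fun y => f y * ∑ j, cof u y i j *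
        pderiv j φ y) x from rfl, show ∑ i, pderiv i (K i) x = ∑ i, pderiv i (fun y => φ y *
        ∑ j, cof u y i j * pderiv j f y) x from rfl, e1, e2]
      have e3 : ∑ i, ∑ j, cof u x i j * pderiv i φ x * pderiv j f x =
          ∑ i, ∑ j, cof u x i j * pderiv i f x * pderiv j φ x := by
        rw [Finset.sum_comm]
        refine Finset.sum_congr rfl fun i _ => Finset.sum_congr rfl fun j _ => ?_
        rw [h.cof_symm hx j i]; ring
      rw [e3]; ring
    · have hxs : x ∉ tsupport φ := fun h' => hx (hs h')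
      have h1 : ∀ i, pderiv i (G i) x = 0 := fun i =>
        image_eq_zero_of_notMem_tsupport fun h' => hxs (hGs i (tsupport_pderiv_subset _ i h'))
      have h2 : ∀ i, pderiv i (K i) x = 0 := fun i =>
        image_eq_zero_of_notMem_tsupport fun h' => hxs (hKs i (tsupport_pderiv_subset _ i h'))
      simp [h1, h2, (hz x hxs).1, hzz x hxs]
  have hGi : ∀ i, Integrable (pderiv i (G i)) := fun i =>
    (continuous_pderiv ((hG1 i).of_le (by norm_cast)) i).integrable_of_hasCompactSupport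
      ((hGc i).of_isClosed_subset (isClosed_tsupport _) (tsupport_pderiv_subset _ i))
  have hKi : ∀ i, Integrable (pderiv i (K i)) := fun i =>
    (continuous_pderiv ((hK1 i).of_le (by norm_cast)) i).integrable_of_hasCompactSupport
      ((hKc i).of_isClosed_subset (isClosed_tsupport _) (tsupport_pderiv_subset _ i))
  -- integrability of both sides
  have hI1 : Integrable (fun x => φ x * (∑ i, ∑ j, cof u x i j * hessianMat f x i j)) := by
    have : (fun x => φ x * (∑ i, ∑ j, cof u x i j * hessianMat f x i j)) =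
        fun x => (∑ i, ∑ j, cof u x i j * hessianMat f x i j) * φ x := by
      funext x; ring
    rw [this]
    refine Continuous.integrable_of_hasCompactSupport ?_ ?_
    · refine (contDiff_mul_of_tsupport h.isOpen ?_ hφ hs).continuous
      exact ContDiffOn.sum fun i _ => ContDiffOn.sum fun j _ => (h.contDiffOn_cof i j).mul
        (contDiffOn_hess_infty h.isOpen hf i j)
    · exact hc.mul_left
  have hI2 : Integrable (fun x => f x * (∑ i, ∑ j, cof u x i j * hessianMat φ x i j)) := by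
    have : (fun x => f x * (∑ i, ∑ j, cof u x i j * hessianMat φ x i j)) =
        fun x => ∑ i, ∑ j, (f x * cof u x i j) * hessianMat φ x i j := by
      funext x
      simp only [Finset.mul_sum]
      refine Finset.sum_congr rfl fun i _ => Finset.sum_congr rfl fun j _ => by ring
    rw [this]
    refine integrable_finsetSum _ fun i _ => integrable_finsetSum _ fun j _ => ?_
    have hs2 : tsupport (fun x => hessianMat φ x i j) ⊆ tsupport φ :=
      (tsupport_pderiv_subset _ i).trans (tsupport_pderiv_subset φ j)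
    refine Continuous.integrable_of_hasCompactSupport ?_ ?_
    · refine (contDiff_mul_of_tsupport h.isOpen (hf.mul (h.contDiffOn_cof i j)) ?_
        (hs2.trans hs)).continuous
      exact contDiffOn_univ.mp (contDiffOn_hess_infty isOpen_univ (contDiffOn_univ.mpr hφ) i j)
    · have h3 : HasCompactSupport (fun x => hessianMat φ x i j) :=
        hc.of_isClosed_subset (isClosed_tsupport _) hs2
      exact HasCompactSupport.mul_left h3
  have hfin : ∫ x, (f x * (∑ i, ∑ j, cof u x i j * hessianMat φ x i j) -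
      φ x * (∑ i, ∑ j, cof u x i j * hessianMat f x i j)) = 0 := by
    simp_rw [hpt]
    rw [integral_sub (integrable_finsetSum _ fun i _ => hGi i)
      (integrable_finsetSum _ fun i _ => hKi i), integral_finsetSum _ fun i _ => hGi i,
      integral_finsetSum _ fun i _ => hKi i]
    simp only [integral_pderiv_eq_zero ((hG1 _).of_le (by norm_cast)) (hGc _),
      integral_pderiv_eq_zero ((hK1 _).of_le (by norm_cast)) (hKc _), Finset.sum_const_zero,
      sub_zero]
  rw [integral_sub hI2 hI1] at hfin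
  linarith

/-- the affine maximal equation in weak form -/
theorem int_weak (h : SC Ω u) (hpde : ∀ x ∈ Ω, affineMaximalOp n u x = 0)
    {φ : EuclideanSpace ℝ (Fin n) → ℝ} (hφ : ContDiff ℝ ∞ φ)
    (hc : HasCompactSupport φ) (hs : tsupport φ ⊆ Ω) :
    ∫ x, detPower n u x * (∑ i, ∑ j, cof u x i j * hessianMat φ x i j) = 0 := by
  rw [← int_green h hφ hc hs h.contDiffOn_detPower]
  have : ∀ x, φ x * (∑ i, ∑ j, cof u x i j * hessianMat (detPower n u) x i j) = 0 := by
    intro x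
    by_cases hx : x ∈ Ω
    · rw [← h.affineMaximalOp_eq hx, hpde x hx, mul_zero]
    · rw [image_eq_zero_of_notMem_tsupport fun h' => hx (hs h'), zero_mul]
  simp [this]

end Crest.Agent.R236.GP
end
end

-- ▼ part R236/GP3
section

/-! Row 236, node GP (B5): maximality of the affine area on `{u < q}`. (helper616) -/

set_option autoImplicit false
open scoped ContDiff Topology
open Crest.GeometryTopology.CoordMetric Crest.GeometryTopology.AffineMaximal
open Set Filter MeasureTheory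

noncomputable section

namespace Crest.Agent.R236.GP

variable {n : ℕ} {D Ω : Set (EuclideanSpace ℝ (Fin n))} {q u : EuclideanSpace ℝ (Fin n) → ℝ}

/-- affine area density of the graph of `f` -/
def aff (n : ℕ) (f : EuclideanSpace ℝ (Fin n) → ℝ) (x : EuclideanSpace ℝ (Fin n)) : ℝ :=
  (hessianMat f x).det ^ (1 / ((n : ℝ) + 2))

lemma detPower_mul_cof (h : SC Ω u) {x : EuclideanSpace ℝ (Fin n)} (hx : x ∈ Ω) (i j : Fin n) :
    detPower n u x * cof u x i j = aff n u x * (hessianMat u x)⁻¹ i j := by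
  have hd := h.det_pos hx
  have hn2 : ((n : ℝ) + 2) ≠ 0 := by positivity
  rw [h.cof_eq hx, ← mul_assoc]
  congr 1
  unfold detPower aff
  nth_rewrite 2 [← Real.rpow_one ((hessianMat u x).det)]
  rw [← Real.rpow_add hd]
  congr 1
  field_simp
  ring

lemma quad_cof_nonneg (h : SC Ω u) {x : EuclideanSpace ℝ (Fin n)} (hx : x ∈ Ω) (v : Fin n → ℝ) :
    0 ≤ ∑ i, ∑ j, cof u x i j * v i * v j := by
  have h1 := (h.cof_posDef hx).posSemidef.dotProduct_mulVec_nonneg v
  have h2 : star v ⬝ᵥ (cof u x).mulVec v = ∑ i, ∑ j, cof u x i j * v i * v j := by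
    simp only [dotProduct, Matrix.mulVec, Pi.star_apply, star_trivial, Finset.mul_sum]
    refine Finset.sum_congr rfl fun i _ => Finset.sum_congr rfl fun j _ => by ring
  rw [h2] at h1
  exact h1

/-- pointwise inequality -/
lemma pt_ineq (h : SC Ω u) (hD : Dom D Ω q u) (hq : ContDiff ℝ ∞ q) {ε : ℝ} (hε : 0 < ε)
    {x : EuclideanSpace ℝ (Fin n)} (hx : x ∈ D) (hqp : (hessianMat q x).PosSemidef) :
    spd ε (q x - u x) * (aff n q x - aff n u x) ≤ (1 / ((n : ℝ) + 2)) *
      (detPower n u x * ∑ i, ∑ j, cof u x i j * hessianMat (tst D q u ε) x i j) := by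
  have hxΩ : x ∈ Ω := hD.sub (subset_closure hx)
  have hn2 : (0 : ℝ) < (n : ℝ) + 2 := by positivity
  have h1 : aff n q x ≤ aff n u x * (1 + (((hessianMat u x)⁻¹ * hessianMat q x).trace - n) /
      ((n : ℝ) + 2)) := det_rpow_tangent (h.posDef x hxΩ) hqp
  have hsq : ∀ i j, hessianMat q x i j = hessianMat q x j i := fun i j =>
    hess_symm_of_isOpen isOpen_univ (contDiffOn_univ.mpr hq) (mem_univ x) i j
  have htr1 : ((hessianMat u x)⁻¹ * hessianMat q x).trace =
      ∑ i, ∑ j, (hessianMat u x)⁻¹ i j * hessianMat q x i j := by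
    simp only [Matrix.trace, Matrix.diag_apply, Matrix.mul_apply]
    refine Finset.sum_congr rfl fun i _ => Finset.sum_congr rfl fun j _ => ?_
    rw [hsq j i]
  have htr2 : (n : ℝ) = ∑ i, ∑ j, (hessianMat u x)⁻¹ i j * hessianMat u x i j := by
    have h3 : ((hessianMat u x)⁻¹ * hessianMat u x).trace = n := by
      rw [Matrix.nonsing_inv_mul _ ((h.det_pos hxΩ).ne'.isUnit), Matrix.trace_one]
      simp
    rw [← h3]
    simp only [Matrix.trace, Matrix.diag_apply, Matrix.mul_apply]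
    refine Finset.sum_congr rfl fun i _ => Finset.sum_congr rfl fun j _ => ?_
    rw [h.hess_symm hxΩ j i]
  set S := ∑ i, ∑ j, cof u x i j * (hessianMat q x i j - hessianMat u x i j) with hS
  have hwS : detPower n u x * S = aff n u x * (((hessianMat u x)⁻¹ * hessianMat q x).trace - n) := by
    rw [htr1]
    conv_rhs => rw [htr2]
    rw [hS, ← Finset.sum_sub_distrib, Finset.mul_sum, Finset.mul_sum]
    refine Finset.sum_congr rfl fun i _ => ?_
    rw [← Finset.sum_sub_distrib, Finset.mul_sum, Finset.mul_sum]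
    refine Finset.sum_congr rfl fun j _ => ?_
    rw [← mul_assoc, detPower_mul_cof h hxΩ]
    ring
  have h2 : aff n q x - aff n u x ≤ (1 / ((n : ℝ) + 2)) * (detPower n u x * S) := by
    rw [hwS]
    have : aff n u x * (1 + (((hessianMat u x)⁻¹ * hessianMat q x).trace - n) /
      ((n : ℝ) + 2)) = aff n u x + (1 / ((n : ℝ) + 2)) * (aff n u x *
        (((hessianMat u x)⁻¹ * hessianMat q x).trace - n)) := by
      field_simp
    linarith
  have hsum : ∑ i, ∑ j, cof u x i j * hessianMat (tst D q u ε) x i j =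
      spd ε (q x - u x) * S + deriv (spd ε) (q x - u x) *
        ∑ i, ∑ j, cof u x i j * pderiv i (fun y => q y - u y) x *
          pderiv j (fun y => q y - u y) x := by
    rw [hS, Finset.mul_sum, Finset.mul_sum, ← Finset.sum_add_distrib]
    refine Finset.sum_congr rfl fun i _ => ?_
    rw [Finset.mul_sum, Finset.mul_sum, ← Finset.sum_add_distrib]
    refine Finset.sum_congr rfl fun j _ => ?_
    rw [hess_tst h hD hq hx]
    ring
  have hw : 0 ≤ detPower n u x := Real.rpow_nonneg (h.det_pos hxΩ).le _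
  have hQ := quad_cof_nonneg h hxΩ (fun i => pderiv i (fun y => q y - u y) x)
  have h3 : spd ε (q x - u x) * (aff n q x - aff n u x) ≤
      spd ε (q x - u x) * ((1 / ((n : ℝ) + 2)) * (detPower n u x * S)) :=
    mul_le_mul_of_nonneg_left h2 (spd_nonneg _ _)
  refine h3.trans ?_
  rw [hsum]
  have h4 : 0 ≤ (1 / ((n : ℝ) + 2)) * (detPower n u x * (deriv (spd ε) (q x - u x) *
        ∑ i, ∑ j, cof u x i j * pderiv i (fun y => q y - u y) x *
          pderiv j (fun y => q y - u y) x)) :=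
    mul_nonneg (by positivity) (mul_nonneg hw (mul_nonneg (deriv_spd_nonneg hε _) hQ))
  nlinarith [h4]

lemma continuousOn_aff (h : SC Ω u) : ContinuousOn (aff n u) Ω :=
  (h.contDiffOn_rpow_det _).continuousOn

lemma continuous_aff (hq : ContDiff ℝ ∞ q) : Continuous (aff n q) := by
  have h1 : Continuous fun x => (hessianMat q x).det :=
    (contDiffOn_univ.mp (contDiffOn_det_of (m := ∞) fun i j =>
      contDiffOn_hess_infty isOpen_univ (contDiffOn_univ.mpr hq) i j)).continuous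
  exact h1.rpow_const fun x => Or.inr (by positivity)

lemma integrableOn_aff (h : SC Ω u) (hD : Dom D Ω q u) : IntegrableOn (aff n u) D :=
  (((continuousOn_aff h).mono hD.sub).integrableOn_compact hD.compact).mono_set subset_closure

lemma integrableOn_aff' (hD : Dom D Ω q u) (hq : ContDiff ℝ ∞ q) : IntegrableOn (aff n q) D :=
  ((continuous_aff hq).continuousOn.integrableOn_compact hD.compact).mono_set subset_closure

lemma int_ineq (h : SC Ω u) (hpde : ∀ x ∈ Ω, affineMaximalOp n u x = 0) (hD : Dom D Ω q u)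
    (hq : ContDiff ℝ ∞ q) (hqp : ∀ x ∈ D, (hessianMat q x).PosSemidef) {ε : ℝ} (hε : 0 < ε) :
    ∫ x in D, spd ε (q x - u x) * (aff n q x - aff n u x) ≤ 0 := by
  have hc := hasCompactSupport_tst h hD hq.continuous hε
  have hsm := contDiff_tst h hD hq hε
  have hs : tsupport (tst D q u ε) ⊆ D :=
    (tsupport_tst h hD hq.continuous hε).trans (Kset_sub hD hε)
  have hDΩ : D ⊆ Ω := subset_closure.trans hD.sub
  have hweak := int_weak h hpde hsm hc (hs.trans hDΩ)
  have hout : ∀ x, x ∉ D → detPower n u x *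
      (∑ i, ∑ j, cof u x i j * hessianMat (tst D q u ε) x i j) = 0 := by
    intro x hx
    have hzz : ∀ i j, hessianMat (tst D q u ε) x i j = 0 := by
      intro i j
      have : x ∉ tsupport (pderiv i (pderiv j (tst D q u ε))) := fun h' =>
        hx (hs (tsupport_pderiv_subset _ j (tsupport_pderiv_subset _ i h')))
      exact image_eq_zero_of_notMem_tsupport (f := pderiv i (pderiv j (tst D q u ε))) this
    simp [hzz]
  have hset : ∫ x in D, detPower n u x *
      (∑ i, ∑ j, cof u x i j * hessianMat (tst D q u ε) x i j) = 0 := by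
    rw [setIntegral_eq_integral_of_forall_compl_eq_zero hout]
    exact hweak
  have hmeas := hD.isOpen.measurableSet
  have hcd : ContinuousOn (fun x => q x - u x) (closure D) :=
    hq.continuous.continuousOn.sub (h.smooth.continuousOn.mono hD.sub)
  have hI1 : IntegrableOn (fun x => spd ε (q x - u x) * (aff n q x - aff n u x)) D := by
    refine (ContinuousOn.integrableOn_compact hD.compact ?_).mono_set subset_closure
    exact ((spd_continuous ε).comp_continuousOn hcd).mul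
      ((continuous_aff hq).continuousOn.sub ((continuousOn_aff h).mono hD.sub))
  have hI2 : IntegrableOn (fun x => detPower n u x *
      (∑ i, ∑ j, cof u x i j * hessianMat (tst D q u ε) x i j)) D := by
    refine (ContinuousOn.integrableOn_compact hD.compact ?_).mono_set subset_closure
    refine (h.contDiffOn_detPower.continuousOn.mono hD.sub).mul ?_
    refine continuousOn_finsetSum _ fun i _ => continuousOn_finsetSum _ fun j _ => ?_
    refine ((h.contDiffOn_cof i j).continuousOn.mono hD.sub).mul ?_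
    exact (contDiffOn_univ.mp (contDiffOn_hess_infty isOpen_univ
      (contDiffOn_univ.mpr hsm) i j)).continuous.continuousOn
  calc ∫ x in D, spd ε (q x - u x) * (aff n q x - aff n u x)
      ≤ ∫ x in D, (1 / ((n : ℝ) + 2)) * (detPower n u x *
        ∑ i, ∑ j, cof u x i j * hessianMat (tst D q u ε) x i j) := by
        refine setIntegral_mono_on hI1 (hI2.const_mul _) hmeas fun x hx => ?_
        exact pt_ineq h hD hq hε hx (hqp x hx)
    _ = 0 := by rw [integral_const_mul, hset, mul_zero]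

/-- **maximality of the affine area** -/
theorem max_area (h : SC Ω u) (hpde : ∀ x ∈ Ω, affineMaximalOp n u x = 0) (hD : Dom D Ω q u)
    (hq : ContDiff ℝ ∞ q) (hqp : ∀ x ∈ D, (hessianMat q x).PosSemidef) :
    ∫ x in D ∩ {x | u x < q x}, aff n q x ≤ ∫ x in D ∩ {x | u x < q x}, aff n u x := by
  have hmeas := hD.isOpen.measurableSet
  have hDΩ : D ⊆ Ω := subset_closure.trans hD.sub
  have hO : IsOpen (D ∩ {x | u x < q x}) := by
    have h1 : ContinuousOn (fun x => q x - u x) D :=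
      hq.continuous.continuousOn.sub (h.smooth.continuousOn.mono hDΩ)
    have h2 := h1.isOpen_inter_preimage hD.isOpen (isOpen_Ioi (a := (0:ℝ)))
    convert h2 using 2
    ext x
    simp
  have hIq := integrableOn_aff' (n := n) hD hq
  have hIu := integrableOn_aff h hD
  have hI : IntegrableOn (fun x => aff n q x - aff n u x) D := hIq.sub hIu
  have hcd : ContinuousOn (fun x => q x - u x) D :=
    hq.continuous.continuousOn.sub (h.smooth.continuousOn.mono hDΩ)
  have hlim : Tendsto (fun k : ℕ => ∫ x in D, spd (1 / ((k:ℝ) + 1)) (q x - u x) *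
      (aff n q x - aff n u x)) atTop
      (𝓝 (∫ x in D, (if 0 < q x - u x then 1 else 0) * (aff n q x - aff n u x))) := by
    refine tendsto_integral_of_dominated_convergence (fun x => ‖aff n q x - aff n u x‖) ?_
      hI.norm ?_ ?_
    · intro k
      refine ContinuousOn.aestronglyMeasurable ?_ hmeas
      exact ((spd_continuous _).comp_continuousOn hcd).mul
        ((continuous_aff hq).continuousOn.sub ((continuousOn_aff h).mono hDΩ))
    · intro k
      refine Eventually.of_forall fun x => ?_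
      rw [norm_mul, Real.norm_of_nonneg (spd_nonneg _ _)]
      exact mul_le_of_le_one_left (norm_nonneg _) (spd_le_one _ _)
    · refine Eventually.of_forall fun x => ?_
      exact tendsto_spd.mul_const _
  have hle : ∫ x in D, (if 0 < q x - u x then 1 else 0) * (aff n q x - aff n u x) ≤ 0 :=
    le_of_tendsto hlim (Eventually.of_forall fun k => int_ineq h hpde hD hq hqp (by positivity))
  have heq : ∫ x in D, (if 0 < q x - u x then 1 else 0) * (aff n q x - aff n u x) =
      ∫ x in D ∩ {x | u x < q x}, (aff n q x - aff n u x) := by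
    rw [← integral_indicator hmeas, ← integral_indicator hO.measurableSet]
    congr 1
    funext x
    by_cases hx : x ∈ D
    · by_cases hx2 : u x < q x
      · have : x ∈ D ∩ {x | u x < q x} := ⟨hx, hx2⟩
        rw [indicator_of_mem hx, indicator_of_mem this, if_pos (by linarith), one_mul]
      · have : x ∉ D ∩ {x | u x < q x} := fun h' => hx2 h'.2
        rw [indicator_of_mem hx, indicator_of_notMem this, if_neg (by linarith), zero_mul]
    · rw [indicator_of_notMem hx, indicator_of_notMem fun h' => hx h'.1]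
  rw [heq, integral_sub (hIq.mono_set inter_subset_left) (hIu.mono_set inter_subset_left)] at hle
  linarith

end Crest.Agent.R236.GP
end
end

-- ▼ part R236/GP4
section

/-! Row 236, node GP (B5): the comparison paraboloid and volumes. (helper616) -/

set_option autoImplicit false
open scoped ContDiff Topology
open Crest.GeometryTopology.CoordMetric Crest.GeometryTopology.AffineMaximal
open Set Filter MeasureTheory

noncomputable section

namespace Crest.Agent.R236.GP

variable {n : ℕ}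

/-! ### the quadratic comparison function -/

/-- `q = l + b - h/2 + (h/2n) |B(x-x0)|²` -/
def qf (l : EuclideanSpace ℝ (Fin n) →L[ℝ] ℝ) (b : ℝ) (x0 : EuclideanSpace ℝ (Fin n)) (h : ℝ)
    (B : EuclideanSpace ℝ (Fin n) ≃L[ℝ] EuclideanSpace ℝ (Fin n))
    (x : EuclideanSpace ℝ (Fin n)) : ℝ :=
  l x + b - h / 2 + (h / (2 * n)) * ∑ i, (B (x - x0) i) ^ 2

/-- the coordinate functionals of `B` -/
def Bc (B : EuclideanSpace ℝ (Fin n) ≃L[ℝ] EuclideanSpace ℝ (Fin n)) (i : Fin n) :
    EuclideanSpace ℝ (Fin n) →L[ℝ] ℝ :=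
  (EuclideanSpace.proj i).comp (B : EuclideanSpace ℝ (Fin n) →L[ℝ] EuclideanSpace ℝ (Fin n))

lemma Bc_apply (B : EuclideanSpace ℝ (Fin n) ≃L[ℝ] EuclideanSpace ℝ (Fin n)) (i : Fin n)
    (v : EuclideanSpace ℝ (Fin n)) : Bc B i v = B v i := rfl

variable (l : EuclideanSpace ℝ (Fin n) →L[ℝ] ℝ) (b : ℝ) (x0 : EuclideanSpace ℝ (Fin n)) (h : ℝ)
    (B : EuclideanSpace ℝ (Fin n) ≃L[ℝ] EuclideanSpace ℝ (Fin n))

lemma qf_contDiff : ContDiff ℝ ∞ (qf l b x0 h B) := by
  unfold qf
  refine ((l.contDiff.add contDiff_const).sub contDiff_const).add (contDiff_const.mul ?_)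
  refine ContDiff.sum fun i _ => ?_
  exact ((Bc B i).contDiff.comp (contDiff_id.sub contDiff_const)).pow 2

lemma hasFDerivAt_Bc (i : Fin n) (x : EuclideanSpace ℝ (Fin n)) :
    HasFDerivAt (fun x => B (x - x0) i) (Bc B i) x := by
  have h1 : HasFDerivAt (fun x => x - x0)
      (ContinuousLinearMap.id ℝ (EuclideanSpace ℝ (Fin n))) x :=
    (hasFDerivAt_id x).sub_const x0
  have h2 := (Bc B i).hasFDerivAt.comp x h1
  exact h2

lemma pderiv_qf (j : Fin n) (x : EuclideanSpace ℝ (Fin n)) :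
    pderiv j (qf l b x0 h B) x = l (EuclideanSpace.single j 1) +
      (h / (2 * n)) * ∑ i, 2 * (B (x - x0) i) * (B (EuclideanSpace.single j 1) i) := by
  have h1 : HasFDerivAt (qf l b x0 h B)
      (l + (h / (2 * n)) • ∑ i, ((2 * (B (x - x0) i)) • (Bc B i))) x := by
    unfold qf
    refine ((l.hasFDerivAt.add_const b).sub_const (h/2)).add ?_
    refine HasFDerivAt.const_mul ?_ _
    refine HasFDerivAt.fun_sum fun i _ => ?_
    have := (hasFDerivAt_Bc x0 B i x).pow 2
    simpa using this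
  unfold pderiv
  rw [h1.fderiv]
  simp [Bc_apply]

lemma hess_qf (i j : Fin n) (x : EuclideanSpace ℝ (Fin n)) :
    hessianMat (qf l b x0 h B) x i j = (h / n) *
      ∑ k, (B (EuclideanSpace.single i 1) k) * (B (EuclideanSpace.single j 1) k) := by
  have h0 : pderiv j (qf l b x0 h B) = fun x => l (EuclideanSpace.single j 1) +
      (h / (2 * n)) * ∑ i, 2 * (B (x - x0) i) * (B (EuclideanSpace.single j 1) i) :=
    funext fun x => pderiv_qf l b x0 h B j x
  have h1 : HasFDerivAt (fun x => l (EuclideanSpace.single j 1) +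
      (h / (2 * n)) * ∑ i, 2 * (B (x - x0) i) * (B (EuclideanSpace.single j 1) i))
      ((h / (2 * n)) • ∑ k, ((B (EuclideanSpace.single j 1) k) • ((2:ℝ) • (Bc B k)))) x := by
    refine HasFDerivAt.const_add _ ?_
    refine HasFDerivAt.const_mul ?_ _
    refine HasFDerivAt.fun_sum fun k _ => ?_
    exact ((hasFDerivAt_Bc x0 B k x).const_mul 2).mul_const _
  unfold hessianMat
  rw [show (fun y => pderiv j (qf l b x0 h B) y) = pderiv j (qf l b x0 h B) from rfl, h0]
  unfold pderiv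
  rw [h1.fderiv]
  simp only [smul_apply, _root_.sum_apply, smul_eq_mul, Bc_apply]
  rw [Finset.mul_sum, Finset.mul_sum]
  refine Finset.sum_congr rfl fun k _ => ?_
  by_cases hn : (n:ℝ) = 0
  · simp [hn]
  · field_simp

/-- the matrix of `B` -/
def Bm : Matrix (Fin n) (Fin n) ℝ := fun k j => B (EuclideanSpace.single j 1) k

lemma Bm_eq : Bm B = LinearMap.toMatrix (EuclideanSpace.basisFun (Fin n) ℝ).toBasis
    (EuclideanSpace.basisFun (Fin n) ℝ).toBasis
    ((B : EuclideanSpace ℝ (Fin n) →L[ℝ] EuclideanSpace ℝ (Fin n)) :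
      EuclideanSpace ℝ (Fin n) →ₗ[ℝ] EuclideanSpace ℝ (Fin n)) := by
  ext k j
  rw [LinearMap.toMatrix_apply]
  simp [Bm]

lemma det_Bm : (Bm B).det = LinearMap.det
    ((B : EuclideanSpace ℝ (Fin n) →L[ℝ] EuclideanSpace ℝ (Fin n)) :
      EuclideanSpace ℝ (Fin n) →ₗ[ℝ] EuclideanSpace ℝ (Fin n)) := by
  rw [Bm_eq, LinearMap.det_toMatrix]

lemma hess_qf_eq (x : EuclideanSpace ℝ (Fin n)) :
    hessianMat (qf l b x0 h B) x = (h / n) • ((Bm B).transpose * Bm B) := by
  ext i j
  rw [hess_qf, Matrix.smul_apply, Matrix.mul_apply, smul_eq_mul]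
  rfl

lemma det_hess_qf (x : EuclideanSpace ℝ (Fin n)) :
    (hessianMat (qf l b x0 h B) x).det = (h / n) ^ n * (LinearMap.det
    ((B : EuclideanSpace ℝ (Fin n) →L[ℝ] EuclideanSpace ℝ (Fin n)) :
      EuclideanSpace ℝ (Fin n) →ₗ[ℝ] EuclideanSpace ℝ (Fin n))) ^ 2 := by
  rw [hess_qf_eq, Matrix.det_smul, Matrix.det_mul, Matrix.det_transpose, det_Bm,
    Fintype.card_fin]
  ring

lemma posSemidef_hess_qf (hh : 0 ≤ h) (x : EuclideanSpace ℝ (Fin n)) :
    (hessianMat (qf l b x0 h B) x).PosSemidef := by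
  rw [hess_qf_eq]
  have h1 : ((Bm B).transpose * Bm B).PosSemidef := by
    have := Matrix.posSemidef_conjTranspose_mul_self (Bm B)
    rwa [Matrix.conjTranspose_eq_transpose_of_trivial] at this
  exact h1.smul (by positivity)

/-! ### volumes -/

lemma simplex_sub {S : Set (EuclideanSpace ℝ (Fin n))} (hS : Convex ℝ S) (h0 : 0 ∈ S)
    (he : ∀ i, EuclideanSpace.single i (1:ℝ) ∈ S) {y : EuclideanSpace ℝ (Fin n)}
    (hy : ∀ i, 0 ≤ y i) (hy1 : ∑ i, y i ≤ 1) : y ∈ S := by
  classical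
  have h1 := hS.sum_mem (t := (Finset.univ : Finset (Option (Fin n))))
    (w := fun o => o.elim (1 - ∑ i, y i) fun i => y i)
    (z := fun o => o.elim 0 fun i => EuclideanSpace.single i (1:ℝ))
    (by
      intro o _
      cases o with
      | none => simpa using hy1
      | some i => exact hy i)
    (by
      rw [Fintype.sum_option]
      simp)
    (by
      intro o _
      cases o with
      | none => exact h0
      | some i => exact he i)
  rw [Fintype.sum_option] at h1
  simp only [Option.elim, smul_zero, zero_add] at h1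
  convert h1 using 1
  exact (sum_single y).symm

lemma vol_cube (r : ℝ) (hr : 0 ≤ r) : volume {y : EuclideanSpace ℝ (Fin n) | ∀ i, 0 ≤ y i ∧ y i ≤ r} =
    ENNReal.ofReal (r ^ n) := by
  have h1 : {y : EuclideanSpace ℝ (Fin n) | ∀ i, 0 ≤ y i ∧ y i ≤ r} =
      (WithLp.ofLp : EuclideanSpace ℝ (Fin n) → (Fin n → ℝ)) ⁻¹' (Icc 0 fun _ => r) := by
    ext y
    simp only [mem_ofPred_eq, mem_preimage, mem_Icc, Pi.le_def]
    constructor
    · intro hy; exact ⟨fun i => (hy i).1, fun i => (hy i).2⟩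
    · intro hy i; exact ⟨hy.1 i, hy.2 i⟩
  rw [h1, (PiLp.volume_preserving_ofLp (Fin n)).measure_preimage measurableSet_Icc.nullMeasurableSet,
    Real.volume_Icc_pi]
  simp [ENNReal.ofReal_pow hr]

end Crest.Agent.R236.GP
end
end

-- ▼ part R236/GP

/-! Row 236, node GP = B5: lower bound for the affine area of a cap. (helper616) -/

set_option autoImplicit false
open scoped ContDiff Topology
open Crest.GeometryTopology.CoordMetric Crest.GeometryTopology.AffineMaximal
open Set Filter MeasureTheory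

noncomputable section

namespace Crest.Agent.R236.GP

variable {n : ℕ} {Ω : Set (EuclideanSpace ℝ (Fin n))} {u : EuclideanSpace ℝ (Fin n) → ℝ}

/-- the cap `{u < l + b}` -/
def capD (Ω : Set (EuclideanSpace ℝ (Fin n))) (u : EuclideanSpace ℝ (Fin n) → ℝ)
    (l : EuclideanSpace ℝ (Fin n) →L[ℝ] ℝ) (b : ℝ) : Set (EuclideanSpace ℝ (Fin n)) :=
  {x | x ∈ Ω ∧ u x < l x + b}

lemma capD_isOpen (h : SC Ω u) (l : EuclideanSpace ℝ (Fin n) →L[ℝ] ℝ) (b : ℝ) :
    IsOpen (capD Ω u l b) := by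
  have h1 : ContinuousOn (fun x => l x + b - u x) Ω :=
    (l.continuous.add continuous_const).continuousOn.sub h.continuousOn
  have h2 := h1.isOpen_inter_preimage h.isOpen (isOpen_Ioi (a := (0:ℝ)))
  convert h2 using 1
  ext x
  simp [capD]

lemma capD_convex (h : SC Ω u) (l : EuclideanSpace ℝ (Fin n) →L[ℝ] ℝ) (b : ℝ) :
    Convex ℝ (capD Ω u l b) := by
  intro x hx y hy s t hs ht hst
  refine ⟨h.convex hx.1 hy.1 hs ht hst, ?_⟩
  have h1 := h.convexOn.2 hx.1 hy.1 hs ht hst
  rw [smul_eq_mul, smul_eq_mul] at h1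
  rw [map_add, map_smul, map_smul, smul_eq_mul, smul_eq_mul]
  have hx2 := hx.2
  have hy2 := hy.2
  have e : b = s * b + t * b := by rw [← add_mul, hst, one_mul]
  rcases hs.eq_or_lt with hs0 | hs0
  · have ht1 : t = 1 := by linarith
    subst hs0; subst ht1
    nlinarith
  · have : s * u x < s * (l x + b) := by gcongr
    have : t * u y ≤ t * (l y + b) := by gcongr
    nlinarith

lemma closure_capD (l : EuclideanSpace ℝ (Fin n) →L[ℝ] ℝ) (b : ℝ)
    (hK : IsCompact {x | x ∈ Ω ∧ u x ≤ l x + b}) :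
    closure (capD Ω u l b) ⊆ {x | x ∈ Ω ∧ u x ≤ l x + b} :=
  closure_minimal (fun _ hx => ⟨hx.1, hx.2.le⟩) hK.isClosed

/-- the constant -/
def cn (n : ℕ) : ℝ := (1 / 2) ^ n * ((1 / (n:ℝ)) ^ (3 * n)) ^ (1 / ((n:ℝ) + 2))

lemma cn_pos (hn : 1 ≤ n) : 0 < cn n := by
  have : (0:ℝ) < n := by exact_mod_cast hn
  unfold cn
  positivity

/-- arithmetic of the last step -/
lemma arith (hn : 1 ≤ n) {h a m : ℝ} (hh : 0 < h) (ha : 0 < a) (hm : (1 / (n:ℝ)) ^ n ≤ m * a) :
    cn n * (h * a) ^ ((n:ℝ) / ((n:ℝ) + 2)) ≤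
      (1 / 2) ^ n * a * ((h / n) ^ n * m ^ 2) ^ (1 / ((n:ℝ) + 2)) := by
  have hn0 : (0:ℝ) < n := by exact_mod_cast hn
  have hn2 : (0:ℝ) < (n:ℝ) + 2 := by positivity
  unfold cn
  have e1 : (h * a) ^ ((n:ℝ) / ((n:ℝ) + 2)) = ((h * a) ^ n) ^ (1 / ((n:ℝ) + 2)) := by
    rw [← Real.rpow_natCast (h * a) n, ← Real.rpow_mul (by positivity)]
    congr 1
    field_simp
  have e2 : a = (a ^ (n + 2)) ^ (1 / ((n:ℝ) + 2)) := by
    rw [← Real.rpow_natCast a (n + 2), ← Real.rpow_mul ha.le]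
    push_cast
    rw [mul_one_div_cancel hn2.ne', Real.rpow_one]
  have e3 : (1 / 2) ^ n * a * ((h / n) ^ n * m ^ 2) ^ (1 / ((n:ℝ) + 2)) =
      (1 / 2) ^ n * (a ^ (n + 2) * ((h / n) ^ n * m ^ 2)) ^ (1 / ((n:ℝ) + 2)) := by
    rw [Real.mul_rpow (x := a ^ (n + 2)) (by positivity) (by positivity), ← e2]
    ring
  rw [e1, e3, mul_assoc, ← Real.mul_rpow (by positivity) (by positivity)]
  refine mul_le_mul_of_nonneg_left ?_ (by positivity)
  refine Real.rpow_le_rpow (by positivity) ?_ (by positivity)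
  have h1 : ((1 / (n:ℝ)) ^ n) ^ 2 ≤ (m * a) ^ 2 := by gcongr
  calc (1 / (n:ℝ)) ^ (3 * n) * (h * a) ^ n = ((1 / (n:ℝ)) ^ n) ^ 2 * ((h / n) ^ n * a ^ n) := by
        rw [mul_pow, div_pow h, div_pow 1, div_pow 1]
        have : (n:ℝ) ^ n ≠ 0 := by positivity
        field_simp
        ring
    _ ≤ (m * a) ^ 2 * ((h / n) ^ n * a ^ n) := by gcongr
    _ = a ^ (n + 2) * ((h / n) ^ n * m ^ 2) := by ring

theorem capArea_pos (hn : 1 ≤ n) (hsc : SC Ω u) (hpde : ∀ x ∈ Ω, affineMaximalOp n u x = 0)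
    (l : EuclideanSpace ℝ (Fin n) →L[ℝ] ℝ) (b : ℝ)
    (hK : IsCompact {x | x ∈ Ω ∧ u x ≤ l x + b}) {x0 : EuclideanSpace ℝ (Fin n)} (hx0 : x0 ∈ Ω)
    {h : ℝ} (hh : 0 < h) (hle : h ≤ l x0 + b - u x0) :
    cn n * (h * (volume (capD Ω u l b)).toReal) ^ ((n:ℝ) / ((n:ℝ) + 2)) ≤
      ∫ x in capD Ω u l b, aff n u x := by
  have hn0 : (0:ℝ) < n := by exact_mod_cast hn
  set D := capD Ω u l b with hD
  have hO : IsOpen D := capD_isOpen hsc l b
  have hC : Convex ℝ D := capD_convex hsc l b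
  have hcl := closure_capD l b hK
  have hclc : IsCompact (closure D) := hK.of_isClosed_subset isClosed_closure hcl
  have hx0D : x0 ∈ D := ⟨hx0, by linarith⟩
  -- Auerbach coordinates
  set S : Set (EuclideanSpace ℝ (Fin n)) := (fun x => x - x0) '' closure D with hS
  have hScomp : IsCompact S := hclc.image (by fun_prop)
  have hSconv : Convex ℝ S := by
    have h1 := hC.closure.translate (-x0)
    have h2 : S = (fun x => -x0 + x) '' closure D := by
      rw [hS]
      refine image_congr fun x _ => ?_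
      show x - x0 = -x0 + x
      abel
    rw [h2]
    exact h1
  have h0S : (0 : EuclideanSpace ℝ (Fin n)) ∈ S := ⟨x0, subset_closure hx0D, by simp⟩
  have hSint : (interior S).Nonempty := by
    refine ⟨0, ?_⟩
    rw [mem_interior]
    refine ⟨(fun x => x - x0) '' D, image_mono subset_closure, ?_, ⟨x0, hx0D, by simp⟩⟩
    exact (Homeomorph.subRight x0).isOpenMap D hO
  obtain ⟨B, hB1, hB2⟩ := A.auerbach n S hScomp hSconv h0S hSint
  set q := qf l b x0 h B with hq
  have hBi : ∀ x ∈ closure D, ∀ i, (B (x - x0) i) ^ 2 ≤ 1 := by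
    intro x hx i
    have := hB2 (B (x - x0)) ⟨x - x0, ⟨x, hx, rfl⟩, rfl⟩ i
    rw [← sq_abs]
    exact pow_le_one₀ (abs_nonneg _) this
  have hqle : ∀ x ∈ closure D, q x ≤ l x + b := by
    intro x hx
    have h1 : ∑ i, (B (x - x0) i) ^ 2 ≤ n := by
      calc ∑ i, (B (x - x0) i) ^ 2 ≤ ∑ _i : Fin n, (1:ℝ) := Finset.sum_le_sum fun i _ => hBi x hx i
        _ = n := by simp
    have h2 : (h / (2 * n)) * ∑ i, (B (x - x0) i) ^ 2 ≤ (h / (2 * n)) * n := by gcongr
    have h3 : (h / (2 * n)) * n = h / 2 := by field_simp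
    rw [hq]
    unfold qf
    linarith
  have hqge : ∀ x, l x + b - h / 2 ≤ q x := by
    intro x
    rw [hq]
    unfold qf
    have : 0 ≤ (h / (2 * n)) * ∑ i, (B (x - x0) i) ^ 2 := by positivity
    linarith
  have hDom : Dom D Ω q u := by
    refine ⟨hO, hclc, fun x hx => (hcl hx).1, fun x hx => ?_⟩
    have hxc : x ∈ closure D := frontier_subset_closure hx
    have hxD : x ∉ D := by
      rw [frontier, hO.interior_eq] at hx
      exact hx.2
    have : l x + b ≤ u x := by
      by_contra hlt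
      push Not at hlt
      exact hxD ⟨(hcl hxc).1, hlt⟩
    exact (hqle x hxc).trans this
  have hqs : ContDiff ℝ ∞ q := qf_contDiff l b x0 h B
  have hmax := max_area hsc hpde hDom hqs fun x _ => posSemidef_hess_qf l b x0 h B hh.le x
  -- the area density of `q` is constant
  set m := |LinearMap.det ((B : EuclideanSpace ℝ (Fin n) →L[ℝ] EuclideanSpace ℝ (Fin n)) :
      EuclideanSpace ℝ (Fin n) →ₗ[ℝ] EuclideanSpace ℝ (Fin n))| with hm
  set F := ((h / n) ^ n * m ^ 2) ^ (1 / ((n:ℝ) + 2)) with hF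
  have hFq : ∀ x, aff n q x = F := by
    intro x
    unfold aff
    rw [hq, det_hess_qf, hF, hm, sq_abs]
  have hFnn : 0 ≤ F := by rw [hF]; positivity
  have hVfin : volume D ≠ ⊤ := ((measure_mono subset_closure).trans_lt hclc.measure_lt_top).ne
  have hVpos : 0 < volume D := hO.measure_pos _ ⟨x0, hx0D⟩
  set a := (volume D).toReal with ha
  have hapos : 0 < a := ENNReal.toReal_pos hVpos.ne' hVfin
  have haD : volume D = ENNReal.ofReal a := (ENNReal.ofReal_toReal hVfin).symm
  -- volume of the half cap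
  have hsub : AffineMap.homothety x0 (1 / 2 : ℝ) '' D ⊆ D ∩ {x | u x < q x} := by
    rintro _ ⟨y, hy, rfl⟩
    have hxy : AffineMap.homothety x0 (1 / 2 : ℝ) y = (1 / 2 : ℝ) • x0 + (1 / 2 : ℝ) • y := by
      rw [AffineMap.homothety_apply, vsub_eq_sub, vadd_eq_add, smul_sub]
      module
    rw [hxy]
    have hmem := hC hx0D hy (by norm_num : (0:ℝ) ≤ 1 / 2) (by norm_num : (0:ℝ) ≤ 1 / 2)
      (by norm_num)
    refine ⟨hmem, ?_⟩
    have h1 := hsc.convexOn.2 hx0 hy.1 (by norm_num : (0:ℝ) ≤ 1 / 2) (by norm_num : (0:ℝ) ≤ 1 / 2)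
      (by norm_num)
    rw [smul_eq_mul, smul_eq_mul] at h1
    have h2 := hqge ((1 / 2 : ℝ) • x0 + (1 / 2 : ℝ) • y)
    rw [map_add, map_smul, map_smul, smul_eq_mul, smul_eq_mul] at h2
    have hy2 := hy.2
    show u ((1 / 2 : ℝ) • x0 + (1 / 2 : ℝ) • y) < q ((1 / 2 : ℝ) • x0 + (1 / 2 : ℝ) • y)
    linarith
  have hvolhalf : ENNReal.ofReal ((1 / 2) ^ n * a) ≤ volume (D ∩ {x | u x < q x}) := by
    refine le_trans ?_ (measure_mono hsub)
    rw [Measure.addHaar_image_homothety, haD, ← ENNReal.ofReal_mul (abs_nonneg _)]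
    simp
  have hhalf : (1 / 2) ^ n * a ≤ (volume (D ∩ {x | u x < q x})).toReal := by
    have hfin : volume (D ∩ {x | u x < q x}) ≠ ⊤ :=
      ((measure_mono inter_subset_left).trans_lt hVfin.lt_top).ne
    exact (ENNReal.ofReal_le_iff_le_toReal hfin).mp hvolhalf
  -- the determinant
  have hdet : (1 / (n:ℝ)) ^ n ≤ m * a := by
    have h1 : {y : EuclideanSpace ℝ (Fin n) | ∀ i, 0 ≤ y i ∧ y i ≤ 1 / (n:ℝ)} ⊆ B '' S := by
      intro y hy
      have hconv : Convex ℝ (B '' S) :=
        hSconv.linear_image ((B : EuclideanSpace ℝ (Fin n) →L[ℝ] EuclideanSpace ℝ (Fin n)) :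
          EuclideanSpace ℝ (Fin n) →ₗ[ℝ] EuclideanSpace ℝ (Fin n))
      refine simplex_sub hconv ⟨0, h0S, by simp⟩ hB1 (fun i => (hy i).1) ?_
      calc ∑ i, y i ≤ ∑ _i : Fin n, 1 / (n:ℝ) := Finset.sum_le_sum fun i _ => (hy i).2
        _ = 1 := by simp [hn0.ne']
    have h2 := measure_mono (μ := volume) h1
    rw [vol_cube _ (by positivity), Measure.addHaar_image_continuousLinearEquiv] at h2
    have h3 : volume S = volume D := by
      rw [hS]
      have e1 : volume ((fun x => x - x0) '' closure D) = volume (closure D) := by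
        simp only [sub_eq_add_neg, image_add_right, measure_preimage_add_right]
      rw [e1]
      refine le_antisymm ?_ (measure_mono subset_closure)
      have : closure D = D ∪ frontier D := by
        rw [closure_eq_self_union_frontier]
      rw [this]
      refine (measure_union_le _ _).trans ?_
      rw [hC.addHaar_frontier volume, add_zero]
    rw [h3, haD, ← ENNReal.ofReal_mul (abs_nonneg _)] at h2
    exact (ENNReal.ofReal_le_ofReal_iff (by positivity)).mp h2
  have hIu := integrableOn_aff hsc hDom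
  calc cn n * (h * a) ^ ((n:ℝ) / ((n:ℝ) + 2))
      ≤ (1 / 2) ^ n * a * F := arith hn hh hapos hdet
    _ ≤ (volume (D ∩ {x | u x < q x})).toReal * F := by gcongr
    _ = ∫ x in D ∩ {x | u x < q x}, aff n q x := by
        simp_rw [hFq]
        rw [setIntegral_const, smul_eq_mul]
        rfl
    _ ≤ ∫ x in D ∩ {x | u x < q x}, aff n u x := hmax
    _ ≤ ∫ x in D, aff n u x := by
        refine setIntegral_mono_set hIu ?_ (LE.le.eventuallyLE inter_subset_left)
        refine (ae_restrict_iff' hO.measurableSet).mpr (Eventually.of_forall fun x hx => ?_)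
        exact Real.rpow_nonneg (hsc.det_pos hx.1).le _


/-- **B5**: lower bound for the affine area of a cap. -/
theorem capArea (n : ℕ) (hn : 1 ≤ n) : ∃ c : ℝ, 0 < c ∧
    ∀ (Ω : Set (EuclideanSpace ℝ (Fin n))) (u : EuclideanSpace ℝ (Fin n) → ℝ), SC Ω u →
    (∀ x ∈ Ω, affineMaximalOp n u x = 0) → ∀ (l : EuclideanSpace ℝ (Fin n) →L[ℝ] ℝ) (b : ℝ),
    IsCompact {x | x ∈ Ω ∧ u x ≤ l x + b} → ∀ x0 ∈ Ω, ∀ h : ℝ, h ≤ l x0 + b - u x0 →
    ENNReal.ofReal c * (ENNReal.ofReal h * volume {x | x ∈ Ω ∧ u x < l x + b}) ^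
      ((n:ℝ) / ((n:ℝ) + 2)) ≤
    ∫⁻ x in {x | x ∈ Ω ∧ u x < l x + b},
      ENNReal.ofReal ((hessianMat u x).det ^ (1 / ((n:ℝ) + 2))) := by
  have hn0 : (0:ℝ) < n := by exact_mod_cast hn
  refine ⟨cn n, cn_pos hn, ?_⟩
  intro Ω u hsc hpde l b hK x0 hx0 h hle
  rcases le_or_gt h 0 with h0 | h0
  · rw [ENNReal.ofReal_of_nonpos h0, zero_mul, ENNReal.zero_rpow_of_pos (by positivity), mul_zero]
    exact zero_le
  · have hO : IsOpen (capD Ω u l b) := capD_isOpen hsc l b
    have hcl := closure_capD l b hK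
    have hclc : IsCompact (closure (capD Ω u l b)) :=
      hK.of_isClosed_subset isClosed_closure hcl
    have hVfin : volume (capD Ω u l b) ≠ ⊤ :=
      ((measure_mono subset_closure).trans_lt hclc.measure_lt_top).ne
    have hIu : IntegrableOn (aff n u) (capD Ω u l b) :=
      (((continuousOn_aff hsc).mono fun x hx => (hcl hx).1).integrableOn_compact hclc).mono_set
        subset_closure
    have h1 := capArea_pos hn hsc hpde l b hK hx0 h0 hle
    have h2 : ENNReal.ofReal (∫ x in capD Ω u l b, aff n u x) =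
        ∫⁻ x in capD Ω u l b, ENNReal.ofReal (aff n u x) := by
      refine ofReal_integral_eq_lintegral_ofReal hIu ?_
      refine (ae_restrict_iff' hO.measurableSet).mpr (Eventually.of_forall fun x hx => ?_)
      exact Real.rpow_nonneg (hsc.det_pos hx.1).le _
    have h3 := ENNReal.ofReal_le_ofReal h1
    rw [h2, ENNReal.ofReal_mul (cn_pos hn).le, ← ENNReal.ofReal_rpow_of_nonneg (by positivity)
      (by positivity), ENNReal.ofReal_mul h0.le, ENNReal.ofReal_toReal hVfin] at h3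
    exact h3

end Crest.Agent.R236.GP
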