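import Mathlib
import Crest.Agent.R236.P1

-- ▼ part R236/Jcp1
section

/-!
# Row 236, JCP (helper633), part 1: jets of order two, second derivative test, the three identities
obtained by differentiating `det M(s) = const`.
-/

set_option autoImplicit false

open Filter Topology Set
open scoped Matrix

namespace Crest.Agent.R236.Jcp

/-! ### jets of order two at `0` -/

section jets
variable {V W E : Type*} [NormedAddCommGroup V] [NormedSpace ℝ V] [NormedAddCommGroup W]
  [NormedSpace ℝ W] [NormedAddCommGroup E] [NormedSpace ℝ E]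

/-- `f(0) = a`, `f'(0) = b`, `f''(0) = c`. -/
structure J2 (f : ℝ → V) (a b c : V) : Prop where
  val : f 0 = a
  ex : ∃ f' : ℝ → V, (∀ᶠ s in 𝓝 0, HasDerivAt f (f' s) s) ∧ f' 0 = b ∧ HasDerivAt f' c 0

theorem J2.hasDerivAt {f : ℝ → V} {a b c : V} (h : J2 f a b c) : HasDerivAt f b 0 := by
  obtain ⟨f', h1, h2, -⟩ := h.ex
  rw [← h2]; exact h1.self_of_nhds

theorem J2.const (a : V) : J2 (fun _ => a) a 0 0 :=
  ⟨rfl, fun _ => 0, Eventually.of_forall fun s => hasDerivAt_const s a, rfl, hasDerivAt_const _ _⟩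

theorem J2.affine (e t : V) : J2 (fun s : ℝ => e + s • t) e t 0 := by
  refine ⟨by simp, fun _ => t, Eventually.of_forall fun s => ?_, rfl, hasDerivAt_const _ _⟩
  simpa using ((hasDerivAt_id s).smul_const t).const_add e

theorem J2.congr_val {f : ℝ → V} {a b c a' b' c' : V} (h : J2 f a b c) (ha : a = a') (hb : b = b')
    (hc : c = c') : J2 f a' b' c' := by subst ha hb hc; exact h

theorem J2.congr_fun {f g : ℝ → V} {a b c : V} (he : ∀ᶠ s in 𝓝 (0 : ℝ), f s = g s)
    (h : J2 g a b c) : J2 f a b c := by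
  obtain ⟨g', g1, g2, g3⟩ := h.ex
  refine ⟨by rw [he.self_of_nhds, h.val], g', ?_, g2, g3⟩
  filter_upwards [g1, he.eventually_nhds] with s q1 q2
  exact q1.congr_of_eventuallyEq q2

theorem J2.add {f g : ℝ → V} {a b c a' b' c' : V} (h : J2 f a b c) (h' : J2 g a' b' c') :
    J2 (fun s => f s + g s) (a + a') (b + b') (c + c') := by
  obtain ⟨f', f1, f2, f3⟩ := h.ex
  obtain ⟨g', g1, g2, g3⟩ := h'.ex
  refine ⟨by simp only [h.val, h'.val], fun s => f' s + g' s, ?_, by simp only [f2, g2],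
    f3.add g3⟩
  filter_upwards [f1, g1] with s q1 q2 using q1.add q2

theorem J2.sub {f g : ℝ → V} {a b c a' b' c' : V} (h : J2 f a b c) (h' : J2 g a' b' c') :
    J2 (fun s => f s - g s) (a - a') (b - b') (c - c') := by
  obtain ⟨f', f1, f2, f3⟩ := h.ex
  obtain ⟨g', g1, g2, g3⟩ := h'.ex
  refine ⟨by simp only [h.val, h'.val], fun s => f' s - g' s, ?_, by simp only [f2, g2],
    f3.sub g3⟩
  filter_upwards [f1, g1] with s q1 q2 using q1.sub q2

theorem J2.clm_apply {T : ℝ → V →L[ℝ] W} {y : ℝ → V} {a b c : V →L[ℝ] W} {y0 y1 y2 : V}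
    (h : J2 T a b c) (h' : J2 y y0 y1 y2) :
    J2 (fun s => T s (y s)) (a y0) (b y0 + a y1) (c y0 + (2 : ℝ) • b y1 + a y2) := by
  obtain ⟨f', f1, f2, f3⟩ := h.ex
  obtain ⟨g', g1, g2, g3⟩ := h'.ex
  have hT0 := h.hasDerivAt
  have hy0 := h'.hasDerivAt
  refine ⟨by simp only [h.val, h'.val], fun s => f' s (y s) + T s (g' s), ?_, ?_, ?_⟩
  · filter_upwards [f1, g1] with s q1 q2 using q1.clm_apply q2
  · simp only [f2, g2, h.val, h'.val]
  · have := (f3.clm_apply hy0).add (hT0.clm_apply g3)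
    refine this.congr_deriv ?_
    simp only [h.val, h'.val, f2, g2]
    rw [two_smul]; abel

theorem J2.mul {f g : ℝ → ℝ} {a b c a' b' c' : ℝ} (h : J2 f a b c) (h' : J2 g a' b' c') :
    J2 (fun s => f s * g s) (a * a') (b * a' + a * b') (c * a' + 2 * (b * b') + a * c') := by
  obtain ⟨f', f1, f2, f3⟩ := h.ex
  obtain ⟨g', g1, g2, g3⟩ := h'.ex
  have hT0 := h.hasDerivAt
  have hy0 := h'.hasDerivAt
  refine ⟨by simp only [h.val, h'.val], fun s => f' s * g s + f s * g' s, ?_, ?_, ?_⟩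
  · filter_upwards [f1, g1] with s q1 q2 using q1.mul q2
  · simp only [f2, g2, h.val, h'.val]
  · have := (f3.mul hy0).add (hT0.mul g3)
    refine this.congr_deriv ?_
    simp only [h.val, h'.val, f2, g2]
    ring

theorem J2.const_mul {f : ℝ → ℝ} {a b c : ℝ} (k : ℝ) (h : J2 f a b c) :
    J2 (fun s => k * f s) (k * a) (k * b) (k * c) :=
  ((J2.const k).mul h).congr_val rfl (by ring) (by ring)

theorem J2.pow {f : ℝ → ℝ} {a b c : ℝ} (h : J2 f a b c) (n : ℕ) :
    J2 (fun s => f s ^ (n + 2)) (a ^ (n + 2)) ((n + 2) * a ^ (n + 1) * b)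
      ((n + 2) * (n + 1) * a ^ n * b ^ 2 + (n + 2) * a ^ (n + 1) * c) := by
  induction n with
  | zero =>
    have := h.mul h
    refine ⟨?_, ?_⟩
    · simp [h.val]
    · obtain ⟨g, g1, g2, g3⟩ := this.ex
      refine ⟨g, ?_, ?_, ?_⟩
      · filter_upwards [g1] with s hs
        refine hs.congr_of_eventuallyEq (Eventually.of_forall fun t => ?_)
        simp only [zero_add]; ring
      · rw [g2]; push_cast; ring
      · refine g3.congr_deriv ?_
        push_cast; ring
  | succ n ih =>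
    have := ih.mul h
    refine ⟨?_, ?_⟩
    · simp [h.val]
    · obtain ⟨g, g1, g2, g3⟩ := this.ex
      refine ⟨g, ?_, ?_, ?_⟩
      · filter_upwards [g1] with s hs
        refine hs.congr_of_eventuallyEq (Eventually.of_forall fun t => ?_)
        simp only; ring
      · rw [g2]; push_cast; ring
      · refine g3.congr_deriv ?_
        push_cast; ring

/-- jet of a smooth function along a line -/
theorem J2.line {g : E → V} {x w : E} (hg : ContDiffAt ℝ 2 g x) :
    J2 (fun s : ℝ => g (x + s • w)) (g x) (fderiv ℝ g x w) (fderiv ℝ (fderiv ℝ g) x w w) := by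
  have hl : ∀ s : ℝ, HasDerivAt (fun s : ℝ => x + s • w) w s := by
    intro s
    simpa using ((hasDerivAt_id s).smul_const w).const_add x
  have hcont : ContinuousAt (fun s : ℝ => x + s • w) 0 := (hl 0).continuousAt
  have hx0 : (fun s : ℝ => x + s • w) 0 = x := by simp
  have hev : ∀ᶠ y in 𝓝 x, ContDiffAt ℝ 2 g y := hg.eventually (by simp)
  have hev' : ∀ᶠ s : ℝ in 𝓝 0, ContDiffAt ℝ 2 g (x + s • w) := by
    have : Tendsto (fun s : ℝ => x + s • w) (𝓝 0) (𝓝 x) := by
      have := hcont.tendsto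
      simpa using this
    exact this.eventually hev
  refine ⟨by simp, fun s => fderiv ℝ g (x + s • w) w, ?_, by simp, ?_⟩
  · filter_upwards [hev'] with s hs
    have h1 : HasFDerivAt g (fderiv ℝ g (x + s • w)) (x + s • w) :=
      (hs.differentiableAt (by norm_num)).hasFDerivAt
    exact h1.comp_hasDerivAt s (hl s)
  · have h1 : DifferentiableAt ℝ (fderiv ℝ g) x :=
      (hg.fderiv_right (m := 1) (by norm_num)).differentiableAt (by norm_num)
    have h2 : HasFDerivAt (fderiv ℝ g) (fderiv ℝ (fderiv ℝ g) x) (x + (0 : ℝ) • w) := by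
      simpa using h1.hasFDerivAt
    have h3 : HasDerivAt (fun s : ℝ => fderiv ℝ g (x + s • w)) (fderiv ℝ (fderiv ℝ g) x w) 0 :=
      h2.comp_hasDerivAt (0 : ℝ) (hl 0)
    have := h3.clm_apply (hasDerivAt_const (0 : ℝ) w)
    simpa using this

end jets

/-- second derivative test: necessary conditions at a local minimum -/
theorem J2.min {f : ℝ → ℝ} {a b c : ℝ} (h : J2 f a b c) (hm : ∀ᶠ s in 𝓝 (0 : ℝ), f 0 ≤ f s) :
    b = 0 ∧ 0 ≤ c := by
  have hb : b = 0 := (IsLocalMin.hasDerivAt_eq_zero (f := f) (a := 0) hm h.hasDerivAt)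
  refine ⟨hb, ?_⟩
  by_contra hc
  push Not at hc
  obtain ⟨f', f1, f2, f3⟩ := h.ex
  rw [hb] at f2
  -- f' is negative on a right neighbourhood
  have h1 : ∀ᶠ s in 𝓝[>] (0 : ℝ), f' s < 0 := by
    have := f3.tendsto_slope_zero_right
    have h2 : ∀ᶠ t in 𝓝[>] (0 : ℝ), t⁻¹ • (f' (0 + t) - f' 0) < 0 :=
      this.eventually (gt_mem_nhds hc)
    filter_upwards [h2, self_mem_nhdsWithin] with t ht ht0
    have ht0' : (0 : ℝ) < t := ht0
    rw [f2, zero_add, sub_zero, smul_eq_mul] at ht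
    by_contra hn
    push Not at hn
    have : 0 ≤ t⁻¹ * f' t := by positivity
    linarith
  have h2 : ∀ᶠ s in 𝓝[>] (0 : ℝ), f 0 ≤ f s := nhdsWithin_le_nhds hm
  have h3 : ∀ᶠ s in 𝓝[>] (0 : ℝ), HasDerivAt f (f' s) s := nhdsWithin_le_nhds f1
  obtain ⟨d, hd0, hd⟩ := (mem_nhdsGT_iff_exists_Ioo_subset).mp ((h1.and (h2.and h3)))
  have hd0' : (0 : ℝ) < d := hd0
  have hmid : d / 2 ∈ Ioo 0 d := ⟨by linarith, by linarith⟩
  have hcont : ContinuousOn f (Icc 0 (d / 2)) := by
    intro s hs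
    rcases hs.1.eq_or_lt with h0 | h0
    · rw [← h0]; exact h.hasDerivAt.continuousAt.continuousWithinAt
    · exact ((hd ⟨h0, by linarith [hs.2]⟩).2.2).continuousAt.continuousWithinAt
  obtain ⟨ξ, hξ, hs⟩ := exists_hasDerivAt_eq_slope f f' (show (0 : ℝ) < d / 2 by linarith) hcont
    (fun s hs => (hd ⟨hs.1, by linarith [hs.2]⟩).2.2)
  have hneg := (hd (show ξ ∈ Ioo 0 d from ⟨hξ.1, by linarith [hξ.2]⟩)).1
  have hge := (hd hmid).2.1
  rw [hs] at hneg
  have : 0 ≤ (f (d / 2) - f 0) / (d / 2 - 0) := div_nonneg (by linarith) (by linarith)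
  linarith

/-! ### determinants -/

section det
variable {n : ℕ}

/-- entrywise derivative -/
def MD (A : ℝ → Matrix (Fin n) (Fin n) ℝ) (A' : Matrix (Fin n) (Fin n) ℝ) (s : ℝ) : Prop :=
  ∀ i j, HasDerivAt (fun t => A t i j) (A' i j) s

theorem MD.mul {A B : ℝ → Matrix (Fin n) (Fin n) ℝ} {A' B' : Matrix (Fin n) (Fin n) ℝ} {s : ℝ}
    (hA : MD A A' s) (hB : MD B B' s) : MD (fun t => A t * B t) (A' * B s + A s * B') s := by
  intro i j
  simp only [Matrix.mul_apply, Matrix.add_apply]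
  rw [← Finset.sum_add_distrib]
  exact HasDerivAt.fun_sum fun k _ => (hA i k).mul (hB k j)

theorem MD.add {A B : ℝ → Matrix (Fin n) (Fin n) ℝ} {A' B' : Matrix (Fin n) (Fin n) ℝ} {s : ℝ}
    (hA : MD A A' s) (hB : MD B B' s) : MD (fun t => A t + B t) (A' + B') s := fun i j =>
  (hA i j).add (hB i j)

theorem MD.neg {A : ℝ → Matrix (Fin n) (Fin n) ℝ} {A' : Matrix (Fin n) (Fin n) ℝ} {s : ℝ}
    (hA : MD A A' s) : MD (fun t => -A t) (-A') s := fun i j => (hA i j).neg

theorem MD.trace {A : ℝ → Matrix (Fin n) (Fin n) ℝ} {A' : Matrix (Fin n) (Fin n) ℝ} {s : ℝ}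
    (hA : MD A A' s) : HasDerivAt (fun t => (A t).trace) A'.trace s := by
  unfold Matrix.trace
  simp only [Matrix.diag_apply]
  exact HasDerivAt.fun_sum fun i _ => hA i i

/-- Jacobi's formula -/
theorem MD.det {A : ℝ → Matrix (Fin n) (Fin n) ℝ} {A' : Matrix (Fin n) (Fin n) ℝ} {s : ℝ}
    (hA : MD A A' s) : HasDerivAt (fun t => (A t).det) ((A s).adjugate * A').trace s := by
  have h1 : HasDerivAt (fun t => ∑ σ : Equiv.Perm (Fin n), ((Equiv.Perm.sign σ : ℤ) : ℝ) *
      ∏ i, A t (σ i) i) (∑ σ : Equiv.Perm (Fin n), ((Equiv.Perm.sign σ : ℤ) : ℝ) *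
        ∑ k, (∏ i ∈ Finset.univ.erase k, A s (σ i) i) * A' (σ k) k) s := by
    refine HasDerivAt.fun_sum fun σ _ => HasDerivAt.const_mul _ ?_
    have := HasDerivAt.fun_finsetProd (u := Finset.univ) (f := fun i t => A t (σ i) i)
      (f' := fun i => A' (σ i) i) (x := s) (fun i _ => hA (σ i) i)
    simpa only [smul_eq_mul] using this
  have e0 : (fun t => (A t).det) = fun t => ∑ σ : Equiv.Perm (Fin n),
      ((Equiv.Perm.sign σ : ℤ) : ℝ) * ∏ i, A t (σ i) i := by
    funext t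
    rw [Matrix.det_apply']
  rw [e0]
  refine h1.congr_deriv ?_
  have e1 : ((A s).adjugate * A').trace = ∑ k, ((A s).updateCol k (fun i => A' i k)).det := by
    unfold Matrix.trace
    refine Finset.sum_congr rfl fun k _ => ?_
    rw [Matrix.diag_apply, ← Matrix.cramer_apply, Matrix.cramer_eq_adjugate_mulVec]
    rfl
  rw [e1]
  simp only [Matrix.det_apply', Finset.mul_sum]
  rw [Finset.sum_comm]
  refine Finset.sum_congr rfl fun k _ => Finset.sum_congr rfl fun σ _ => ?_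
  congr 1
  rw [← Finset.prod_erase_mul Finset.univ _ (Finset.mem_univ k)]
  congr 1
  · refine Finset.prod_congr rfl fun i hi => ?_
    rw [Matrix.updateCol_ne (Finset.ne_of_mem_erase hi)]
  · rw [Matrix.updateCol_self]

theorem MD.adjugate {A : ℝ → Matrix (Fin n) (Fin n) ℝ} {A' : Matrix (Fin n) (Fin n) ℝ} {s : ℝ}
    (hA : MD A A' s) : ∃ N' : Matrix (Fin n) (Fin n) ℝ, MD (fun t => (A t).adjugate) N' s := by
  have : ∀ i j, ∃ y : ℝ, HasDerivAt (fun t => (A t).adjugate i j) y s := by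
    intro i j
    have h1 : MD (fun t => (A t).updateRow j (Pi.single i 1))
        (fun a b => if a = j then 0 else A' a b) s := by
      intro a b
      by_cases h : a = j
      · subst h
        simp only [Matrix.updateRow_self, if_true]
        exact hasDerivAt_const _ _
      · simp only [Matrix.updateRow_ne h, if_neg h]
        exact hA a b
    have h2 := h1.det
    exact ⟨_, by simpa only [Matrix.adjugate_apply] using h2⟩
  choose N' hN using this
  exact ⟨N', hN⟩

/-- the three identities from `det M = 1` -/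
theorem det_identities {M M1 M2 : ℝ → Matrix (Fin n) (Fin n) ℝ} {M3 : Matrix (Fin n) (Fin n) ℝ}
    (h0 : M 0 = 1) (h1 : ∀ᶠ s in 𝓝 (0 : ℝ), MD M (M1 s) s)
    (h2 : ∀ᶠ s in 𝓝 (0 : ℝ), MD M1 (M2 s) s) (h3 : MD M2 M3 0)
    (hdet : ∀ᶠ s in 𝓝 (0 : ℝ), (M s).det = 1) :
    (M1 0).trace = 0 ∧ (M2 0).trace = (M1 0 * M1 0).trace ∧
      M3.trace = 3 * (M1 0 * M2 0).trace - 2 * (M1 0 * M1 0 * M1 0).trace := by
  set N : ℝ → Matrix (Fin n) (Fin n) ℝ := fun s => (M s).adjugate with hN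
  have hN0 : N 0 = 1 := by simp [hN, h0]
  have hdet2 := hdet.eventually_nhds
  -- derivative of the adjugate
  have hNd : ∀ᶠ s in 𝓝 (0 : ℝ), MD N (-(N s * M1 s * N s)) s := by
    filter_upwards [h1, hdet, hdet2] with s hs hds hds2
    obtain ⟨N', hN'⟩ := hs.adjugate
    have e1 : MD (fun t => N t * M t) (N' * M s + N s * M1 s) s := hN'.mul hs
    have e2 : MD (fun t => N t * M t) 0 s := by
      intro i j
      have : (fun t => (N t * M t) i j) =ᶠ[𝓝 s] fun _ => (1 : Matrix (Fin n) (Fin n) ℝ) i j := by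
        filter_upwards [hds2] with t ht
        simp only [hN, Matrix.adjugate_mul, ht, one_smul]
      exact (hasDerivAt_const s _).congr_of_eventuallyEq this
    have e3 : N' * M s + N s * M1 s = 0 := by
      ext i j
      exact (e1 i j).unique (e2 i j)
    have e4 : M s * N s = 1 := by
      simp only [hN, Matrix.mul_adjugate, hds, one_smul]
    have e5 : N' = -(N s * M1 s * N s) := by
      have : (N' * M s + N s * M1 s) * N s = 0 := by rw [e3, Matrix.zero_mul]
      rw [Matrix.add_mul, Matrix.mul_assoc, e4, Matrix.mul_one] at this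
      exact eq_neg_of_add_eq_zero_left this
    rw [← e5]
    exact hN'
  -- first identity near 0
  have k1 : ∀ᶠ s in 𝓝 (0 : ℝ), (N s * M1 s).trace = 0 := by
    filter_upwards [h1, hdet2] with s hs hds
    have a1 := hs.det
    have a2 : HasDerivAt (fun t => (M t).det) 0 s :=
      (hasDerivAt_const s (1 : ℝ)).congr_of_eventuallyEq hds
    exact a1.unique a2
  have k1' := k1.eventually_nhds
  have k2 : ∀ᶠ s in 𝓝 (0 : ℝ),
      (-(N s * M1 s * N s) * M1 s + N s * M2 s).trace = 0 := by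
    filter_upwards [hNd, h2, k1'] with s a1 a2 a3
    have b1 := (a1.mul a2).trace
    have b2 : HasDerivAt (fun t => (N t * M1 t).trace) 0 s :=
      (hasDerivAt_const s (0 : ℝ)).congr_of_eventuallyEq a3
    exact b1.unique b2
  have a1 := hNd.self_of_nhds
  have a2 := h2.self_of_nhds
  have b1 := (((((a1.mul a2).mul a1)).neg).mul a2).add (a1.mul h3)
  have b2 := b1.trace
  have b3 : HasDerivAt (fun t => (-(N t * M1 t * N t) * M1 t + N t * M2 t).trace) 0 0 :=
    (hasDerivAt_const (0 : ℝ) (0 : ℝ)).congr_of_eventuallyEq k2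
  have b4 := b2.unique b3
  have c1 := k1.self_of_nhds
  have c2 := k2.self_of_nhds
  simp only [hN0, Matrix.one_mul, Matrix.mul_one] at c1 c2 b4
  refine ⟨c1, ?_, ?_⟩
  · rw [Matrix.trace_add, Matrix.neg_mul, Matrix.trace_neg] at c2
    linarith
  · have t1 : (M1 0 * M2 0).trace = (M2 0 * M1 0).trace := Matrix.trace_mul_comm _ _
    simp only [Matrix.neg_mul, Matrix.mul_neg, Matrix.add_mul, Matrix.trace_add,
      Matrix.trace_neg] at b4
    linarith

end det

end Crest.Agent.R236.Jcp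
end

-- ▼ part R236/Jcp2
section

/-!
# Row 236, JCP (helper633), part 2: nested Fréchet derivatives, their symmetries, jets along the
curves `(x + s w, e + s θ)`, and the identities from `det D²u = const`.
-/

set_option autoImplicit false
set_option synthInstance.maxHeartbeats 400000
set_option synthInstance.maxSize 2000
set_option maxSynthPendingDepth 6
set_option maxHeartbeats 1000000

open Filter Topology Set
open scoped Matrix ContDiff
open Crest.GeometryTopology.CoordMetric Crest.GeometryTopology.AffineMaximal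

noncomputable section

namespace Crest.Agent.R236.Jcp

section F
variable {E V : Type*} [NormedAddCommGroup E] [NormedSpace ℝ E] [NormedAddCommGroup V]
  [NormedSpace ℝ V]

/-- first derivative -/
def F1 (u : E → ℝ) : E → E →L[ℝ] ℝ := fderiv ℝ u
/-- second derivative -/
def F2 (u : E → ℝ) : E → E →L[ℝ] E →L[ℝ] ℝ := fderiv ℝ (F1 u)
/-- third derivative -/
def F3 (u : E → ℝ) : E → E →L[ℝ] E →L[ℝ] E →L[ℝ] ℝ := fderiv ℝ (F2 u)
/-- fourth derivative -/
def F4 (u : E → ℝ) : E → E →L[ℝ] E →L[ℝ] E →L[ℝ] E →L[ℝ] ℝ := fderiv ℝ (F3 u)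
theorem ap1 {G : E → E →L[ℝ] V} {x : E} (hG : DifferentiableAt ℝ G x) (a b : E) :
    fderiv ℝ (fun y => G y b) x a = fderiv ℝ G x a b := by
  rw [fderiv_clm_apply hG (differentiableAt_const _)]; simp

theorem dap {G : E → E →L[ℝ] V} {x : E} (hG : DifferentiableAt ℝ G x) (b : E) :
    DifferentiableAt ℝ (fun y => G y b) x := hG.clm_apply (differentiableAt_const _)

theorem ap2 {G : E → E →L[ℝ] E →L[ℝ] V} {x : E} (hG : DifferentiableAt ℝ G x) (a b c : E) :
    fderiv ℝ (fun y => G y b c) x a = fderiv ℝ G x a b c := by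
  rw [ap1 (dap hG b), ap1 hG]

theorem ap3 {G : E → E →L[ℝ] E →L[ℝ] E →L[ℝ] V} {x : E} (hG : DifferentiableAt ℝ G x)
    (a b c d : E) : fderiv ℝ (fun y => G y b c d) x a = fderiv ℝ G x a b c d := by
  rw [ap1 (dap (dap hG b) c), ap2 hG]

theorem two_le : (2 : WithTop ℕ∞) ≤ ∞ :=
  show ((2 : ℕ∞) : WithTop ℕ∞) ≤ ((⊤ : ℕ∞) : WithTop ℕ∞) from WithTop.coe_le_coe.2 le_top

theorem symm_snd {g : E → V} {x : E} (hg : ContDiffAt ℝ ∞ g x) (a b : E) :
    fderiv ℝ (fderiv ℝ g) x a b = fderiv ℝ (fderiv ℝ g) x b a := by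
  have : IsSymmSndFDerivAt ℝ g x := hg.isSymmSndFDerivAt (by simpa using two_le)
  exact this.eq a b

theorem fderiv_congr_on {Ω : Set E} (hΩ : IsOpen Ω) {g g' : E → V} (h : ∀ y ∈ Ω, g y = g' y)
    {x : E} (hx : x ∈ Ω) : fderiv ℝ g x = fderiv ℝ g' x :=
  (Filter.eventuallyEq_of_mem (hΩ.mem_nhds hx) h).fderiv_eq

/-- smooth function on an open set -/
structure Sm (Ω : Set E) (u : E → ℝ) : Prop where
  op : IsOpen Ω
  sm : ContDiffOn ℝ ∞ u Ω

namespace Sm

variable {Ω : Set E} {u : E → ℝ} (h : Sm Ω u) {x : E} (hx : x ∈ Ω)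
include h hx

theorem c0 : ContDiffAt ℝ ∞ u x := h.sm.contDiffAt (h.op.mem_nhds hx)
theorem c1 : ContDiffAt ℝ ∞ (F1 u) x := (h.c0 hx).fderiv_right (m := ∞) (by simp)
theorem c2 : ContDiffAt ℝ ∞ (F2 u) x := (h.c1 hx).fderiv_right (m := ∞) (by simp)
theorem c3 : ContDiffAt ℝ ∞ (F3 u) x := (h.c2 hx).fderiv_right (m := ∞) (by simp)

theorem d1 : DifferentiableAt ℝ (F1 u) x := (h.c1 hx).differentiableAt (by simp)
theorem d2 : DifferentiableAt ℝ (F2 u) x := (h.c2 hx).differentiableAt (by simp)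
theorem d3 : DifferentiableAt ℝ (F3 u) x := (h.c3 hx).differentiableAt (by simp)

theorem s2 (a b : E) : F2 u x a b = F2 u x b a := symm_snd (h.c0 hx) a b
theorem s3a (a b : E) : F3 u x a b = F3 u x b a := symm_snd (h.c1 hx) a b
theorem s4a (a b : E) : F4 u x a b = F4 u x b a := symm_snd (h.c2 hx) a b

theorem s3b (a b c : E) : F3 u x a b c = F3 u x a c b := by
  have := fderiv_congr_on h.op (g := fun y => F2 u y b c) (g' := fun y => F2 u y c b)
    (fun y hy => h.s2 hy b c) hx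
  have h2 := congrArg (fun T : E →L[ℝ] ℝ => T a) this
  simp only [ap2 (h.d2 hx)] at h2
  exact h2

theorem s4b (a b c : E) : F4 u x a b c = F4 u x a c b := by
  have := fderiv_congr_on h.op (g := fun y => F3 u y b c) (g' := fun y => F3 u y c b)
    (fun y hy => h.s3a hy b c) hx
  have h2 := congrArg (fun T : E →L[ℝ] (E →L[ℝ] ℝ) => T a) this
  simp only [ap2 (h.d3 hx)] at h2
  exact h2

theorem s4c (a b c d : E) : F4 u x a b c d = F4 u x a b d c := by
  have := fderiv_congr_on h.op (g := fun y => F3 u y b c d) (g' := fun y => F3 u y b d c)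
    (fun y hy => h.s3b hy b c d) hx
  have h2 := congrArg (fun T : E →L[ℝ] ℝ => T a) this
  simp only [ap3 (h.d3 hx)] at h2
  exact h2

/-- `F4 w w e e = F4 e e w w` -/
theorem s4 (w e : E) : F4 u x w w e e = F4 u x e e w w := by
  rw [h.s4b hx w w e, h.s4a hx w e, h.s4c hx e w w e, h.s4b hx e w e]

/-! jets -/

theorem near (w : E) : ∀ᶠ s : ℝ in 𝓝 0, x + s • w ∈ Ω := by
  have hc : Continuous (fun s : ℝ => x + s • w) := by fun_prop
  have : x + (0 : ℝ) • w ∈ Ω := by simpa using hx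
  exact hc.continuousAt.eventually (h.op.mem_nhds this)

theorem ju (w : E) : J2 (fun s : ℝ => u (x + s • w)) (u x) (F1 u x w) (F2 u x w w) :=
  J2.line ((h.c0 hx).of_le two_le)

theorem jF1 (w : E) : J2 (fun s : ℝ => F1 u (x + s • w)) (F1 u x) (F2 u x w) (F3 u x w w) :=
  J2.line ((h.c1 hx).of_le two_le)

theorem jF2 (w : E) : J2 (fun s : ℝ => F2 u (x + s • w)) (F2 u x) (F3 u x w) (F4 u x w w) :=
  J2.line ((h.c2 hx).of_le two_le)

theorem jp (w e t : E) : J2 (fun s : ℝ => F1 u (x + s • w) (e + s • t)) (F1 u x e)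
    (F2 u x e w + F1 u x t) (F3 u x e w w + 2 * F2 u x w t) := by
  have := (h.jF1 hx w).clm_apply (J2.affine e t)
  refine this.congr_val rfl (by rw [h.s2 hx w e]) ?_
  rw [map_zero, add_zero, smul_eq_mul, h.s3b hx w w e, h.s3a hx w e]

theorem jh (w e t : E) : J2 (fun s : ℝ => F2 u (x + s • w) (e + s • t) (e + s • t)) (F2 u x e e)
    (F3 u x e e w + 2 * F2 u x e t)
    (F4 u x e e w w + 4 * F3 u x e w t + 2 * F2 u x t t) := by
  have := ((h.jF2 hx w).clm_apply (J2.affine e t)).clm_apply (J2.affine e t)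
  refine this.congr_val rfl ?_ ?_
  · simp only [add_apply]
    rw [h.s2 hx t e, h.s3a hx w e, h.s3b hx e w e]
    ring
  · simp only [add_apply, smul_apply, smul_eq_mul, map_zero, add_zero]
    rw [h.s4 hx w e, h.s3a hx w e, h.s3a hx w t, h.s3b hx t w e, h.s3a hx t e, h.s3b hx e t w]
    ring

/-- scalar functions of the third derivative are smooth -/
theorem c3s (a b c : E) : ContDiffAt ℝ ∞ (fun y => F3 u y a b c) x :=
  (((h.c3 hx).clm_apply contDiffAt_const).clm_apply contDiffAt_const).clm_apply contDiffAt_const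

theorem j3 (w a b c : E) : J2 (fun s : ℝ => F3 u (x + s • w) a b c) (F3 u x a b c)
    (F4 u x w a b c) (fderiv ℝ (fderiv ℝ (fun y => F3 u y a b c)) x w w) := by
  refine (J2.line (g := fun y => F3 u y a b c) ((h.c3s hx a b c).of_le two_le)).congr_val rfl ?_
    rfl
  exact ap3 (h.d3 hx) w a b c

theorem ap4 (a b c d : E) : fderiv ℝ (fun y => F3 u y b c d) x a = F4 u x a b c d :=
  ap3 (h.d3 hx) a b c d

/-- `∂_w ∂_w (D³u(e,e,e)) = ∂_e (D⁴u(e,e,w,w))` -/
theorem fifth (w e : E) : fderiv ℝ (fderiv ℝ (fun y => F3 u y e e e)) x w w =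
    fderiv ℝ (fun y => F4 u y e e w w) x e := by
  have e1 : fderiv ℝ (fderiv ℝ (fun y => F3 u y e e e)) x w w
      = fderiv ℝ (fun y => fderiv ℝ (fun y => F3 u y e e e) y w) x w := by
    rw [ap1]
    exact (((h.c3s hx e e e).fderiv_right (m := ∞) (by simp)).differentiableAt (by simp))
  have e2 : ∀ y ∈ Ω, fderiv ℝ (fun y => F3 u y e e e) y w
      = fderiv ℝ (fun y => F3 u y e e w) y e := by
    intro y hy
    rw [h.ap4 hy, h.ap4 hy, h.s4a hy w e, h.s4b hy e w e, h.s4c hy e e w e]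
  have hb : ContDiffAt ℝ ∞ (fderiv ℝ (fun y => F3 u y e e w)) x :=
    (h.c3s hx e e w).fderiv_right (m := ∞) (by simp)
  have e3 : fderiv ℝ (fun y => fderiv ℝ (fun y => F3 u y e e w) y e) x w
      = fderiv ℝ (fun y => fderiv ℝ (fun y => F3 u y e e w) y w) x e := by
    rw [ap1 (hb.differentiableAt (by simp)), ap1 (hb.differentiableAt (by simp))]
    exact symm_snd (h.c3s hx e e w) w e
  have e4 : ∀ y ∈ Ω, fderiv ℝ (fun y => F3 u y e e w) y w = F4 u y e e w w := by
    intro y hy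
    rw [h.ap4 hy, h.s4a hy w e, h.s4b hy e w e]
  rw [e1, fderiv_congr_on h.op e2 hx, e3, fderiv_congr_on h.op e4 hx]

theorem jC (w e t : E) :
    J2 (fun s : ℝ => F3 u (x + s • w) (e + s • t) (e + s • t) (e + s • t)) (F3 u x e e e)
    (F4 u x e e e w + 3 * F3 u x e e t)
    (fderiv ℝ (fun y => F4 u y e e w w) x e + 6 * F4 u x e e w t + 6 * F3 u x e t t) := by
  have hs : J2 (fun s : ℝ => s) 0 1 0 := by
    refine ⟨rfl, fun _ => 1, Eventually.of_forall fun s => hasDerivAt_id s, rfl,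
      hasDerivAt_const _ _⟩
  have a0 := h.j3 hx w e e e
  have a1 := (hs.mul (h.j3 hx w e e t)).const_mul 3
  have a2 := ((hs.mul hs).mul (h.j3 hx w e t t)).const_mul 3
  have a3 := (hs.mul (hs.mul hs)).mul (h.j3 hx w t t t)
  have a := ((a0.add a1).add a2).add a3
  refine J2.congr_fun ?_ (a.congr_val ?_ ?_ ?_)
  · filter_upwards [h.near hx w] with s hs'
    simp only [map_add, map_smul, add_apply, smul_apply, smul_eq_mul]
    have q1 : F3 u (x + s • w) e t e = F3 u (x + s • w) e e t := h.s3b hs' e t e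
    have q2 : F3 u (x + s • w) t e e = F3 u (x + s • w) e e t := by rw [h.s3a hs' t e, q1]
    have q3 : F3 u (x + s • w) t e t = F3 u (x + s • w) e t t := by rw [h.s3a hs' t e]
    have q4 : F3 u (x + s • w) t t e = F3 u (x + s • w) e t t := by rw [h.s3b hs' t t e, q3]
    rw [q1, q2, q3, q4]
    ring
  · ring
  · rw [h.s4a hx w e, h.s4b hx e w e, h.s4c hx e e w e]
    ring
  · rw [h.fifth hx w e, h.s4a hx w e, h.s4b hx e w e]
    ring

end Sm

end F

/-! ### orthonormal families and the matrix of the third derivative -/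

section coord
variable {n : ℕ} {Ω : Set (EuclideanSpace ℝ (Fin n))} {u : EuclideanSpace ℝ (Fin n) → ℝ}

theorem sm_of (h : SC Ω u) : Sm Ω u := ⟨h.isOpen, h.smooth⟩

theorem F2_pos (h : SC Ω u) {x : EuclideanSpace ℝ (Fin n)} (hx : x ∈ Ω)
    {v : EuclideanSpace ℝ (Fin n)} (hv : v ≠ 0) : 0 < F2 u x v v := fderiv2_pos h hx hv

theorem F2_matrix (h : SC Ω u) {x : EuclideanSpace ℝ (Fin n)} (hx : x ∈ Ω)
    (w : Fin n → EuclideanSpace ℝ (Fin n)) :
    (Matrix.of fun i j => F2 u x (w i) (w j)) =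
      (Matrix.of fun i k => w i k) * hessianMat u x * (Matrix.of fun i k => w i k)ᵀ := by
  ext i j
  simp only [Matrix.of_apply, Matrix.mul_apply, Matrix.transpose_apply]
  have := fderiv2_eq (h.differentiableAt_fderiv hx) (w i) (w j)
  change F2 u x (w i) (w j) = _ at this
  rw [this, Finset.sum_comm]
  refine Finset.sum_congr rfl fun k _ => ?_
  rw [Finset.sum_mul]
  refine Finset.sum_congr rfl fun l _ => ?_
  ring

/-- `w` is orthonormal for `D²u(x)` -/
def ON (u : EuclideanSpace ℝ (Fin n) → ℝ) (x : EuclideanSpace ℝ (Fin n))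
    (w : Fin n → EuclideanSpace ℝ (Fin n)) : Prop :=
  ∀ i j, F2 u x (w i) (w j) = if i = j then 1 else 0

/-- **the three identities** -/
theorem identities (h : SC Ω u) {c : ℝ} (hdet : ∀ x ∈ Ω, (hessianMat u x).det = c)
    {x : EuclideanSpace ℝ (Fin n)} (hx : x ∈ Ω) {w : Fin n → EuclideanSpace ℝ (Fin n)}
    (hw : ON u x w) (e : EuclideanSpace ℝ (Fin n)) :
    (∑ i, F3 u x e (w i) (w i) = 0) ∧
    (∑ i, F4 u x e e (w i) (w i) = ∑ i, ∑ j, F3 u x e (w i) (w j) ^ 2) ∧
    (∑ i, fderiv ℝ (fun y => F4 u y e e (w i) (w i)) x e =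
      3 * (∑ i, ∑ j, F3 u x e (w i) (w j) * F4 u x e e (w i) (w j))
      - 2 * ∑ i, ∑ j, ∑ k, F3 u x e (w i) (w j) * F3 u x e (w i) (w k) * F3 u x e (w j) (w k)) := by
  have hs := sm_of h
  set M : ℝ → Matrix (Fin n) (Fin n) ℝ := fun s => Matrix.of fun i j => F2 u (x + s • e) (w i) (w j)
    with hM
  set M1 : ℝ → Matrix (Fin n) (Fin n) ℝ :=
    fun s => Matrix.of fun i j => F3 u (x + s • e) e (w i) (w j) with hM1
  set M2 : ℝ → Matrix (Fin n) (Fin n) ℝ :=
    fun s => Matrix.of fun i j => F4 u (x + s • e) e e (w i) (w j) with hM2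
  set M3 : Matrix (Fin n) (Fin n) ℝ := Matrix.of fun i j => fderiv ℝ (fun y => F4 u y e e (w i) (w j)) x e with hM3
  have hl : ∀ s : ℝ, HasDerivAt (fun s : ℝ => x + s • e) e s := fun s => hasDerivAt_affine x e s
  have hnear : ∀ᶠ s : ℝ in 𝓝 0, x + s • e ∈ Ω := by
    have hc : ContinuousAt (fun s : ℝ => x + s • e) 0 := (hl 0).continuousAt
    have : x + (0 : ℝ) • e ∈ Ω := by simpa using hx
    exact hc.eventually (h.isOpen.mem_nhds this)
  have D2 : ∀ s : ℝ, x + s • e ∈ Ω → MD M (M1 s) s := by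
    intro s hsx i j
    have h1 : HasFDerivAt (F2 u) (F3 u (x + s • e)) (x + s • e) := (hs.d2 hsx).hasFDerivAt
    have h2 := h1.comp_hasDerivAt s (hl s)
    have h3 := (h2.clm_apply (hasDerivAt_const s (w i))).clm_apply (hasDerivAt_const s (w j))
    simpa [hM, hM1] using h3
  have D3 : ∀ s : ℝ, x + s • e ∈ Ω → MD M1 (M2 s) s := by
    intro s hsx i j
    have h1 : HasFDerivAt (F3 u) (F4 u (x + s • e)) (x + s • e) := (hs.d3 hsx).hasFDerivAt
    have h2 := h1.comp_hasDerivAt s (hl s)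
    have h3 := ((h2.clm_apply (hasDerivAt_const s e)).clm_apply
      (hasDerivAt_const s (w i))).clm_apply (hasDerivAt_const s (w j))
    simpa [hM2, hM1] using h3
  have D4 : MD M2 M3 0 := by
    intro i j
    have hx0 : x + (0 : ℝ) • e ∈ Ω := by simpa using hx
    have hd : DifferentiableAt ℝ (fun y => F4 u y e e (w i) (w j)) (x + (0 : ℝ) • e) := by
      have h4 : DifferentiableAt ℝ (F4 u) (x + (0 : ℝ) • e) :=
        ((hs.c3 hx0).fderiv_right (m := ∞) (by simp)).differentiableAt (by simp)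
      exact dap (dap (dap (dap h4 e) e) (w i)) (w j)
    have h2 := hd.hasFDerivAt.comp_hasDerivAt (0 : ℝ) (hl 0)
    rw [show x + (0 : ℝ) • e = x by simp] at h2
    exact h2
  have h0 : M 0 = 1 := by
    ext i j
    simp only [hM, Matrix.of_apply, zero_smul, add_zero]
    rw [hw i j, Matrix.one_apply]
  have hdetM : ∀ s : ℝ, x + s • e ∈ Ω → (M s).det =
      (Matrix.of fun i k => w i k).det * c * (Matrix.of fun i k => w i k).det := by
    intro s hsx
    rw [hM]
    simp only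
    rw [F2_matrix h hsx w, Matrix.det_mul, Matrix.det_mul, Matrix.det_transpose, hdet _ hsx]
  have hone : (Matrix.of fun i k => w i k).det * c * (Matrix.of fun i k => w i k).det = 1 := by
    rw [← hdetM 0 (by simpa using hx), h0, Matrix.det_one]
  obtain ⟨i1, i2, i3⟩ := det_identities (M := M) (M1 := M1) (M2 := M2) (M3 := M3) h0
    (hnear.mono D2) (hnear.mono D3) D4 (hnear.mono fun s hsx => by rw [hdetM s hsx, hone])
  have x0 : x + (0 : ℝ) • e = x := by simp
  simp only [hM1, hM2, hM3, Matrix.trace, Matrix.diag_apply, Matrix.of_apply, Matrix.mul_apply,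
    x0] at i1 i2 i3
  refine ⟨i1, ?_, ?_⟩
  · rw [i2]
    refine Finset.sum_congr rfl fun i _ => Finset.sum_congr rfl fun j _ => ?_
    rw [hs.s3b hx e (w j) (w i)]; ring
  · rw [i3]
    congr 1
    · congr 1
      refine Finset.sum_congr rfl fun i _ => Finset.sum_congr rfl fun j _ => ?_
      rw [hs.s4c hx e e (w j) (w i)]
    · congr 1
      refine Finset.sum_congr rfl fun i _ => ?_
      rw [Finset.sum_comm]
      simp only [Finset.sum_mul]
      rw [Finset.sum_comm]
      refine Finset.sum_congr rfl fun j _ => Finset.sum_congr rfl fun k _ => ?_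
      rw [hs.s3b hx e (w k) (w j), hs.s3b hx e (w k) (w i)]
      ring

end coord

end Crest.Agent.R236.Jcp
end
end

-- ▼ part R236/JcpFin
section

/-! Row 236, JCP, closed pieces (helper40 for helper633): an orthonormal family for a positive
definite bilinear form through a prescribed unit vector; functions with vanishing cubic form and
compact sections are quadratic polynomials on the whole space. -/

set_option autoImplicit false
open scoped ContDiff Topology
open Crest.GeometryTopology.CoordMetric Crest.GeometryTopology.AffineMaximal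
open Set Filter MeasureTheory

noncomputable section

namespace Crest.Agent.R236.Jcp

theorem exists_on_aux {V : Type*} [NormedAddCommGroup V] [InnerProductSpace ℝ V]
    [FiniteDimensional ℝ V] {n : ℕ} (hn : Module.finrank ℝ V = n) (i0 : Fin n) {e : V}
    (he : inner ℝ e e = (1:ℝ)) :
    ∃ w : Fin n → V, w i0 = e ∧ ∀ i j, inner ℝ (w i) (w j) = if i = j then (1:ℝ) else 0 := by
  have hnorm : ‖e‖ = 1 := by
    rw [real_inner_self_eq_norm_sq] at he
    nlinarith [norm_nonneg e]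
  have hv : Orthonormal ℝ (({i0} : Set (Fin n)).domRestrict (fun _ : Fin n => e)) := by
    rw [orthonormal_iff_ite]
    intro i j
    have hij : i = j := Subsingleton.elim _ _
    simp [hij, hnorm]
  obtain ⟨b, hb⟩ := hv.exists_orthonormalBasis_extension_of_card_eq (by simpa using hn)
  refine ⟨b, hb i0 rfl, fun i j => ?_⟩
  exact orthonormal_iff_ite.mp b.orthonormal i j

theorem exists_on {V : Type*} [AddCommGroup V] [Module ℝ V] [FiniteDimensional ℝ V]
    (B : V →ₗ[ℝ] V →ₗ[ℝ] ℝ) (hs : ∀ x y, B x y = B y x) (hp : ∀ x, x ≠ 0 → 0 < B x x) {n : ℕ}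
    (hn : Module.finrank ℝ V = n) (i0 : Fin n) {e : V} (he : B e e = 1) :
    ∃ w : Fin n → V, w i0 = e ∧ ∀ i j, B (w i) (w j) = if i = j then 1 else 0 := by
  let cd : InnerProductSpace.Core ℝ V :=
    { inner := fun x y => B x y
      conj_inner_symm := fun x y => by simpa using hs y x
      re_inner_nonneg := fun x => by
        rcases eq_or_ne x 0 with rfl | h
        · simp
        · exact (hp x h).le
      add_left := fun x y z => by simp
      smul_left := fun x y r => by simp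
      definite := fun x h => by
        by_contra hx
        exact (hp x hx).ne' h }
  let i1 : NormedAddCommGroup V := cd.toNormedAddCommGroup
  let i2 : InnerProductSpace ℝ V := InnerProductSpace.ofCore cd.toCore
  exact exists_on_aux (V := V) hn i0 he

/-- second order expansion along a segment when the pure third derivatives vanish -/
theorem eq_taylor_of_cubic_zero {n : ℕ} {Ω : Set (EuclideanSpace ℝ (Fin n))}
    {u : EuclideanSpace ℝ (Fin n) → ℝ} (h : SC Ω u)
    (hC : ∀ x ∈ Ω, ∀ e, fderiv ℝ (fderiv ℝ (fderiv ℝ u)) x e e e = 0)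
    {x₀ x : EuclideanSpace ℝ (Fin n)} (hx₀ : x₀ ∈ Ω) (hx : x ∈ Ω) :
    u x = u x₀ + fderiv ℝ u x₀ (x - x₀) + 1 / 2 * fderiv ℝ (fderiv ℝ u) x₀ (x - x₀) (x - x₀) := by
  set v := x - x₀ with hv
  have hseg : ∀ t ∈ Icc (0:ℝ) 1, x₀ + t • v ∈ Ω := fun t ht => h.segment_mem hx₀ hx ht
  -- second derivative constant
  have hd3 : ∀ t : ℝ, x₀ + t • v ∈ Ω →
      HasDerivAt (fun s : ℝ => fderiv ℝ (fderiv ℝ u) (x₀ + s • v) v v) 0 t := by
    intro t ht
    have hd : DifferentiableAt ℝ (fderiv ℝ (fderiv ℝ u)) (x₀ + t • v) :=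
      (((h.contDiffAt_fderiv ht).fderiv_right (m := ∞) (by simp))).differentiableAt (by simp)
    have h1 : HasDerivAt (fun s : ℝ => fderiv ℝ (fderiv ℝ u) (x₀ + s • v))
        (fderiv ℝ (fderiv ℝ (fderiv ℝ u)) (x₀ + t • v) v) t := by
      have hf := hd.hasFDerivAt
      have hg := (hasDerivAt_affine x₀ v t)
      exact HasFDerivAt.comp_hasDerivAt
        (E := EuclideanSpace ℝ (Fin n) →L[ℝ] EuclideanSpace ℝ (Fin n) →L[ℝ] ℝ)
        (l := fderiv ℝ (fderiv ℝ u)) (f := fun s : ℝ => x₀ + s • v) t hf hg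
    have h2 := (h1.clm_apply (hasDerivAt_const t v)).clm_apply (hasDerivAt_const t v)
    refine h2.congr_deriv ?_
    simp [hC _ ht v]
  have hconst : ∀ t ∈ Icc (0:ℝ) 1, fderiv ℝ (fderiv ℝ u) (x₀ + t • v) v v =
      fderiv ℝ (fderiv ℝ u) x₀ v v := by
    intro t ht
    have := constant_of_derivWithin_zero (f := fun s : ℝ => fderiv ℝ (fderiv ℝ u) (x₀ + s • v) v v)
      (a := 0) (b := 1) (fun s hs => (hd3 s (hseg s hs)).differentiableAt.differentiableWithinAt)
      (fun s hs => by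
        have hs' : s ∈ Icc (0:ℝ) 1 := Ico_subset_Icc_self hs
        exact (hd3 s (hseg s hs')).hasDerivWithinAt.derivWithin
          (uniqueDiffOn_Icc one_pos s hs')) t ht
    simpa using this
  set q := fderiv ℝ (fderiv ℝ u) x₀ v v with hq
  have hconst1 : ∀ t ∈ Icc (0:ℝ) 1, fderiv ℝ u (x₀ + t • v) v = fderiv ℝ u x₀ v + t * q := by
    intro t ht
    have hder : ∀ s ∈ Icc (0:ℝ) 1,
        HasDerivAt (fun s : ℝ => fderiv ℝ u (x₀ + s • v) v - s * q) 0 s := by
      intro s hs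
      have := (h.hasDerivAt_line2 (hseg s hs) v).sub ((hasDerivAt_id s).mul_const q)
      refine this.congr_deriv ?_
      rw [hconst s hs]; ring
    have := constant_of_derivWithin_zero (f := fun s : ℝ => fderiv ℝ u (x₀ + s • v) v - s * q)
      (a := 0) (b := 1) (fun s hs => (hder s hs).differentiableAt.differentiableWithinAt)
      (fun s hs => by
        have hs' : s ∈ Icc (0:ℝ) 1 := Ico_subset_Icc_self hs
        exact (hder s hs').hasDerivWithinAt.derivWithin
          (uniqueDiffOn_Icc one_pos s hs')) t ht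
    simp only [zero_smul, add_zero, zero_mul, sub_zero] at this
    linarith
  have hder : ∀ s ∈ Icc (0:ℝ) 1,
      HasDerivAt (fun s : ℝ => u (x₀ + s • v) - s * fderiv ℝ u x₀ v - 1 / 2 * s ^ 2 * q) 0 s := by
    intro s hs
    have := ((h.hasDerivAt_line (hseg s hs)).sub ((hasDerivAt_id s).mul_const
      (fderiv ℝ u x₀ v))).sub (((hasDerivAt_pow 2 s).const_mul (1/2:ℝ)).mul_const q)
    refine this.congr_deriv ?_
    rw [hconst1 s hs]
    norm_num
    ring
  have := constant_of_derivWithin_zero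
    (f := fun s : ℝ => u (x₀ + s • v) - s * fderiv ℝ u x₀ v - 1 / 2 * s ^ 2 * q)
    (a := 0) (b := 1) (fun s hs => (hder s hs).differentiableAt.differentiableWithinAt)
    (fun s hs => by
      have hs' : s ∈ Icc (0:ℝ) 1 := Ico_subset_Icc_self hs
      exact (hder s hs').hasDerivWithinAt.derivWithin
        (uniqueDiffOn_Icc one_pos s hs')) 1 (right_mem_Icc.mpr zero_le_one)
  have hxv : x₀ + v = x := by rw [hv]; abel
  simp only [zero_smul, add_zero, zero_mul, sub_zero, one_smul, one_mul, one_pow, mul_one, hxv,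
    ne_eq, OfNat.ofNat_ne_zero, not_false_eq_true, zero_pow, mul_zero] at this
  linarith

theorem of_cubic_zero {n : ℕ} {Ω : Set (EuclideanSpace ℝ (Fin n))}
    {u : EuclideanSpace ℝ (Fin n) → ℝ} (h : SC Ω u) (hne : Ω.Nonempty)
    (hsec : ∀ x₀ ∈ Ω, ∀ t : ℝ,
      IsCompact {x | x ∈ Ω ∧ u x ≤ u x₀ + fderiv ℝ u x₀ (x - x₀) + t})
    (hC : ∀ x ∈ Ω, ∀ e, fderiv ℝ (fderiv ℝ (fderiv ℝ u)) x e e e = 0) :
    Ω = Set.univ ∧
      ∃ (A : Matrix (Fin n) (Fin n) ℝ) (b : EuclideanSpace ℝ (Fin n)) (c : ℝ), A.PosDef ∧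
        ∀ x, u x = (1 / 2) * (∑ i, ∑ j, A i j * x i * x j) + (∑ i, b i * x i) + c := by
  obtain ⟨x₀, hx₀⟩ := hne
  have hclosed : IsClosed Ω := by
    rw [← closure_subset_iff_isClosed]
    intro z hz
    obtain ⟨s, hs, hsz⟩ := mem_closure_iff_seq_limit.mp hz
    have hlim : Tendsto (fun k => 1 / 2 * fderiv ℝ (fderiv ℝ u) x₀ (s k - x₀) (s k - x₀)) atTop
        (𝓝 (1 / 2 * fderiv ℝ (fderiv ℝ u) x₀ (z - x₀) (z - x₀))) := by
      have hcont : Continuous (fun y => 1 / 2 * fderiv ℝ (fderiv ℝ u) x₀ (y - x₀) (y - x₀)) := by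
        fun_prop
      exact (hcont.tendsto z).comp hsz
    obtain ⟨t, ht⟩ := hlim.bddAbove_range
    have hmem : ∀ k, s k ∈ {x | x ∈ Ω ∧ u x ≤ u x₀ + fderiv ℝ u x₀ (x - x₀) + t} := by
      intro k
      refine ⟨hs k, ?_⟩
      rw [eq_taylor_of_cubic_zero h hC hx₀ (hs k)]
      have := ht (mem_range_self k)
      linarith
    exact ((hsec x₀ hx₀ t).isClosed.mem_of_tendsto hsz (Eventually.of_forall hmem)).1
  have huniv : Ω = Set.univ := IsClopen.eq_univ ⟨hclosed, h.isOpen⟩ ⟨x₀, hx₀⟩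
  refine ⟨huniv, hessianMat u 0, WithLp.toLp 2 (fun i => fderiv ℝ u 0 (EuclideanSpace.single i 1)),
    u 0, h.posDef 0 (huniv ▸ mem_univ _), fun x => ?_⟩
  have h0 : (0 : EuclideanSpace ℝ (Fin n)) ∈ Ω := huniv ▸ mem_univ _
  rw [eq_taylor_of_cubic_zero h hC h0 (huniv ▸ mem_univ x), sub_zero,
    fderiv2_eq (h.differentiableAt_fderiv h0)]
  have h1 : fderiv ℝ u 0 x = ∑ i, fderiv ℝ u 0 (EuclideanSpace.single i 1) * x i := by
    conv_lhs => rw [← sum_single x]
    rw [map_sum]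
    simp only [map_smul, smul_eq_mul]
    refine Finset.sum_congr rfl fun i _ => ?_
    ring
  rw [h1]
  ring

end Crest.Agent.R236.Jcp
end
end

-- ▼ part R236/Jcp3

/-!
# Row 236, JCP (helper633), part 3: maximum over a compact set times directions; gradient estimate.
-/

set_option autoImplicit false
set_option synthInstance.maxHeartbeats 400000
set_option synthInstance.maxSize 2000
set_option maxSynthPendingDepth 6
set_option maxHeartbeats 1000000

open Filter Topology Set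
open scoped Matrix ContDiff
open Crest.GeometryTopology.CoordMetric Crest.GeometryTopology.AffineMaximal

noncomputable section

namespace Crest.Agent.R236.Jcp

section max
variable {E : Type*} [NormedAddCommGroup E] [NormedSpace ℝ E] [FiniteDimensional ℝ E]

/-- a quotient homogeneous of degree zero in the direction attains its maximum -/
theorem exists_max {S : Set E} (hS : IsCompact S) {x0 : E} (hx0 : x0 ∈ S) (N D : E → E → ℝ) (k : ℕ)
    (hN : ContinuousOn (fun p : E × E => N p.1 p.2) (S ×ˢ Set.univ))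
    (hD : ContinuousOn (fun p : E × E => D p.1 p.2) (S ×ˢ Set.univ))
    (hpos : ∀ x ∈ S, ∀ e, e ≠ 0 → 0 < D x e)
    (hNk : ∀ x, ∀ (t : ℝ) (e : E), N x (t • e) = t ^ k * N x e)
    (hDk : ∀ x, ∀ (t : ℝ) (e : E), D x (t • e) = t ^ k * D x e)
    {e0 : E} (he0 : e0 ≠ 0) :
    ∃ x ∈ S, ∃ e, e ≠ 0 ∧ ∀ y ∈ S, ∀ f, f ≠ 0 → N y f * D x e ≤ N x e * D y f := by
  have := FiniteDimensional.proper_real E
  have hK : IsCompact (S ×ˢ Metric.sphere (0 : E) 1) := hS.prod (isCompact_sphere _ _)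
  have hne : (S ×ˢ Metric.sphere (0 : E) 1).Nonempty := by
    refine ⟨(x0, ‖e0‖⁻¹ • e0), hx0, ?_⟩
    simp only [mem_sphere_iff_norm, sub_zero, norm_smul, norm_inv, norm_norm]
    exact inv_mul_cancel₀ (norm_ne_zero_iff.2 he0)
  have hsub : S ×ˢ Metric.sphere (0 : E) 1 ⊆ S ×ˢ Set.univ := Set.prod_mono le_rfl (subset_univ _)
  have hn0 : ∀ e : E, e ∈ Metric.sphere (0 : E) 1 → e ≠ 0 := by
    intro e he h0
    rw [h0] at he
    simp at he
  have hc : ContinuousOn (fun p : E × E => N p.1 p.2 / D p.1 p.2)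
      (S ×ˢ Metric.sphere (0 : E) 1) :=
    (hN.mono hsub).div (hD.mono hsub) fun p hp => (hpos p.1 hp.1 p.2 (hn0 _ hp.2)).ne'
  obtain ⟨⟨x, e⟩, ⟨hxS, heS⟩, hmax⟩ := hK.exists_isMaxOn hne hc
  refine ⟨x, hxS, e, hn0 _ heS, fun y hy f hf => ?_⟩
  have hf0 : 0 < ‖f‖ := norm_pos_iff.2 hf
  have hf1 : ‖f‖⁻¹ • f ∈ Metric.sphere (0 : E) 1 := by
    simp only [mem_sphere_iff_norm, sub_zero, norm_smul, norm_inv, norm_norm]
    exact inv_mul_cancel₀ hf0.ne'
  have h1 : N y (‖f‖⁻¹ • f) / D y (‖f‖⁻¹ • f) ≤ N x e / D x e :=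
    hmax (show (y, ‖f‖⁻¹ • f) ∈ S ×ˢ Metric.sphere (0 : E) 1 from ⟨hy, hf1⟩)
  rw [div_le_div_iff₀ (hpos y hy _ (hn0 _ hf1)) (hpos x hxS _ (hn0 _ heS)), hNk, hDk] at h1
  have h2 : 0 < (‖f‖⁻¹) ^ k := by positivity
  have h3 : (‖f‖⁻¹) ^ k * (N y f * D x e) ≤ (‖f‖⁻¹) ^ k * (N x e * D y f) := by
    linarith [h1]
  exact le_of_mul_le_mul_left h3 h2

end max

/-- one-variable test for the gradient quantity -/
theorem jet_test {m : ℕ} {H P η : ℝ → ℝ} {H1 H2 p P1 P2 η0 η1 η2 : ℝ} (hη : 0 < η0) (hp : p ≠ 0)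
    (jH : J2 H 1 H1 H2) (jP : J2 P p P1 P2) (jη : J2 η η0 η1 η2)
    (hmin : ∀ᶠ s in 𝓝 (0 : ℝ), P s ^ 2 * η s ^ (m + 2) ≤ p ^ 2 * η0 ^ (m + 2) * H s) :
    p * H1 * η0 - 2 * P1 * η0 - (m + 2) * p * η1 = 0 ∧
    0 ≤ p ^ 2 * η0 ^ 2 * H2 - (2 * p * P2 + 2 * P1 ^ 2) * η0 ^ 2 - 4 * p * P1 * (m + 2) * η0 * η1
      - p ^ 2 * ((m + 2) * (m + 1) * η1 ^ 2 + (m + 2) * η0 * η2) := by
  have j := (jH.const_mul (p ^ 2 * η0 ^ (m + 2))).sub ((jP.mul jP).mul (jη.pow m))
  have hm : ∀ᶠ s in 𝓝 (0 : ℝ), (fun s => p ^ 2 * η0 ^ (m + 2) * H s -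
      P s * P s * η s ^ (m + 2)) 0 ≤ (fun s => p ^ 2 * η0 ^ (m + 2) * H s -
      P s * P s * η s ^ (m + 2)) s := by
    filter_upwards [hmin] with s hs
    simp only [jH.val, jP.val, jη.val]
    nlinarith [hs]
  obtain ⟨h1, h2⟩ := j.min hm
  have e0 : 0 < η0 ^ m := by positivity
  constructor
  · have : p * η0 ^ (m + 1) * (p * H1 * η0 - 2 * P1 * η0 - (m + 2) * p * η1) = 0 := by
      have e : p * η0 ^ (m + 1) * (p * H1 * η0 - 2 * P1 * η0 - (m + 2) * p * η1) =
        p ^ 2 * η0 ^ (m + 2) * H1 - ((P1 * p + p * P1) * η0 ^ (m + 2) +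
          p * p * ((m + 2) * η0 ^ (m + 1) * η1)) := by ring
      rw [e]; exact h1
    rcases mul_eq_zero.1 this with h | h
    · exfalso
      rcases mul_eq_zero.1 h with h | h
      · exact hp h
      · exact (pow_ne_zero _ hη.ne') h
    · exact h
  · refine nonneg_of_mul_nonneg_right (a := η0 ^ m) ?_ e0
    refine h2.trans (le_of_eq ?_)
    ring

section grad
variable {n : ℕ} {Ω : Set (EuclideanSpace ℝ (Fin n))} {u : EuclideanSpace ℝ (Fin n) → ℝ}

/-- existence of an orthonormal family starting with `e` -/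
theorem exists_ON (h : SC Ω u) {x : EuclideanSpace ℝ (Fin n)} (hx : x ∈ Ω) (i0 : Fin n)
    {e : EuclideanSpace ℝ (Fin n)} (he : F2 u x e e = 1) :
    ∃ w : Fin n → EuclideanSpace ℝ (Fin n), w i0 = e ∧ ON u x w := by
  have hs := sm_of h
  obtain ⟨w, hw, hon⟩ := exists_on
    (LinearMap.mk₂ ℝ (fun a b : EuclideanSpace ℝ (Fin n) => F2 u x a b)
      (by intros; simp) (by intros; simp) (by intros; simp) (by intros; simp))
    (fun a b => by simpa using hs.s2 hx a b)
    (fun a ha => by simpa using F2_pos h hx ha) (n := n) (by simp) i0 (e := e) (by simpa using he)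
  exact ⟨w, hw, fun i j => by simpa using hon i j⟩

theorem sum_sq_le_helper {ι : Type*} [Fintype ι] [DecidableEq ι] (A : ι → ι → ℝ) (i0 : ι) (m : ℕ)
    (hcard : Fintype.card ι = m + 1) (htr : ∑ i, A i i = 0) :
    (m + 1) * A i0 i0 ^ 2 ≤ m * ∑ i, ∑ j, A i j ^ 2 := by
  have h1 : ∑ i, A i i ^ 2 ≤ ∑ i, ∑ j, A i j ^ 2 := by
    refine Finset.sum_le_sum fun i _ => ?_
    exact Finset.single_le_sum (f := fun j => A i j ^ 2) (fun j _ => sq_nonneg _)
      (Finset.mem_univ i)
  have h2 : A i0 i0 + ∑ i ∈ Finset.univ.erase i0, A i i = 0 := by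
    rw [Finset.add_sum_erase Finset.univ (fun i => A i i) (Finset.mem_univ i0), htr]
  have h3 : A i0 i0 ^ 2 + ∑ i ∈ Finset.univ.erase i0, A i i ^ 2 = ∑ i, A i i ^ 2 :=
    Finset.add_sum_erase Finset.univ (fun i => A i i ^ 2) (Finset.mem_univ i0)
  have h4 : (∑ i ∈ Finset.univ.erase i0, A i i) ^ 2 ≤
      (Finset.univ.erase i0).card * ∑ i ∈ Finset.univ.erase i0, A i i ^ 2 :=
    sq_sum_le_card_mul_sum_sq
  have h5 : ((Finset.univ.erase i0).card : ℝ) = m := by
    rw [Finset.card_erase_of_mem (Finset.mem_univ i0), Finset.card_univ, hcard]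
    simp
  rw [h5] at h4
  have h6 : (∑ i ∈ Finset.univ.erase i0, A i i) ^ 2 = A i0 i0 ^ 2 := by
    have : ∑ i ∈ Finset.univ.erase i0, A i i = - A i0 i0 := by linarith
    rw [this]; ring
  rw [h6] at h4
  have hm : (0 : ℝ) ≤ m := Nat.cast_nonneg m
  nlinarith [mul_le_mul_of_nonneg_left h1 hm]

theorem final_alg {m : ℕ} {P Q a z : ℝ} (hz : 0 < z)
    (hQ : (m + 1) * (2 * a - z) ^ 2 ≤ m * Q)
    (hP : Q ≤ 2 * z ^ 2 - 2 * a ^ 2 - (m + 1) / (m + 2) * z ^ 2 + (m + 1) * z * a)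
    (hPz : z = (m + 2) * P) : P ≤ (m + 1) * (m + 4) / 2 * a := by
  have hm : (0 : ℝ) ≤ m := Nat.cast_nonneg m
  have h1 : (m + 1) * (2 * a - z) ^ 2 ≤
      m * (2 * z ^ 2 - 2 * a ^ 2 - (m + 1) / (m + 2) * z ^ 2 + (m + 1) * z * a) :=
    hQ.trans (mul_le_mul_of_nonneg_left hP hm)
  have hm2 : (0 : ℝ) < m + 2 := by positivity
  have h2 : (m + 2) * ((m + 1) * (2 * a - z) ^ 2) ≤
      m * ((m + 2) * (2 * z ^ 2 - 2 * a ^ 2) - (m + 1) * z ^ 2 + (m + 2) * ((m + 1) * z * a)) := by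
    have := mul_le_mul_of_nonneg_left h1 hm2.le
    refine this.trans (le_of_eq ?_)
    field_simp
  have h3 : 2 * z * z ≤ (m + 1) * (m + 2) * (m + 4) * a * z := by
    nlinarith [mul_nonneg hm hm, sq_nonneg a, mul_nonneg hm (sq_nonneg a),
      mul_nonneg (mul_nonneg hm hm) (sq_nonneg a)]
  have h4 : 2 * z ≤ (m + 1) * (m + 2) * (m + 4) * a := le_of_mul_le_mul_right h3 hz
  rw [hPz] at h4
  have h5 : (m + 2 : ℝ) * (2 * P) ≤ (m + 2) * ((m + 1) * (m + 4) * a) := by linarith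
  have h6 := le_of_mul_le_mul_left h5 hm2
  linarith

theorem grad_core (h : SC Ω u) {c : ℝ} (hdet : ∀ x ∈ Ω, (hessianMat u x).det = c)
    {x : EuclideanSpace ℝ (Fin n)} (hx : x ∈ Ω) (l : EuclideanSpace ℝ (Fin n) →L[ℝ] ℝ) (κ : ℝ)
    (hη : 0 < κ + l x - u x) {e : EuclideanSpace ℝ (Fin n)} (he : F2 u x e e = 1)
    (hp : F1 u x e - l e ≠ 0)
    (hmax : ∀ y ∈ Ω, 0 ≤ κ + l y - u y → ∀ f, (F1 u y f - l f) ^ 2 * (κ + l y - u y) ^ (n + 1) ≤
      (F1 u x e - l e) ^ 2 * (κ + l x - u x) ^ (n + 1) * F2 u y f f) :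
    (F1 u x e - l e) ^ 2 ≤ n * (n + 3) / 2 * (κ + l x - u x) := by
  have hs := sm_of h
  obtain ⟨m, rfl⟩ : ∃ m, n = m + 1 := by
    rcases n with _ | m
    · exfalso
      have : e = 0 := Subsingleton.elim _ _
      simp [this] at he
    · exact ⟨m, rfl⟩
  set p := F1 u x e - l e with hpdef
  set η0 := κ + l x - u x with hη0
  have test : ∀ w t : EuclideanSpace ℝ (Fin (m + 1)),
      p * (F3 u x e e w + 2 * F2 u x e t) * η0 - 2 * (F2 u x e w + F1 u x t - l t) * η0
        - (m + 2) * p * (l w - F1 u x w) = 0 ∧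
      0 ≤ p ^ 2 * η0 ^ 2 * (F4 u x e e w w + 4 * F3 u x e w t + 2 * F2 u x t t)
        - (2 * p * (F3 u x e w w + 2 * F2 u x w t) + 2 * (F2 u x e w + F1 u x t - l t) ^ 2) * η0 ^ 2
        - 4 * p * (F2 u x e w + F1 u x t - l t) * (m + 2) * η0 * (l w - F1 u x w)
        - p ^ 2 * ((m + 2) * (m + 1) * (l w - F1 u x w) ^ 2 + (m + 2) * η0 * (- F2 u x w w)) := by
    intro w t
    have jH := (hs.jh hx w e t).congr_val he rfl rfl
    have jl : ∀ a b : EuclideanSpace ℝ (Fin (m + 1)),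
        J2 (fun s : ℝ => l (a + s • b)) (l a) (l b) 0 := by
      intro a b
      refine ((J2.const l).clm_apply (J2.affine a b)).congr_val rfl ?_ ?_
      · simp
      · simp
    have jP : J2 (fun s : ℝ => F1 u (x + s • w) (e + s • t) - l (e + s • t)) p
        (F2 u x e w + F1 u x t - l t) (F3 u x e w w + 2 * F2 u x w t) :=
      ((hs.jp hx w e t).sub (jl e t)).congr_val rfl rfl (by ring)
    have jη : J2 (fun s : ℝ => κ + l (x + s • w) - u (x + s • w)) η0 (l w - F1 u x w)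
        (- F2 u x w w) :=
      (((J2.const κ).add (jl x w)).sub (hs.ju hx w)).congr_val rfl (by ring) (by ring)
    have hpos : ∀ᶠ s : ℝ in 𝓝 0, 0 < κ + l (x + s • w) - u (x + s • w) := by
      have hc : ContinuousAt (fun s : ℝ => κ + l (x + s • w) - u (x + s • w)) 0 :=
        jη.hasDerivAt.continuousAt
      refine hc.eventually (lt_mem_nhds ?_)
      show 0 < κ + l (x + (0 : ℝ) • w) - u (x + (0 : ℝ) • w)
      rw [zero_smul, add_zero]
      exact hη
    refine jet_test hη hp jH jP jη ?_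
    filter_upwards [hs.near hx w, hpos] with s h1 h2
    exact hmax _ h1 h2.le _
  -- direction test
  have hdir : ∀ y, F1 u x y - l y = p * F2 u x e y := by
    intro y
    have := (test 0 y).1
    simp only [map_zero, sub_zero, zero_add, mul_zero] at this
    have h2 : (2 * η0) * (p * F2 u x e y - (F1 u x y - l y)) = 0 := by linarith
    rcases mul_eq_zero.1 h2 with h3 | h3
    · exfalso; linarith
    · linarith
  obtain ⟨w, hw0, hon⟩ := exists_ON h hx (0 : Fin (m + 1)) he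
  obtain ⟨i1, i2, -⟩ := identities h hdet hx hon e
  set A : Fin (m + 1) → Fin (m + 1) → ℝ := fun i j => F3 u x e (w i) (w j) with hA
  have hAs : ∀ i j, A i j = A j i := fun i j => hs.s3b hx e (w i) (w j)
  set t : Fin (m + 1) → EuclideanSpace ℝ (Fin (m + 1)) := fun i => -∑ j, A i j • w j with ht
  have hewi : ∀ i, F2 u x e (w i) = if i = 0 then 1 else 0 := by
    intro i
    rw [← hw0, hon 0 i]
    simp only [eq_comm]
  have q1 : ∀ i k, F2 u x (w k) (t i) = - A i k := by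
    intro i k
    simp only [ht, map_neg, map_sum, map_smul, smul_eq_mul, hon k]
    simp
  have q2 : ∀ i, F2 u x e (t i) = - A i 0 := by
    intro i
    have := q1 i 0
    rwa [hw0] at this
  have q3 : ∀ i, F2 u x (t i) (t i) = ∑ j, A i j ^ 2 := by
    intro i
    have : F2 u x (t i) (t i) = F2 u x (-∑ j, A i j • w j) (t i) := rfl
    rw [this]
    simp only [map_neg, map_sum, map_smul, neg_apply, sum_apply, smul_apply, smul_eq_mul, q1]
    rw [← Finset.sum_neg_distrib]
    refine Finset.sum_congr rfl fun j _ => by ring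
  have q4 : ∀ i, F3 u x e (w i) (t i) = - ∑ j, A i j ^ 2 := by
    intro i
    simp only [ht, map_neg, map_sum, map_smul, smul_eq_mul]
    congr 1
    refine Finset.sum_congr rfl fun j _ => ?_
    simp only [hA]; ring
  have q5 : ∀ i, F3 u x e e (w i) = A i 0 := by
    intro i
    rw [hAs]
    simp only [hA, hw0]
  have q6 : ∀ i, l (w i) - F1 u x (w i) = - (p * if i = 0 then 1 else 0) := by
    intro i
    have := hdir (w i)
    rw [hewi] at this
    linarith
  have q7 : ∀ i, F2 u x e (w i) + F1 u x (t i) - l (t i) = (if i = 0 then 1 else 0) - p * A i 0 := by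
    intro i
    have := hdir (t i)
    rw [q2] at this
    rw [hewi]
    linarith
  have q8 : ∀ i, F2 u x (w i) (w i) = 1 := fun i => by rw [hon i i, if_pos rfl]
  -- first order
  have fo : ∀ i, p * η0 * A i 0 = (2 * η0 - (m + 2) * p ^ 2) * if i = 0 then 1 else 0 := by
    intro i
    have := (test (w i) (t i)).1
    rw [q5, q2, q7, q6] at this
    linarith
  have hA00 : p * η0 * A 0 0 = 2 * η0 - (m + 2) * p ^ 2 := by
    have := fo 0
    simpa using this
  have hAi0 : ∀ i, i ≠ 0 → A i 0 = 0 := by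
    intro i hi
    have := fo i
    rw [if_neg hi, mul_zero] at this
    rcases mul_eq_zero.1 this with h1 | h1
    · exfalso
      rcases mul_eq_zero.1 h1 with h2 | h2
      · exact hp h2
      · exact hη.ne' h2
    · exact h1
  -- second order
  have so : ∀ i, 0 ≤ p ^ 2 * η0 ^ 2 * (F4 u x e e (w i) (w i) - 2 * ∑ j, A i j ^ 2)
      + 2 * p * η0 ^ 2 * A i i + (m + 2) * p ^ 2 * η0
      + (if i = 0 then (- 2 * (1 - p * A 0 0) ^ 2 * η0 ^ 2
        + 4 * p ^ 2 * (1 - p * A 0 0) * (m + 2) * η0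
        - (m + 2) * (m + 1) * p ^ 4) else 0) := by
    intro i
    have := (test (w i) (t i)).2
    rw [q7, q6, q8, q4, q3, q1] at this
    have e1 : F3 u x e (w i) (w i) = A i i := rfl
    rw [e1] at this
    by_cases hi : i = 0
    · subst hi
      simp only [if_true] at this ⊢
      refine this.trans (le_of_eq ?_)
      ring
    · simp only [if_neg hi, hAi0 i hi] at this ⊢
      refine this.trans (le_of_eq ?_)
      ring
  have hsum : 0 ≤ ∑ i, (p ^ 2 * η0 ^ 2 * (F4 u x e e (w i) (w i) - 2 * ∑ j, A i j ^ 2)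
      + 2 * p * η0 ^ 2 * A i i + (m + 2) * p ^ 2 * η0
      + (if i = 0 then (- 2 * (1 - p * A 0 0) ^ 2 * η0 ^ 2
        + 4 * p ^ 2 * (1 - p * A 0 0) * (m + 2) * η0
        - (m + 2) * (m + 1) * p ^ 4) else 0)) := Finset.sum_nonneg fun i _ => so i
  rw [Finset.sum_add_distrib, Finset.sum_add_distrib, Finset.sum_add_distrib, ← Finset.mul_sum,
    Finset.sum_sub_distrib, ← Finset.mul_sum, ← Finset.mul_sum, Finset.sum_ite_eq' Finset.univ
      (0 : Fin (m + 1)), if_pos (Finset.mem_univ _)] at hsum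
  rw [i2] at hsum
  have i1' : ∑ i, A i i = 0 := i1
  rw [i1'] at hsum
  simp only [Finset.sum_const, Finset.card_univ, Fintype.card_fin, nsmul_eq_mul] at hsum
  have hQA := sum_sq_le_helper A 0 m (by simp) i1'
  set Q := ∑ i, ∑ j, A i j ^ 2 with hQ
  push_cast at hsum ⊢
  have hfin := final_alg (m := m) (P := p ^ 2) (Q := p ^ 2 * η0 ^ 2 * Q) (a := η0)
    (z := (m + 2) * p ^ 2) (by positivity) ?_ ?_ rfl
  · refine hfin.trans (le_of_eq ?_)
    ring
  · rw [← hA00]
    have : p ^ 2 * η0 ^ 2 * ((m + 1) * A 0 0 ^ 2) ≤ p ^ 2 * η0 ^ 2 * (m * Q) :=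
      mul_le_mul_of_nonneg_left hQA (by positivity)
    linarith
  · have e2 : η0 * (1 - p * A 0 0) = (m + 2) * p ^ 2 - η0 := by linarith
    have e3 : (1 - p * A 0 0) ^ 2 * η0 ^ 2 = ((m + 2) * p ^ 2 - η0) ^ 2 := by
      rw [← e2]; ring
    have e4 : ((m : ℝ) + 1) / (m + 2) * ((m + 2) * p ^ 2) ^ 2 = (m + 1) * (m + 2) * p ^ 4 := by
      have hm : (m : ℝ) + 2 ≠ 0 := by positivity
      field_simp
    rw [e4]
    have e5 : 4 * p ^ 2 * (1 - p * A 0 0) * (m + 2) * η0 =
        4 * p ^ 2 * (m + 2) * ((m + 2) * p ^ 2 - η0) := by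
      rw [← e2]; ring
    have e6 : -2 * (1 - p * A 0 0) ^ 2 * η0 ^ 2 = -2 * ((m + 2) * p ^ 2 - η0) ^ 2 := by
      rw [← e3]; ring
    rw [e5, e6] at hsum
    nlinarith [hsum]

/-- **gradient estimate** -/
theorem grad_est (h : SC Ω u) {c : ℝ} (hdet : ∀ x ∈ Ω, (hessianMat u x).det = c)
    {x0 : EuclideanSpace ℝ (Fin n)} (hx0 : x0 ∈ Ω) {T : ℝ} (hT : 0 < T)
    (hcpt : IsCompact {x | x ∈ Ω ∧ u x ≤ u x0 + fderiv ℝ u x0 (x - x0) + T})
    {x : EuclideanSpace ℝ (Fin n)} (hx : x ∈ Ω)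
    (hxT : u x ≤ u x0 + fderiv ℝ u x0 (x - x0) + T) (e : EuclideanSpace ℝ (Fin n)) :
    (F1 u x e - F1 u x0 e) ^ 2 * (u x0 + fderiv ℝ u x0 (x - x0) + T - u x) ^ (n + 1) ≤
      n * (n + 3) / 2 * T ^ (n + 2) * F2 u x e e := by
  have hs := sm_of h
  rcases eq_or_ne e 0 with rfl | he0
  · simp
  set l := F1 u x0 with hl
  set κ := T + u x0 - l x0 with hκ
  have hηeq : ∀ y, u x0 + fderiv ℝ u x0 (y - x0) + T - u y = κ + l y - u y := by
    intro y
    have : fderiv ℝ u x0 (y - x0) = l y - l x0 := by rw [hl]; exact map_sub _ _ _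
    rw [this]; ring
  set S := {x | x ∈ Ω ∧ u x ≤ u x0 + fderiv ℝ u x0 (x - x0) + T} with hS
  have hmem : ∀ y, y ∈ S ↔ y ∈ Ω ∧ 0 ≤ κ + l y - u y := by
    intro y
    rw [← hηeq]
    simp only [hS, mem_ofPred_eq]
    constructor
    · rintro ⟨a, b⟩; exact ⟨a, by linarith⟩
    · rintro ⟨a, b⟩; exact ⟨a, by linarith⟩
  have hηT : ∀ y ∈ Ω, κ + l y - u y ≤ T := by
    intro y hy
    have := h.tangent_le hx0 hy
    rw [← hηeq]
    linarith
  have hx0S : x0 ∈ S := ⟨hx0, by simp [hT.le]⟩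
  have hc0 : ContinuousOn u Ω := h.continuousOn
  have hc1 : ContinuousOn (F1 u) Ω := h.continuousOn_fderiv
  have hc2 : ContinuousOn (F2 u) Ω := fun y hy => (hs.c2 hy).continuousAt.continuousWithinAt
  have hSΩ : ∀ p ∈ S ×ˢ (Set.univ : Set (EuclideanSpace ℝ (Fin n))), p.1 ∈ Ω :=
    fun p hp => hp.1.1
  have hN : ContinuousOn (fun p : EuclideanSpace ℝ (Fin n) × EuclideanSpace ℝ (Fin n) =>
      (F1 u p.1 p.2 - l p.2) ^ 2 * (κ + l p.1 - u p.1) ^ (n + 1)) (S ×ˢ Set.univ) := by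
    have a1 : ContinuousOn (fun p : EuclideanSpace ℝ (Fin n) × EuclideanSpace ℝ (Fin n) =>
        F1 u p.1) (S ×ˢ Set.univ) := hc1.comp continuous_fst.continuousOn hSΩ
    have a0 : ContinuousOn (fun p : EuclideanSpace ℝ (Fin n) × EuclideanSpace ℝ (Fin n) =>
        u p.1) (S ×ˢ Set.univ) := hc0.comp continuous_fst.continuousOn hSΩ
    have a2 := a1.clm_apply (continuous_snd.continuousOn (s := S ×ˢ Set.univ))
    have b1 : Continuous (fun p : EuclideanSpace ℝ (Fin n) × EuclideanSpace ℝ (Fin n) => l p.2) :=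
      l.continuous.comp continuous_snd
    have b2 : Continuous (fun p : EuclideanSpace ℝ (Fin n) × EuclideanSpace ℝ (Fin n) =>
        κ + l p.1) := continuous_const.add (l.continuous.comp continuous_fst)
    exact ((a2.sub b1.continuousOn).pow 2).mul ((b2.continuousOn.sub a0).pow (n + 1))
  have hD : ContinuousOn (fun p : EuclideanSpace ℝ (Fin n) × EuclideanSpace ℝ (Fin n) =>
      F2 u p.1 p.2 p.2) (S ×ˢ Set.univ) := by
    have a1 : ContinuousOn (fun p : EuclideanSpace ℝ (Fin n) × EuclideanSpace ℝ (Fin n) =>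
        F2 u p.1) (S ×ˢ Set.univ) := hc2.comp continuous_fst.continuousOn hSΩ
    have a2 : ContinuousOn (fun p : EuclideanSpace ℝ (Fin n) × EuclideanSpace ℝ (Fin n) =>
        p.2) (S ×ˢ Set.univ) := continuous_snd.continuousOn
    exact (a1.clm_apply a2).clm_apply a2
  obtain ⟨xm, hxm, em, hem, hmax⟩ := exists_max hcpt hx0S
    (fun y f => (F1 u y f - l f) ^ 2 * (κ + l y - u y) ^ (n + 1)) (fun y f => F2 u y f f) 2 hN hD
    (fun y hy f hf => F2_pos h hy.1 hf)
    (fun y t f => by simp only [map_smul, smul_eq_mul]; ring)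
    (fun y t f => by simp only [map_smul, smul_apply, smul_eq_mul]; ring) he0
  have hHm : 0 < F2 u xm em em := F2_pos h hxm.1 hem
  have hηm := ((hmem xm).1 hxm).2
  rw [hηeq]
  have hxS : x ∈ S := ⟨hx, hxT⟩
  have hkey := hmax x hxS e he0
  have hFe : 0 < F2 u x e e := F2_pos h hx he0
  have hn0 : (0 : ℝ) ≤ n := Nat.cast_nonneg n
  by_cases hz : (F1 u xm em - l em) ^ 2 * (κ + l xm - u xm) ^ (n + 1) = 0
  · rw [hz, zero_mul] at hkey
    have : (F1 u x e - l e) ^ 2 * (κ + l x - u x) ^ (n + 1) ≤ 0 :=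
      nonpos_of_mul_nonpos_left hkey hHm
    refine this.trans ?_
    positivity
  · have hηm' : 0 < κ + l xm - u xm := by
      rcases hηm.eq_or_lt with h0 | h0
      · exfalso; apply hz; rw [← h0]; simp
      · exact h0
    have hpm : F1 u xm em - l em ≠ 0 := by
      intro h0; apply hz; rw [h0]; simp
    -- normalise the direction
    set r := Real.sqrt (F2 u xm em em) with hr
    have hr0 : 0 < r := Real.sqrt_pos.2 hHm
    have hr2 : r ^ 2 = F2 u xm em em := Real.sq_sqrt hHm.le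
    set e1 := r⁻¹ • em with he1
    have hH1 : F2 u xm e1 e1 = 1 := by
      simp only [he1, map_smul, smul_apply, smul_eq_mul]
      rw [← hr2]; field_simp
    have hp1 : F1 u xm e1 - l e1 = r⁻¹ * (F1 u xm em - l em) := by
      simp only [he1, map_smul, smul_eq_mul]; ring
    have hmax1 : ∀ y ∈ Ω, 0 ≤ κ + l y - u y → ∀ f,
        (F1 u y f - l f) ^ 2 * (κ + l y - u y) ^ (n + 1) ≤
        (F1 u xm e1 - l e1) ^ 2 * (κ + l xm - u xm) ^ (n + 1) * F2 u y f f := by
      intro y hy hy0 f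
      rcases eq_or_ne f 0 with rfl | hf
      · simp
      have k1 := hmax y ((hmem y).2 ⟨hy, hy0⟩) f hf
      rw [← hr2] at k1
      rw [hp1]
      have k2 : r ^ 2 * ((F1 u y f - l f) ^ 2 * (κ + l y - u y) ^ (n + 1)) ≤
          r ^ 2 * ((r⁻¹ * (F1 u xm em - l em)) ^ 2 * (κ + l xm - u xm) ^ (n + 1) *
            F2 u y f f) := by
        have k3 : r ^ 2 * ((r⁻¹ * (F1 u xm em - l em)) ^ 2 * (κ + l xm - u xm) ^ (n + 1) *
            F2 u y f f) = (F1 u xm em - l em) ^ 2 * (κ + l xm - u xm) ^ (n + 1) *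
            F2 u y f f := by
          field_simp
        rw [k3]
        linarith
      exact le_of_mul_le_mul_left k2 (by positivity)
    have hcore := grad_core h hdet hxm.1 l κ hηm' hH1
      (by rw [hp1]; exact mul_ne_zero (inv_ne_zero hr0.ne') hpm) hmax1
    have hfin := hmax1 x hx ((hmem x).1 hxS).2 e
    refine hfin.trans (mul_le_mul_of_nonneg_right ?_ hFe.le)
    have g1 : (F1 u xm e1 - l e1) ^ 2 * (κ + l xm - u xm) ^ (n + 1) ≤
        n * (n + 3) / 2 * (κ + l xm - u xm) * (κ + l xm - u xm) ^ (n + 1) :=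
      mul_le_mul_of_nonneg_right hcore (by positivity)
    refine g1.trans ?_
    have g2 : (κ + l xm - u xm) ^ (n + 2) ≤ T ^ (n + 2) :=
      pow_le_pow_left₀ hηm (hηT xm hxm.1) _
    have g3 : n * (n + 3) / 2 * (κ + l xm - u xm) * (κ + l xm - u xm) ^ (n + 1) =
        n * (n + 3) / 2 * (κ + l xm - u xm) ^ (n + 2) := by ring
    rw [g3]
    exact mul_le_mul_of_nonneg_left g2 (by positivity)

end grad

end Crest.Agent.R236.Jcp
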