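import Crest.Agent.R236.SecDefs

-- ▼ part R236/SecGrowth
section

/-! Row 236: growth of the deviation along rays under (QS), `Ω = univ` (helper202). -/

set_option autoImplicit false
open scoped ContDiff Topology
open Crest.GeometryTopology.CoordMetric Crest.GeometryTopology.AffineMaximal
open Set Filter MeasureTheory

noncomputable section

namespace Crest.Agent.R236.Sec

/-- one-dimensional growth lemma -/
lemma rpow_growth_le {f f' : ℝ → ℝ} {s t p : ℝ} (hs : 0 < s) (hst : s ≤ t)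
    (hf : ∀ τ ∈ Icc s t, HasDerivAt f (f' τ) τ) (hle : ∀ τ ∈ Icc s t, τ * f' τ ≤ p * f τ) :
    f t ≤ (t / s) ^ p * f s := by
  have hg : ∀ τ ∈ Icc s t, HasDerivAt (fun τ => f τ * τ ^ (-p))
      (f' τ * τ ^ (-p) + f τ * (-p * τ ^ (-p - 1))) τ := by
    intro τ hτ
    have hτ0 : 0 < τ := hs.trans_le hτ.1
    exact (hf τ hτ).mul (Real.hasDerivAt_rpow_const (Or.inl hτ0.ne'))
  have hanti : AntitoneOn (fun τ => f τ * τ ^ (-p)) (Icc s t) := by
    apply antitoneOn_of_deriv_nonpos (convex_Icc s t)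
    · exact fun τ hτ => (hg τ hτ).continuousAt.continuousWithinAt
    · exact fun τ hτ => (hg τ (interior_subset hτ)).differentiableAt.differentiableWithinAt
    · intro τ hτ
      have hτ' := interior_subset hτ
      rw [(hg τ hτ').deriv]
      have hτ0 : 0 < τ := hs.trans_le hτ'.1
      have e1 : τ ^ (-p) = τ ^ (-p - 1) * τ := by
        rw [← Real.rpow_add_one hτ0.ne']; ring_nf
      rw [e1]
      have h1 := hle τ hτ'
      have h2 : 0 < τ ^ (-p - 1) := Real.rpow_pos_of_pos hτ0 _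
      have h3 : f' τ * (τ ^ (-p - 1) * τ) + f τ * (-p * τ ^ (-p - 1))
          = τ ^ (-p - 1) * (τ * f' τ - p * f τ) := by ring
      rw [h3]
      exact mul_nonpos_of_nonneg_of_nonpos h2.le (by linarith)
  have h1 := hanti (left_mem_Icc.mpr hst) (right_mem_Icc.mpr hst) hst
  simp only at h1
  have ht : 0 < t := hs.trans_le hst
  have h2 : 0 < t ^ p := Real.rpow_pos_of_pos ht _
  have h3 : 0 < s ^ p := Real.rpow_pos_of_pos hs _
  rw [Real.rpow_neg ht.le, Real.rpow_neg hs.le] at h1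
  rw [Real.div_rpow ht.le hs.le]
  rw [← div_eq_mul_inv, ← div_eq_mul_inv, div_le_div_iff₀ h2 h3] at h1
  rw [div_mul_eq_mul_div, le_div_iff₀ h3]
  linarith

lemma rpow_growth_ge {f f' : ℝ → ℝ} {s t p : ℝ} (hs : 0 < s) (hst : s ≤ t)
    (hf : ∀ τ ∈ Icc s t, HasDerivAt f (f' τ) τ) (hle : ∀ τ ∈ Icc s t, p * f τ ≤ τ * f' τ) :
    (t / s) ^ p * f s ≤ f t := by
  have := rpow_growth_le (f := fun τ => - f τ) (f' := fun τ => - f' τ) (p := p) hs hst
    (fun τ hτ => (hf τ hτ).neg) (fun τ hτ => by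
      have := hle τ hτ
      simp only [mul_neg]
      linarith)
  linarith

variable {n : ℕ} {Ω : Set (EuclideanSpace ℝ (Fin n))} {u : EuclideanSpace ℝ (Fin n) → ℝ}

@[simp] lemma dev_self (x : EuclideanSpace ℝ (Fin n)) : dev u x x = 0 := by
  simp [dev]

lemma dev_nonneg (h : SC Ω u) {x y : EuclideanSpace ℝ (Fin n)} (hx : x ∈ Ω) (hy : y ∈ Ω) :
    0 ≤ dev u x y := by
  have := h.tangent_le hx hy
  unfold dev; linarith


lemma dev_add_dev (x y : EuclideanSpace ℝ (Fin n)) :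
    dev u x y + dev u y x = (fderiv ℝ u y - fderiv ℝ u x) (y - x) := by
  unfold dev
  have : fderiv ℝ u y (x - y) = - fderiv ℝ u y (y - x) := by rw [← map_neg, neg_sub]
  rw [this]
  simp only [sub_apply]
  ring

lemma hasDerivAt_dev_line (h : SC Ω u) {x v : EuclideanSpace ℝ (Fin n)} {t : ℝ}
    (hx : x + t • v ∈ Ω) :
    HasDerivAt (fun s : ℝ => dev u x (x + s • v))
      ((fderiv ℝ u (x + t • v) - fderiv ℝ u x) v) t := by
  unfold dev
  have h1 := h.hasDerivAt_line hx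
  have h2 : HasDerivAt (fun s : ℝ => fderiv ℝ u x (x + s • v - x)) (fderiv ℝ u x v) t := by
    have e : (fun s : ℝ => fderiv ℝ u x (x + s • v - x)) = fun s : ℝ => s * fderiv ℝ u x v := by
      funext s
      rw [add_sub_cancel_left, map_smul, smul_eq_mul]
    rw [e]
    simpa using (hasDerivAt_id t).mul_const (fderiv ℝ u x v)
  exact (h1.sub_const (u x)).sub h2

lemma mul_deriv_dev_line (x v : EuclideanSpace ℝ (Fin n)) (t : ℝ) :
    t * ((fderiv ℝ u (x + t • v) - fderiv ℝ u x) v) =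
      dev u x (x + t • v) + dev u (x + t • v) x := by
  rw [dev_add_dev, add_sub_cancel_left, map_smul, smul_eq_mul]

/-- upper growth along rays -/
lemma dev_growth_le (h : SC Ω u) {C0 : ℝ} (hQ : QS Ω u C0) {x v : EuclideanSpace ℝ (Fin n)}
    {s t : ℝ} (hs : 0 < s) (hst : s ≤ t) (hx : x ∈ Ω) (hxt : x + t • v ∈ Ω) :
    dev u x (x + t • v) ≤ (t / s) ^ (1 + C0) * dev u x (x + s • v) := by
  have hmem : ∀ τ ∈ Icc s t, x + τ • v ∈ Ω := by
    intro τ hτ
    have ht : 0 < t := hs.trans_le hst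
    have h1 := h.segment_mem hx hxt (t := τ / t)
      ⟨div_nonneg (hs.le.trans hτ.1) ht.le, (div_le_one ht).mpr hτ.2⟩
    have e : x + (τ / t) • (x + t • v - x) = x + τ • v := by
      rw [add_sub_cancel_left, smul_smul, div_mul_cancel₀ _ ht.ne']
    rwa [e] at h1
  refine rpow_growth_le (f := fun τ => dev u x (x + τ • v)) hs hst
    (fun τ hτ => hasDerivAt_dev_line h (hmem τ hτ)) (fun τ hτ => ?_)
  rw [mul_deriv_dev_line]
  have := hQ x hx _ (hmem τ hτ)
  linarith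

/-- lower growth along rays -/
lemma dev_growth_ge (h : SC Ω u) {C0 : ℝ} (hC0 : 0 < C0) (hQ : QS Ω u C0)
    {x v : EuclideanSpace ℝ (Fin n)}
    {s t : ℝ} (hs : 0 < s) (hst : s ≤ t) (hx : x ∈ Ω) (hxt : x + t • v ∈ Ω) :
    (t / s) ^ (1 + 1 / C0) * dev u x (x + s • v) ≤ dev u x (x + t • v) := by
  have hmem : ∀ τ ∈ Icc s t, x + τ • v ∈ Ω := by
    intro τ hτ
    have ht : 0 < t := hs.trans_le hst
    have h1 := h.segment_mem hx hxt (t := τ / t)
      ⟨div_nonneg (hs.le.trans hτ.1) ht.le, (div_le_one ht).mpr hτ.2⟩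
    have e : x + (τ / t) • (x + t • v - x) = x + τ • v := by
      rw [add_sub_cancel_left, smul_smul, div_mul_cancel₀ _ ht.ne']
    rwa [e] at h1
  refine rpow_growth_ge (f := fun τ => dev u x (x + τ • v)) hs hst
    (fun τ hτ => hasDerivAt_dev_line h (hmem τ hτ)) (fun τ hτ => ?_)
  rw [mul_deriv_dev_line]
  have := hQ _ (hmem τ hτ) x hx
  have h2 : dev u x (x + τ • v) / C0 ≤ dev u (x + τ • v) x := by
    rw [div_le_iff₀ hC0]; linarith
  have h3 : (1 + 1 / C0) * dev u x (x + τ • v) =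
      dev u x (x + τ • v) + dev u x (x + τ • v) / C0 := by ring
  linarith

/-- **Entire.** Under (QS), a function with compact sections is defined everywhere. -/
theorem eq_univ (h : SC Ω u) (hne : Ω.Nonempty) {C0 : ℝ} (hQ : QS Ω u C0)
    (hsec : ∀ x₀ ∈ Ω, ∀ t : ℝ,
      IsCompact {x | x ∈ Ω ∧ u x ≤ u x₀ + fderiv ℝ u x₀ (x - x₀) + t}) : Ω = univ := by
  obtain ⟨x, hx⟩ := hne
  refine eq_univ_of_forall fun p => ?_
  set v := p - x with hv
  set L : ℝ → EuclideanSpace ℝ (Fin n) := fun t => x + t • v with hL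
  have hLc : Continuous L := by fun_prop
  -- an initial parameter
  obtain ⟨t₁, ht₁, hmem₁⟩ : ∃ t₁ > (0:ℝ), L t₁ ∈ Ω := by
    have h0 : L 0 ∈ Ω := by simpa [hL] using hx
    have h1 : ∀ᶠ t in 𝓝 (0:ℝ), L t ∈ Ω := hLc.continuousAt.eventually_mem (h.isOpen.mem_nhds h0)
    have h2 : ∀ᶠ t in 𝓝[>] (0:ℝ), L t ∈ Ω := h1.filter_mono nhdsWithin_le_nhds
    obtain ⟨t, ht, ht'⟩ := (h2.and self_mem_nhdsWithin).exists
    exact ⟨t, ht', ht⟩
  by_cases h1t : 1 ≤ t₁
  · have h1 := h.segment_mem hx hmem₁ (t := 1 / t₁) ⟨by positivity, by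
      rw [div_le_one ht₁]; exact h1t⟩
    have e : x + (1 / t₁) • (L t₁ - x) = p := by
      simp only [hL]
      rw [add_sub_cancel_left, smul_smul, one_div, inv_mul_cancel₀ ht₁.ne', one_smul, hv]
      abel
    rwa [e] at h1
  push Not at h1t
  set M : ℝ := (1 / t₁) ^ (1 + max C0 0) * dev u x (L t₁) with hM
  have hd1 : 0 ≤ dev u x (L t₁) := dev_nonneg h hx hmem₁
  have hQ' : QS Ω u (max C0 0) := by
    intro a ha b hb
    refine (hQ a ha b hb).trans ?_
    exact mul_le_mul_of_nonneg_right (le_max_left _ _) (dev_nonneg h ha hb)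
  have hbound : ∀ t ∈ Icc t₁ 1, L t ∈ Ω → dev u x (L t) ≤ M := by
    intro t ht hmem
    have h1 := dev_growth_le h hQ' ht₁ ht.1 hx hmem
    refine h1.trans ?_
    apply mul_le_mul_of_nonneg_right _ hd1
    apply Real.rpow_le_rpow (div_nonneg (ht₁.le.trans ht.1) ht₁.le)
    · gcongr
      exact ht.2
    · have := le_max_right C0 0; linarith
  -- the set of good parameters is clopen in `[t₁, 1]`
  have hA : Icc t₁ 1 ⊆ L ⁻¹' Ω := by
    have hK := hsec x hx M
    have hKc : IsClosed {y | y ∈ Ω ∧ u y ≤ u x + fderiv ℝ u x (y - x) + M} := hK.isClosed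
    have hopen : IsOpen (L ⁻¹' Ω) := h.isOpen.preimage hLc
    have hclosed : IsClosed (L ⁻¹' {y | y ∈ Ω ∧ u y ≤ u x + fderiv ℝ u x (y - x) + M}) :=
      hKc.preimage hLc
    have heq : ∀ t ∈ Icc t₁ 1, (t ∈ L ⁻¹' Ω ↔
        t ∈ L ⁻¹' {y | y ∈ Ω ∧ u y ≤ u x + fderiv ℝ u x (y - x) + M}) := by
      intro t ht
      constructor
      · intro hm
        refine ⟨hm, ?_⟩
        have := hbound t ht hm
        unfold dev at this
        linarith
      · exact fun hm => hm.1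
    have hpre : IsPreconnected (Icc t₁ (1:ℝ)) := isPreconnected_Icc
    by_contra hcon
    rw [Set.not_subset] at hcon
    obtain ⟨t, ht, htn⟩ := hcon
    have := hpre (L ⁻¹' Ω)
      (L ⁻¹' {y | y ∈ Ω ∧ u y ≤ u x + fderiv ℝ u x (y - x) + M})ᶜ hopen hclosed.isOpen_compl
      (fun s hs => by
        by_cases hm : s ∈ L ⁻¹' Ω
        · exact Or.inl hm
        · exact Or.inr fun hm' => hm ((heq s hs).mpr hm'))
      ⟨t₁, ⟨le_rfl, h1t.le⟩, hmem₁⟩ ⟨t, ht, fun hm' => htn ((heq t ht).mpr hm')⟩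
    obtain ⟨s, hs, hs1, hs2⟩ := this
    exact hs2 ((heq s hs).mp hs1)
  have := hA (right_mem_Icc.mpr h1t.le)
  have e : L 1 = p := by simp [hL, hv]
  rwa [mem_preimage, e] at this

end Crest.Agent.R236.Sec
end
end

-- ▼ part R236/SecPre

/-! Row 236: estimates on a normalised section (helper202). -/

set_option autoImplicit false
open scoped ContDiff Topology
open Crest.GeometryTopology.CoordMetric Crest.GeometryTopology.AffineMaximal
open Set Filter MeasureTheory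

noncomputable section

namespace Crest.Agent.R236.Sec

/-- upper determinant bound (helper877) in the form used here -/
def DetUpper (n : ℕ) : Prop :=
  ∀ u : EuclideanSpace ℝ (Fin n) → ℝ, SC univ u → PDE univ u → ∀ G : ℝ, 0 < G →
    IsCompact {x | u x ≤ 4} → (∀ x, u x ≤ 4 → ‖fderiv ℝ u x‖ ≤ G) →
    ∀ x, u x ≤ 4 → (hessianMat u x).det * (4 - u x) ^ n ≤
      6 ^ n * Real.exp (((n:ℝ) + 2) / 4) * G ^ (2 * n)

/-- lower determinant bound (helper877) in the form used here -/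
def DetLower (n : ℕ) : Prop :=
  ∀ u : EuclideanSpace ℝ (Fin n) → ℝ, SC univ u → PDE univ u → ∀ x₀ : EuclideanSpace ℝ (Fin n),
    ∀ G : ℝ, 0 < G → IsCompact {x | dev u x x₀ ≤ 1} → (∀ x, dev u x x₀ ≤ 1 → ‖x - x₀‖ ≤ G) →
    1 ≤ (4 * ((n:ℝ) + 1) * G ^ 2) ^ n * Real.exp (((n:ℝ) + 2) / (4 * ((n:ℝ) + 1))) *
      (hessianMat u x₀).det

variable {n : ℕ} {u : EuclideanSpace ℝ (Fin n) → ℝ}

/-- the growth bound -/
def UU (r C0 ρ : ℝ) : ℝ := 2 * (max 1 (ρ / r)) ^ (1 + C0)

lemma UU_pos (r C0 ρ : ℝ) : 0 < UU r C0 ρ := by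
  unfold UU
  have : 0 < max 1 (ρ / r) := lt_max_of_lt_left one_pos
  have := Real.rpow_pos_of_pos this (1 + C0)
  linarith

lemma UU_mono {r C0 ρ ρ' : ℝ} (hr : 0 < r) (hC0 : 0 ≤ C0) (h : ρ ≤ ρ') :
    UU r C0 ρ ≤ UU r C0 ρ' := by
  unfold UU
  have h0 : (0:ℝ) ≤ max 1 (ρ / r) := le_max_of_le_left zero_le_one
  have h1 : max 1 (ρ / r) ≤ max 1 (ρ' / r) :=
    max_le_max le_rfl (div_le_div_of_nonneg_right h hr.le)
  have := Real.rpow_le_rpow h0 h1 (show 0 ≤ 1 + C0 by linarith)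
  linarith

/-- an entire normalised solution before the determinant bounds -/
structure Pre (n : ℕ) (r C0 : ℝ) (u : EuclideanSpace ℝ (Fin n) → ℝ) : Prop where
  sc : SC univ u
  pde : PDE univ u
  qs : QS univ u C0
  zero : u 0 = 0
  dzero : fderiv ℝ u 0 = 0
  ball : ∀ x, ‖x‖ ≤ r → u x ≤ 2
  bdd : ∀ x, u x ≤ 2 → ‖x‖ ≤ 1

namespace Pre

variable {r C0 : ℝ}

lemma dev_zero (h : Pre n r C0 u) (x : EuclideanSpace ℝ (Fin n)) : dev u 0 x = u x := by
  simp [dev, h.zero, h.dzero]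

lemma nonneg (h : Pre n r C0 u) (x : EuclideanSpace ℝ (Fin n)) : 0 ≤ u x := by
  rw [← h.dev_zero]
  exact dev_nonneg h.sc (mem_univ _) (mem_univ _)

lemma le_UU (h : Pre n r C0 u) (hr : 0 < r) (hC0 : 0 ≤ C0) (x : EuclideanSpace ℝ (Fin n)) :
    u x ≤ UU r C0 ‖x‖ := by
  rcases le_or_gt ‖x‖ r with hx | hx
  · refine (h.ball x hx).trans ?_
    unfold UU
    have h1 : (1:ℝ) ≤ max 1 (‖x‖ / r) := le_max_left _ _
    have := Real.one_le_rpow h1 (show 0 ≤ 1 + C0 by linarith)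
    linarith
  · have hx0 : 0 < ‖x‖ := hr.trans hx
    have h1 := dev_growth_le h.sc h.qs (x := 0) (v := x) (s := r / ‖x‖) (t := 1)
      (by positivity) ((div_le_one hx0).mpr hx.le) (mem_univ _) (mem_univ _)
    rw [h.dev_zero, h.dev_zero, zero_add, zero_add, one_smul, one_div_div] at h1
    refine h1.trans ?_
    have h2 : u ((r / ‖x‖) • x) ≤ 2 := by
      apply h.ball
      rw [norm_smul, Real.norm_of_nonneg (by positivity), div_mul_cancel₀ _ hx0.ne']
    unfold UU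
    have h3 : max 1 (‖x‖ / r) = ‖x‖ / r := max_eq_right ((one_le_div hr).mpr hx.le)
    rw [h3, mul_comm]
    exact mul_le_mul_of_nonneg_right h2 (Real.rpow_nonneg (by positivity) _)

lemma norm_fderiv_le (h : Pre n r C0 u) (hr : 0 < r) (hC0 : 0 ≤ C0)
    (x : EuclideanSpace ℝ (Fin n)) : ‖fderiv ℝ u x‖ ≤ UU r C0 (‖x‖ + 1) := by
  have key : ∀ v : EuclideanSpace ℝ (Fin n), ‖v‖ = 1 → fderiv ℝ u x v ≤ UU r C0 (‖x‖ + 1) := by
    intro v hv
    have h1 := h.sc.tangent_le (x := x) (y := x + v) (mem_univ _) (mem_univ _)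
    rw [add_sub_cancel_left] at h1
    have h2 := h.le_UU hr hC0 (x + v)
    have h3 : UU r C0 ‖x + v‖ ≤ UU r C0 (‖x‖ + 1) := by
      apply UU_mono hr hC0
      have := norm_add_le x v
      rw [hv] at this; exact this
    have h4 := h.nonneg x
    linarith
  refine ContinuousLinearMap.opNorm_le_of_unit_norm (UU_pos _ _ _).le fun v hv => ?_
  rw [Real.norm_eq_abs, abs_le]
  refine ⟨?_, key v hv⟩
  have := key (-v) (by rwa [norm_neg])
  rw [map_neg] at this
  linarith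

lemma norm_le_two (h : Pre n r C0 u) {x : EuclideanSpace ℝ (Fin n)} (hx : u x ≤ 4) :
    ‖x‖ ≤ 2 := by
  have h1 := h.sc.convex_comb_le (x := 0) (y := x) (mem_univ _) (mem_univ _)
    (t := 1 / 2) (by norm_num) (by norm_num)
  rw [h.zero, zero_add, sub_zero] at h1
  have h2 := h.bdd ((1 / 2 : ℝ) • x) (by linarith)
  rw [norm_smul, Real.norm_of_nonneg (by norm_num)] at h2
  linarith

lemma superlinear (h : Pre n r C0 u) (hC0 : 0 < C0) {x : EuclideanSpace ℝ (Fin n)}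
    (hx : 2 ≤ ‖x‖) : 2 * (‖x‖ / 2) ^ (1 + 1 / C0) ≤ u x := by
  have hx0 : 0 < ‖x‖ := by linarith
  have h1 := dev_growth_ge h.sc hC0 h.qs (x := 0) (v := x) (s := 2 / ‖x‖) (t := 1)
    (by positivity) ((div_le_one hx0).mpr hx) (mem_univ _) (mem_univ _)
  rw [h.dev_zero, h.dev_zero, zero_add, zero_add, one_smul, one_div_div] at h1
  refine le_trans ?_ h1
  have h2 : 2 ≤ u ((2 / ‖x‖) • x) := by
    by_contra hcon
    push Not at hcon
    have := h.bdd _ hcon.le
    rw [norm_smul, Real.norm_of_nonneg (by positivity), div_mul_cancel₀ _ hx0.ne'] at this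
    linarith
  rw [mul_comm]
  exact mul_le_mul_of_nonneg_left h2 (Real.rpow_nonneg (by positivity) _)

lemma continuous (h : Pre n r C0 u) : Continuous u :=
  continuousOn_univ.mp h.sc.continuousOn

lemma continuous_fderiv (h : Pre n r C0 u) : Continuous (fderiv ℝ u) :=
  continuousOn_univ.mp h.sc.continuousOn_fderiv

lemma isCompact_four (h : Pre n r C0 u) : IsCompact {x | u x ≤ 4} := by
  refine Metric.isCompact_of_isClosed_isBounded (isClosed_le h.continuous continuous_const) ?_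
  refine (Metric.isBounded_closedBall (x := (0 : EuclideanSpace ℝ (Fin n))) (r := 2)).subset ?_
  intro x hx
  rw [mem_closedBall_zero_iff]
  exact h.norm_le_two hx

/-- the radius bound of dual sections -/
def rho2 (r C0 : ℝ) : ℝ := 2 * max 1 (((C0 + 2 + 3 * UU r C0 2) / 2) ^ C0)

lemma norm_le_rho2 (h : Pre n r C0 u) (hr : 0 < r) (hC0 : 0 < C0)
    {x₀ x : EuclideanSpace ℝ (Fin n)} (hx₀ : u x₀ ≤ 2) (hx : dev u x x₀ ≤ 1) :
    ‖x‖ ≤ rho2 r C0 := by
  unfold rho2
  rcases le_or_gt ‖x‖ 2 with h2 | h2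
  · have := le_max_left 1 (((C0 + 2 + 3 * UU r C0 2) / 2) ^ C0)
    linarith
  set G := UU r C0 2 with hG
  have hGpos : 0 < G := UU_pos _ _ _
  have h1 : dev u x₀ x ≤ C0 := by
    have := h.qs x (mem_univ _) x₀ (mem_univ _)
    nlinarith
  have hg : ‖fderiv ℝ u x₀‖ ≤ G := by
    refine (h.norm_fderiv_le hr hC0.le x₀).trans (UU_mono hr hC0.le ?_)
    have := h.bdd x₀ hx₀
    linarith
  have h3 : fderiv ℝ u x₀ (x - x₀) ≤ G * (‖x‖ + 1) := by
    have e1 : fderiv ℝ u x₀ (x - x₀) ≤ ‖fderiv ℝ u x₀‖ * ‖x - x₀‖ :=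
      (le_abs_self _).trans ((fderiv ℝ u x₀).le_opNorm _)
    have e2 : ‖x - x₀‖ ≤ ‖x‖ + 1 := by
      have := norm_sub_le x x₀
      have := h.bdd x₀ hx₀
      linarith
    exact e1.trans (mul_le_mul hg e2 (norm_nonneg _) hGpos.le)
  have h4 : u x ≤ C0 + 2 + G * (‖x‖ + 1) := by
    unfold dev at h1
    linarith
  have h5 := h.superlinear hC0 h2.le
  set s := ‖x‖ / 2 with hs
  have hs1 : 1 ≤ s := by rw [hs]; linarith
  have hs0 : 0 < s := by linarith
  have hxs : ‖x‖ = 2 * s := by rw [hs]; ring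
  rw [hxs] at h4
  have h6 : 2 * s ^ (1 + 1 / C0) ≤ (C0 + 2 + 3 * G) * s := by
    have : C0 + 2 + G * (2 * s + 1) ≤ (C0 + 2 + 3 * G) * s := by nlinarith
    linarith
  rw [Real.rpow_add hs0, Real.rpow_one] at h6
  have h7 : s ^ (1 / C0) ≤ (C0 + 2 + 3 * G) / 2 := by
    rw [le_div_iff₀ two_pos]
    have : (s ^ (1 / C0) * 2) * s ≤ (C0 + 2 + 3 * G) * s := by linarith
    exact le_of_mul_le_mul_right this hs0
  have h8 : s ≤ ((C0 + 2 + 3 * G) / 2) ^ C0 := by
    have e1 : (s ^ (1 / C0)) ^ C0 = s := by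
      rw [← Real.rpow_mul hs0.le, one_div, inv_mul_cancel₀ hC0.ne', Real.rpow_one]
    have e2 := Real.rpow_le_rpow (Real.rpow_nonneg hs0.le _) h7 hC0.le
    rwa [e1] at e2
  have h9 := le_max_right 1 (((C0 + 2 + 3 * G) / 2) ^ C0)
  linarith

lemma isCompact_dual (h : Pre n r C0 u) (hr : 0 < r) (hC0 : 0 < C0)
    {x₀ : EuclideanSpace ℝ (Fin n)} (hx₀ : u x₀ ≤ 2) : IsCompact {x | dev u x x₀ ≤ 1} := by
  refine Metric.isCompact_of_isClosed_isBounded ?_ ?_
  · refine isClosed_le ?_ continuous_const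
    unfold dev
    have h1 := h.continuous
    have h2 := h.continuous_fderiv
    have h3 : Continuous fun x => fderiv ℝ u x (x₀ - x) :=
      h2.clm_apply (continuous_const.sub continuous_id)
    exact (continuous_const.sub h1).sub h3
  · refine (Metric.isBounded_closedBall (x := (0 : EuclideanSpace ℝ (Fin n)))
      (r := rho2 r C0)).subset ?_
    intro x hx
    rw [mem_closedBall_zero_iff]
    exact h.norm_le_rho2 hr hC0 hx₀ hx

lemma rho2_pos (r C0 : ℝ) : 0 < rho2 r C0 := by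
  unfold rho2
  have : (0:ℝ) < max 1 (((C0 + 2 + 3 * UU r C0 2) / 2) ^ C0) := lt_max_of_lt_left one_pos
  linarith

/-- constants -/
def LamC (n : ℕ) (r C0 : ℝ) : ℝ := 6 ^ n * Real.exp (((n:ℝ) + 2) / 4) * (UU r C0 3) ^ (2 * n)

def lamC (n : ℕ) (r C0 : ℝ) : ℝ :=
  ((4 * ((n:ℝ) + 1) * (rho2 r C0 + 1) ^ 2) ^ n * Real.exp (((n:ℝ) + 2) / (4 * ((n:ℝ) + 1))))⁻¹

lemma LamC_pos (n : ℕ) (r C0 : ℝ) : 0 < LamC n r C0 := by
  unfold LamC
  have := UU_pos r C0 3
  positivity

lemma lamC_pos (n : ℕ) (r C0 : ℝ) : 0 < lamC n r C0 := by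
  unfold lamC
  have := rho2_pos r C0
  positivity

/-- **The normalised section.** -/
theorem nsec (h : Pre n r C0 u) (hr : 0 < r) (hC0 : 0 < C0) (hU : DetUpper n) (hL : DetLower n) :
    NSec n r (lamC n r C0) (LamC n r C0) (UU r C0 3) u where
  sc := h.sc
  zero := h.zero
  dzero := h.dzero
  ball := h.ball
  bdd := h.bdd
  grad := by
    intro x hx
    refine (h.norm_fderiv_le hr hC0.le x).trans (UU_mono hr hC0.le ?_)
    have := h.bdd x hx
    linarith
  det_ge := by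
    intro x hx
    have h1 := hL u h.sc h.pde x (rho2 r C0 + 1) (by have := rho2_pos r C0; linarith)
      (h.isCompact_dual hr hC0 hx) (fun y hy => by
        have e1 := h.norm_le_rho2 hr hC0 hx hy
        have e2 := h.bdd x hx
        have := norm_sub_le y x
        linarith)
    unfold lamC
    have hpos : 0 < (4 * ((n:ℝ) + 1) * (rho2 r C0 + 1) ^ 2) ^ n *
        Real.exp (((n:ℝ) + 2) / (4 * ((n:ℝ) + 1))) := by
      have := rho2_pos r C0
      positivity
    rw [inv_le_iff_one_le_mul₀ hpos, mul_comm]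
    exact h1
  det_le := by
    intro x hx
    have h1 := hU u h.sc h.pde (UU r C0 3) (UU_pos _ _ _) h.isCompact_four (fun y hy => by
      refine (h.norm_fderiv_le hr hC0.le y).trans (UU_mono hr hC0.le ?_)
      have := h.norm_le_two hy
      linarith) x (by linarith)
    have h2 : (1:ℝ) ≤ (4 - u x) ^ n := one_le_pow₀ (by linarith)
    have h3 : 0 < (hessianMat u x).det := (h.sc.posDef x (mem_univ _)).det_pos
    unfold LamC
    nlinarith

end Pre

end Crest.Agent.R236.Sec
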