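import Mathlib
import Crest.Agent.R236.A3_Mg
import Crest.Agent.R236.SecPre
import Crest.Agent.R236.DetBounds
import Crest.Agent.R236.Jcp3
import Crest.Agent.R236.BGeoDefs
import Crest.Agent.R236.P1
import Crest.Agent.R236.BApxDefs
import Crest.Agent.R236.BApxWDefs

-- ▼ part R236/APartA
section

/-! Row 236, Part A: assembly. (helper499) -/

set_option autoImplicit false
open scoped ContDiff Topology
open Set Filter

noncomputable section

namespace Crest.Agent.R236.A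

/-- Part A from the blow-down A4 -/
theorem partA_of_a4 (h4 : A4Stmt) : PartA := by
  classical
  intro n hn hb
  have h1 : HasRec n 1 := a3 n hn hb
  set D := Nat.findGreatest (HasRec n) n with hD
  have hD1 : 1 ≤ D := Nat.le_findGreatest hn h1
  have hDr : HasRec n D := Nat.findGreatest_spec hn h1
  have hDm : ¬ HasRec n (D + 1) := by
    intro h
    have := Nat.le_findGreatest (hasRec_le' h) h
    omega
  obtain ⟨m, R, l, e, c0, C, hdim, cd, hC⟩ := h4 n D hD1 hDr hDm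
  obtain ⟨L, c, hs⟩ := a6 n m D R l e c0 C hdim hD1 hDm cd hC
  exact ⟨m, D, C, R, l, e, c0, L, c, hs⟩

end Crest.Agent.R236.A
end
end

-- ▼ part R236/DetAdapt
section

/-! Row 236: adapters for helper877's determinant bounds (helper202). -/

set_option autoImplicit false
open scoped ContDiff Topology
open Crest.GeometryTopology.CoordMetric Crest.GeometryTopology.AffineMaximal
open Set Filter MeasureTheory

noncomputable section

namespace Crest.Agent.R236.Sec

variable {n : ℕ} {u : EuclideanSpace ℝ (Fin n) → ℝ}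

lemma sum_pderiv_sq_le (x : EuclideanSpace ℝ (Fin n)) {G : ℝ} (hG : ‖fderiv ℝ u x‖ ≤ G) :
    ∑ k, (pderiv k u x) ^ 2 ≤ G ^ 2 := by
  set g : EuclideanSpace ℝ (Fin n) := ∑ k, pderiv k u x • EuclideanSpace.single k (1:ℝ) with hg
  have hgk : ∀ k, g k = pderiv k u x := by
    intro k
    simp [hg, Pi.single_apply]
  have h1 : ‖g‖ ^ 2 = ∑ k, (pderiv k u x) ^ 2 := by
    rw [EuclideanSpace.real_norm_sq_eq]
    exact Finset.sum_congr rfl fun k _ => by rw [hgk]
  have h2 : fderiv ℝ u x g = ‖g‖ ^ 2 := by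
    rw [fderiv_eq_sum, h1]
    refine Finset.sum_congr rfl fun k _ => ?_
    rw [hgk, pow_two]
  have h3 : ‖g‖ ^ 2 ≤ G * ‖g‖ := by
    rw [← h2]
    refine (le_abs_self _).trans (((fderiv ℝ u x).le_opNorm g).trans ?_)
    exact mul_le_mul_of_nonneg_right hG (norm_nonneg _)
  have hG0 : 0 ≤ G := (norm_nonneg _).trans hG
  rw [← h1]
  rcases eq_or_lt_of_le (norm_nonneg g) with h0 | h0
  · rw [← h0]; nlinarith [sq_nonneg G]
  · have : ‖g‖ ≤ G := by
      rw [pow_two] at h3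
      exact le_of_mul_le_mul_right h3 h0
    exact pow_le_pow_left₀ h0.le this 2

theorem detUpper (hn : 2 ≤ n) : DetUpper n := by
  intro u h hp G hG hK hgrad x hx
  have hset : {x | x ∈ (univ : Set (EuclideanSpace ℝ (Fin n))) ∧
      u x ≤ (0 : EuclideanSpace ℝ (Fin n) →L[ℝ] ℝ) x + 4} = {x | u x ≤ 4} := by
    ext x; simp
  have := Det.det_upper hn h hp (0 : EuclideanSpace ℝ (Fin n) →L[ℝ] ℝ) 4 (by rw [hset]; exact hK)
    hG (fun y _ hy => by
      simp only [zero_apply, sub_zero]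
      exact sum_pderiv_sq_le y (hgrad y (by simpa using hy)))
    (mem_univ x) (by simpa using hx)
  simp only [zero_apply, zero_add] at this
  refine this.trans (le_of_eq ?_)
  rw [mul_pow, ← pow_mul]
  ring

end Crest.Agent.R236.Sec
end
end

-- ▼ part R236/DetLower
section

/-!
Row 236, P3: lower determinant bound for affine maximal functions by the maximum principle
(main theorem `det_lower`).
-/

set_option autoImplicit false

open scoped ContDiff Topology Matrix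
open Crest.GeometryTopology.CoordMetric Crest.GeometryTopology.AffineMaximal Filter Matrix

namespace Crest.Agent.R236.Det

open Crest.Agent.R236 Crest.Agent.R236.Jet

variable {n : ℕ} {Ω : Set (EuclideanSpace ℝ (Fin n))} {u : EuclideanSpace ℝ (Fin n) → ℝ}

/-- the function `v x = u x0 - u x - Du(x)(x0 - x)` in coordinates -/
noncomputable def lv (u : EuclideanSpace ℝ (Fin n) → ℝ) (x0 x : EuclideanSpace ℝ (Fin n)) : ℝ :=
  u x0 - u x + ∑ k, (x k - x0 k) * pderiv k u x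

theorem lv_eq (u : EuclideanSpace ℝ (Fin n) → ℝ) (x0 x : EuclideanSpace ℝ (Fin n)) :
    lv u x0 x = u x0 - u x - fderiv ℝ u x (x0 - x) := by
  unfold lv
  rw [Jet.fderiv_eq_sum, sub_eq_add_neg (u x0 - u x), ← Finset.sum_neg_distrib]
  congr 1
  refine Finset.sum_congr rfl fun k _ => ?_
  simp only [PiLp.sub_apply]
  ring

section lower
variable (h : SC Ω u) {x : EuclideanSpace ℝ (Fin n)} (hx : x ∈ Ω) (x0 : EuclideanSpace ℝ (Fin n))

theorem sm_coord (k : Fin n) (x : EuclideanSpace ℝ (Fin n)) :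
    ContDiffAt ℝ ∞ (fun y : EuclideanSpace ℝ (Fin n) => y k - x0 k) x :=
  ((EuclideanSpace.proj k : EuclideanSpace ℝ (Fin n) →L[ℝ] ℝ).contDiff.contDiffAt).sub
    contDiffAt_const

theorem pderiv_coord_sub (k i : Fin n) (x : EuclideanSpace ℝ (Fin n)) :
    pderiv i (fun y : EuclideanSpace ℝ (Fin n) => y k - x0 k) x = if k = i then 1 else 0 := by
  rw [pderiv_sub (f := fun y : EuclideanSpace ℝ (Fin n) => y k) (g := fun _ => x0 k)
    (EuclideanSpace.proj k : EuclideanSpace ℝ (Fin n) →L[ℝ] ℝ).differentiableAt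
    (differentiableAt_const _), pderiv_coord, pderiv_const, sub_zero]

include h hx

theorem sm_lv : ContDiffAt ℝ ∞ (lv u x0) x :=
  (contDiffAt_const.sub (h.contDiffAt hx)).add
    (ContDiffAt.sum fun k _ => (sm_coord x0 k x).mul (sm_pderiv (h.contDiffAt hx) k))

theorem pderiv_lv (i : Fin n) :
    pderiv i (lv u x0) x = ∑ k, (x k - x0 k) * hessianMat u x i k := by
  have hu := h.contDiffAt hx
  have hs : ∀ k, ContDiffAt ℝ ∞ (fun y => (y k - x0 k) * pderiv k u y) x :=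
    fun k => (sm_coord x0 k x).mul (sm_pderiv hu k)
  have hsum : ContDiffAt ℝ ∞ (fun y => ∑ k, (y k - x0 k) * pderiv k u y) x :=
    ContDiffAt.sum fun k _ => hs k
  have e : lv u x0 = fun y => (u x0 - u y) + ∑ k, (y k - x0 k) * pderiv k u y := rfl
  rw [e, pderiv_add (sm_diff (contDiffAt_const.sub hu)) (sm_diff hsum),
    pderiv_sub (f := fun _ => u x0) (differentiableAt_const _) (sm_diff hu), pderiv_const,
    pderiv_sum (fun k _ => sm_diff (hs k))]
  have e1 : ∀ k, pderiv i (fun y => (y k - x0 k) * pderiv k u y) x =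
      (x k - x0 k) * hessianMat u x i k + (if k = i then pderiv k u x else 0) := by
    intro k
    rw [pderiv_mul (sm_diff (sm_coord x0 k x)) (sm_diff (sm_pderiv hu k)),
      pderiv_coord_sub]
    have e2 : pderiv i (fun y => pderiv k u y) x = hessianMat u x i k := rfl
    rw [e2]
    split_ifs <;> ring
  simp only [e1]
  rw [Finset.sum_add_distrib]
  simp

theorem hess_lv (i j : Fin n) :
    hessianMat (lv u x0) x i j = hessianMat u x i j +
      ∑ k, (x k - x0 k) * hessianMat (fun y => pderiv k u y) x i j := by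
  have hu := h.contDiffAt hx
  have e0 : hessianMat (lv u x0) x i j = pderiv i (fun y => pderiv j (lv u x0) y) x := rfl
  have e1 : (fun y => pderiv j (lv u x0) y) =ᶠ[𝓝 x]
      fun y => ∑ k, (y k - x0 k) * hessianMat u y j k := by
    filter_upwards [h.isOpen.mem_nhds hx] with y hy
    exact pderiv_lv h hy x0 j
  have hs : ∀ k, ContDiffAt ℝ ∞ (fun y => (y k - x0 k) * hessianMat u y j k) x :=
    fun k => (sm_coord x0 k x).mul (sm_hess h hx j k)
  rw [e0, pderiv_congr e1, pderiv_sum (fun k _ => sm_diff (hs k))]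
  have e2 : ∀ k, pderiv i (fun y => (y k - x0 k) * hessianMat u y j k) x =
      (x k - x0 k) * hessianMat (fun y => pderiv k u y) x i j +
        (if k = i then hessianMat u x j k else 0) := by
    intro k
    rw [pderiv_mul (sm_diff (sm_coord x0 k x)) (sm_diff (sm_hess h hx j k)), pderiv_coord_sub]
    have e3 : pderiv i (fun y => hessianMat u y j k) x =
      hessianMat (fun y => pderiv k u y) x i j := rfl
    rw [e3]
    split_ifs <;> ring
  simp only [e2]
  rw [Finset.sum_add_distrib]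
  simp only [Finset.sum_ite_eq', Finset.mem_univ, if_true]
  rw [hess_symm hu j i]
  ring

/-- gradient of the lower auxiliary function -/
theorem lower_grad (hh A : ℝ) (hη : 0 < hh - lv u x0 x) (i : Fin n) :
    pderiv i (fun y => (-(1 / ((n : ℝ) + 2))) * ld u y + (Real.log (hh - lv u x0 y) +
      (A / 2) * ∑ k, (y k - x0 k) * (y k - x0 k))) x =
      (-(1 / ((n : ℝ) + 2))) * pderiv i (ld u) x -
        (hh - lv u x0 x)⁻¹ * ∑ k, (x k - x0 k) * hessianMat u x i k + A * (x i - x0 i) := by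
  have hsl : ContDiffAt ℝ ∞ (fun y => hh - lv u x0 y) x :=
    contDiffAt_const.sub (sm_lv h hx x0)
  have hlog : ContDiffAt ℝ ∞ (fun y => Real.log (hh - lv u x0 y)) x := hsl.log hη.ne'
  have hpp : ∀ k, ContDiffAt ℝ ∞ (fun y : EuclideanSpace ℝ (Fin n) =>
      (y k - x0 k) * (y k - x0 k)) x := fun k => (sm_coord x0 k x).mul (sm_coord x0 k x)
  have hsum : ContDiffAt ℝ ∞ (fun y : EuclideanSpace ℝ (Fin n) =>
      ∑ k, (y k - x0 k) * (y k - x0 k)) x := ContDiffAt.sum fun k _ => hpp k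
  rw [pderiv_add (sm_diff (contDiffAt_const.mul (sm_ld h hx)))
    (sm_diff (hlog.add (contDiffAt_const.mul hsum))),
    pderiv_add (sm_diff hlog) (sm_diff (contDiffAt_const.mul hsum)),
    pderiv_cmul (sm_diff (sm_ld h hx)), pderiv_cmul (sm_diff hsum),
    pderiv_log (sm_diff hsl) hη.ne',
    pderiv_sub (f := fun _ => hh) (differentiableAt_const _) (sm_diff (sm_lv h hx x0)),
    pderiv_const, pderiv_lv h hx, pderiv_sum (fun k _ => sm_diff (hpp k))]
  have e1 : ∀ k, pderiv i (fun y : EuclideanSpace ℝ (Fin n) => (y k - x0 k) * (y k - x0 k)) x =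
      if k = i then 2 * (x k - x0 k) else 0 := by
    intro k
    rw [pderiv_mul (sm_diff (sm_coord x0 k x)) (sm_diff (sm_coord x0 k x)), pderiv_coord_sub]
    split_ifs <;> ring
  simp only [e1]
  simp only [Finset.sum_ite_eq', Finset.mem_univ, if_true]
  ring

/-- Hessian of the lower auxiliary function -/
theorem lower_hess (hh A : ℝ) (hη : 0 < hh - lv u x0 x) (i j : Fin n) :
    hessianMat (fun y => (-(1 / ((n : ℝ) + 2))) * ld u y + (Real.log (hh - lv u x0 y) +
      (A / 2) * ∑ k, (y k - x0 k) * (y k - x0 k))) x i j =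
      (-(1 / ((n : ℝ) + 2))) * hessianMat (ld u) x i j -
        ((hh - lv u x0 x)⁻¹ * (hessianMat u x i j +
          ∑ k, (x k - x0 k) * hessianMat (fun y => pderiv k u y) x i j) +
        ((hh - lv u x0 x) ^ 2)⁻¹ * ((∑ k, (x k - x0 k) * hessianMat u x i k) *
          (∑ k, (x k - x0 k) * hessianMat u x j k))) + A * (if j = i then 1 else 0) := by
  have hsl : ContDiffAt ℝ ∞ (fun y => hh - lv u x0 y) x :=
    contDiffAt_const.sub (sm_lv h hx x0)
  have hlog : ContDiffAt ℝ ∞ (fun y => Real.log (hh - lv u x0 y)) x := hsl.log hη.ne'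
  have hpp : ∀ k, ContDiffAt ℝ ∞ (fun y : EuclideanSpace ℝ (Fin n) =>
      (y k - x0 k) * (y k - x0 k)) x := fun k => (sm_coord x0 k x).mul (sm_coord x0 k x)
  have hsum : ContDiffAt ℝ ∞ (fun y : EuclideanSpace ℝ (Fin n) =>
      ∑ k, (y k - x0 k) * (y k - x0 k)) x := ContDiffAt.sum fun k _ => hpp k
  rw [hess_add (contDiffAt_const.mul (sm_ld h hx)) (hlog.add (contDiffAt_const.mul hsum)),
    hess_add hlog (contDiffAt_const.mul hsum),
    hess_cmul (sm_ld h hx), hess_cmul hsum,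
    hess_log hsl hη.ne',
    hess_sub (f := fun _ => hh) contDiffAt_const (sm_lv h hx x0),
    pderiv_sub (f := fun _ => hh) (differentiableAt_const _) (sm_diff (sm_lv h hx x0)),
    pderiv_sub (f := fun _ => hh) (differentiableAt_const _) (sm_diff (sm_lv h hx x0)),
    pderiv_const, pderiv_const, hess_const, pderiv_lv h hx, pderiv_lv h hx, hess_lv h hx,
    hess_sum (fun k _ => hpp k)]
  have e1 : ∀ k, hessianMat (fun y : EuclideanSpace ℝ (Fin n) => (y k - x0 k) * (y k - x0 k)) x i j =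
      if k = i then (if k = j then 2 else 0) else 0 := by
    intro k
    rw [hess_mul (sm_coord x0 k x) (sm_coord x0 k x), pderiv_coord_sub, pderiv_coord_sub]
    have e2 : hessianMat (fun y : EuclideanSpace ℝ (Fin n) => y k - x0 k) x i j = 0 := by
      rw [hess_sub (f := fun y : EuclideanSpace ℝ (Fin n) => y k) (g := fun _ => x0 k)
        ((EuclideanSpace.proj k : EuclideanSpace ℝ (Fin n) →L[ℝ] ℝ).contDiff.contDiffAt)
        contDiffAt_const, hess_const]
      have := hess_lin (EuclideanSpace.proj k : EuclideanSpace ℝ (Fin n) →L[ℝ] ℝ) i j x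
      rw [sub_zero]; exact this
    rw [e2]
    split_ifs <;> ring
  simp only [e1]
  simp only [Finset.sum_ite_eq', Finset.mem_univ, if_true]
  have e3 : (if i = j then (2 : ℝ) else 0) = 2 * (if j = i then 1 else 0) := by
    by_cases hij : i = j
    · simp [hij]
    · simp [hij, Ne.symm hij]
  rw [e3]
  ring

end lower

theorem lower_point (h : SC Ω u) {x : EuclideanSpace ℝ (Fin n)} (hx : x ∈ Ω)
    (hmax : affineMaximalOp n u x = 0) (x0 : EuclideanSpace ℝ (Fin n)) {hh A Γ : ℝ}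
    (hη : 0 < hh - lv u x0 x) (hΓ : 0 < Γ) (hA : A = 1 / (2 * ((n : ℝ) + 1) * Γ ^ 2))
    (hξ : ∑ k, (x k - x0 k) ^ 2 ≤ Γ ^ 2)
    (hloc : IsLocalMax (fun y => (-(1 / ((n : ℝ) + 2))) * ld u y +
      (Real.log (hh - lv u x0 y) + (A / 2) * ∑ k, (y k - x0 k) * (y k - x0 k))) x) :
    (hh - lv u x0 x) * ((hessianMat u x)⁻¹).trace ≤ 4 * (n : ℝ) * ((n : ℝ) + 1) * Γ ^ 2 := by
  have hu := h.contDiffAt hx
  set H := hessianMat u x with hH
  have hHp : H.PosDef := h.posDef x hx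
  set ξ : Fin n → ℝ := fun k => x k - x0 k with hξdef
  set s : Fin n → ℝ := fun k => pderiv k (ld u) x with hsdef
  set η : ℝ := hh - lv u x0 x with hηdef
  have hN2 : (0 : ℝ) < (n : ℝ) + 2 := by positivity
  have hsl : ContDiffAt ℝ ∞ (fun y => hh - lv u x0 y) x :=
    contDiffAt_const.sub (sm_lv h hx x0)
  have hlog : ContDiffAt ℝ ∞ (fun y => Real.log (hh - lv u x0 y)) x := hsl.log hη.ne'
  have hpp : ∀ k, ContDiffAt ℝ ∞ (fun y : EuclideanSpace ℝ (Fin n) =>
      (y k - x0 k) * (y k - x0 k)) x := fun k => (sm_coord x0 k x).mul (sm_coord x0 k x)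
  have hsum : ContDiffAt ℝ ∞ (fun y : EuclideanSpace ℝ (Fin n) =>
      ∑ k, (y k - x0 k) * (y k - x0 k)) x := ContDiffAt.sum fun k _ => hpp k
  have hz : ContDiffAt ℝ ∞ (fun y => (-(1 / ((n : ℝ) + 2))) * ld u y +
      (Real.log (hh - lv u x0 y) + (A / 2) * ∑ k, (y k - x0 k) * (y k - x0 k))) x :=
    (contDiffAt_const.mul (sm_ld h hx)).add (hlog.add (contDiffAt_const.mul hsum))
  have hHξ : ∀ i, ∑ k, (x k - x0 k) * hessianMat u x i k = (H *ᵥ ξ) i := by
    intro i
    simp only [Matrix.mulVec, dotProduct, hH, hξdef]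
    exact Finset.sum_congr rfl fun k _ => mul_comm _ _
  refine lower_alg hHp ξ s hη hΓ hA ?_ ?_ ?_
  · have : ξ ⬝ᵥ ξ = ∑ k, (x k - x0 k) ^ 2 := by
      simp only [dotProduct, hξdef, sq]
    rw [this]; exact hξ
  · funext i
    have h1 := pderiv_eq_zero_of_max hloc i
    rw [lower_grad h hx x0 hh A hη i, hHξ i] at h1
    simp only [Pi.sub_apply, Pi.smul_apply, smul_eq_mul]
    have h3 : s i = pderiv i (ld u) x := rfl
    have h4 : ξ i = x i - x0 i := rfl
    rw [← h3, ← h4, ← hηdef] at h1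
    have h5 : s i = ((n : ℝ) + 2) * (1 / ((n : ℝ) + 2) * s i) := by
      field_simp
    rw [h5]
    congr 1
    rw [one_div η]
    linarith
  · have h1 := trace_hess_nonpos hz hloc hHp.inv.posSemidef
    have h2 : ∀ i j, H⁻¹ i j * hessianMat (fun y => (-(1 / ((n : ℝ) + 2))) * ld u y +
      (Real.log (hh - lv u x0 y) + (A / 2) * ∑ k, (y k - x0 k) * (y k - x0 k))) x i j =
        (-(1 / ((n : ℝ) + 2))) * (H⁻¹ i j * hessianMat (ld u) x i j) -
        (η⁻¹ * (H⁻¹ i j * H i j +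
          ∑ k, ξ k * (H⁻¹ i j * hessianMat (fun y => pderiv k u y) x i j)) +
        (η ^ 2)⁻¹ * (H⁻¹ i j * ((H *ᵥ ξ) i * (H *ᵥ ξ) j))) +
          A * (if j = i then H⁻¹ i j else 0) := by
      intro i j
      rw [lower_hess h hx x0 hh A hη i j, hHξ, hHξ]
      have e1 : ∑ k, ξ k * (H⁻¹ i j * hessianMat (fun y => pderiv k u y) x i j) =
          H⁻¹ i j * ∑ k, ξ k * hessianMat (fun y => pderiv k u y) x i j := by
        rw [Finset.mul_sum]
        refine Finset.sum_congr rfl fun k _ => by ring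
      rw [e1]
      have e2 : ∑ k, (x k - x0 k) * hessianMat (fun y => pderiv k u y) x i j =
        ∑ k, ξ k * hessianMat (fun y => pderiv k u y) x i j := rfl
      rw [e2, ← hηdef, ← hH]
      split_ifs <;> ring
    simp only [h2] at h1
    have h3 : ∑ i, ∑ j, ((-(1 / ((n : ℝ) + 2))) * (H⁻¹ i j * hessianMat (ld u) x i j) -
        (η⁻¹ * (H⁻¹ i j * H i j +
          ∑ k, ξ k * (H⁻¹ i j * hessianMat (fun y => pderiv k u y) x i j)) +
        (η ^ 2)⁻¹ * (H⁻¹ i j * ((H *ᵥ ξ) i * (H *ᵥ ξ) j))) +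
          A * (if j = i then H⁻¹ i j else 0)) =
        (-(1 / ((n : ℝ) + 2))) * (∑ i, ∑ j, H⁻¹ i j * hessianMat (ld u) x i j) -
        (η⁻¹ * ((∑ i, ∑ j, H⁻¹ i j * H i j) +
          ∑ k, ξ k * (∑ i, ∑ j, H⁻¹ i j * hessianMat (fun y => pderiv k u y) x i j)) +
        (η ^ 2)⁻¹ * (∑ i, ∑ j, H⁻¹ i j * ((H *ᵥ ξ) i * (H *ᵥ ξ) j))) + A * (H⁻¹).trace := by
      simp only [Finset.sum_add_distrib, Finset.sum_sub_distrib, ← Finset.mul_sum]
      have e4 : ∑ i, ∑ j, (if j = i then H⁻¹ i j else 0) = (H⁻¹).trace := by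
        simp [Matrix.trace]
      have e2 : ∑ i, ∑ j, ∑ k, ξ k * (H⁻¹ i j * hessianMat (fun y => pderiv k u y) x i j) =
          ∑ k, ξ k * ∑ i, ∑ j, H⁻¹ i j * hessianMat (fun y => pderiv k u y) x i j := by
        rw [sum3]
        refine Finset.sum_congr rfl fun k _ => ?_
        simp only [Finset.mul_sum]
      rw [e4, e2]
    rw [h3, pde h hx hmax, sum_inv_mul hHp] at h1
    have h4 : ∑ k, ξ k * (∑ i, ∑ j, H⁻¹ i j * hessianMat (fun y => pderiv k u y) x i j) =
        ξ ⬝ᵥ s := by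
      rw [dotProduct]
      refine Finset.sum_congr rfl fun k _ => ?_
      rw [← pderiv_ld h hx]
    have h5 : ∑ i, ∑ j, (hessianMat u x)⁻¹ i j * (pderiv i (ld u) x * pderiv j (ld u) x) =
        s ⬝ᵥ (H⁻¹ *ᵥ s) := sum_eq_dot H⁻¹ s s
    have h6 : ∑ i, ∑ j, H⁻¹ i j * ((H *ᵥ ξ) i * (H *ᵥ ξ) j) = ξ ⬝ᵥ (H *ᵥ ξ) := by
      rw [sum_eq_dot H⁻¹ (H *ᵥ ξ) (H *ᵥ ξ), inv_mulVec hHp, dot_symm (transpose_of_posDef hHp)]
    rw [h4, h5, h6] at h1
    refine le_trans (le_of_eq ?_) h1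
    field_simp
    ring

/-- **Lower determinant bound.** With `v x = u x0 - u x - Du(x)(x0 - x)`; if the points of the
compact set `{v ≤ h}` are within `Γ` of `x0` then
`(h - v)^{n+2} ≤ (4(n+1)Γ²)^n e^{(n+2)/(4(n+1))} h² det D²u`. -/
theorem det_lower (hn : 1 ≤ n) (h : SC Ω u) (hpde : ∀ x ∈ Ω, affineMaximalOp n u x = 0)
    {x0 : EuclideanSpace ℝ (Fin n)} (hx0 : x0 ∈ Ω) {hh : ℝ}
    (hK : IsCompact {x | x ∈ Ω ∧ u x0 - u x - fderiv ℝ u x (x0 - x) ≤ hh}) {Γ : ℝ} (hΓ : 0 < Γ)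
    (hball : ∀ x ∈ Ω, u x0 - u x - fderiv ℝ u x (x0 - x) ≤ hh → ‖x - x0‖ ≤ Γ)
    {x : EuclideanSpace ℝ (Fin n)} (hx : x ∈ Ω)
    (hxl : u x0 - u x - fderiv ℝ u x (x0 - x) ≤ hh) :
    (hh - (u x0 - u x - fderiv ℝ u x (x0 - x))) ^ (n + 2) ≤
      (4 * ((n : ℝ) + 1) * Γ ^ 2) ^ n * Real.exp (((n : ℝ) + 2) / (4 * ((n : ℝ) + 1))) *
        hh ^ 2 * (hessianMat u x).det := by
  simp only [← lv_eq] at hK hball hxl ⊢
  set A : ℝ := 1 / (2 * ((n : ℝ) + 1) * Γ ^ 2) with hA
  have hApos : 0 < A := by rw [hA]; positivity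
  have hN2 : (0 : ℝ) < (n : ℝ) + 2 := by positivity
  set P : EuclideanSpace ℝ (Fin n) → ℝ := fun y => ∑ k, (y k - x0 k) * (y k - x0 k) with hP
  have hPnorm : ∀ y, P y = ‖y - x0‖ ^ 2 := by
    intro y
    rw [EuclideanSpace.real_norm_sq_eq]
    simp only [hP, sq, PiLp.sub_apply]
  have hlv0 : ∀ y ∈ Ω, 0 ≤ lv u x0 y := by
    intro y hy
    rw [lv_eq]
    have := h.tangent_le hy hx0
    linarith
  set F : EuclideanSpace ℝ (Fin n) → ℝ := fun y =>
    ((hessianMat u y).det)⁻¹ * (hh - lv u x0 y) ^ (n + 2) *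
      Real.exp (((n : ℝ) + 2) * ((A / 2) * P y)) with hF
  have hPnn : ∀ y, 0 ≤ P y := fun y => Finset.sum_nonneg fun k _ => mul_self_nonneg _
  have hcP : ∀ y, ContinuousAt P y := fun y =>
    (ContDiffAt.sum fun k _ => (sm_coord x0 k y).mul (sm_coord x0 k y)).continuousAt
  have hcF : ContinuousOn F {x | x ∈ Ω ∧ lv u x0 x ≤ hh} := by
    intro y hy
    apply ContinuousAt.continuousWithinAt
    have h1 : ContinuousAt (fun y => ((hessianMat u y).det)⁻¹) y :=
      (sm_det h hy.1).continuousAt.inv₀ (det_pos h hy.1).ne'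
    have h2 : ContinuousAt (fun y => hh - lv u x0 y) y :=
      continuousAt_const.sub (sm_lv h hy.1 x0).continuousAt
    have h3 : ContinuousAt (fun y => Real.exp (((n : ℝ) + 2) * ((A / 2) * P y))) y :=
      (Real.continuous_exp.continuousAt).comp
        (continuousAt_const.mul (continuousAt_const.mul (hcP y)))
    exact (h1.mul (h2.pow (n + 2))).mul h3
  obtain ⟨x1, hx1, hmax⟩ := hK.exists_isMaxOn ⟨x, hx, hxl⟩ hcF
  have hFx : F x ≤ F x1 := hmax ⟨hx, hxl⟩
  have hdet : 0 < (hessianMat u x).det := det_pos h hx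
  have hηx : 0 ≤ hh - lv u x0 x := by linarith
  have hlow : ((hessianMat u x).det)⁻¹ * (hh - lv u x0 x) ^ (n + 2) ≤ F x := by
    have h1 : 1 ≤ Real.exp (((n : ℝ) + 2) * ((A / 2) * P x)) :=
      Real.one_le_exp (mul_nonneg hN2.le (mul_nonneg (by positivity) (hPnn x)))
    have h2 : 0 ≤ ((hessianMat u x).det)⁻¹ * (hh - lv u x0 x) ^ (n + 2) := by positivity
    exact le_mul_of_one_le_right h2 h1
  suffices hs : F x1 ≤ (4 * ((n : ℝ) + 1) * Γ ^ 2) ^ n *
      Real.exp (((n : ℝ) + 2) / (4 * ((n : ℝ) + 1))) * hh ^ 2 by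
    have h1 := hlow.trans (hFx.trans hs)
    rw [inv_mul_le_iff₀ hdet] at h1
    linarith
  have hη1 : 0 ≤ hh - lv u x0 x1 := by linarith [hx1.2]
  rcases hη1.eq_or_lt with h0 | hpos
  · have : F x1 = 0 := by
      simp only [hF]
      rw [← h0, zero_pow (by omega)]; ring
    rw [this]; positivity
  -- local maximum of the logarithm
  have hloc : IsLocalMax (fun y => (-(1 / ((n : ℝ) + 2))) * ld u y +
      (Real.log (hh - lv u x0 y) + (A / 2) * ∑ k, (y k - x0 k) * (y k - x0 k))) x1 := by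
    have hcη : ContinuousAt (fun y => hh - lv u x0 y) x1 :=
      continuousAt_const.sub (sm_lv h hx1.1 x0).continuousAt
    have hev : ∀ᶠ y in 𝓝 x1, 0 < hh - lv u x0 y := hcη.eventually (lt_mem_nhds hpos)
    have key : ∀ y ∈ Ω, 0 < hh - lv u x0 y →
        (-(1 / ((n : ℝ) + 2))) * ld u y + (Real.log (hh - lv u x0 y) + (A / 2) * P y) =
          (1 / ((n : ℝ) + 2)) * Real.log (F y) := by
      intro y hy hy0
      simp only [hF]
      have hd := det_pos h hy
      rw [Real.log_mul (mul_pos (inv_pos.2 hd) (pow_pos hy0 _)).ne' (Real.exp_pos _).ne',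
        Real.log_mul (inv_pos.2 hd).ne' (pow_pos hy0 _).ne', Real.log_pow, Real.log_exp,
        Real.log_inv]
      unfold ld
      push_cast
      field_simp
      ring
    filter_upwards [hev, h.isOpen.mem_nhds hx1.1] with y hy0 hy
    have h1 := key y hy hy0
    have h2 := key x1 hx1.1 hpos
    simp only [hP] at h1 h2
    rw [h1, h2]
    have hFy : 0 < F y := by
      simp only [hF]
      have hd := det_pos h hy
      positivity
    exact mul_le_mul_of_nonneg_left (Real.log_le_log hFy (hmax ⟨hy, by linarith⟩)) (by positivity)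
  have hPx1 : P x1 ≤ Γ ^ 2 := by
    rw [hPnorm]
    exact pow_le_pow_left₀ (norm_nonneg _) (hball x1 hx1.1 hx1.2) 2
  have hξ1 : ∑ k, (x1 k - x0 k) ^ 2 ≤ Γ ^ 2 := by
    refine le_trans (le_of_eq ?_) hPx1
    simp only [hP, sq]
  have hpt := lower_point h hx1.1 (hpde x1 hx1.1) x0 hpos hΓ hA hξ1 hloc
  have hHp := h.posDef x1 hx1.1
  have hT0 : 0 ≤ ((hessianMat u x1)⁻¹).trace := hHp.inv.posSemidef.trace_nonneg
  have hdt : ((hessianMat u x1)⁻¹).det ≤ (((hessianMat u x1)⁻¹).trace / n) ^ n :=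
    det_le_trace_pow hHp.inv.posSemidef (by omega)
  have hnR : (0 : ℝ) < n := by exact_mod_cast (by omega : 0 < n)
  have hdi : ((hessianMat u x1)⁻¹).det = ((hessianMat u x1).det)⁻¹ := by
    rw [Matrix.det_nonsing_inv, Ring.inverse_eq_inv']
  have e1 : ((hessianMat u x1).det)⁻¹ * (hh - lv u x0 x1) ^ n ≤
      (4 * ((n : ℝ) + 1) * Γ ^ 2) ^ n := by
    rw [← hdi]
    calc ((hessianMat u x1)⁻¹).det * (hh - lv u x0 x1) ^ n
        ≤ (((hessianMat u x1)⁻¹).trace / n) ^ n * (hh - lv u x0 x1) ^ n :=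
          mul_le_mul_of_nonneg_right hdt (by positivity)
      _ = (((hh - lv u x0 x1) * ((hessianMat u x1)⁻¹).trace) / n) ^ n := by
          rw [← mul_pow]; congr 1; ring
      _ ≤ (4 * ((n : ℝ) + 1) * Γ ^ 2) ^ n := by
          apply pow_le_pow_left₀ (by positivity)
          rw [div_le_iff₀ hnR]
          refine hpt.trans (le_of_eq (by ring))
  have e2 : Real.exp (((n : ℝ) + 2) * ((A / 2) * P x1)) ≤
      Real.exp (((n : ℝ) + 2) / (4 * ((n : ℝ) + 1))) := by
    apply Real.exp_le_exp.2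
    calc ((n : ℝ) + 2) * ((A / 2) * P x1) ≤ ((n : ℝ) + 2) * ((A / 2) * Γ ^ 2) :=
          mul_le_mul_of_nonneg_left (mul_le_mul_of_nonneg_left hPx1 (by positivity)) hN2.le
      _ = ((n : ℝ) + 2) / (4 * ((n : ℝ) + 1)) := by rw [hA]; field_simp; ring
  have e3 : (hh - lv u x0 x1) ^ 2 ≤ hh ^ 2 :=
    pow_le_pow_left₀ hη1 (by linarith [hlv0 x1 hx1.1]) 2
  calc F x1 = (((hessianMat u x1).det)⁻¹ * (hh - lv u x0 x1) ^ n) *
        Real.exp (((n : ℝ) + 2) * ((A / 2) * P x1)) * (hh - lv u x0 x1) ^ 2 := by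
        simp only [hF]; rw [pow_add]; ring
    _ ≤ (4 * ((n : ℝ) + 1) * Γ ^ 2) ^ n *
        Real.exp (((n : ℝ) + 2) / (4 * ((n : ℝ) + 1))) * hh ^ 2 := by
        apply mul_le_mul _ e3 (by positivity) (by positivity)
        exact mul_le_mul e1 e2 (Real.exp_pos _).le (by positivity)

/-- the lower bound at the base point: `h^n ≤ C det D²u(x0)`. -/
theorem det_lower_base (hn : 1 ≤ n) (h : SC Ω u) (hpde : ∀ x ∈ Ω, affineMaximalOp n u x = 0)
    {x0 : EuclideanSpace ℝ (Fin n)} (hx0 : x0 ∈ Ω) {hh : ℝ} (hh0 : 0 < hh)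
    (hK : IsCompact {x | x ∈ Ω ∧ u x0 - u x - fderiv ℝ u x (x0 - x) ≤ hh}) {Γ : ℝ} (hΓ : 0 < Γ)
    (hball : ∀ x ∈ Ω, u x0 - u x - fderiv ℝ u x (x0 - x) ≤ hh → ‖x - x0‖ ≤ Γ) :
    hh ^ n ≤ (4 * ((n : ℝ) + 1) * Γ ^ 2) ^ n * Real.exp (((n : ℝ) + 2) / (4 * ((n : ℝ) + 1))) *
        (hessianMat u x0).det := by
  have h1 := det_lower hn h hpde hx0 hK hΓ hball hx0 (by simpa using hh0.le)
  simp only [sub_self, map_zero, sub_zero] at h1
  have h2 : hh ^ 2 * hh ^ n ≤ hh ^ 2 * ((4 * ((n : ℝ) + 1) * Γ ^ 2) ^ n *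
      Real.exp (((n : ℝ) + 2) / (4 * ((n : ℝ) + 1))) * (hessianMat u x0).det) := by
    refine le_trans (le_of_eq ?_) (h1.trans (le_of_eq ?_))
    · rw [← pow_add, add_comm]
    · ring
  exact le_of_mul_le_mul_left h2 (by positivity)


end Crest.Agent.R236.Det
end

-- ▼ part R236/Jcp5
section

/-!
# Row 236, JCP (helper633), part 5: the cubic estimate from its value at the maximum point, and the
Jörgens–Calabi–Pogorelov theorem for complete sections.
-/

set_option autoImplicit false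
set_option synthInstance.maxHeartbeats 400000
set_option synthInstance.maxSize 2000
set_option maxSynthPendingDepth 6
set_option maxHeartbeats 1000000

open Filter Topology Set
open scoped Matrix ContDiff
open Crest.GeometryTopology.CoordMetric Crest.GeometryTopology.AffineMaximal

noncomputable section

namespace Crest.Agent.R236.Jcp

/-- the cubic estimate at the maximum point (proved in `Jcp4`) -/
def CubicCore (n : ℕ) : Prop :=
  ∀ (Ω : Set (EuclideanSpace ℝ (Fin n))) (u : EuclideanSpace ℝ (Fin n) → ℝ), SC Ω u →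
    ∀ c : ℝ, (∀ x ∈ Ω, (hessianMat u x).det = c) →
    ∀ x ∈ Ω, ∀ (l : EuclideanSpace ℝ (Fin n) →L[ℝ] ℝ) (κ G : ℝ), 0 < κ + l x - u x →
    ∀ e, F2 u x e e = 1 → 0 < F3 u x e e e →
    (∀ f, (F1 u x f - l f) ^ 2 ≤ G * F2 u x f f) →
    (∀ y ∈ Ω, 0 ≤ κ + l y - u y → ∀ f, (F3 u y f f f) ^ 2 * (κ + l y - u y) ^ 2 ≤
      (F3 u x e e e) ^ 2 * (κ + l x - u x) ^ 2 * (F2 u y f f) ^ 3) →
    (F3 u x e e e) ^ 2 * (κ + l x - u x) ^ 2 ≤ 8 * G + 4 * n * (κ + l x - u x)

variable {n : ℕ} {Ω : Set (EuclideanSpace ℝ (Fin n))} {u : EuclideanSpace ℝ (Fin n) → ℝ}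

/-- **cubic estimate** -/
theorem cubic_est_of (hcore : CubicCore n) (h : SC Ω u) {c : ℝ}
    (hdet : ∀ x ∈ Ω, (hessianMat u x).det = c)
    {x0 : EuclideanSpace ℝ (Fin n)} (hx0 : x0 ∈ Ω) {T G : ℝ} (hT : 0 < T) (hG : 0 ≤ G)
    (hcpt : IsCompact {x | x ∈ Ω ∧ u x ≤ u x0 + fderiv ℝ u x0 (x - x0) + T})
    (hgrad : ∀ x ∈ Ω, u x ≤ u x0 + fderiv ℝ u x0 (x - x0) + T → ∀ e,
      (F1 u x e - F1 u x0 e) ^ 2 ≤ G * F2 u x e e) (e : EuclideanSpace ℝ (Fin n)) :
    (F3 u x0 e e e) ^ 2 * T ^ 2 ≤ (8 * G + 4 * n * T) * (F2 u x0 e e) ^ 3 := by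
  have hs := sm_of h
  rcases eq_or_ne e 0 with rfl | he0
  · simp
  set l := F1 u x0 with hl
  set κ := T + u x0 - l x0 with hκ
  have hηeq : ∀ y, u x0 + fderiv ℝ u x0 (y - x0) + T - u y = κ + l y - u y := by
    intro y
    have : fderiv ℝ u x0 (y - x0) = l y - l x0 := by rw [hl]; exact map_sub _ _ _
    rw [this]; ring
  set S := {x | x ∈ Ω ∧ u x ≤ u x0 + fderiv ℝ u x0 (x - x0) + T} with hS
  have hmem : ∀ y, y ∈ S ↔ y ∈ Ω ∧ 0 ≤ κ + l y - u y := by
    intro y
    rw [← hηeq]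
    simp only [hS, mem_ofPred_eq]
    constructor
    · rintro ⟨a, b⟩; exact ⟨a, by linarith⟩
    · rintro ⟨a, b⟩; exact ⟨a, by linarith⟩
  have hηT : ∀ y ∈ Ω, κ + l y - u y ≤ T := by
    intro y hy
    have := h.tangent_le hx0 hy
    rw [← hηeq]
    linarith
  have hx0S : x0 ∈ S := ⟨hx0, by simp [hT.le]⟩
  have hηx0 : κ + l x0 - u x0 = T := by rw [hκ]; ring
  have hc0 : ContinuousOn u Ω := h.continuousOn
  have hc3 : ContinuousOn (F3 u) Ω := fun y hy => (hs.c3 hy).continuousAt.continuousWithinAt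
  have hc2 : ContinuousOn (F2 u) Ω := fun y hy => (hs.c2 hy).continuousAt.continuousWithinAt
  have hSΩ : ∀ p ∈ S ×ˢ (Set.univ : Set (EuclideanSpace ℝ (Fin n))), p.1 ∈ Ω :=
    fun p hp => hp.1.1
  have a2 : ContinuousOn (fun p : EuclideanSpace ℝ (Fin n) × EuclideanSpace ℝ (Fin n) =>
      p.2) (S ×ˢ Set.univ) := continuous_snd.continuousOn
  have hN : ContinuousOn (fun p : EuclideanSpace ℝ (Fin n) × EuclideanSpace ℝ (Fin n) =>
      (F3 u p.1 p.2 p.2 p.2) ^ 2 * (κ + l p.1 - u p.1) ^ 2) (S ×ˢ Set.univ) := by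
    have a1 : ContinuousOn (fun p : EuclideanSpace ℝ (Fin n) × EuclideanSpace ℝ (Fin n) =>
        F3 u p.1) (S ×ˢ Set.univ) := hc3.comp continuous_fst.continuousOn hSΩ
    have a0 : ContinuousOn (fun p : EuclideanSpace ℝ (Fin n) × EuclideanSpace ℝ (Fin n) =>
        u p.1) (S ×ˢ Set.univ) := hc0.comp continuous_fst.continuousOn hSΩ
    have b2 : Continuous (fun p : EuclideanSpace ℝ (Fin n) × EuclideanSpace ℝ (Fin n) =>
        κ + l p.1) := continuous_const.add (l.continuous.comp continuous_fst)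
    exact ((((a1.clm_apply a2).clm_apply a2).clm_apply a2).pow 2).mul
      ((b2.continuousOn.sub a0).pow 2)
  have hD : ContinuousOn (fun p : EuclideanSpace ℝ (Fin n) × EuclideanSpace ℝ (Fin n) =>
      (F2 u p.1 p.2 p.2) ^ 3) (S ×ˢ Set.univ) := by
    have a1 : ContinuousOn (fun p : EuclideanSpace ℝ (Fin n) × EuclideanSpace ℝ (Fin n) =>
        F2 u p.1) (S ×ˢ Set.univ) := hc2.comp continuous_fst.continuousOn hSΩ
    exact ((a1.clm_apply a2).clm_apply a2).pow 3
  obtain ⟨xm, hxm, em, hem, hmax⟩ := exists_max hcpt hx0S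
    (fun y f => (F3 u y f f f) ^ 2 * (κ + l y - u y) ^ 2) (fun y f => (F2 u y f f) ^ 3) 6 hN hD
    (fun y hy f hf => by have := F2_pos h hy.1 hf; positivity)
    (fun y t f => by simp only [map_smul, smul_apply, smul_eq_mul]; ring)
    (fun y t f => by simp only [map_smul, smul_apply, smul_eq_mul]; ring) he0
  have hHm : 0 < F2 u xm em em := F2_pos h hxm.1 hem
  have hηm := ((hmem xm).1 hxm).2
  have hkey := hmax x0 hx0S e he0
  rw [hηx0] at hkey
  have hFe : 0 < F2 u x0 e e := F2_pos h hx0 he0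
  have hn0 : (0 : ℝ) ≤ n := Nat.cast_nonneg n
  by_cases hz : (F3 u xm em em em) ^ 2 * (κ + l xm - u xm) ^ 2 = 0
  · rw [hz, zero_mul] at hkey
    have : (F3 u x0 e e e) ^ 2 * T ^ 2 ≤ 0 := nonpos_of_mul_nonpos_left hkey (by positivity)
    refine this.trans ?_
    positivity
  · have hηm' : 0 < κ + l xm - u xm := by
      rcases hηm.eq_or_lt with h0 | h0
      · exfalso; apply hz; rw [← h0]; simp
      · exact h0
    have hCm : F3 u xm em em em ≠ 0 := by
      intro h0; apply hz; rw [h0]; simp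
    -- normalise the direction
    set r := Real.sqrt (F2 u xm em em) with hr
    have hr0 : 0 < r := Real.sqrt_pos.2 hHm
    have hr2 : r ^ 2 = F2 u xm em em := Real.sq_sqrt hHm.le
    obtain ⟨σ, hσ, hσC⟩ : ∃ σ : ℝ, σ ^ 2 = 1 ∧ 0 < σ * F3 u xm em em em := by
      rcases lt_or_gt_of_ne hCm with h0 | h0
      · exact ⟨-1, by norm_num, by linarith⟩
      · exact ⟨1, by norm_num, by linarith⟩
    set k := σ * r⁻¹ with hk
    have hk2 : k ^ 2 * r ^ 2 = 1 := by
      rw [hk, mul_pow, hσ]; field_simp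
    set e1 := k • em with he1
    have hH1 : F2 u xm e1 e1 = 1 := by
      simp only [he1, map_smul, smul_apply, smul_eq_mul]
      rw [← hr2, ← hk2]; ring
    have hC1 : F3 u xm e1 e1 e1 = k ^ 3 * F3 u xm em em em := by
      simp only [he1, map_smul, smul_apply, smul_eq_mul]; ring
    have hC1pos : 0 < F3 u xm e1 e1 e1 := by
      rw [hC1]
      have : k ^ 3 * F3 u xm em em em = (σ ^ 2 * (r⁻¹) ^ 3) * (σ * F3 u xm em em em) := by
        rw [hk]; ring
      rw [this, hσ, one_mul]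
      positivity
    have hmax1 : ∀ y ∈ Ω, 0 ≤ κ + l y - u y → ∀ f,
        (F3 u y f f f) ^ 2 * (κ + l y - u y) ^ 2 ≤
        (F3 u xm e1 e1 e1) ^ 2 * (κ + l xm - u xm) ^ 2 * (F2 u y f f) ^ 3 := by
      intro y hy hy0 f
      rcases eq_or_ne f 0 with rfl | hf
      · simp
      have k1 := hmax y ((hmem y).2 ⟨hy, hy0⟩) f hf
      rw [← hr2] at k1
      rw [hC1]
      have k2 : (k ^ 3) ^ 2 * ((F3 u y f f f) ^ 2 * (κ + l y - u y) ^ 2 * (r ^ 2) ^ 3) ≤
          (k ^ 3) ^ 2 * ((F3 u xm em em em) ^ 2 * (κ + l xm - u xm) ^ 2 * (F2 u y f f) ^ 3) :=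
        mul_le_mul_of_nonneg_left k1 (by positivity)
      have k3 : (k ^ 3) ^ 2 * ((F3 u y f f f) ^ 2 * (κ + l y - u y) ^ 2 * (r ^ 2) ^ 3) =
          (k ^ 2 * r ^ 2) ^ 3 * ((F3 u y f f f) ^ 2 * (κ + l y - u y) ^ 2) := by ring
      rw [k3, hk2, one_pow, one_mul] at k2
      refine k2.trans (le_of_eq ?_)
      ring
    have hc := hcore Ω u h c hdet xm hxm.1 l κ G hηm' e1 hH1 hC1pos
      (fun f => hgrad xm hxm.1 hxm.2 f) hmax1
    have hfin := hmax1 x0 hx0 (by rw [hηx0]; exact hT.le) e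
    rw [hηx0] at hfin
    refine hfin.trans (mul_le_mul_of_nonneg_right ?_ (by positivity))
    refine hc.trans ?_
    have := mul_le_mul_of_nonneg_left (hηT xm hxm.1) (show (0 : ℝ) ≤ 4 * n by positivity)
    linarith

/-- the third derivative vanishes -/
theorem cubic_zero_of (hcore : CubicCore n) (h : SC Ω u) {c : ℝ}
    (hdet : ∀ x ∈ Ω, (hessianMat u x).det = c)
    (hsec : ∀ x₀ ∈ Ω, ∀ t : ℝ, IsCompact {x | x ∈ Ω ∧ u x ≤ u x₀ + fderiv ℝ u x₀ (x - x₀) + t})
    {x0 : EuclideanSpace ℝ (Fin n)} (hx0 : x0 ∈ Ω) (e : EuclideanSpace ℝ (Fin n)) :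
    F3 u x0 e e e = 0 := by
  have hn0 : (0 : ℝ) ≤ n := Nat.cast_nonneg n
  rcases eq_or_ne e 0 with rfl | he0
  · simp
  have hFe : 0 < F2 u x0 e e := F2_pos h hx0 he0
  -- gradient bound on the section of height `T`
  have hgrad : ∀ T : ℝ, 0 < T → ∀ x ∈ Ω, u x ≤ u x0 + fderiv ℝ u x0 (x - x0) + T → ∀ f,
      (F1 u x f - F1 u x0 f) ^ 2 ≤ (n * (n + 3) / 2 * 2 ^ (n + 2) * T) * F2 u x f f := by
    intro T hT x hx hxT f
    have h1 := grad_est h hdet hx0 (T := 2 * T) (by linarith) (hsec x0 hx0 _) hx (by linarith) f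
    have h2 : T ^ (n + 1) ≤ (u x0 + fderiv ℝ u x0 (x - x0) + 2 * T - u x) ^ (n + 1) :=
      pow_le_pow_left₀ hT.le (by linarith) _
    have h3 : (F1 u x f - F1 u x0 f) ^ 2 * T ^ (n + 1) ≤
        n * (n + 3) / 2 * (2 * T) ^ (n + 2) * F2 u x f f :=
      (mul_le_mul_of_nonneg_left h2 (sq_nonneg _)).trans h1
    have h4 : n * (n + 3) / 2 * (2 * T) ^ (n + 2) * F2 u x f f =
        (n * (n + 3) / 2 * 2 ^ (n + 2) * T) * F2 u x f f * T ^ (n + 1) := by
      rw [mul_pow]; ring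
    rw [h4] at h3
    exact le_of_mul_le_mul_right h3 (by positivity)
  set K : ℝ := (8 * (n * (n + 3) / 2 * 2 ^ (n + 2)) + 4 * n) * (F2 u x0 e e) ^ 3 with hK
  have hK0 : 0 ≤ K := by positivity
  have hall : ∀ T : ℝ, 0 < T → (F3 u x0 e e e) ^ 2 * T ≤ K := by
    intro T hT
    have h1 := cubic_est_of hcore h hdet hx0 hT
      (G := n * (n + 3) / 2 * 2 ^ (n + 2) * T) (by positivity) (hsec x0 hx0 _)
      (hgrad T hT) e
    have h2 : (8 * (n * (n + 3) / 2 * 2 ^ (n + 2) * T) + 4 * n * T) * (F2 u x0 e e) ^ 3 =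
        K * T := by rw [hK]; ring
    rw [h2] at h1
    have h3 : (F3 u x0 e e e) ^ 2 * T * T ≤ K * T := by
      refine le_trans (le_of_eq ?_) h1
      ring
    exact le_of_mul_le_mul_right h3 hT
  by_contra hne
  have hpos : 0 < (F3 u x0 e e e) ^ 2 := by positivity
  have h1 := hall ((K + 1) / (F3 u x0 e e e) ^ 2) (by positivity)
  rw [mul_div_cancel₀ _ hpos.ne'] at h1
  linarith

/-- **Jörgens–Calabi–Pogorelov** -/
theorem jcp_of (hcore : CubicCore n) (h : SC Ω u) (hne : Ω.Nonempty) {c : ℝ}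
    (hdet : ∀ x ∈ Ω, (hessianMat u x).det = c)
    (hsec : ∀ x₀ ∈ Ω, ∀ t : ℝ, IsCompact {x | x ∈ Ω ∧ u x ≤ u x₀ + fderiv ℝ u x₀ (x - x₀) + t}) :
    Ω = Set.univ ∧
      ∃ (A : Matrix (Fin n) (Fin n) ℝ) (b : EuclideanSpace ℝ (Fin n)) (c : ℝ), A.PosDef ∧
        ∀ x, u x = (1 / 2) * (∑ i, ∑ j, A i j * x i * x j) + (∑ i, b i * x i) + c :=
  of_cubic_zero h hne hsec fun _ hx e => cubic_zero_of hcore h hdet hsec hx e

end Crest.Agent.R236.Jcp
end
end

-- ▼ part R236/BGeo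
section

/-! Row 236, Part B, B0: geometry of the limit `C` at every scale: proof of `GeoStmt`. (helper247) -/

set_option autoImplicit false
open scoped ContDiff Topology
open Set Filter

noncomputable section

namespace Crest.Agent.R236.B

open Crest.Agent.R236.A (EE epi SOL STRUCT IsStruct ConeData Appr)

/-- the scaling map -/
def scl {m D : ℕ} (B : EE m ≃L[ℝ] EE m) (lam tau : ℝ) : WW m D →ₗ[ℝ] WW m D where
  toFun X := (B X.1, (1 / tau) • X.2.1, (1 / lam) * X.2.2)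
  map_add' X Y := by
    simp [mul_add]
  map_smul' r X := by
    ext
    · simp
    · simp only [Prod.smul_fst, Prod.smul_snd, RingHom.id_apply, PiLp.smul_apply, smul_eq_mul]
      ring
    · simp only [Prod.smul_snd, RingHom.id_apply, smul_eq_mul]
      ring

/-- the scaled norm -/
def nrm {m D : ℕ} (B : EE m ≃L[ℝ] EE m) (lam tau : ℝ) : Seminorm ℝ (WW m D) :=
  (normSeminorm ℝ (WW m D)).comp (scl B lam tau)

lemma nrm_le_iff {m D : ℕ} (B : EE m ≃L[ℝ] EE m) {lam tau : ℝ} (hl : 0 < lam) (ht : 0 < tau)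
    (v : WW m D) (k : ℝ) :
    nrm B lam tau v ≤ k ↔ ‖B v.1‖ ≤ k ∧ ‖v.2.1‖ ≤ k * tau ∧ |v.2.2| ≤ k * lam := by
  have h1 : nrm B lam tau v = ‖((B v.1, (1 / tau) • v.2.1, (1 / lam) * v.2.2) : WW m D)‖ := rfl
  rw [h1, Prod.norm_def, Prod.norm_def, max_le_iff, max_le_iff]
  simp only
  have h2 : ‖(1 / tau) • v.2.1‖ = ‖v.2.1‖ / tau := by
    rw [norm_smul, Real.norm_eq_abs, abs_of_pos (by positivity)]; ring
  have h3 : ‖(1 / lam) * v.2.2‖ = |v.2.2| / lam := by
    rw [norm_mul, Real.norm_eq_abs, Real.norm_eq_abs, abs_of_pos (by positivity)]; ring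
  rw [h2, h3, div_le_iff₀ ht, div_le_iff₀ hl]

theorem geo : GeoStmt := by
  intro n m D C R l e c0 L c h
  have hL : 1 ≤ L := h.L_ge
  have hc : 0 < c := h.c_pos
  have hc0 : 0 < c0 := h.cone.c0_pos
  have hL0 : 0 < L := by linarith
  refine ⟨L + 1, by linarith, fun Θ hLΘ hΘ ρ1 hρ1 => ?_⟩
  have hex : ∀ lam tau : ℝ, ∃ B : EE m ≃L[ℝ] EE m, 0 < lam → 0 < tau →
      ∀ X ∈ C, l X.2.1 ≤ tau → X.2.2 ≤ lam → ‖B X.1‖ ≤ L ∧
        ∀ w : EE m, ‖B w‖ ≤ c → X + (w, (L * tau) • e, L * lam) ∈ C := by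
    intro lam tau
    by_cases hp : 0 < lam ∧ 0 < tau
    · obtain ⟨B, hB⟩ := h.lemX lam tau hp.1 hp.2
      exact ⟨B, fun _ _ => hB⟩
    · exact ⟨ContinuousLinearEquiv.refl ℝ _, fun h1 h2 => absurd ⟨h1, h2⟩ hp⟩
  choose BB hBB using hex
  have h0C : (0 : WW m D) ∈ C := h.sub 0 h.cone.R_zero 0 le_rfl
  have hcv : Convex ℝ C := h.appr.2.1
  obtain ⟨re, hre, hball⟩ := Metric.mem_nhds_iff.1 (mem_interior_iff_mem_nhds.1 h.cone.e_int)
  set q : ℝ := 2 * Θ with hq
  have hq1 : 1 ≤ q := by linarith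
  have hq0 : 0 < q := by linarith
  have hLq : L ≤ q := by linarith
  set K : ℝ := max (q * L) (max (q / c0) q) with hK
  set ρ : ℝ := min ρ1 (min (c ^ 2 / L) (min c (min (re / 2) 1))) with hρ
  have hρpos : 0 < ρ := by
    refine lt_min hρ1 (lt_min (by positivity) (lt_min hc (lt_min (by positivity) one_pos)))
  have hρρ1 : ρ ≤ ρ1 := min_le_left _ _
  have hρ2 : ρ ≤ c ^ 2 / L := (min_le_right _ _).trans (min_le_left _ _)
  have hρ3 : ρ ≤ c := (min_le_right _ _).trans ((min_le_right _ _).trans (min_le_left _ _))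
  have hρ4 : ρ ≤ re / 2 := (min_le_right _ _).trans ((min_le_right _ _).trans
    ((min_le_right _ _).trans (min_le_left _ _)))
  have hρ5 : ρ ≤ 1 := (min_le_right _ _).trans ((min_le_right _ _).trans
    ((min_le_right _ _).trans (min_le_right _ _)))
  -- the recession increment
  have hinc : ∀ lam tau : ℝ, 0 < lam → 0 < tau → ∀ v : WW m D, ‖v.2.1‖ ≤ ρ * tau →
      |v.2.2| ≤ ρ * lam → ∀ Y ∈ C, Y + ((0 : EE m), tau • e + v.2.1, lam + v.2.2) ∈ C := by
    intro lam tau hlam htau v hy hz Y hY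
    refine h.add Y hY _ ?_ _ ?_
    · have e1 : tau • e + v.2.1 = tau • (e + (1 / tau) • v.2.1) := by
        rw [smul_add, smul_smul, mul_one_div, div_self htau.ne', one_smul]
      rw [e1]
      refine h.cone.R_smul _ (hball ?_) _ htau.le
      rw [Metric.mem_ball, dist_eq_norm, add_sub_cancel_left, norm_smul, Real.norm_eq_abs,
        abs_of_pos (by positivity : (0:ℝ) < 1 / tau)]
      calc 1 / tau * ‖v.2.1‖ ≤ 1 / tau * (ρ * tau) := by gcongr
        _ = ρ := by field_simp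
        _ < re := by linarith
    · have := (abs_le.1 hz).1
      nlinarith
  refine ⟨K, q * L + 1, ρ, ?_, ?_, hρpos, hρρ1, fun lam tau => nrm (BB lam tau) lam tau, ?_⟩
  · exact hq1.trans ((le_max_right _ _).trans (le_max_right _ _))
  · have : 0 ≤ q * L := by positivity
    linarith
  · refine ⟨?_, ?_, ?_, ?_, ?_, ?_, ?_⟩
    · -- definite
      intro lam tau hlam htau v hv
      obtain ⟨h1, h2, h3⟩ := (nrm_le_iff (BB lam tau) hlam htau v 0).1 hv.le
      rw [zero_mul] at h2 h3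
      have e1 : v.1 = 0 := by
        have := norm_le_zero_iff.1 h1
        simpa using this
      have e2 : v.2.1 = 0 := norm_le_zero_iff.1 h2
      have e3 : v.2.2 = 0 := abs_nonpos_iff.1 h3
      exact Prod.ext e1 (Prod.ext e2 e3)
    · intro lam tau hlam htau v
      have := ((nrm_le_iff (BB lam tau) hlam htau v _).1 le_rfl).2.1
      linarith
    · intro lam tau hlam htau v
      have := ((nrm_le_iff (BB lam tau) hlam htau v _).1 le_rfl).2.2
      linarith
    · -- le_yz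
      intro lam tau hlam htau y z k hy hz
      have hk : 0 ≤ k := by
        have h1 : 0 ≤ k * tau := (norm_nonneg _).trans hy
        exact nonneg_of_mul_nonneg_left h1 htau
      refine (nrm_le_iff (BB lam tau) hlam htau _ k).2 ⟨?_, hy, hz⟩
      simpa using hk
    · -- bd
      intro lam tau hlam htau X hX hl hz
      have hXR := h.le X hX
      refine (nrm_le_iff (BB lam tau) hlam htau X K).2 ⟨?_, ?_, ?_⟩
      · have hX' : (1 / q) • X ∈ C := by
          have := hcv h0C hX (by have : 1 / q ≤ 1 := (div_le_one hq0).2 hq1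
                                 linarith : 0 ≤ 1 - 1 / q) (by positivity : 0 ≤ 1 / q) (by ring)
          simpa using this
        have h1 := (hBB lam tau hlam htau _ hX' (by
          simp only [Prod.smul_snd, Prod.smul_fst, map_smul, smul_eq_mul]
          rw [one_div, inv_mul_le_iff₀ hq0]; exact hl) (by
          simp only [Prod.smul_snd, smul_eq_mul]
          rw [one_div, inv_mul_le_iff₀ hq0]; exact hz)).1
        simp only [Prod.smul_fst, map_smul] at h1
        rw [norm_smul, Real.norm_eq_abs, abs_of_pos (by positivity : (0:ℝ) < 1 / q), one_div,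
          inv_mul_le_iff₀ hq0] at h1
        exact h1.trans (le_max_left _ _)
      · have h1 := h.cone.l_ge _ hXR.1
        have h2 : ‖X.2.1‖ ≤ q / c0 * tau := by
          rw [div_mul_eq_mul_div, le_div_iff₀ hc0]
          linarith
        refine h2.trans (mul_le_mul_of_nonneg_right ?_ htau.le)
        exact (le_max_left _ _).trans (le_max_right _ _)
      · rw [abs_of_nonneg hXR.2]
        refine hz.trans (mul_le_mul_of_nonneg_right ?_ hlam.le)
        exact (le_max_right _ _).trans (le_max_right _ _)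
    · -- dp
      intro lam tau hlam htau X hX hl hz v hv
      obtain ⟨h1, h2, h3⟩ := (nrm_le_iff (BB lam tau) hlam htau v ρ).1 hv
      -- comparison of the two scales
      have h4 : ‖BB (q * lam) (q * tau) v.1‖ ≤ c := by
        have h5 : ‖BB lam tau ((L / c) • v.1)‖ ≤ c := by
          rw [map_smul, norm_smul, Real.norm_eq_abs, abs_of_pos (by positivity)]
          calc L / c * ‖BB lam tau v.1‖ ≤ L / c * (c ^ 2 / L) := by
                gcongr; exact h1.trans hρ2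
            _ = c := by field_simp
        have h6 := (hBB lam tau hlam htau 0 h0C (by simpa using htau.le) (by simpa using hlam.le)).2
          _ h5
        rw [zero_add] at h6
        have h7 := (hBB (q * lam) (q * tau) (by positivity) (by positivity) _ h6 (by
          simp only [map_smul, smul_eq_mul, h.cone.l_e, mul_one]
          exact mul_le_mul_of_nonneg_right hLq htau.le)
          (mul_le_mul_of_nonneg_right hLq hlam.le)).1
        simp only at h7
        rw [map_smul, norm_smul, Real.norm_eq_abs, abs_of_pos (by positivity : 0 < L / c),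
          div_mul_eq_mul_div, div_le_iff₀ hc] at h7
        exact le_of_mul_le_mul_left h7 hL0
      have h8 := (hBB (q * lam) (q * tau) (by positivity) (by positivity) X hX hl hz).2 _ h4
      have h9 := hinc lam tau hlam htau v h2 h3 _ h8
      convert h9 using 1
      refine Prod.ext ?_ (Prod.ext ?_ ?_)
      · simp [est]
      · simp only [est, Prod.snd_add, Prod.fst_add, Prod.smul_snd, Prod.smul_fst]
        module
      · simp only [est, Prod.snd_add, Prod.smul_snd, smul_eq_mul]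
        ring
    · -- dq
      intro lam tau hlam htau v hv
      obtain ⟨h1, h2, h3⟩ := (nrm_le_iff (BB lam tau) hlam htau v ρ).1 hv
      have h6 := (hBB lam tau hlam htau 0 h0C (by simpa using htau.le) (by simpa using hlam.le)).2
          _ (h1.trans hρ3)
      have h9 := hinc lam tau hlam htau v h2 h3 _ h6
      convert h9 using 1
      refine Prod.ext ?_ (Prod.ext ?_ ?_)
      · simp [est]
      · simp only [est, Prod.snd_add, Prod.fst_add, Prod.smul_snd, Prod.smul_fst, Prod.fst_zero,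
          Prod.snd_zero]
        module
      · simp only [est, Prod.snd_add, Prod.smul_snd, smul_eq_mul, Prod.snd_zero]
        ring

end Crest.Agent.R236.B
end
end

-- ▼ part R236/B2
section

/-!
Row 236, Part B, node B2 (note 13105): conormal comparisons (helper868).

Abstract part: `Nv` is the conormal (a linear form, nonnegative on `C' - X`), `nr` the scaled norm
`|.|_s` (only absolute homogeneity is used), `es = e_*`.
Concrete part: the conormal `N(v) = ρ (v.2 - Du(x) v.1)` of the graph of `u`.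
-/

set_option autoImplicit false

open Crest.GeometryTopology.CoordMetric Crest.GeometryTopology.AffineMaximal
open Set

noncomputable section

namespace Crest.Agent.R236.B2

section Abstract

variable {W : Type*} [AddCommGroup W] [Module ℝ W]

/-- `N(e_*) ≥ 0` -/
theorem es_nonneg {Nv : W →ₗ[ℝ] ℝ} {nr : W → ℝ} {es : W} {L2 c2 : ℝ}
    (hom : ∀ (t : ℝ) (v : W), nr (t • v) = |t| * nr v) (hL : 0 < L2) (hc : 0 ≤ c2)
    (h : ∀ w, nr w ≤ c2 → 0 ≤ Nv (L2 • es + w)) : 0 ≤ Nv es := by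
  have h0 : nr (0 : W) = 0 := by simpa using hom 0 0
  have h1 := h 0 (by rw [h0]; exact hc)
  rw [add_zero, map_smul, smul_eq_mul] at h1
  exact nonneg_of_mul_nonneg_right h1 hL

/-- (b) ⟹ `|N(v)| ≤ (L₂/c₂) |v|_s N(e_*)` -/
theorem abs_le {Nv : W →ₗ[ℝ] ℝ} {nr : W → ℝ} {es : W} {L2 c2 : ℝ}
    (hom : ∀ (t : ℝ) (v : W), nr (t • v) = |t| * nr v) (hn : ∀ v, 0 ≤ nr v)
    (hc : 0 < c2) (h : ∀ w, nr w ≤ c2 → 0 ≤ Nv (L2 • es + w)) (v : W) :
    |Nv v| ≤ L2 / c2 * nr v * Nv es := by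
  -- for every `t` with `|t| nr v ≤ c2`: `|t| |N v| ≤ L2 N es`
  have key : ∀ t : ℝ, |t| * nr v ≤ c2 → -(L2 * Nv es) ≤ t * Nv v := by
    intro t ht
    have h1 := h (t • v) (by rw [hom]; exact ht)
    rw [map_add, map_smul, map_smul, smul_eq_mul, smul_eq_mul] at h1
    linarith
  rcases (hn v).eq_or_lt with h0 | hpos
  · -- `nr v = 0`
    have hz : Nv v = 0 := by
      by_contra hne
      have h1 := key (-(L2 * Nv es + 1) / Nv v) (by rw [← h0, mul_zero]; exact hc.le)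
      rw [div_mul_cancel₀ _ hne] at h1
      linarith
    rw [hz, ← h0]
    simp
  · have h1 := key (c2 / nr v) (by
      rw [abs_of_pos (div_pos hc hpos), div_mul_cancel₀ _ hpos.ne'])
    have h2 := key (-(c2 / nr v)) (by
      rw [abs_neg, abs_of_pos (div_pos hc hpos), div_mul_cancel₀ _ hpos.ne'])
    have h3 : |c2 / nr v * Nv v| ≤ L2 * Nv es := _root_.abs_le.2 ⟨h1, by linarith⟩
    rw [abs_mul, abs_of_pos (div_pos hc hpos), div_mul_eq_mul_div, div_le_iff₀ hpos] at h3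
    have e : L2 / c2 * nr v * Nv es = (L2 * Nv es * nr v) / c2 := by ring
    rw [e, le_div_iff₀ hc]
    linarith

/-- strict positivity of `N(e_*)` when `N ≠ 0` -/
theorem es_pos {Nv : W →ₗ[ℝ] ℝ} {nr : W → ℝ} {es : W} {L2 c2 : ℝ}
    (hom : ∀ (t : ℝ) (v : W), nr (t • v) = |t| * nr v) (hn : ∀ v, 0 ≤ nr v) (hL : 0 < L2)
    (hc : 0 < c2) (h : ∀ w, nr w ≤ c2 → 0 ≤ Nv (L2 • es + w)) {v : W} (hv : Nv v ≠ 0) :
    0 < Nv es := by
  rcases (es_nonneg hom hL hc.le h).eq_or_lt with h0 | h0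
  · have := abs_le hom hn hc h v
    rw [← h0, mul_zero] at this
    exact absurd (abs_nonpos_iff.1 this) hv
  · exact h0

/-- `N(e_*) ≤ 2 (λ N(e_P) + τ N(e_W))` where `e_P = e_z + δ e`, `e_W = e + δ e_z`,
`e_* = τ e + λ e_z`. -/
theorem es_le {Nv : W →ₗ[ℝ] ℝ} {e ez : W} {lam tau dl : ℝ} (hlam : 0 ≤ lam) (htau : 0 ≤ tau)
    (hd : 0 ≤ dl) (hd2 : dl ≤ 1 / 2) (hP : 0 ≤ Nv (ez + dl • e)) (hW : 0 ≤ Nv (e + dl • ez)) :
    Nv (tau • e + lam • ez) ≤ 2 * (lam * Nv (ez + dl • e) + tau * Nv (e + dl • ez)) := by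
  simp only [map_add, map_smul, smul_eq_mul] at hP hW ⊢
  set x := Nv e
  set z := Nv ez
  -- `(1 - dl²) (τ x + λ z) = (τ - δ λ) (x + δ z) + (λ - δ τ) (z + δ x)`
  have e1 : (1 - dl ^ 2) * (tau * x + lam * z)
      = tau * (x + dl * z) + lam * (z + dl * x)
        - dl * (lam * (x + dl * z) + tau * (z + dl * x)) := by ring
  have h1 : 0 ≤ lam * (x + dl * z) := mul_nonneg hlam hW
  have h2 : 0 ≤ tau * (z + dl * x) := mul_nonneg htau hP
  have h3 : 0 ≤ tau * (x + dl * z) := mul_nonneg htau hW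
  have h4 : 0 ≤ lam * (z + dl * x) := mul_nonneg hlam hP
  have h5 : 0 ≤ dl * (lam * (x + dl * z) + tau * (z + dl * x)) := mul_nonneg hd (add_nonneg h1 h2)
  have h6 : (1 - dl ^ 2) * (tau * x + lam * z) ≤ tau * (x + dl * z) + lam * (z + dl * x) := by
    rw [e1]
    linarith
  have h7 : 3 / 4 ≤ 1 - dl ^ 2 := by nlinarith
  by_contra hcon
  push Not at hcon
  have h8 : 0 ≤ tau * x + lam * z := by linarith
  have h9 : 3 / 4 * (tau * x + lam * z) ≤ (1 - dl ^ 2) * (tau * x + lam * z) :=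
    mul_le_mul_of_nonneg_right h7 h8
  linarith

/-- `0 ≤ N(v) ≤ C N(e_*)` from a bound of `|v|_s` -/
theorem le_es {Nv : W →ₗ[ℝ] ℝ} {nr : W → ℝ} {es : W} {L2 c2 : ℝ}
    (hom : ∀ (t : ℝ) (v : W), nr (t • v) = |t| * nr v) (hn : ∀ v, 0 ≤ nr v) (hL : 0 < L2)
    (hc : 0 < c2) (h : ∀ w, nr w ≤ c2 → 0 ≤ Nv (L2 • es + w)) {v : W} {K : ℝ} (hv : nr v ≤ K) :
    Nv v ≤ L2 / c2 * K * Nv es := by
  have h0 := es_nonneg hom hL hc.le h
  calc Nv v ≤ |Nv v| := le_abs_self _
    _ ≤ L2 / c2 * nr v * Nv es := abs_le hom hn hc h v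
    _ ≤ L2 / c2 * K * Nv es := by gcongr


/-- lower bound of `V = N(Q - X)` from `Q + {|.|_s ≤ c₂} ⊆ C'` -/
theorem le_V {Nv : W →ₗ[ℝ] ℝ} {nr : W → ℝ} {es Q X : W} {c2 k : ℝ}
    (hom : ∀ (t : ℝ) (v : W), nr (t • v) = |t| * nr v)
    (hc : 0 < c2) (hk : 0 < k) (hes : nr es ≤ k)
    (h : ∀ w, nr w ≤ c2 → 0 ≤ Nv (Q + w - X)) :
    c2 / k * Nv es ≤ Nv (Q - X) := by
  have h1 := h (-(c2 / k) • es) (by
    rw [hom, abs_neg, abs_of_pos (div_pos hc hk)]
    calc c2 / k * nr es ≤ c2 / k * k := by gcongr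
      _ = c2 := div_mul_cancel₀ _ hk.ne')
  have e : Q + -(c2 / k) • es - X = (Q - X) + -(c2 / k) • es := by abel
  rw [e, map_add, map_smul, smul_eq_mul] at h1
  linarith

end Abstract

section Concrete

variable {n : ℕ} {Ω : Set (EuclideanSpace ℝ (Fin n))} {u : EuclideanSpace ℝ (Fin n) → ℝ}

/-- conormal of the graph of `u` at `x`, with weight `rho` -/
def cn (rho : ℝ) (u : EuclideanSpace ℝ (Fin n) → ℝ) (x : EuclideanSpace ℝ (Fin n)) :
    (EuclideanSpace ℝ (Fin n) × ℝ) →ₗ[ℝ] ℝ where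
  toFun v := rho * (v.2 - fderiv ℝ u x v.1)
  map_add' v w := by
    simp only [Prod.snd_add, Prod.fst_add, map_add]
    ring
  map_smul' t v := by
    simp only [Prod.smul_snd, Prod.smul_fst, map_smul, smul_eq_mul, RingHom.id_apply]
    ring

theorem cn_apply (rho : ℝ) (u : EuclideanSpace ℝ (Fin n) → ℝ) (x : EuclideanSpace ℝ (Fin n))
    (v : EuclideanSpace ℝ (Fin n) × ℝ) : cn rho u x v = rho * (v.2 - fderiv ℝ u x v.1) := rfl

/-- the conormal is nonnegative on `epi - X(x)` -/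
theorem cn_nonneg (h : SC Ω u) {x : EuclideanSpace ℝ (Fin n)} (hx : x ∈ Ω) {rho : ℝ}
    (hr : 0 ≤ rho) {Z : EuclideanSpace ℝ (Fin n) × ℝ} (hZ : Z.1 ∈ Ω) (hZ2 : u Z.1 ≤ Z.2) :
    0 ≤ cn rho u x (Z - (x, u x)) := by
  rw [cn_apply]
  refine mul_nonneg hr ?_
  have h1 := h.tangent_le hx hZ
  simp only [Prod.snd_sub, Prod.fst_sub]
  linarith





end Concrete

end Crest.Agent.R236.B2
end
end

-- ▼ part R236/B2Apx
section

/-!
Row 236, Part B, node B2 in the form of the fields `sg_*`, `V_*` of `APX` (660's `BApxDefs`):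
everything at one point `x` and one scale (helper868).
-/

set_option autoImplicit false

open Crest.GeometryTopology.CoordMetric Crest.GeometryTopology.AffineMaximal
open Set

noncomputable section

namespace Crest.Agent.R236.B2

open Crest.Agent.R236.A (EE epi SOL)
open Crest.Agent.R236.B (VV aff sg)

variable {n : ℕ} {Ω : Set (EE n)} {u : EE n → ℝ} {x : EE n}

/-- `v ↦ sg u v x` as a linear form -/
def sgL (u : EE n → ℝ) (x : EE n) : VV n →ₗ[ℝ] ℝ := cn 1 u x

theorem sgL_apply (u : EE n → ℝ) (x : EE n) (v : VV n) : sgL u x v = sg u v x := by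
  unfold sgL sg
  rw [cn_apply, one_mul]

theorem sg_nonneg_of_mem (h : SC Ω u) (hx : x ∈ Ω) {Z : VV n} (hZ : Z ∈ epi Ω u) :
    0 ≤ sg u (Z - (x, u x)) x := by
  rw [← sgL_apply]
  exact cn_nonneg h hx zero_le_one hZ.1 hZ.2

theorem sg_vert (u : EE n → ℝ) (x : EE n) : sg u ((0 : EE n), (1 : ℝ)) x = 1 := by
  unfold sg
  simp

theorem homN (p : Seminorm ℝ (VV n)) (t : ℝ) (v : VV n) : p (t • v) = |t| * p v := by
  rw [map_smul_eq_mul, Real.norm_eq_abs]

/-- the hypothesis (b) at the point `x` in linear form -/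
theorem deep_lin (h : SC Ω u) (hx : x ∈ Ω) {p : Seminorm ℝ (VV n)} {es : VV n} {L2 c2 : ℝ}
    (hd : ∀ v, p v ≤ c2 → (x, u x) + L2 • es + v ∈ epi Ω u) :
    ∀ w, p w ≤ c2 → 0 ≤ sgL u x (L2 • es + w) := by
  intro w hw
  have h1 := sg_nonneg_of_mem h hx (hd w hw)
  rw [← sgL_apply] at h1
  have e : (x, u x) + L2 • es + w - (x, u x) = L2 • es + w := by abel
  rwa [e] at h1

/-- (c): strict positivity of `sg` in a deep direction (`es := eP`, `L2 := S`, or `es := e_*`) -/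
theorem sg_pos (h : SC Ω u) (hx : x ∈ Ω) {p : Seminorm ℝ (VV n)} {es : VV n} {L2 c2 : ℝ}
    (hL : 0 < L2) (hc : 0 < c2) (hd : ∀ v, p v ≤ c2 → (x, u x) + L2 • es + v ∈ epi Ω u) :
    0 < sg u es x := by
  rw [← sgL_apply]
  refine es_pos (homN p) (fun v => apply_nonneg p v) hL hc (deep_lin h hx hd)
    (v := ((0 : EE n), (1 : ℝ))) ?_
  rw [sgL_apply, sg_vert]
  exact one_ne_zero

/-- `sg_le` with constant `L2 / c2` -/
theorem sg_le (h : SC Ω u) (hx : x ∈ Ω) {p : Seminorm ℝ (VV n)} {es : VV n} {L2 c2 : ℝ}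
    (hc : 0 < c2) (hd : ∀ v, p v ≤ c2 → (x, u x) + L2 • es + v ∈ epi Ω u) (v : VV n) :
    |sg u v x| ≤ L2 / c2 * p v * sg u es x := by
  have h1 := abs_le (homN p) (fun v => apply_nonneg p v) hc (deep_lin h hx hd) v
  rwa [sgL_apply, sgL_apply] at h1

/-- `sg_le` with any constant `C0 ≥ L2 / c2` -/
theorem sg_le' (h : SC Ω u) (hx : x ∈ Ω) {p : Seminorm ℝ (VV n)} {es : VV n} {L2 c2 C0 : ℝ}
    (hL : 0 < L2) (hc : 0 < c2) (hC : L2 / c2 ≤ C0)
    (hd : ∀ v, p v ≤ c2 → (x, u x) + L2 • es + v ∈ epi Ω u) (v : VV n) :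
    |sg u v x| ≤ C0 * p v * sg u es x := by
  have h1 := sg_le h hx hc hd v
  have h2 := (sg_pos h hx hL hc hd).le
  have h3 : 0 ≤ p v := apply_nonneg p v
  refine h1.trans ?_
  gcongr

/-- `es_sg_le`: `e_* = τ e + λ e_z`, `e_P = e_z + δ e`, `e_W = e + δ e_z` (pulled back) -/
theorem es_sg_le {e ez : VV n} {lam tau dl : ℝ} (hlam : 0 ≤ lam) (htau : 0 ≤ tau)
    (hd : 0 ≤ dl) (hd2 : dl ≤ 1 / 2) (hP : 0 ≤ sg u (ez + dl • e) x)
    (hW : 0 ≤ sg u (e + dl • ez) x) :
    sg u (tau • e + lam • ez) x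
      ≤ 2 * (lam * sg u (ez + dl • e) x + tau * sg u (e + dl • ez) x) := by
  rw [← sgL_apply] at hP hW ⊢
  rw [← sgL_apply, ← sgL_apply]
  exact es_le hlam htau hd hd2 hP hW

/-- `V_ge` with constant `k / c2`, `|e_*|_s ≤ k` -/
theorem V_ge (h : SC Ω u) (hx : x ∈ Ω) {p : Seminorm ℝ (VV n)} {es Q : VV n} {c2 k : ℝ}
    (hc : 0 < c2) (hk : 0 < k) (hes : p es ≤ k) (hQ : ∀ v, p v ≤ c2 → Q + v ∈ epi Ω u) :
    sg u es x ≤ k / c2 * sg u (Q - (x, u x)) x := by
  have h1 := le_V (Nv := sgL u x) (nr := p) (es := es) (Q := Q) (X := (x, u x)) (homN p) hc hk hes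
    (fun w hw => by
      rw [sgL_apply]
      exact sg_nonneg_of_mem h hx (hQ w hw))
  rw [sgL_apply, sgL_apply] at h1
  calc sg u es x = k / c2 * (c2 / k * sg u es x) := by field_simp
    _ ≤ k / c2 * sg u (Q - (x, u x)) x := mul_le_mul_of_nonneg_left h1 (by positivity)

/-- `V_le` with constant `2 K L2 / c2` -/
theorem V_le' (h : SC Ω u) (hx : x ∈ Ω) {p : Seminorm ℝ (VV n)} {es Q O : VV n} {L2 c2 K : ℝ}
    (hL : 0 < L2) (hc : 0 < c2) (hd : ∀ v, p v ≤ c2 → (x, u x) + L2 • es + v ∈ epi Ω u)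
    (hQ : p (Q - O) ≤ K) (hX : p ((x, u x) - O) ≤ K) :
    sg u (Q - (x, u x)) x ≤ L2 / c2 * (2 * K) * sg u es x := by
  have h1 : p (Q - (x, u x)) ≤ 2 * K := by
    have e : Q - (x, u x) = (Q - O) - ((x, u x) - O) := by abel
    rw [e]
    refine (map_sub_le_add p _ _).trans ?_
    linarith
  have h2 := le_es (homN p) (fun v => apply_nonneg p v) hL hc (deep_lin h hx hd) h1
  rwa [sgL_apply, sgL_apply] at h2


end Crest.Agent.R236.B2
end
end

-- ▼ part R236/BApxL
section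

/-! Row 236, Part B, B1: auxiliary lemmas for the pull-back (helper660) -/

set_option autoImplicit false
open scoped ContDiff Topology
open Crest.GeometryTopology.CoordMetric Crest.GeometryTopology.AffineMaximal
open Set Filter

noncomputable section

namespace Crest.Agent.R236.B

open Crest.Agent.R236.A (EE epi SOL STRUCT IsStruct ConeData Appr)

/-- the grid is positive -/
theorem Grid.pos {N : ℕ} {lam tau : ℝ} (h : Grid N lam tau) : 0 < lam ∧ 0 < tau := by
  obtain ⟨a, b, -, -, rfl, rfl⟩ := h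
  exact ⟨by positivity, by positivity⟩

/-- ratio bound on the grid -/
theorem Grid.ratio {N : ℕ} {lam tau : ℝ} (h : Grid N lam tau) :
    lam ≤ 4 ^ N * tau ∧ tau ≤ 4 ^ N * lam := by
  obtain ⟨a, b, ha, hb, rfl, rfl⟩ := h
  have h4 : (4 : ℝ) ^ N = 2 ^ (2 * (N : ℤ)) := by
    rw [zpow_mul, zpow_natCast]
    norm_num
  rw [abs_le] at ha hb
  constructor
  · rw [h4, ← zpow_add₀ (by norm_num)]
    exact zpow_le_zpow_right₀ (by norm_num) (by linarith)
  · rw [h4, ← zpow_add₀ (by norm_num)]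
    exact zpow_le_zpow_right₀ (by norm_num) (by linarith)

theorem Grid.dl {N : ℕ} {lam tau δ : ℝ} (h : Grid N lam tau) (hδ : 0 < δ) (hN : δ * 4 ^ N ≤ 1 / 8) :
    δ * lam ≤ tau / 8 ∧ δ * tau ≤ lam / 8 := by
  obtain ⟨h1, h2⟩ := h.ratio
  obtain ⟨h3, h4⟩ := h.pos
  constructor
  · calc δ * lam ≤ δ * (4 ^ N * tau) := by gcongr
      _ = (δ * 4 ^ N) * tau := by ring
      _ ≤ 1 / 8 * tau := by gcongr
      _ = tau / 8 := by ring
  · calc δ * tau ≤ δ * (4 ^ N * lam) := by gcongr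
      _ = (δ * 4 ^ N) * lam := by ring
      _ ≤ 1 / 8 * lam := by gcongr
      _ = lam / 8 := by ring

/-- a definite seminorm on a finite dimensional space dominates the norm -/
theorem seminorm_dom {V : Type*} [NormedAddCommGroup V] [NormedSpace ℝ V] [FiniteDimensional ℝ V]
    (p : Seminorm ℝ V) (hp : ∀ v, p v = 0 → v = 0) : ∃ M : ℝ, 0 < M ∧ ∀ v, ‖v‖ ≤ M * p v := by
  have hcont : Continuous p := by
    have := (p.convexOn).continuousOn isOpen_univ
    exact continuousOn_univ.1 this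
  by_cases hne : (Metric.sphere (0 : V) 1).Nonempty
  · obtain ⟨v0, hv0, hmin⟩ := (isCompact_sphere (0 : V) 1).exists_isMinOn hne hcont.continuousOn
    have hv1 : ‖v0‖ = 1 := by simpa using hv0
    have hpos : 0 < p v0 := by
      rcases (apply_nonneg p v0).eq_or_lt with h | h
      · have := hp v0 h.symm
        rw [this, norm_zero] at hv1
        norm_num at hv1
      · exact h
    refine ⟨(p v0)⁻¹, inv_pos.2 hpos, fun v => ?_⟩
    by_cases hv : v = 0
    · simp [hv]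
    have hvn : 0 < ‖v‖ := norm_pos_iff.2 hv
    have h1 : p v0 ≤ p (‖v‖⁻¹ • v) := hmin (by
      simp [norm_smul, hvn.ne'])
    rw [map_smul_eq_mul, norm_inv, norm_norm] at h1
    rw [inv_mul_eq_div, le_div_iff₀ hpos]
    calc ‖v‖ * p v0 ≤ ‖v‖ * (‖v‖⁻¹ * p v) := by gcongr
      _ = p v := by field_simp
  · refine ⟨1, one_pos, fun v => ?_⟩
    have hv : ‖v‖ = 0 := by
      by_contra h
      have hvn : 0 < ‖v‖ := lt_of_le_of_ne (norm_nonneg _) (Ne.symm h)
      exact hne ⟨‖v‖⁻¹ • v, by simp [norm_smul, hvn.ne']⟩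
    rw [hv]
    simpa using apply_nonneg p v

/-- vertical rays of the epigraph -/
theorem epi_up {n : ℕ} {Ω : Set (EE n)} {u : EE n → ℝ} {X : VV n} (hX : X ∈ epi Ω u) {t : ℝ}
    (ht : 0 ≤ t) : X + t • ((0 : EE n), (1 : ℝ)) ∈ epi Ω u := by
  obtain ⟨h1, h2⟩ := hX
  refine ⟨?_, ?_⟩
  · simpa using h1
  · simp only [Prod.fst_add, Prod.smul_fst, smul_zero, add_zero, Prod.snd_add, Prod.smul_snd,
      smul_eq_mul, mul_one]
    linarith

/-- positivity of the vertical coefficient -/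
theorem up_of_bdd {n : ℕ} {Ω : Set (EE n)} {u : EE n → ℝ} (F : VV n →L[ℝ] ℝ) {c θ K : ℝ}
    (p : Seminorm ℝ (VV n)) (hp : ∀ v, p v = 0 → v = 0) {O Q : VV n}
    (hb : ∀ X ∈ epi Ω u, F X + c ≤ θ → p (X - O) ≤ K) (hQ : Q ∈ epi Ω u) (hQ2 : F Q + c ≤ θ) :
    0 < F ((0 : EE n), (1 : ℝ)) := by
  by_contra hcon
  push Not at hcon
  set e : VV n := ((0 : EE n), (1 : ℝ)) with he
  have h1 : ∀ t : ℝ, 0 ≤ t → p (Q + t • e - O) ≤ K := by
    intro t ht
    refine hb _ (epi_up hQ ht) ?_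
    rw [map_add, map_smul, smul_eq_mul]
    nlinarith
  have h2 : 0 < p e := by
    rcases (apply_nonneg p e).eq_or_lt with h | h
    · have := hp e h.symm
      rw [he, Prod.ext_iff] at this
      simp at this
    · exact h
  have h3 := hb Q hQ hQ2
  have hK : 0 ≤ K := (apply_nonneg p _).trans h3
  have h4 := h1 ((2 * K + 1) / p e) (by positivity)
  have h5 : p (((2 * K + 1) / p e) • e) ≤ p (Q + ((2 * K + 1) / p e) • e - O) + p (Q - O) := by
    have : ((2 * K + 1) / p e) • e = (Q + ((2 * K + 1) / p e) • e - O) - (Q - O) := by abel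
    conv_lhs => rw [this]
    exact map_sub_le_add p _ _
  rw [map_smul_eq_mul, Real.norm_eq_abs, abs_of_nonneg (by positivity),
    div_mul_cancel₀ _ h2.ne'] at h5
  linarith

/-- compactness of the sublevel sets -/
theorem cpt_of_bdd {n : ℕ} {Ω : Set (EE n)} {u : EE n → ℝ} (hS : SOL Ω u) (F : VV n →L[ℝ] ℝ)
    {c θ K : ℝ} (p : Seminorm ℝ (VV n)) (hp : ∀ v, p v = 0 → v = 0) {O : VV n}
    (hb : ∀ X ∈ epi Ω u, F X + c ≤ θ → p (X - O) ≤ K) (hup : 0 < F ((0 : EE n), (1 : ℝ))) :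
    IsCompact {x | x ∈ Ω ∧ F (x, u x) + c ≤ θ} := by
  obtain ⟨M, hM, hMv⟩ := seminorm_dom p hp
  have hcl : IsClosed {X | X ∈ epi Ω u ∧ F X + c ≤ θ} :=
    hS.closed.inter (isClosed_le (F.continuous.add continuous_const) continuous_const)
  have hbd : {X | X ∈ epi Ω u ∧ F X + c ≤ θ} ⊆ Metric.closedBall O (M * K) := by
    rintro X ⟨h1, h2⟩
    rw [Metric.mem_closedBall, dist_eq_norm]
    calc ‖X - O‖ ≤ M * p (X - O) := hMv _
      _ ≤ M * K := by
        have := hb X h1 h2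
        gcongr
  have hcp : IsCompact {X | X ∈ epi Ω u ∧ F X + c ≤ θ} :=
    (isCompact_closedBall O (M * K)).of_isClosed_subset hcl hbd
  have himg : {x | x ∈ Ω ∧ F (x, u x) + c ≤ θ} = Prod.fst '' {X | X ∈ epi Ω u ∧ F X + c ≤ θ} := by
    ext x
    constructor
    · rintro ⟨h1, h2⟩
      exact ⟨(x, u x), ⟨⟨h1, le_rfl⟩, h2⟩, rfl⟩
    · rintro ⟨X, ⟨⟨h1, h2⟩, h3⟩, rfl⟩
      refine ⟨h1, ?_⟩
      have h4 : X = (X.1, u X.1) + (X.2 - u X.1) • ((0 : EE n), (1 : ℝ)) := by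
        ext <;> simp
      have h5 : F X = F (X.1, u X.1) + (X.2 - u X.1) * F ((0 : EE n), (1 : ℝ)) := by
        conv_lhs => rw [h4]
        rw [map_add, map_smul, smul_eq_mul]
      have h6 : 0 ≤ (X.2 - u X.1) * F ((0 : EE n), (1 : ℝ)) :=
        mul_nonneg (by linarith) hup.le
      linarith
  rw [himg]
  exact hcp.image continuous_fst

end Crest.Agent.R236.B
end
end

-- ▼ part R236/BApx
section

/-! Row 236, Part B, B0+B1+B2: `ApxStmt` from `GeoStmt` and `ApxWStmt` (pull-back) (helper660) -/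

set_option autoImplicit false
open scoped ContDiff Topology
open Crest.GeometryTopology.CoordMetric Crest.GeometryTopology.AffineMaximal
open Set Filter

noncomputable section

namespace Crest.Agent.R236.B

open Crest.Agent.R236.A (EE epi SOL STRUCT IsStruct ConeData Appr)

section pull
variable {n m D : ℕ} (A : (EE n × ℝ) ≃ᵃ[ℝ] WW m D)

theorem A_apply (X : VV n) : A X = A.linear X + A 0 := by
  have := A.map_vadd (0 : VV n) X
  simpa using this

theorem A_add (X v : VV n) : A (X + v) = A X + A.linear v := by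
  have := A.map_vadd X v
  rw [vadd_eq_add, vadd_eq_add, add_comm v X] at this
  rw [this, add_comm]

theorem A_sub (X Y : VV n) : A.linear (X - Y) = A X - A Y := by
  have := A_add A Y (X - Y)
  rw [add_sub_cancel] at this
  rw [this]
  abel

/-- the linear part as a continuous linear map -/
def AC : VV n →L[ℝ] WW m D := LinearMap.toContinuousLinearMap (A.linear : VV n →ₗ[ℝ] WW m D)


/-- pulled back functional -/
def pb (F : WW m D →L[ℝ] ℝ) : VV n →L[ℝ] ℝ := F.comp (AC A)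

theorem pb_apply (F : WW m D →L[ℝ] ℝ) (v : VV n) : pb A F v = F (A.linear v) := rfl

theorem aff_pb (F : WW m D →L[ℝ] ℝ) (X : VV n) : aff (pb A F) (F (A 0)) X = F (A X) := by
  unfold aff
  rw [pb_apply, ← map_add, ← A_apply]

/-- pulled back norm -/
def pn (p : Seminorm ℝ (WW m D)) : Seminorm ℝ (VV n) := p.comp (A.linear : VV n →ₗ[ℝ] WW m D)

theorem pn_apply (p : Seminorm ℝ (WW m D)) (v : VV n) : pn A p v = p (A.linear v) := rfl

theorem mem_image_iff {S : Set (VV n)} {X : VV n} : A X ∈ A '' S ↔ X ∈ S :=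
  A.injective.mem_set_image

end pull

section est
variable {m D : ℕ} {l : EE D →L[ℝ] ℝ} {e : EE D} {δ : ℝ}

theorem one_sub_sq (hδ : 0 < δ) (hδ8 : δ ≤ 1 / 8) : 1 / 2 ≤ 1 - δ ^ 2 := by nlinarith

theorem pF_wP (hl : l e = 1) (hδ : 0 < δ) (hδ8 : δ ≤ 1 / 8) : pF m l δ (wP m e δ) = 1 := by
  have h := one_sub_sq hδ hδ8
  rw [pF_apply]
  simp only [wP, map_smul, hl, smul_eq_mul]
  field_simp

theorem pF_wW (hl : l e = 1) : pF m l δ (wW m e δ) = 0 := by
  rw [pF_apply]
  simp only [wW, hl]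
  ring

theorem wF_wP (hl : l e = 1) : wF m l δ (wP m e δ) = 0 := by
  rw [wF_apply]
  simp only [wP, map_smul, hl, smul_eq_mul]
  ring

theorem wF_wW (hl : l e = 1) (hδ : 0 < δ) (hδ8 : δ ≤ 1 / 8) : wF m l δ (wW m e δ) = 1 := by
  have h := one_sub_sq hδ hδ8
  rw [wF_apply]
  simp only [wW, hl]
  field_simp

theorem inv_bd (hδ : 0 < δ) (hδ8 : δ ≤ 1 / 8) : 0 < 1 / (1 - δ ^ 2) ∧ 1 / (1 - δ ^ 2) ≤ 2 := by
  have h := one_sub_sq hδ hδ8
  constructor
  · positivity
  · rw [div_le_iff₀ (by linarith)]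
    linarith

theorem pF_le {lam tau q : ℝ} (hδ : 0 < δ) (hδ8 : δ ≤ 1 / 8) (hlam : 0 < lam)
    (htau : 0 < tau) (hdt : δ * tau ≤ lam / 8) {v : WW m D} (hy : ‖v.2.1‖ ≤ tau * q)
    (hz : |v.2.2| ≤ lam * q) (hq : 0 ≤ q) : |pF m l δ v| ≤ 2 * (1 + ‖l‖) * lam * q := by
  obtain ⟨h1, h2⟩ := inv_bd hδ hδ8
  rw [pF_apply, abs_mul, abs_of_pos h1]
  have h3 : |l v.2.1| ≤ ‖l‖ * (tau * q) := by
    calc |l v.2.1| ≤ ‖l‖ * ‖v.2.1‖ := l.le_opNorm _
      _ ≤ ‖l‖ * (tau * q) := by gcongr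
  have h4 : |v.2.2 - δ * l v.2.1| ≤ (1 + ‖l‖) * lam * q := by
    calc |v.2.2 - δ * l v.2.1| ≤ |v.2.2| + |δ * l v.2.1| := abs_sub _ _
      _ = |v.2.2| + δ * |l v.2.1| := by rw [abs_mul, abs_of_pos hδ]
      _ ≤ lam * q + δ * (‖l‖ * (tau * q)) := by gcongr
      _ = lam * q + ‖l‖ * q * (δ * tau) := by ring
      _ ≤ lam * q + ‖l‖ * q * (lam / 8) := by gcongr
      _ ≤ (1 + ‖l‖) * lam * q := by
        have : 0 ≤ ‖l‖ * q * lam := by positivity
        nlinarith
  calc 1 / (1 - δ ^ 2) * |v.2.2 - δ * l v.2.1| ≤ 2 * ((1 + ‖l‖) * lam * q) := by gcongr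
    _ = _ := by ring

theorem wF_le {lam tau q : ℝ} (hδ : 0 < δ) (hδ8 : δ ≤ 1 / 8) (hlam : 0 < lam)
    (htau : 0 < tau) (hdl : δ * lam ≤ tau / 8) {v : WW m D} (hy : ‖v.2.1‖ ≤ tau * q)
    (hz : |v.2.2| ≤ lam * q) (hq : 0 ≤ q) : |wF m l δ v| ≤ 2 * (1 + ‖l‖) * tau * q := by
  obtain ⟨h1, h2⟩ := inv_bd hδ hδ8
  rw [wF_apply, abs_mul, abs_of_pos h1]
  have h3 : |l v.2.1| ≤ ‖l‖ * (tau * q) := by
    calc |l v.2.1| ≤ ‖l‖ * ‖v.2.1‖ := l.le_opNorm _
      _ ≤ ‖l‖ * (tau * q) := by gcongr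
  have h4 : |l v.2.1 - δ * v.2.2| ≤ (1 + ‖l‖) * tau * q := by
    calc |l v.2.1 - δ * v.2.2| ≤ |l v.2.1| + |δ * v.2.2| := abs_sub _ _
      _ = |l v.2.1| + δ * |v.2.2| := by rw [abs_mul, abs_of_pos hδ]
      _ ≤ ‖l‖ * (tau * q) + δ * (lam * q) := by gcongr
      _ = ‖l‖ * (tau * q) + q * (δ * lam) := by ring
      _ ≤ ‖l‖ * (tau * q) + q * (tau / 8) := by gcongr
      _ ≤ (1 + ‖l‖) * tau * q := by
        have : 0 ≤ q * tau := by positivity
        nlinarith
  calc 1 / (1 - δ ^ 2) * |l v.2.1 - δ * v.2.2| ≤ 2 * ((1 + ‖l‖) * tau * q) := by gcongr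
    _ = _ := by ring

end est

set_option maxHeartbeats 1000000 in
/-- the pull-back -/
theorem apx_of (n m D : ℕ) {l : EE D →L[ℝ] ℝ} {e : EE D} (hl : l e = 1)
    {C : Set (WW m D)} {Θ K L2 L3 ρ : ℝ} {nr : ℝ → ℝ → Seminorm ℝ (WW m D)}
    (hK : 1 ≤ K) (hL2 : 1 ≤ L2) (hL3 : 1 ≤ L3) (hΘ : 16 ≤ Θ) (hρ : 0 < ρ)
    (hG : Geo C l e Θ K L2 L3 ρ nr) {k K' C0 : ℝ} (hk : ‖e‖ ≤ k) (hk1 : 1 ≤ k)
    (hK1 : K + 1 ≤ K') (hK2 : L3 * k ≤ K') (hC1 : k ≤ C0) (hC2 : L2 / (ρ / 2) ≤ C0)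
    (hC3 : k / (ρ / 2) ≤ C0) (hC4 : L2 / (ρ / 2) * (2 * K') ≤ C0) (hC5 : 2 * (1 + ‖l‖) ≤ C0)
    {N : ℕ} {ε0 δ : ℝ} (hδ : 0 < δ) (hδN : δ * 4 ^ N ≤ 1 / 8)
    {Ω : Set (EE n)} {u : EE n → ℝ} {A : (EE n × ℝ) ≃ᵃ[ℝ] WW m D} (hS : SOL Ω u)
    (hA : ApxW l e Θ K L2 L3 C0 ρ δ N ε0 nr (A '' epi Ω u)) :
    APX n Θ K' (ρ / 2) C0 N ε0 Ω u (pb A (pF m l δ)) (pb A (wF m l δ)) (pF m l δ (A 0))
      (wF m l δ (A 0)) (A.linear.symm (wP m e δ)) (A.linear.symm (wW m e δ)) (A.symm 0)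
      (fun lam tau => A.linear.symm (est m e lam tau))
      (fun lam tau => A.symm (L3 • est m e lam tau))
      (fun lam tau => pn A (nr lam tau)) := by
  have hδ8 : δ ≤ 1 / 8 := by
    have : (1 : ℝ) ≤ 4 ^ N := one_le_pow₀ (by norm_num)
    nlinarith
  have hC0pos : 0 < C0 := by linarith
  -- basic translations
  have hsymm : ∀ w : WW m D, A.linear (A.linear.symm w) = w := fun w =>
    LinearEquiv.apply_symm_apply _ _
  have hAs : ∀ w : WW m D, A (A.symm w) = w := fun w => A.apply_symm_apply w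
  have hO : ∀ X : VV n, A.linear (X - A.symm 0) = A X := by
    intro X
    rw [A_sub, hAs, sub_zero]
  have hmemA : ∀ {X : VV n}, X ∈ epi Ω u → A X ∈ A '' epi Ω u := fun h => mem_image_of_mem _ h
  have hshift : ∀ (X : VV n) (t : ℝ) (w : WW m D) (v : VV n),
      A (X + t • A.linear.symm w + v) = A X + t • w + A.linear v := by
    intro X t w v
    rw [A_add, A_add, map_smul, hsymm]
  have hQs : ∀ (lam tau : ℝ) (v : VV n), A (A.symm (L3 • est m e lam tau) + v)
      = L3 • est m e lam tau + A.linear v := by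
    intro lam tau v
    rw [A_add, hAs]
  have hest : ∀ lam tau, Grid N lam tau → nr lam tau (est m e lam tau) ≤ k := by
    intro lam tau hg
    obtain ⟨h1, h2⟩ := hg.pos
    refine hG.le_yz lam tau h1 h2 _ _ _ ?_ ?_
    · rw [norm_smul, Real.norm_eq_abs, abs_of_pos h2, mul_comm]
      gcongr
    · rw [abs_of_pos h1]
      nlinarith
  -- definiteness
  have hdef : ∀ lam tau, Grid N lam tau → ∀ v, pn A (nr lam tau) v = 0 → v = 0 := by
    intro lam tau hg v hv
    obtain ⟨h1, h2⟩ := hg.pos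
    have h3 := hG.definite lam tau h1 h2 _ hv
    exact A.linear.map_eq_zero_iff.1 h3
  -- the bound (a)
  have hbdd : ∀ lam tau, Grid N lam tau → ∀ α β : ℝ, 1 ≤ α → α ≤ 2 → 1 ≤ β → β ≤ 2 →
      ∀ X ∈ epi Ω u, α * aff (pb A (pF m l δ)) (pF m l δ (A 0)) X / lam
        + β * aff (pb A (wF m l δ)) (wF m l δ (A 0)) X / tau ≤ Θ →
      pn A (nr lam tau) (X - A.symm 0) ≤ K' ∧ -(ε0 * lam) ≤ aff (pb A (pF m l δ)) (pF m l δ (A 0)) X
        ∧ -(ε0 * tau) ≤ aff (pb A (wF m l δ)) (wF m l δ (A 0)) X := by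
    intro lam tau hg α β h1 h2 h3 h4 X hX hle
    rw [aff_pb, aff_pb] at hle ⊢
    rw [pn_apply, hO]
    obtain ⟨h5, h6, h7⟩ := hA.bdd lam tau hg α β h1 h2 h3 h4 (A X) (hmemA hX) hle
    exact ⟨h5.trans hK1, h6, h7⟩
  -- `Q` is in all the regions
  have hQin : ∀ lam tau, Grid N lam tau → A.symm (L3 • est m e lam tau) ∈ epi Ω u := by
    intro lam tau hg
    have h1 := (hA.Qm lam tau hg 0 (by rw [map_zero]; positivity)).1
    rw [add_zero, ← hAs (L3 • est m e lam tau)] at h1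
    exact (mem_image_iff A).1 h1
  have hQP : ∀ lam tau, Grid N lam tau → 0 ≤ pF m l δ (L3 • est m e lam tau) ∧
      0 ≤ wF m l δ (L3 • est m e lam tau) := by
    intro lam tau hg
    obtain ⟨h1, h2⟩ := hg.pos
    obtain ⟨h3, h4⟩ := hg.dl hδ hδN
    obtain ⟨h5, h6⟩ := inv_bd hδ hδ8
    constructor
    · rw [pF_apply]
      refine mul_nonneg h5.le ?_
      simp only [est, Prod.smul_snd, Prod.smul_fst, map_smul, hl, smul_eq_mul, mul_one]
      nlinarith
    · rw [wF_apply]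
      refine mul_nonneg h5.le ?_
      simp only [est, Prod.smul_snd, Prod.smul_fst, map_smul, hl, smul_eq_mul, mul_one]
      nlinarith
  have hQle : ∀ lam tau, Grid N lam tau → ∀ α β : ℝ, 1 ≤ α → α ≤ 2 → 1 ≤ β → β ≤ 2 →
      α * aff (pb A (pF m l δ)) (pF m l δ (A 0)) (A.symm (L3 • est m e lam tau)) / lam
        + β * aff (pb A (wF m l δ)) (wF m l δ (A 0)) (A.symm (L3 • est m e lam tau)) / tau ≤ Θ := by
    intro lam tau hg α β h1 h2 h3 h4
    obtain ⟨h5, h6⟩ := hg.pos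
    obtain ⟨h7, h8⟩ := hQP lam tau hg
    have h9 := (hA.Qm lam tau hg 0 (by rw [map_zero]; positivity)).2
    rw [add_zero] at h9
    rw [aff_pb, aff_pb, hAs]
    have h10 : α * pF m l δ (L3 • est m e lam tau) / lam
        ≤ 2 * (pF m l δ (L3 • est m e lam tau) / lam) := by
      rw [mul_div_assoc]
      have : 0 ≤ pF m l δ (L3 • est m e lam tau) / lam := by positivity
      gcongr
    have h11 : β * wF m l δ (L3 • est m e lam tau) / tau
        ≤ 2 * (wF m l δ (L3 • est m e lam tau) / tau) := by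
      rw [mul_div_assoc]
      have : 0 ≤ wF m l δ (L3 • est m e lam tau) / tau := by positivity
      gcongr
    linarith
  -- rewriting the affine combination as one functional
  have hcomb : ∀ (lam tau α β : ℝ) (X : VV n),
      α * aff (pb A (pF m l δ)) (pF m l δ (A 0)) X / lam
        + β * aff (pb A (wF m l δ)) (wF m l δ (A 0)) X / tau
      = ((α / lam) • pb A (pF m l δ) + (β / tau) • pb A (wF m l δ)) X
        + (α / lam * pF m l δ (A 0) + β / tau * wF m l δ (A 0)) := by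
    intro lam tau α β X
    unfold aff
    simp only [add_apply, smul_apply, smul_eq_mul]
    ring
  have hup : ∀ lam tau, Grid N lam tau → ∀ α β : ℝ, 1 ≤ α → α ≤ 2 → 1 ≤ β → β ≤ 2 →
      0 < ((α / lam) • pb A (pF m l δ) + (β / tau) • pb A (wF m l δ)) ((0 : EE n), (1 : ℝ)) := by
    intro lam tau hg α β h1 h2 h3 h4
    refine up_of_bdd _ (pn A (nr lam tau)) (hdef lam tau hg) (θ := Θ) (K := K') (O := A.symm 0)
      (Q := A.symm (L3 • est m e lam tau))
      (c := α / lam * pF m l δ (A 0) + β / tau * wF m l δ (A 0)) ?_ (hQin lam tau hg) ?_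
    · intro X hX hle
      rw [← hcomb] at hle
      exact (hbdd lam tau hg α β h1 h2 h3 h4 X hX hle).1
    · rw [← hcomb]
      exact hQle lam tau hg α β h1 h2 h3 h4
  -- depth with a constant `L`
  have hdeep : ∀ (lam tau : ℝ) (w : WW m D) (L : ℝ), (∀ X ∈ A '' epi Ω u,
      pF m l δ X / lam + wF m l δ X / tau ≤ Θ → ∀ v, nr lam tau v ≤ ρ / 2 →
        X + L • w + v ∈ A '' epi Ω u) →
      ∀ X ∈ epi Ω u, aff (pb A (pF m l δ)) (pF m l δ (A 0)) X / lam
        + aff (pb A (wF m l δ)) (wF m l δ (A 0)) X / tau ≤ Θ →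
      ∀ v, pn A (nr lam tau) v ≤ ρ / 2 → X + L • A.linear.symm w + v ∈ epi Ω u := by
    intro lam tau w L hw X hX hle v hv
    rw [aff_pb, aff_pb] at hle
    have h1 := hw (A X) (hmemA hX) hle (A.linear v) hv
    rw [← hshift] at h1
    exact (mem_image_iff A).1 h1
  have hQm : ∀ lam tau, Grid N lam tau → ∀ v, pn A (nr lam tau) v ≤ ρ / 2 →
      A.symm (L3 • est m e lam tau) + v ∈ epi Ω u ∧
      aff (pb A (pF m l δ)) (pF m l δ (A 0)) (A.symm (L3 • est m e lam tau) + v) / lam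
      + aff (pb A (wF m l δ)) (wF m l δ (A 0)) (A.symm (L3 • est m e lam tau) + v) / tau < Θ / 8 := by
    intro lam tau hg v hv
    obtain ⟨h1, h2⟩ := hA.Qm lam tau hg (A.linear v) hv
    rw [aff_pb, aff_pb, hQs]
    refine ⟨?_, h2⟩
    rw [← hQs] at h1
    exact (mem_image_iff A).1 h1
  have hQl : ∀ lam tau, Grid N lam tau →
      pn A (nr lam tau) (A.symm (L3 • est m e lam tau) - A.symm 0) ≤ K' := by
    intro lam tau hg
    rw [pn_apply, hO, hAs, map_smul_eq_mul, Real.norm_eq_abs, abs_of_pos (by linarith)]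
    refine le_trans ?_ hK2
    have := hest lam tau hg
    gcongr
  obtain ⟨SP, hSP, hSP2⟩ := hA.deepP
  obtain ⟨SW, hSW, hSW2⟩ := hA.deepW
  -- the B2 fields
  have hB2 : ∀ lam tau, Grid N lam tau → ∀ x ∈ Ω,
      aff (pb A (pF m l δ)) (pF m l δ (A 0)) (x, u x) / lam
        + aff (pb A (wF m l δ)) (wF m l δ (A 0)) (x, u x) / tau ≤ Θ →
      0 < sg u (A.linear.symm (wP m e δ)) x ∧ 0 < sg u (A.linear.symm (wW m e δ)) x ∧
      0 < sg u (A.linear.symm (est m e lam tau)) x ∧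
      (∀ v, |sg u v x| ≤ C0 * pn A (nr lam tau) v * sg u (A.linear.symm (est m e lam tau)) x) ∧
      sg u (A.linear.symm (est m e lam tau)) x ≤ 2 * (lam * sg u (A.linear.symm (wP m e δ)) x
        + tau * sg u (A.linear.symm (wW m e δ)) x) ∧
      sg u (A.linear.symm (est m e lam tau)) x
        ≤ C0 * sg u (A.symm (L3 • est m e lam tau) - (x, u x)) x ∧
      sg u (A.symm (L3 • est m e lam tau) - (x, u x)) x
        ≤ C0 * sg u (A.linear.symm (est m e lam tau)) x := by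
    intro lam tau hg x hx hle
    obtain ⟨h1, h2⟩ := hg.pos
    have hX : ((x, u x) : VV n) ∈ epi Ω u := ⟨hx, le_rfl⟩
    set ee : VV n := A.linear.symm ((0 : EE m), e, (0 : ℝ)) with hee
    set ez : VV n := A.linear.symm ((0 : EE m), (0 : EE D), (1 : ℝ)) with hez
    have e1 : A.linear.symm (est m e lam tau) = tau • ee + lam • ez := by
      rw [hee, hez, ← map_smul, ← map_smul, ← map_add]
      congr 1
      simp [est]
    have e2 : A.linear.symm (wP m e δ) = ez + δ • ee := by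
      rw [hee, hez, ← map_smul, ← map_add]
      congr 1
      simp [wP]
    have e3 : A.linear.symm (wW m e δ) = ee + δ • ez := by
      rw [hee, hez, ← map_smul, ← map_add]
      congr 1
      simp [wW]
    have b0 : pn A (nr lam tau) ((x, u x) - A.symm 0) ≤ K' := by
      refine (hbdd lam tau hg 1 1 le_rfl (by norm_num) le_rfl (by norm_num) _ hX ?_).1
      rw [one_mul, one_mul]
      exact hle
    have b1 : pn A (nr lam tau) (tau • ee + lam • ez) ≤ k := by
      rw [← e1, pn_apply, hsymm]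
      exact hest lam tau hg
    have b2 := hdeep lam tau (est m e lam tau) L2 (hA.deep2 lam tau hg) _ hX hle
    have b3 := hdeep lam tau (wP m e δ) SP (hSP2 lam tau hg) _ hX hle
    have b4 := hdeep lam tau (wW m e δ) SW (hSW2 lam tau hg) _ hX hle
    rw [e1] at b2
    rw [e2] at b3
    rw [e3] at b4
    rw [e1, e2, e3]
    have hc : 0 < ρ / 2 := by positivity
    have c1 := B2.sg_pos hS.sc hx hSP hc b3
    have c2 := B2.sg_pos hS.sc hx hSW hc b4
    have c3 := B2.sg_pos hS.sc hx (by linarith) hc b2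
    have c4 := B2.V_ge hS.sc hx hc (by linarith) b1 (fun v hv => (hQm lam tau hg v hv).1)
    have c5 := B2.V_le' hS.sc hx (by linarith) hc b2 (hQl lam tau hg) b0
    have c6 : 0 < sg u (A.symm (L3 • est m e lam tau) - (x, u x)) x := by
      have h7 := lt_of_lt_of_le c3 c4
      exact pos_of_mul_pos_right h7 (by positivity)
    refine ⟨c1, c2, c3, fun v => B2.sg_le' hS.sc hx (by linarith) hc hC2 b2 v,
      B2.es_sg_le h1.le h2.le hδ.le (by linarith) c1.le c2.le, c4.trans ?_, c5.trans ?_⟩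
    · exact mul_le_mul_of_nonneg_right hC3 c6.le
    · exact mul_le_mul_of_nonneg_right hC4 c3.le
  refine ⟨hΘ, by linarith, by positivity, by linarith, hS, ?_, ?_, ?_, ?_, hdef, ?_, ?_, ?_, ?_, ?_,
    hbdd, ?_, ?_, ?_, hQm, hQl, ?_, ?_, ?_, ?_, ?_, ?_, ?_⟩
  · rw [pb_apply, hsymm, pF_wP hl hδ hδ8]
  · rw [pb_apply, hsymm, pF_wW hl]
  · rw [pb_apply, hsymm, wF_wP hl]
  · rw [pb_apply, hsymm, wF_wW hl hδ hδ8]
  · intro lam tau hg
    rw [pn_apply, hsymm]
    exact (hest lam tau hg).trans hC1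
  · -- eP_le
    intro lam tau hg
    obtain ⟨h1, h2⟩ := hg.pos
    obtain ⟨h3, h4⟩ := hg.dl hδ hδN
    rw [pn_apply, map_smul, hsymm]
    refine le_trans ?_ hC1
    have e1 : lam • wP m e δ = ((0 : EE m), (lam * δ) • e, lam) := by
      simp [wP, smul_smul]
    rw [e1]
    refine hG.le_yz lam tau h1 h2 _ _ _ ?_ ?_
    · rw [norm_smul, Real.norm_eq_abs, abs_of_pos (by positivity)]
      calc lam * δ * ‖e‖ ≤ tau * k := by
            have : lam * δ ≤ tau := by nlinarith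
            gcongr
        _ = k * tau := by ring
    · rw [abs_of_pos h1]
      nlinarith
  · -- eW_le
    intro lam tau hg
    obtain ⟨h1, h2⟩ := hg.pos
    obtain ⟨h3, h4⟩ := hg.dl hδ hδN
    rw [pn_apply, map_smul, hsymm]
    refine le_trans ?_ hC1
    have e1 : tau • wW m e δ = ((0 : EE m), tau • e, tau * δ) := by
      simp [wW]
    rw [e1]
    refine hG.le_yz lam tau h1 h2 _ _ _ ?_ ?_
    · rw [norm_smul, Real.norm_eq_abs, abs_of_pos h2, mul_comm]
      gcongr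
    · rw [abs_of_pos (by positivity)]
      nlinarith
  · -- P0_le
    intro lam tau hg v
    obtain ⟨h1, h2⟩ := hg.pos
    obtain ⟨h3, h4⟩ := hg.dl hδ hδN
    rw [pb_apply, pn_apply]
    have hq : 0 ≤ nr lam tau (A.linear v) := apply_nonneg _ _
    refine (pF_le hδ hδ8 h1 h2 h4 (hG.y_le lam tau h1 h2 _) (hG.z_le lam tau h1 h2 _) hq).trans ?_
    gcongr
  · -- W0_le
    intro lam tau hg v
    obtain ⟨h1, h2⟩ := hg.pos
    obtain ⟨h3, h4⟩ := hg.dl hδ hδN
    rw [pb_apply, pn_apply]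
    have hq : 0 ≤ nr lam tau (A.linear v) := apply_nonneg _ _
    refine (wF_le hδ hδ8 h1 h2 h3 (hG.y_le lam tau h1 h2 _) (hG.z_le lam tau h1 h2 _) hq).trans ?_
    gcongr
  · -- cpt
    intro lam tau hg α β h1 h2 h3 h4 θ hθ
    have h5 := cpt_of_bdd hS ((α / lam) • pb A (pF m l δ) + (β / tau) • pb A (wF m l δ))
      (c := α / lam * pF m l δ (A 0) + β / tau * wF m l δ (A 0)) (θ := θ) (K := K')
      (pn A (nr lam tau)) (hdef lam tau hg) (O := A.symm 0) (fun X hX hle => by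
        rw [← hcomb] at hle
        exact (hbdd lam tau hg α β h1 h2 h3 h4 X hX (hle.trans hθ)).1)
      (hup lam tau hg α β h1 h2 h3 h4)
    simp only [hcomb]
    exact h5
  · -- up
    intro lam tau hg α β h1 h2 h3 h4
    have h5 := hup lam tau hg α β h1 h2 h3 h4
    simp only [add_apply, smul_apply, smul_eq_mul] at h5
    have e1 : α * pb A (pF m l δ) ((0 : EE n), (1 : ℝ)) / lam
        + β * pb A (wF m l δ) ((0 : EE n), (1 : ℝ)) / tau
        = α / lam * pb A (pF m l δ) ((0 : EE n), (1 : ℝ))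
          + β / tau * pb A (wF m l δ) ((0 : EE n), (1 : ℝ)) := by ring
    rw [e1]
    exact h5
  · -- deep
    intro lam tau hg X hX hle v hv
    exact hdeep lam tau (est m e lam tau) C0 (hA.deepL lam tau hg) X hX hle v hv
  · exact fun lam tau hg x hx hle => (hB2 lam tau hg x hx hle).1
  · exact fun lam tau hg x hx hle => (hB2 lam tau hg x hx hle).2.1
  · exact fun lam tau hg x hx hle => (hB2 lam tau hg x hx hle).2.2.1
  · exact fun lam tau hg x hx hle => (hB2 lam tau hg x hx hle).2.2.2.1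
  · exact fun lam tau hg x hx hle => (hB2 lam tau hg x hx hle).2.2.2.2.1
  · exact fun lam tau hg x hx hle => (hB2 lam tau hg x hx hle).2.2.2.2.2.1
  · exact fun lam tau hg x hx hle => (hB2 lam tau hg x hx hle).2.2.2.2.2.2

/-- `ApxStmt` from B0 (`GeoStmt`) and B1 (`ApxWStmt`) -/
theorem apx_of_stmts (hGeo : GeoStmt) (hApx : ApxWStmt) : ApxStmt := by
  intro n _ hstr
  obtain ⟨m, D, C, R, l, e, c0, L, c, hI⟩ := hstr
  obtain ⟨L3, hL3, hG⟩ := hGeo n m D C R l e c0 L c hI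
  have hL := hI.L_ge
  set Θ : ℝ := 18 * (L3 + 2) + L with hΘ
  have hln : (0 : ℝ) ≤ ‖l‖ := norm_nonneg _
  obtain ⟨K, L2, ρ, hK, hL2, hρ, hρ1, nr, hgeo⟩ := hG Θ (by linarith) (by linarith)
    (1 / (1 + ‖l‖)) (by positivity)
  have hρ2 : ρ * (1 + ‖l‖) ≤ 1 := by
    rwa [le_div_iff₀ (by positivity)] at hρ1
  have hρle : ρ ≤ 1 := by nlinarith
  have hρl : ρ * ‖l‖ ≤ 1 := by nlinarith
  set k : ℝ := ‖e‖ + 1 with hk
  have hen : (0 : ℝ) ≤ ‖e‖ := norm_nonneg _
  set K' : ℝ := K + 1 + L3 * k with hK'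
  have hK'pos : 0 < K' := by positivity
  set C0 : ℝ := k + L2 / (ρ / 2) + k / (ρ / 2) + L2 / (ρ / 2) * (2 * K') + 2 * (1 + ‖l‖) + L2
    with hC0
  have p1 : 0 < L2 / (ρ / 2) := by positivity
  have p2 : 0 < k / (ρ / 2) := by positivity
  have p3 : 0 < L2 / (ρ / 2) * (2 * K') := by positivity
  have p4 : 0 < 2 * (1 + ‖l‖) := by positivity
  have p5 : 0 < k := by positivity
  refine ⟨Θ, K', ρ / 2, C0, by linarith, hK'pos, by positivity, by linarith, ?_⟩
  intro N ε0 hε0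
  obtain ⟨δ, hδ, hδN, Ω, u, A, hS, hA⟩ := hApx n m D C R l e c0 L c hI Θ K L2 L3 ρ nr hK hL2 hL3
    (by linarith) hρ hρle hρl hgeo C0 (by linarith) N ε0 hε0
  exact ⟨Ω, u, _, _, _, _, _, _, _, _, _, _, apx_of n m D hI.cone.l_e hK hL2 hL3 (by linarith) hρ hgeo
    (k := k) (K' := K') (C0 := C0) (by linarith) (by linarith) (by nlinarith) (by linarith)
    (by linarith) (by linarith) (by linarith) (by linarith) (by linarith) hδ hδN hS hA⟩

end Crest.Agent.R236.B
end
end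

-- ▼ part R236/Jcp6

/-!
# Row 236, JCP (helper633), part 6: the cubic estimate at the maximum point.
-/

set_option autoImplicit false
set_option synthInstance.maxHeartbeats 400000
set_option synthInstance.maxSize 2000
set_option maxSynthPendingDepth 6
set_option maxHeartbeats 1000000

open Filter Topology Set
open scoped Matrix ContDiff
open Crest.GeometryTopology.CoordMetric Crest.GeometryTopology.AffineMaximal

noncomputable section

namespace Crest.Agent.R236.Jcp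

/-- one-variable test for the cubic quantity -/
theorem cubic_test {H C η : ℝ → ℝ} {H1 H2 a C1 C2 η0 η1 η2 : ℝ} (hη : 0 < η0) (ha : 0 < a)
    (jH : J2 H 1 H1 H2) (jC : J2 C a C1 C2) (jη : J2 η η0 η1 η2)
    (hmin : ∀ᶠ s in 𝓝 (0 : ℝ), C s ^ 2 * η s ^ 2 ≤ a ^ 2 * η0 ^ 2 * H s ^ 3) :
    3 * a * η0 * H1 - 2 * C1 * η0 - 2 * a * η1 = 0 ∧
    0 ≤ a ^ 2 * η0 ^ 2 * (6 * H1 ^ 2 + 3 * H2) - ((2 * C1 ^ 2 + 2 * a * C2) * η0 ^ 2
      + 8 * a * C1 * η0 * η1 + a ^ 2 * (2 * η1 ^ 2 + 2 * η0 * η2)) := by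
  have j := (((jH.mul jH).mul jH).const_mul (a ^ 2 * η0 ^ 2)).sub ((jC.mul jC).mul (jη.mul jη))
  have hm : ∀ᶠ s in 𝓝 (0 : ℝ), (fun s => a ^ 2 * η0 ^ 2 * (H s * H s * H s) -
      C s * C s * (η s * η s)) 0 ≤ (fun s => a ^ 2 * η0 ^ 2 * (H s * H s * H s) -
      C s * C s * (η s * η s)) s := by
    filter_upwards [hmin] with s hs
    simp only [jH.val, jC.val, jη.val]
    nlinarith [hs]
  obtain ⟨h1, h2⟩ := j.min hm
  constructor
  · have : a * η0 * (3 * a * η0 * H1 - 2 * C1 * η0 - 2 * a * η1) = 0 := by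
      refine Eq.trans ?_ h1
      ring
    rcases mul_eq_zero.1 this with h | h
    · exfalso
      have : 0 < a * η0 := by positivity
      linarith
    · exact h
  · refine h2.trans (le_of_eq ?_)
    ring

variable {n : ℕ} {Ω : Set (EuclideanSpace ℝ (Fin n))} {u : EuclideanSpace ℝ (Fin n) → ℝ}

/-- Cauchy–Schwarz -/
theorem cs_F2 (h : SC Ω u) {x : EuclideanSpace ℝ (Fin n)} (hx : x ∈ Ω)
    {e : EuclideanSpace ℝ (Fin n)} (he : F2 u x e e = 1) (y : EuclideanSpace ℝ (Fin n)) :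
    F2 u x e y ^ 2 ≤ F2 u x y y := by
  have hs := sm_of h
  have h1 : 0 ≤ F2 u x (y - F2 u x e y • e) (y - F2 u x e y • e) := by
    rcases eq_or_ne (y - F2 u x e y • e) 0 with h0 | h0
    · rw [h0]; simp
    · exact (F2_pos h hx h0).le
  simp only [map_sub, map_smul, sub_apply, smul_apply, smul_eq_mul, he, hs.s2 hx y e] at h1
  linarith [h1]

theorem cubic_core (n : ℕ) : CubicCore n := by
  intro Ω u h c hdet x hx l κ G hη e he ha hgrad hmax
  have hs := sm_of h
  obtain ⟨m, rfl⟩ : ∃ m, n = m + 1 := by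
    rcases n with _ | m
    · exfalso
      have : e = 0 := Subsingleton.elim _ _
      simp [this] at he
    · exact ⟨m, rfl⟩
  set a := F3 u x e e e with hadef
  set η0 := κ + l x - u x with hη0
  have test : ∀ w t : EuclideanSpace ℝ (Fin (m + 1)),
      3 * a * η0 * (F3 u x e e w + 2 * F2 u x e t) - 2 * (F4 u x e e e w + 3 * F3 u x e e t) * η0
        - 2 * a * (l w - F1 u x w) = 0 ∧
      0 ≤ a ^ 2 * η0 ^ 2 * (6 * (F3 u x e e w + 2 * F2 u x e t) ^ 2 +
          3 * (F4 u x e e w w + 4 * F3 u x e w t + 2 * F2 u x t t))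
        - ((2 * (F4 u x e e e w + 3 * F3 u x e e t) ^ 2 + 2 * a *
            (fderiv ℝ (fun y => F4 u y e e w w) x e + 6 * F4 u x e e w t + 6 * F3 u x e t t))
              * η0 ^ 2
          + 8 * a * (F4 u x e e e w + 3 * F3 u x e e t) * η0 * (l w - F1 u x w)
          + a ^ 2 * (2 * (l w - F1 u x w) ^ 2 + 2 * η0 * (- F2 u x w w))) := by
    intro w t
    have jH := (hs.jh hx w e t).congr_val he rfl rfl
    have jl : ∀ a b : EuclideanSpace ℝ (Fin (m + 1)),
        J2 (fun s : ℝ => l (a + s • b)) (l a) (l b) 0 := by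
      intro a b
      refine ((J2.const l).clm_apply (J2.affine a b)).congr_val rfl ?_ ?_
      · simp
      · simp
    have jC := hs.jC hx w e t
    have jη : J2 (fun s : ℝ => κ + l (x + s • w) - u (x + s • w)) η0 (l w - F1 u x w)
        (- F2 u x w w) :=
      (((J2.const κ).add (jl x w)).sub (hs.ju hx w)).congr_val rfl (by ring) (by ring)
    have hpos : ∀ᶠ s : ℝ in 𝓝 0, 0 < κ + l (x + s • w) - u (x + s • w) := by
      have hc : ContinuousAt (fun s : ℝ => κ + l (x + s • w) - u (x + s • w)) 0 :=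
        jη.hasDerivAt.continuousAt
      refine hc.eventually (lt_mem_nhds ?_)
      show 0 < κ + l (x + (0 : ℝ) • w) - u (x + (0 : ℝ) • w)
      rw [zero_smul, add_zero]
      exact hη
    refine cubic_test hη ha jH jC jη ?_
    filter_upwards [hs.near hx w, hpos] with s h1 h2
    exact hmax _ h1 h2.le _
  -- direction tests
  have hdir1 : ∀ y, F3 u x e e y = a * F2 u x e y := by
    intro y
    have := (test 0 y).1
    simp only [map_zero, sub_zero, zero_add, mul_zero] at this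
    have h2 : (6 * η0) * (a * F2 u x e y - F3 u x e e y) = 0 := by linarith
    rcases mul_eq_zero.1 h2 with h3 | h3
    · exfalso; linarith
    · linarith
  have hdir2 : ∀ y, F3 u x e y y ≤ a * F2 u x y y := by
    intro y
    have h1 := (test 0 y).2
    have h0 : fderiv ℝ (fun y => F4 u y e e 0 0) x e = 0 := by
      have : (fun y => F4 u y e e 0 0) = fun _ : EuclideanSpace ℝ (Fin (m + 1)) => (0 : ℝ) := by
        funext y
        simp only [map_zero]
      rw [this]; simp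
    have z1 : F4 u x e e (0 : EuclideanSpace ℝ (Fin (m + 1))) = 0 := map_zero _
    have z2 : F3 u x e (0 : EuclideanSpace ℝ (Fin (m + 1))) = 0 := map_zero _
    rw [h0, hdir1 y, z1, z2] at h1
    simp only [map_zero, zero_apply, sub_zero, zero_add, mul_zero, add_zero] at h1
    have h2 := cs_F2 h hx he y
    have h3 : 0 ≤ (12 * a * η0 ^ 2) * (a / 2 * (F2 u x y y + F2 u x e y ^ 2) - F3 u x e y y) := by
      refine h1.trans (le_of_eq ?_)
      ring
    have h4 := nonneg_of_mul_nonneg_right h3 (by positivity)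
    have h5 := mul_le_mul_of_nonneg_left h2 ha.le
    linarith
  obtain ⟨w, hw0, hon⟩ := exists_ON h hx (0 : Fin (m + 1)) he
  obtain ⟨i1, i2, i3⟩ := identities h hdet hx hon e
  set A : Fin (m + 1) → Fin (m + 1) → ℝ := fun i j => F3 u x e (w i) (w j) with hA
  have hAs : ∀ i j, A i j = A j i := fun i j => hs.s3b hx e (w i) (w j)
  set t : Fin (m + 1) → EuclideanSpace ℝ (Fin (m + 1)) := fun i => -((1 / 2 : ℝ) • ∑ j, A i j • w j)
    with ht
  have hewi : ∀ i, F2 u x e (w i) = if i = 0 then 1 else 0 := by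
    intro i
    rw [← hw0, hon 0 i]
    simp only [eq_comm]
  have q1 : ∀ i k, F2 u x (w k) (t i) = - (1 / 2) * A i k := by
    intro i k
    simp only [ht, map_neg, map_sum, map_smul, smul_eq_mul, hon k]
    simp
  have q2 : ∀ i, F2 u x e (t i) = - (1 / 2) * A i 0 := by
    intro i
    have := q1 i 0
    rwa [hw0] at this
  have q3 : ∀ i, F2 u x (t i) (t i) = (1 / 4) * ∑ j, A i j ^ 2 := by
    intro i
    have : F2 u x (t i) (t i) = F2 u x (-((1 / 2 : ℝ) • ∑ j, A i j • w j)) (t i) := rfl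
    rw [this]
    simp only [map_neg, map_sum, map_smul, neg_apply, sum_apply, smul_apply, smul_eq_mul, q1]
    rw [Finset.mul_sum, Finset.mul_sum, ← Finset.sum_neg_distrib]
    refine Finset.sum_congr rfl fun j _ => by ring
  have q4 : ∀ i, F3 u x e (w i) (t i) = - (1 / 2) * ∑ j, A i j ^ 2 := by
    intro i
    simp only [ht, map_neg, map_sum, map_smul, smul_eq_mul]
    rw [Finset.mul_sum, Finset.mul_sum, ← Finset.sum_neg_distrib]
    refine Finset.sum_congr rfl fun j _ => ?_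
    simp only [hA]; ring
  have q5 : ∀ i, F3 u x e e (w i) = A i 0 := by
    intro i
    rw [hAs]
    simp only [hA, hw0]
  have q8 : ∀ i, F2 u x (w i) (w i) = 1 := fun i => by rw [hon i i, if_pos rfl]
  have q9 : ∀ i, F4 u x e e (w i) (t i) = - (1 / 2) * ∑ j, A i j * F4 u x e e (w i) (w j) := by
    intro i
    simp only [ht, map_neg, map_sum, map_smul, smul_eq_mul]
    ring
  have q10 : ∀ i, F3 u x e (t i) (t i) = (1 / 4) * ∑ j, ∑ k, A i j * A i k * A j k := by
    intro i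
    have e1 : ∀ j, F3 u x e (w j) (t i) = - (1 / 2) * ∑ k, A i k * A j k := by
      intro j
      simp only [ht, map_neg, map_sum, map_smul, smul_eq_mul]
      ring
    have : F3 u x e (t i) (t i) = F3 u x e (-((1 / 2 : ℝ) • ∑ j, A i j • w j)) (t i) := rfl
    rw [this]
    simp only [map_neg, map_sum, map_smul, neg_apply, sum_apply, smul_apply, smul_eq_mul, e1]
    rw [Finset.mul_sum, Finset.mul_sum, ← Finset.sum_neg_distrib]
    refine Finset.sum_congr rfl fun j _ => ?_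
    have : ∑ k, A i j * A i k * A j k = A i j * ∑ k, A i k * A j k := by
      rw [Finset.mul_sum]
      exact Finset.sum_congr rfl fun k _ => by ring
    rw [this]
    ring
  -- first order
  have fo : ∀ i, (F4 u x e e e (w i) + 3 * F3 u x e e (t i)) * η0 = - a * (l (w i) - F1 u x (w i)) := by
    intro i
    have := (test (w i) (t i)).1
    rw [q5, q2] at this
    linarith
  -- second order
  have so : ∀ i, 0 ≤ 3 * a ^ 2 * η0 ^ 2 * (F4 u x e e (w i) (w i) - 3 / 2 * ∑ j, A i j ^ 2)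
      + 4 * a ^ 2 * (l (w i) - F1 u x (w i)) ^ 2
      - 2 * a * η0 ^ 2 * (fderiv ℝ (fun y => F4 u y e e (w i) (w i)) x e
        - 3 * ∑ j, A i j * F4 u x e e (w i) (w j)
        + 3 / 2 * ∑ j, ∑ k, A i j * A i k * A j k) + 2 * a ^ 2 * η0 := by
    intro i
    have h1 := (test (w i) (t i)).2
    have h2 := fo i
    rw [q5, q2, q4, q3, q8, q9, q10] at h1
    set C1 := F4 u x e e e (w i) + 3 * F3 u x e e (t i) with hC1
    set E1 := l (w i) - F1 u x (w i) with hE1
    have h3 : (2 * C1 ^ 2) * η0 ^ 2 = 2 * a ^ 2 * E1 ^ 2 := by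
      have : (2 * C1 ^ 2) * η0 ^ 2 = 2 * (C1 * η0) ^ 2 := by ring
      rw [this, h2]; ring
    have h4 : 8 * a * C1 * η0 * E1 = - 8 * a ^ 2 * E1 ^ 2 := by
      have : 8 * a * C1 * η0 * E1 = 8 * a * (C1 * η0) * E1 := by ring
      rw [this, h2]; ring
    rw [h4, add_mul, h3] at h1
    refine h1.trans (le_of_eq ?_)
    ring
  have hsum := Finset.sum_nonneg fun i (_ : i ∈ (Finset.univ : Finset (Fin (m + 1)))) => so i
  set Q := ∑ i, ∑ j, A i j ^ 2 with hQ
  set R := ∑ i, ∑ j, ∑ k, A i j * A i k * A j k with hR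
  set Sg := ∑ i, (l (w i) - F1 u x (w i)) ^ 2 with hSg
  have hsum2 : 0 ≤ 3 * a ^ 2 * η0 ^ 2 * (- (1 / 2) * Q) + 4 * a ^ 2 * Sg
      + a * η0 ^ 2 * R + 2 * a ^ 2 * (m + 1) * η0 := by
    refine hsum.trans (le_of_eq ?_)
    rw [Finset.sum_add_distrib, Finset.sum_sub_distrib, Finset.sum_add_distrib, ← Finset.mul_sum,
      Finset.sum_sub_distrib, ← Finset.mul_sum, ← Finset.mul_sum, ← Finset.mul_sum,
      Finset.sum_add_distrib, Finset.sum_sub_distrib, ← Finset.mul_sum, ← Finset.mul_sum, i2, i3]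
    simp only [Finset.sum_const, Finset.card_univ, Fintype.card_fin, nsmul_eq_mul]
    push_cast
    rw [← hQ, ← hR, ← hSg]
    ring
  -- `R ≤ a Q`
  have hRQ : R ≤ a * Q := by
    have e1 : R = ∑ i, 4 * F3 u x e (t i) (t i) := by
      rw [hR]
      refine Finset.sum_congr rfl fun i _ => ?_
      rw [q10]; ring
    have e2 : a * Q = ∑ i, 4 * (a * F2 u x (t i) (t i)) := by
      rw [hQ, Finset.mul_sum]
      refine Finset.sum_congr rfl fun i _ => ?_
      rw [q3]; ring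
    rw [e1, e2]
    refine Finset.sum_le_sum fun i _ => ?_
    linarith [hdir2 (t i)]
  -- `a² ≤ Q`
  have hQa : a ^ 2 ≤ Q := by
    have e1 : A 0 0 = a := by simp only [hA, hw0]; rfl
    rw [← e1]
    calc A 0 0 ^ 2 ≤ ∑ j, A 0 j ^ 2 :=
          Finset.single_le_sum (f := fun j => A 0 j ^ 2) (fun j _ => sq_nonneg _)
            (Finset.mem_univ 0)
      _ ≤ Q := Finset.single_le_sum (f := fun i => ∑ j, A i j ^ 2)
            (fun i _ => Finset.sum_nonneg fun j _ => sq_nonneg _) (Finset.mem_univ 0)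
  -- `Sg ≤ G`
  have hG0 : 0 ≤ G := by
    have := hgrad e
    rw [he, mul_one] at this
    exact (sq_nonneg _).trans this
  have hSgG : Sg ≤ G := by
    set y := ∑ i, (l (w i) - F1 u x (w i)) • w i with hy
    have e1 : F1 u x y - l y = - Sg := by
      simp only [hy, map_sum, map_smul, smul_eq_mul]
      rw [← Finset.sum_sub_distrib, hSg, ← Finset.sum_neg_distrib]
      exact Finset.sum_congr rfl fun i _ => by ring
    have e2 : ∀ k, F2 u x (w k) y = l (w k) - F1 u x (w k) := by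
      intro k
      simp only [hy, map_sum, map_smul, smul_eq_mul, hon k]
      simp
    have e3 : F2 u x y y = Sg := by
      have : F2 u x y y = F2 u x (∑ i, (l (w i) - F1 u x (w i)) • w i) y := rfl
      rw [this]
      simp only [map_sum, map_smul, sum_apply, smul_apply, smul_eq_mul, e2]
      rw [hSg]
      exact Finset.sum_congr rfl fun i _ => by ring
    have h1 := hgrad y
    rw [e1, e3] at h1
    have hSg0 : 0 ≤ Sg := Finset.sum_nonneg fun i _ => sq_nonneg _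
    rcases hSg0.eq_or_lt with h0 | h0
    · rw [← h0]; exact hG0
    · have : Sg * Sg ≤ G * Sg := by linarith [h1]
      exact le_of_mul_le_mul_right this h0
  -- conclusion
  have hfin : 0 ≤ a ^ 2 * (- (1 / 2) * η0 ^ 2 * Q + 4 * G + 2 * (m + 1) * η0) := by
    have k1 : a * η0 ^ 2 * R ≤ a * η0 ^ 2 * (a * Q) := mul_le_mul_of_nonneg_left hRQ (by positivity)
    have k2 : 4 * a ^ 2 * Sg ≤ 4 * a ^ 2 * G := mul_le_mul_of_nonneg_left hSgG (by positivity)
    linarith [hsum2, k1, k2]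
  have hfin2 := nonneg_of_mul_nonneg_right hfin (by positivity)
  have hfin3 : η0 ^ 2 * a ^ 2 ≤ η0 ^ 2 * Q := mul_le_mul_of_nonneg_left hQa (by positivity)
  push_cast
  linarith [hfin2, hfin3]

end Crest.Agent.R236.Jcp
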