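import Mathlib
import Crest.Prelude.Def_AffineMaximal
import Crest.Agent.R236.P1
import Crest.Agent.R236.SecPre
import Crest.Agent.R236.AAuer
import Crest.Agent.R236.CalcA

-- ▼ part R236/Inv
section

/-! Row 236: affine invariance of the affine maximal equation (helper183).

For a linear isomorphism `L`, `b`, `c > 0`, a linear form `ℓ` and `d`, put
`aff L b c ℓ d u = fun y => c * u (L y + b) + ℓ y + d`. -/

set_option autoImplicit false
open scoped ContDiff Topology Matrix
open Crest.GeometryTopology.CoordMetric Crest.GeometryTopology.AffineMaximal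
open Set Filter

noncomputable section

namespace Crest.Agent.R236.Inv

variable {n : ℕ}

lemma two_le : (2 : WithTop ℕ∞) ≤ ∞ := by
  exact ENat.LEInfty.out

local notation "E" n => EuclideanSpace ℝ (Fin n)

/-- matrix of a linear map in the standard basis: `mat L k j = (L e_j)_k`. -/
def mat (L : (E n) →L[ℝ] (E n)) : Matrix (Fin n) (Fin n) ℝ :=
  fun k j => L (EuclideanSpace.single j 1) k


lemma apply_eq (L : (E n) →L[ℝ] (E n)) (v : E n) (k : Fin n) :
    L v k = ∑ j, mat L k j * v j := by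
  conv_lhs => rw [← sum_single v]
  rw [map_sum]
  simp only [map_smul, mat]
  simp [mul_comm]

lemma mat_comp (L L' : (E n) →L[ℝ] (E n)) : mat (L.comp L') = mat L * mat L' := by
  ext k j
  rw [Matrix.mul_apply]
  show L (L' (EuclideanSpace.single j 1)) k = _
  rw [apply_eq]
  rfl

lemma mat_id : mat (ContinuousLinearMap.id ℝ (E n)) = 1 := by
  ext k j
  simp [mat, Matrix.one_apply]

lemma mat_mul_symm (L : (E n) ≃L[ℝ] (E n)) :
    mat (L : (E n) →L[ℝ] (E n)) * mat (L.symm : (E n) →L[ℝ] (E n)) = 1 := by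
  rw [← mat_comp, ← mat_id]
  congr 1
  ext v
  simp

lemma mat_symm_mul (L : (E n) ≃L[ℝ] (E n)) :
    mat (L.symm : (E n) →L[ℝ] (E n)) * mat (L : (E n) →L[ℝ] (E n)) = 1 := by
  rw [← mat_comp, ← mat_id]
  congr 1
  ext v
  simp

lemma isUnit_mat (L : (E n) ≃L[ℝ] (E n)) : IsUnit (mat (L : (E n) →L[ℝ] (E n))) :=
  ⟨⟨_, _, mat_mul_symm L, mat_symm_mul L⟩, rfl⟩

lemma det_mat_ne_zero (L : (E n) ≃L[ℝ] (E n)) : (mat (L : (E n) →L[ℝ] (E n))).det ≠ 0 := by
  have := (Matrix.isUnit_iff_isUnit_det _).1 (isUnit_mat L)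
  exact this.ne_zero


/-- affine change of the variable, scaling and adding an affine function -/
def aff (L : (E n) ≃L[ℝ] (E n)) (b : E n) (c : ℝ) (ℓ : (E n) →L[ℝ] ℝ) (d : ℝ) (u : (E n) → ℝ) :
    (E n) → ℝ := fun y => c * u (L y + b) + ℓ y + d

variable (L : (E n) ≃L[ℝ] (E n)) (b : E n) (c : ℝ) (ℓ : (E n) →L[ℝ] ℝ) (d : ℝ)
  {u : (E n) → ℝ} {y : E n}

lemma hasFDerivAt_map (y : E n) :
    HasFDerivAt (fun y => L y + b) (L : (E n) →L[ℝ] (E n)) y :=
  (L.hasFDerivAt).add_const b

lemma contDiff_map : ContDiff ℝ ∞ (fun y => L y + b) :=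
  L.contDiff.add contDiff_const

/-- first derivative -/
lemma hasFDerivAt_aff (hd : DifferentiableAt ℝ u (L y + b)) :
    HasFDerivAt (aff L b c ℓ d u)
      (c • (fderiv ℝ u (L y + b)).comp (L : (E n) →L[ℝ] (E n)) + ℓ) y := by
  have h1 := hd.hasFDerivAt.comp y (hasFDerivAt_map L b y)
  exact ((h1.const_mul c).add ℓ.hasFDerivAt).add_const d

lemma fderiv_aff (hd : DifferentiableAt ℝ u (L y + b)) :
    fderiv ℝ (aff L b c ℓ d u) y =
      c • (fderiv ℝ u (L y + b)).comp (L : (E n) →L[ℝ] (E n)) + ℓ :=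
  (hasFDerivAt_aff L b c ℓ d hd).fderiv

/-- eventually differentiable -/
lemma eventually_diff (hu : ContDiffAt ℝ 2 u (L y + b)) :
    ∀ᶠ z in 𝓝 y, DifferentiableAt ℝ u (L z + b) := by
  have h1 : ∀ᶠ x in 𝓝 (L y + b), DifferentiableAt ℝ u x := by
    filter_upwards [hu.eventually (by simp)] with x hx
    exact hx.differentiableAt (by simp)
  exact (hasFDerivAt_map L b y).continuousAt.eventually h1

lemma diff_fderiv (hu : ContDiffAt ℝ 2 u (L y + b)) : DifferentiableAt ℝ (fderiv ℝ u) (L y + b) :=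
  (hu.fderiv_right (m := 1) (by norm_num)).differentiableAt (by simp)

/-- second derivative -/
lemma hasFDerivAt_fderiv_aff (hu : ContDiffAt ℝ 2 u (L y + b)) (w : E n) :
    HasFDerivAt (fun z => fderiv ℝ (aff L b c ℓ d u) z w)
      (c • ((fderiv ℝ (fderiv ℝ u) (L y + b)).flip (L w)).comp (L : (E n) →L[ℝ] (E n))) y := by
  have h0 : (fun z => fderiv ℝ (aff L b c ℓ d u) z w) =ᶠ[𝓝 y]
      fun z => c * (fderiv ℝ u (L z + b)) (L w) + ℓ w := by
    filter_upwards [eventually_diff L b hu] with z hz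
    rw [fderiv_aff L b c ℓ d hz]
    simp
  refine HasFDerivAt.congr_of_eventuallyEq ?_ h0
  have h1 : HasFDerivAt (fun x => fderiv ℝ u x (L w)) ((fderiv ℝ (fderiv ℝ u) (L y + b)).flip (L w))
      (L y + b) := by
    have := (diff_fderiv L b hu).hasFDerivAt.clm_apply
      (hasFDerivAt_const (L w) (L y + b))
    refine this.congr_fderiv ?_
    ext z
    simp
  have h2 := h1.comp y (hasFDerivAt_map L b y)
  exact (h2.const_mul c).add_const _

theorem hessianMat_aff (hu : ContDiffAt ℝ 2 u (L y + b)) :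
    hessianMat (aff L b c ℓ d u) y =
      c • ((mat (L : (E n) →L[ℝ] (E n)))ᵀ * hessianMat u (L y + b) *
        mat (L : (E n) →L[ℝ] (E n))) := by
  ext i j
  show fderiv ℝ (fun z => fderiv ℝ (aff L b c ℓ d u) z (EuclideanSpace.single j 1)) y
    (EuclideanSpace.single i 1) = _
  rw [(hasFDerivAt_fderiv_aff L b c ℓ d hu (EuclideanSpace.single j 1)).fderiv]
  simp only [smul_apply, ContinuousLinearMap.comp_apply,
    ContinuousLinearMap.flip_apply, smul_eq_mul, Matrix.smul_apply,
    ContinuousLinearEquiv.coe_coe]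
  congr 1
  rw [fderiv2_eq (diff_fderiv L b hu)]
  simp only [Matrix.mul_apply, Matrix.transpose_apply, Finset.sum_mul]
  rw [Finset.sum_comm]
  refine Finset.sum_congr rfl fun k _ => Finset.sum_congr rfl fun l _ => ?_
  simp only [mat, ContinuousLinearEquiv.coe_coe]
  ring

/-- determinant of the transformed Hessian -/
theorem det_hessianMat_aff (hu : ContDiffAt ℝ 2 u (L y + b)) :
    (hessianMat (aff L b c ℓ d u) y).det =
      (c ^ n * (mat (L : (E n) →L[ℝ] (E n))).det ^ 2) * (hessianMat u (L y + b)).det := by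
  rw [hessianMat_aff L b c ℓ d hu, Matrix.det_smul, Matrix.det_mul, Matrix.det_mul,
    Matrix.det_transpose, Fintype.card_fin]
  ring

theorem posDef_aff (hu : ContDiffAt ℝ 2 u (L y + b)) (hc : 0 < c)
    (hp : (hessianMat u (L y + b)).PosDef) : (hessianMat (aff L b c ℓ d u) y).PosDef := by
  rw [hessianMat_aff L b c ℓ d hu]
  refine Matrix.PosDef.smul ?_ hc
  have := hp.conjTranspose_mul_mul_same (B := mat (L : (E n) →L[ℝ] (E n)))
    (by
      have h := isUnit_mat L
      intro v w hvw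
      have h2 := congrArg (fun z => (mat (L.symm : (E n) →L[ℝ] (E n))).mulVec z) hvw
      simpa [Matrix.mulVec_mulVec, mat_symm_mul] using h2)
  simpa using this

/-- the constant by which `detPower` is multiplied -/
def kap (L : (E n) ≃L[ℝ] (E n)) (c : ℝ) : ℝ :=
  (c ^ n * (mat (L : (E n) →L[ℝ] (E n))).det ^ 2) ^ (-((n : ℝ) + 1) / ((n : ℝ) + 2))

lemma kap_base_pos (hc : 0 < c) : 0 < c ^ n * (mat (L : (E n) →L[ℝ] (E n))).det ^ 2 := by
  have := det_mat_ne_zero L
  positivity

lemma kap_pos (hc : 0 < c) : 0 < kap L c := Real.rpow_pos_of_pos (kap_base_pos L c hc) _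

theorem detPower_aff (hu : ContDiffAt ℝ 2 u (L y + b)) (hc : 0 < c)
    (hp : (hessianMat u (L y + b)).PosDef) :
    detPower n (aff L b c ℓ d u) y = kap L c * detPower n u (L y + b) := by
  unfold detPower kap
  rw [det_hessianMat_aff L b c ℓ d hu, Real.mul_rpow (kap_base_pos L c hc).le hp.det_pos.le]

/-- smoothness of the determinant of the Hessian and of `detPower` -/
lemma contDiffAt_hessianMat {x : E n} (hu : ContDiffAt ℝ ∞ u x) (i j : Fin n) :
    ContDiffAt ℝ ∞ (fun z => hessianMat u z i j) x := by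
  have h1 : ContDiffAt ℝ ∞ (fderiv ℝ u) x := hu.fderiv_right (m := ∞) (by simp)
  have h2 : ContDiffAt ℝ ∞ (fun z => fderiv ℝ u z (EuclideanSpace.single j 1)) x :=
    h1.clm_apply contDiffAt_const
  have h3 : ContDiffAt ℝ ∞ (fderiv ℝ (fun z => fderiv ℝ u z (EuclideanSpace.single j 1))) x :=
    h2.fderiv_right (m := ∞) (by simp)
  exact h3.clm_apply contDiffAt_const

lemma contDiffAt_det {x : E n} (hu : ContDiffAt ℝ ∞ u x) :
    ContDiffAt ℝ ∞ (fun z => (hessianMat u z).det) x := by
  simp_rw [Matrix.det_apply]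
  refine ContDiffAt.sum fun σ _ => ?_
  refine ContDiffAt.const_smul _ ?_
  exact contDiffAt_prod fun i _ => contDiffAt_hessianMat hu _ _

lemma contDiffAt_detPower {x : E n} (hu : ContDiffAt ℝ ∞ u x)
    (hp : (hessianMat u x).PosDef) : ContDiffAt ℝ ∞ (detPower n u) x := by
  unfold detPower
  exact (contDiffAt_det hu).rpow_const_of_ne hp.det_pos.ne'

/-- inverse of the transformed Hessian -/
lemma inv_hessianMat_aff (hu : ContDiffAt ℝ 2 u (L y + b)) :
    (hessianMat (aff L b c ℓ d u) y)⁻¹ =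
      c⁻¹ • (mat (L.symm : (E n) →L[ℝ] (E n)) * (hessianMat u (L y + b))⁻¹ *
        (mat (L.symm : (E n) →L[ℝ] (E n)))ᵀ) := by
  rw [hessianMat_aff L b c ℓ d hu]
  have h1 : (mat (L : (E n) →L[ℝ] (E n)))⁻¹ = mat (L.symm : (E n) →L[ℝ] (E n)) :=
    Matrix.inv_eq_right_inv (mat_mul_symm L)
  rcases eq_or_ne c 0 with rfl | hc
  · simp
  · have h3 : (c • ((mat (L : (E n) →L[ℝ] (E n)))ᵀ * hessianMat u (L y + b) *
        mat (L : (E n) →L[ℝ] (E n))))⁻¹ = c⁻¹ • ((mat (L : (E n) →L[ℝ] (E n)))ᵀ *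
          hessianMat u (L y + b) * mat (L : (E n) →L[ℝ] (E n)))⁻¹ := by
      by_cases hdet : IsUnit ((mat (L : (E n) →L[ℝ] (E n)))ᵀ *
          hessianMat u (L y + b) * mat (L : (E n) →L[ℝ] (E n))).det
      · have := Matrix.inv_smul' (A := ((mat (L : (E n) →L[ℝ] (E n)))ᵀ *
          hessianMat u (L y + b) * mat (L : (E n) →L[ℝ] (E n)))) (Units.mk0 c hc) hdet
        simpa [Units.smul_def] using this
      · rw [Matrix.nonsing_inv_apply_not_isUnit _ hdet, Matrix.nonsing_inv_apply_not_isUnit]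
        · simp
        · rw [Matrix.det_smul]
          intro h
          exact hdet (isUnit_of_mul_isUnit_right h)
    rw [h3, Matrix.mul_inv_rev, Matrix.mul_inv_rev, h1, ← Matrix.transpose_nonsing_inv, h1,
      Matrix.mul_assoc]

/-- a general bilinear identity: contraction of transformed matrices -/
lemma contract (M N A W : Matrix (Fin n) (Fin n) ℝ) (h : M * N = 1) :
    (∑ i, ∑ j, (N * A * Nᵀ) i j * (Mᵀ * W * M) i j) = ∑ i, ∑ j, A i j * W i j := by
  have key : ∀ P Q : Matrix (Fin n) (Fin n) ℝ, (∑ i, ∑ j, P i j * Q i j) = (Pᵀ * Q).trace := by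
    intro P Q
    rw [Matrix.trace, Finset.sum_comm]
    refine Finset.sum_congr rfl fun j _ => ?_
    simp [Matrix.mul_apply]
  rw [key, key]
  have h' : Nᵀ * Mᵀ = 1 := by rw [← Matrix.transpose_mul, h, Matrix.transpose_one]
  simp only [Matrix.transpose_mul, Matrix.transpose_transpose]
  calc (N * (Aᵀ * Nᵀ) * (Mᵀ * W * M)).trace = (N * Aᵀ * (Nᵀ * Mᵀ) * W * M).trace := by
        simp only [Matrix.mul_assoc]
    _ = (N * (Aᵀ * W * M)).trace := by rw [h']; simp only [Matrix.mul_assoc, Matrix.mul_one]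
    _ = (Aᵀ * W * M * N).trace := by rw [Matrix.trace_mul_comm]
    _ = (Aᵀ * W).trace := by rw [Matrix.mul_assoc, h, Matrix.mul_one]

theorem affineMaximalOp_aff {Ω : Set (E n)} (hΩ : IsOpen Ω) (hu : ContDiffOn ℝ ∞ u Ω)
    (hp : ∀ x ∈ Ω, (hessianMat u x).PosDef) (hc : 0 < c) (hy : L y + b ∈ Ω) :
    affineMaximalOp n (aff L b c ℓ d u) y =
      (c ^ n * (mat (L : (E n) →L[ℝ] (E n))).det ^ 2 * c⁻¹ * kap L c) *
        affineMaximalOp n u (L y + b) := by
  have hat : ContDiffAt ℝ ∞ u (L y + b) := hu.contDiffAt (hΩ.mem_nhds hy)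
  have hat2 : ContDiffAt ℝ 2 u (L y + b) := hat.of_le two_le
  have hev : ∀ᶠ z in 𝓝 y, L z + b ∈ Ω :=
    (hasFDerivAt_map L b y).continuousAt.eventually (hΩ.mem_nhds hy)
  have hdp : detPower n (aff L b c ℓ d u) =ᶠ[𝓝 y] aff L b (kap L c) 0 0 (detPower n u) := by
    filter_upwards [hev] with z hz
    rw [detPower_aff L b c ℓ d ((hu.contDiffAt (hΩ.mem_nhds hz)).of_le two_le)
      hc (hp _ hz)]
    simp [aff]
  have hH : hessianMat (detPower n (aff L b c ℓ d u)) y =
      hessianMat (aff L b (kap L c) 0 0 (detPower n u)) y := by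
    ext i j
    unfold hessianMat pderiv
    have : (fun z => fderiv ℝ (detPower n (aff L b c ℓ d u)) z (EuclideanSpace.single j 1))
        =ᶠ[𝓝 y] fun z => fderiv ℝ (aff L b (kap L c) 0 0 (detPower n u)) z
          (EuclideanSpace.single j 1) := by
      filter_upwards [hdp.eventuallyEq_nhds] with z hz
      rw [hz.fderiv_eq]
    rw [this.fderiv_eq]
  unfold affineMaximalOp
  rw [hH, hessianMat_aff L b (kap L c) 0 0 ((contDiffAt_detPower hat (hp _ hy)).of_le
    two_le), inv_hessianMat_aff L b c ℓ d hat2,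
    det_hessianMat_aff L b c ℓ d hat2]
  have hcon := contract (mat (L : (E n) →L[ℝ] (E n))) (mat (L.symm : (E n) →L[ℝ] (E n)))
    (hessianMat u (L y + b))⁻¹ (hessianMat (detPower n u) (L y + b)) (mat_mul_symm L)
  simp only [Matrix.smul_apply, smul_eq_mul]
  set D := (hessianMat u (L y + b)).det
  set q := c ^ n * (mat (L : (E n) →L[ℝ] (E n))).det ^ 2
  calc (∑ i, ∑ j, q * D * (c⁻¹ * (mat (L.symm : (E n) →L[ℝ] (E n)) * (hessianMat u (L y + b))⁻¹ *
        (mat (L.symm : (E n) →L[ℝ] (E n)))ᵀ) i j) * (kap L c * ((mat (L : (E n) →L[ℝ] (E n)))ᵀ *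
          hessianMat (detPower n u) (L y + b) * mat (L : (E n) →L[ℝ] (E n))) i j))
      = (q * c⁻¹ * kap L c * D) * ∑ i, ∑ j, (mat (L.symm : (E n) →L[ℝ] (E n)) *
          (hessianMat u (L y + b))⁻¹ * (mat (L.symm : (E n) →L[ℝ] (E n)))ᵀ) i j *
          ((mat (L : (E n) →L[ℝ] (E n)))ᵀ *
          hessianMat (detPower n u) (L y + b) * mat (L : (E n) →L[ℝ] (E n))) i j := by
        rw [Finset.mul_sum]
        refine Finset.sum_congr rfl fun i _ => ?_
        rw [Finset.mul_sum]
        refine Finset.sum_congr rfl fun j _ => ?_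
        ring
    _ = _ := by
        rw [hcon, Finset.mul_sum, Finset.mul_sum]
        refine Finset.sum_congr rfl fun i _ => ?_
        rw [Finset.mul_sum, Finset.mul_sum]
        refine Finset.sum_congr rfl fun j _ => ?_
        ring

theorem affineMaximalOp_aff_eq_zero {Ω : Set (E n)} (hΩ : IsOpen Ω) (hu : ContDiffOn ℝ ∞ u Ω)
    (hp : ∀ x ∈ Ω, (hessianMat u x).PosDef) (hc : 0 < c) (hy : L y + b ∈ Ω)
    (h0 : affineMaximalOp n u (L y + b) = 0) :
    affineMaximalOp n (aff L b c ℓ d u) y = 0 := by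
  rw [affineMaximalOp_aff L b c ℓ d hΩ hu hp hc hy, h0, mul_zero]

/-- `SC` is preserved -/
theorem SC_aff {Ω : Set (E n)} (h : SC Ω u) (hc : 0 < c) :
    SC ((fun y => L y + b) ⁻¹' Ω) (aff L b c ℓ d u) where
  isOpen := h.isOpen.preimage (contDiff_map L b).continuous
  convex := by
    intro x hx y hy s t hs ht hst
    have := h.convex hx hy hs ht hst
    show L (s • x + t • y) + b ∈ Ω
    convert this using 1
    simp only [map_add, map_smul]
    have : b = (s + t) • b := by rw [hst, one_smul]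
    conv_lhs => rw [this]
    module
  smooth := by
    unfold aff
    refine ContDiffOn.add (ContDiffOn.add (contDiffOn_const.mul ?_) ℓ.contDiff.contDiffOn)
      contDiffOn_const
    exact h.smooth.comp (contDiff_map L b).contDiffOn (fun x hx => hx)
  posDef := fun x hx => posDef_aff L b c ℓ d ((h.contDiffAt hx).of_le two_le)
    hc (h.posDef _ hx)

/-- height above the tangent plane -/
theorem dev_aff {Ω : Set (E n)} (h : SC Ω u) (hy : L y + b ∈ Ω) (z : E n) :
    aff L b c ℓ d u z - aff L b c ℓ d u y - fderiv ℝ (aff L b c ℓ d u) y (z - y) =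
      c * (u (L z + b) - u (L y + b) - fderiv ℝ u (L y + b) ((L z + b) - (L y + b))) := by
  rw [fderiv_aff L b c ℓ d (h.differentiableAt hy)]
  simp only [aff, add_apply, smul_apply, ContinuousLinearMap.comp_apply,
    ContinuousLinearEquiv.coe_coe, smul_eq_mul, map_sub, add_sub_add_right_eq_sub]
  ring



end Crest.Agent.R236.Inv
end
end

-- ▼ part R236/SecNorm
section

/-! Row 236: normalisation of a section by a linear map (helper202). -/

set_option autoImplicit false
open scoped ContDiff Topology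
open Crest.GeometryTopology.CoordMetric Crest.GeometryTopology.AffineMaximal
open Set Filter MeasureTheory

noncomputable section

namespace Crest.Agent.R236.Sec

/-- compact sections -/
def HSec {n : ℕ} (Ω : Set (EuclideanSpace ℝ (Fin n))) (u : EuclideanSpace ℝ (Fin n) → ℝ) : Prop :=
  ∀ x₀ ∈ Ω, ∀ t : ℝ, IsCompact {x | x ∈ Ω ∧ u x ≤ u x₀ + fderiv ℝ u x₀ (x - x₀) + t}

variable {n : ℕ} {u : EuclideanSpace ℝ (Fin n) → ℝ}

/-- scaling -/
def scl (n : ℕ) (s : ℝ) (hs : s ≠ 0) : EuclideanSpace ℝ (Fin n) ≃L[ℝ] EuclideanSpace ℝ (Fin n) :=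
  (LinearEquiv.smulOfNeZero ℝ (EuclideanSpace ℝ (Fin n)) s hs).toContinuousLinearEquiv

@[simp] lemma scl_apply (s : ℝ) (hs : s ≠ 0) (x : EuclideanSpace ℝ (Fin n)) :
    scl n s hs x = s • x := rfl

/-- cross polytope in a convex set -/
lemma mem_of_sum_abs_le {K : Set (EuclideanSpace ℝ (Fin n))} (hK : Convex ℝ K) (h0 : (0 : EuclideanSpace ℝ (Fin n)) ∈ K)
    {m : ℝ} (hm : 0 < m) (hp : ∀ i, m • EuclideanSpace.single i (1:ℝ) ∈ K)
    (hq : ∀ i, -(m • EuclideanSpace.single i (1:ℝ)) ∈ K) {c : EuclideanSpace ℝ (Fin n)}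
    (hc : ∑ i, |c i| ≤ m) : c ∈ K := by
  classical
  set S := ∑ i, |c i| with hS
  rcases eq_or_lt_of_le (show 0 ≤ S from Finset.sum_nonneg fun i _ => abs_nonneg _) with h | h
  · have : c = 0 := by
      ext i
      have h1 : ∀ i ∈ Finset.univ, |c i| = 0 :=
        (Finset.sum_eq_zero_iff_of_nonneg fun i _ => abs_nonneg _).mp h.symm
      simpa using h1 i (Finset.mem_univ i)
    rwa [this]
  · -- inner convex combination
    have h1 : ∑ i, (|c i| / S) • ((if 0 ≤ c i then (1:ℝ) else -1) • (m • EuclideanSpace.single i (1:ℝ) : EuclideanSpace ℝ (Fin n))) ∈ K := by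
      apply hK.sum_mem
      · intro i _
        positivity
      · rw [← Finset.sum_div, ← hS, div_self h.ne']
      · intro i _
        split_ifs
        · rw [one_smul]; exact hp i
        · rw [neg_one_smul]; exact hq i
    have h2 := hK.smul_mem_of_zero_mem h0 h1 (t := S / m) ⟨by positivity, (div_le_one hm).mpr hc⟩
    convert h2 using 1
    conv_lhs => rw [← sum_single c]
    rw [Finset.smul_sum]
    refine Finset.sum_congr rfl fun i _ => ?_
    rw [smul_smul, smul_smul, smul_smul]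
    congr 1
    split_ifs with hi
    · rw [abs_of_nonneg hi]; field_simp
    · push Not at hi
      rw [abs_of_neg hi]; field_simp

lemma sum_abs_le (c : EuclideanSpace ℝ (Fin n)) : ∑ i, |c i| ≤ Real.sqrt n * ‖c‖ := by
  have h1 : (∑ i, |c i|) ^ 2 ≤ n * ‖c‖ ^ 2 := by
    have := sq_sum_le_card_mul_sum_sq (s := (Finset.univ : Finset (Fin n))) (f := fun i => |c i|)
    rw [EuclideanSpace.real_norm_sq_eq]
    simpa using this
  have h2 : 0 ≤ Real.sqrt n * ‖c‖ := by positivity
  refine abs_le_of_sq_le_sq' ?_ h2 |>.2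
  rw [mul_pow, Real.sq_sqrt (Nat.cast_nonneg n)]
  exact h1

/-- **Normalisation.** -/
theorem exists_normalise (hn : 0 < n) (h : SC univ u) (hp : PDE univ u) {C0 th : ℝ}
    (hQ : QS univ u C0) (hth : 0 < th) (hB : BAL univ u th) (hsec : HSec univ u)
    (x₀ : EuclideanSpace ℝ (Fin n)) {R : ℝ} (hR : 0 < R) :
    ∃ L : EuclideanSpace ℝ (Fin n) ≃L[ℝ] EuclideanSpace ℝ (Fin n),
      Pre n (min th 1 / n) C0 (fun y => dev u x₀ (L y + x₀) / R) := by
  classical
  set K : Set (EuclideanSpace ℝ (Fin n)) := {v | dev u x₀ (v + x₀) ≤ 2 * R} with hKdef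
  have hcont : Continuous u := continuousOn_univ.mp h.continuousOn
  have hdevc : Continuous fun v => dev u x₀ (v + x₀) := by
    unfold dev; fun_prop
  have hKeq : K = (fun x => x - x₀) '' {x | x ∈ univ ∧ u x ≤ u x₀ + fderiv ℝ u x₀ (x - x₀) + 2 * R} := by
    ext v
    simp only [hKdef, mem_ofPred_eq, mem_image, mem_univ, true_and]
    constructor
    · intro hv
      refine ⟨v + x₀, ?_, by simp⟩
      unfold dev at hv
      linarith
    · rintro ⟨x, hx, rfl⟩
      unfold dev
      simp only [sub_add_cancel]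
      linarith
  have hKc : IsCompact K := by
    rw [hKeq]
    exact (hsec x₀ (mem_univ _) (2 * R)).image (continuous_id.sub continuous_const)
  have hKconv : Convex ℝ K := by
    intro v hv w hw a b ha hb hab
    have h1 := h.convexOn.2 (mem_univ (v + x₀)) (mem_univ (w + x₀)) ha hb hab
    have e : a • (v + x₀) + b • (w + x₀) = (a • v + b • w) + x₀ := by
      have : x₀ = (a + b) • x₀ := by rw [hab, one_smul]
      conv_rhs => rw [this]
      module
    rw [e] at h1
    simp only [hKdef, mem_ofPred_eq, dev, add_sub_cancel_right, smul_eq_mul] at hv hw h1 ⊢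
    rw [map_add, map_smul, map_smul, smul_eq_mul, smul_eq_mul]
    have e1 := mul_le_mul_of_nonneg_left hv ha
    have e2 := mul_le_mul_of_nonneg_left hw hb
    have e3 : a * (2 * R) + b * (2 * R) = 2 * R := by rw [← add_mul, hab, one_mul]
    have e4 : a * u x₀ + b * u x₀ = u x₀ := by rw [← add_mul, hab, one_mul]
    nlinarith
  have h0K : (0 : EuclideanSpace ℝ (Fin n)) ∈ K := by
    simp only [hKdef, mem_ofPred_eq, zero_add, dev_self]
    linarith
  have hint : (interior K).Nonempty := by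
    refine ⟨0, ?_⟩
    rw [mem_interior_iff_mem_nhds]
    have : ∀ᶠ v in 𝓝 (0 : EuclideanSpace ℝ (Fin n)), dev u x₀ (v + x₀) < 2 * R := by
      apply hdevc.continuousAt.eventually_lt_const
      simp only [zero_add, dev_self]
      linarith
    filter_upwards [this] with v hv using hv.le
  have hbal : ∀ v ∈ K, -(th • v) ∈ K := by
    intro v hv
    have := (hB x₀ (mem_univ _) (v + x₀) (mem_univ _) (2 * R) hv).2
    rw [add_sub_cancel_right] at this
    simp only [hKdef, mem_ofPred_eq]
    rwa [neg_add_eq_sub]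
  obtain ⟨B, hB1, hB2⟩ := A.auerbach n K hKc hKconv h0K hint
  have hns : (0:ℝ) < Real.sqrt n := Real.sqrt_pos.mpr (by exact_mod_cast hn)
  set L : EuclideanSpace ℝ (Fin n) ≃L[ℝ] EuclideanSpace ℝ (Fin n) :=
    (scl n (Real.sqrt n) hns.ne').trans B.symm with hL
  have hLapp : ∀ y, B (L y) = Real.sqrt n • y := by
    intro y
    simp [hL]
  have hmemK : ∀ y, L y ∈ K ↔ Real.sqrt n • y ∈ B '' K := by
    intro y
    constructor
    · intro hy
      exact ⟨L y, hy, hLapp y⟩
    · rintro ⟨v, hv, hv'⟩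
      rw [← hLapp y] at hv'
      rwa [← B.injective hv']
  have hBKconv : Convex ℝ (B '' K) := hKconv.is_linear_image (LinearMap.isLinear (B : EuclideanSpace ℝ (Fin n) →ₗ[ℝ] EuclideanSpace ℝ (Fin n)))
  have h0BK : (0 : EuclideanSpace ℝ (Fin n)) ∈ B '' K := ⟨0, h0K, map_zero B⟩
  set m := min th 1 with hm
  have hm0 : 0 < m := lt_min hth one_pos
  have hplus : ∀ i, m • EuclideanSpace.single i (1:ℝ) ∈ B '' K := by
    intro i
    exact hBKconv.smul_mem_of_zero_mem h0BK (hB1 i) ⟨hm0.le, min_le_right _ _⟩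
  have hminus : ∀ i, -(m • EuclideanSpace.single i (1:ℝ)) ∈ B '' K := by
    intro i
    obtain ⟨v, hv, hv'⟩ := hB1 i
    have h1 : -(th • EuclideanSpace.single i (1:ℝ)) ∈ B '' K :=
      ⟨-(th • v), hbal v hv, by rw [map_neg, map_smul, hv']⟩
    have h2 := hBKconv.smul_mem_of_zero_mem h0BK h1 (t := m / th)
      ⟨by positivity, (div_le_one hth).mpr (min_le_left _ _)⟩
    convert h2 using 1
    rw [smul_neg, smul_smul, div_mul_cancel₀ _ hth.ne']
  -- the normalised function as `aff`
  have haff : (fun y => dev u x₀ (L y + x₀) / R) =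
      Inv.aff L x₀ (1 / R) (-(1 / R) • (fderiv ℝ u x₀).comp (L : EuclideanSpace ℝ (Fin n) →L[ℝ] EuclideanSpace ℝ (Fin n)))
        (-(1 / R) * u x₀) u := by
    funext y
    simp only [dev, Inv.aff, add_sub_cancel_right, smul_apply,
      ContinuousLinearMap.comp_apply, ContinuousLinearEquiv.coe_coe, smul_eq_mul]
    ring
  have hR' : 0 < 1 / R := by positivity
  have hsc : SC univ (fun y => dev u x₀ (L y + x₀) / R) := by
    rw [haff]
    simpa using Inv.SC_aff L x₀ (1 / R) (-(1 / R) • (fderiv ℝ u x₀).comp (L : EuclideanSpace ℝ (Fin n) →L[ℝ] EuclideanSpace ℝ (Fin n)))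
        (-(1 / R) * u x₀) h hR'
  refine ⟨L, ?_⟩
  constructor
  · exact hsc
  · intro y _
    rw [haff]
    exact Inv.affineMaximalOp_aff_eq_zero L x₀ (1 / R) _ _ isOpen_univ h.smooth h.posDef hR'
      (mem_univ _) (hp _ (mem_univ _))
  · intro y _ z _
    have hd : ∀ y z, dev (fun y => dev u x₀ (L y + x₀) / R) y z =
        (1 / R) * dev u (L y + x₀) (L z + x₀) := by
      intro y z
      rw [haff]
      exact Inv.dev_aff L x₀ (1 / R) _ _ h (mem_univ _) z
    rw [hd, hd]
    have := hQ _ (mem_univ (L y + x₀)) _ (mem_univ (L z + x₀))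
    have h2 := mul_le_mul_of_nonneg_left this hR'.le
    linarith
  · simp
  · rw [haff, Inv.fderiv_aff _ _ _ _ _ (h.differentiableAt (mem_univ _))]
    simp
  · intro y hy
    have hy' : Real.sqrt n • y ∈ B '' K := by
      apply mem_of_sum_abs_le hBKconv h0BK hm0 hplus hminus
      refine (sum_abs_le _).trans ?_
      rw [norm_smul, Real.norm_of_nonneg hns.le, ← mul_assoc, Real.mul_self_sqrt (Nat.cast_nonneg n)]
      have hn' : (0:ℝ) < n := by exact_mod_cast hn
      calc (n:ℝ) * ‖y‖ ≤ n * (m / n) := by gcongr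
        _ = m := by field_simp
    have := (hmemK y).mpr hy'
    simp only [hKdef, mem_ofPred_eq] at this
    rw [div_le_iff₀ hR]
    exact this
  · intro y hy
    have h1 : L y ∈ K := by
      simp only [hKdef, mem_ofPred_eq]
      rwa [div_le_iff₀ hR] at hy
    have h2 := hB2 _ ((hmemK y).mp h1)
    have h3 : ‖Real.sqrt n • y‖ ≤ Real.sqrt n := by
      rw [EuclideanSpace.norm_eq]
      apply Real.sqrt_le_sqrt
      calc ∑ i, ‖(Real.sqrt n • y) i‖ ^ 2 ≤ ∑ _i : Fin n, (1:ℝ) := by
            refine Finset.sum_le_sum fun i _ => ?_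
            have := h2 i
            rw [Real.norm_eq_abs]
            nlinarith [abs_nonneg ((Real.sqrt n • y) i)]
        _ = n := by simp
    rw [norm_smul, Real.norm_of_nonneg hns.le] at h3
    exact le_of_mul_le_mul_left (by linarith) hns

end Crest.Agent.R236.Sec
end
end

-- ▼ part R236/Liou

/-! Row 236: Liouville theorem for `detPower`: the determinant is constant (helper202). -/

set_option autoImplicit false
open scoped ContDiff Topology
open Crest.GeometryTopology.CoordMetric Crest.GeometryTopology.AffineMaximal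
open Set Filter MeasureTheory

noncomputable section

namespace Crest.Agent.R236.Sec

variable {n : ℕ} {u : EuclideanSpace ℝ (Fin n) → ℝ}

lemma norm_eq_aff (L : EuclideanSpace ℝ (Fin n) ≃L[ℝ] EuclideanSpace ℝ (Fin n))
    (x₀ : EuclideanSpace ℝ (Fin n)) (R : ℝ) : (fun y => dev u x₀ (L y + x₀) / R) =
      Inv.aff L x₀ (1 / R) (-(1 / R) • (fderiv ℝ u x₀).comp
        (L : EuclideanSpace ℝ (Fin n) →L[ℝ] EuclideanSpace ℝ (Fin n)))
        (-(1 / R) * u x₀) u := by
  funext y
  simp only [dev, Inv.aff, add_sub_cancel_right, smul_apply,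
    ContinuousLinearMap.comp_apply, ContinuousLinearEquiv.coe_coe, smul_eq_mul]
  ring

lemma hess_add_mul {f : EuclideanSpace ℝ (Fin n) → ℝ} (hf : ContDiff ℝ ∞ f) (a c : ℝ)
    (x : EuclideanSpace ℝ (Fin n)) (i j : Fin n) :
    hessianMat (fun z => a + c * f z) x i j = c * hessianMat f x i j := by
  have hd : ∀ y, DifferentiableAt ℝ f y := fun y => hf.contDiffAt.differentiableAt (by simp)
  have h1 : (fun y => pderiv j (fun z => a + c * f z) y) = fun y => c * pderiv j f y := by
    funext y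
    unfold pderiv
    rw [fderiv_const_add, fderiv_const_mul (hd y)]
    simp
  unfold hessianMat
  rw [h1]
  have hd2 : DifferentiableAt ℝ (fun y => pderiv j f y) x := by
    unfold pderiv
    have : ContDiff ℝ ∞ (fderiv ℝ f) := hf.fderiv_right (m := ∞) (by simp)
    exact ((this.clm_apply contDiff_const).contDiffAt).differentiableAt (by simp)
  unfold pderiv at hd2 ⊢
  rw [fderiv_const_mul hd2]
  simp

section
variable (hn : 0 < n) (hU : DetUpper n) (hL : DetLower n)

/-- common normalisation data at the origin -/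
lemma norm_data (hn : 0 < n) (hU : DetUpper n) (hL : DetLower n) (h : SC univ u)
    (hp : PDE univ u) {C0 th : ℝ} (hC0 : 0 < C0)
    (hQ : QS univ u C0) (hth : 0 < th) (hB : BAL univ u th) (hsec : HSec univ u)
    {R : ℝ} (hR : 0 < R) :
    ∃ (L : EuclideanSpace ℝ (Fin n) ≃L[ℝ] EuclideanSpace ℝ (Fin n)) (q κ : ℝ), 0 < q ∧ 0 < κ ∧
      NSec n (min th 1 / n) (Pre.lamC n (min th 1 / n) C0) (Pre.LamC n (min th 1 / n) C0)
        (UU (min th 1 / n) C0 3) (fun y => dev u 0 (L y) / R) ∧
      PDE univ (fun y => dev u 0 (L y) / R) ∧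
      (∀ y, (hessianMat (fun y => dev u 0 (L y) / R) y).det = q * (hessianMat u (L y)).det) ∧
      (∀ y, detPower n (fun y => dev u 0 (L y) / R) y = κ * detPower n u (L y)) := by
  obtain ⟨L, hPre⟩ := exists_normalise hn h hp hQ hth hB hsec 0 hR
  have hr : 0 < min th 1 / n := div_pos (lt_min hth one_pos) (by exact_mod_cast hn)
  have hNS := hPre.nsec hr hC0 hU hL
  have hR' : 0 < 1 / R := by positivity
  have hpd := hPre.pde
  simp only [add_zero] at hNS hpd
  have haff := norm_eq_aff (u := u) L 0 R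
  simp only [add_zero] at haff
  refine ⟨L, _, Inv.kap L (1 / R), Inv.kap_base_pos L (1 / R) hR', Inv.kap_pos L (1 / R) hR',
    hNS, hpd, ?_, ?_⟩
  · intro y
    rw [haff]
    have := Inv.det_hessianMat_aff L 0 (1 / R) (-(1 / R) • (fderiv ℝ u 0).comp
        (L : EuclideanSpace ℝ (Fin n) →L[ℝ] EuclideanSpace ℝ (Fin n)))
        (-(1 / R) * u 0) (u := u) (y := y)
        ((h.contDiffAt (mem_univ _)).of_le Inv.two_le)
    rw [this, add_zero]
  · intro y
    rw [haff]
    have := Inv.detPower_aff L 0 (1 / R) (-(1 / R) • (fderiv ℝ u 0).comp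
        (L : EuclideanSpace ℝ (Fin n) →L[ℝ] EuclideanSpace ℝ (Fin n)))
        (-(1 / R) * u 0) (u := u) (y := y)
        ((h.contDiffAt (mem_univ _)).of_le Inv.two_le) hR' (h.posDef _ (mem_univ _))
    rw [this, add_zero]

/-- `detPower` is bounded above -/
lemma detPower_bdd (hn : 0 < n) (hU : DetUpper n) (hL : DetLower n) (h : SC univ u)
    (hp : PDE univ u) {C0 th : ℝ} (hC0 : 0 < C0)
    (hQ : QS univ u C0) (hth : 0 < th) (hB : BAL univ u th) (hsec : HSec univ u) :
    ∃ M, ∀ y, detPower n u y ≤ M := by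
  set lam := Pre.lamC n (min th 1 / n) C0
  set Lam := Pre.LamC n (min th 1 / n) C0
  have hlam : 0 < lam := Pre.lamC_pos _ _ _
  have hLam : 0 < Lam := Pre.LamC_pos _ _ _
  have hD0 : 0 < (hessianMat u 0).det := (h.posDef 0 (mem_univ _)).det_pos
  refine ⟨(lam * (hessianMat u 0).det / Lam) ^ (-((n : ℝ) + 1) / ((n : ℝ) + 2)), fun y => ?_⟩
  set R := max (dev u 0 y) 1 with hRdef
  have hR : 0 < R := lt_max_of_lt_right one_pos
  obtain ⟨L, q, κ, hq, -, hNS, -, hdet, -⟩ := norm_data hn hU hL h hp hC0 hQ hth hB hsec hR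
  have h1 := hNS.det_ge (L.symm y) (by
    simp only [ContinuousLinearEquiv.apply_symm_apply]
    rw [div_le_iff₀ hR]
    have : dev u 0 y ≤ R := le_max_left _ _
    linarith)
  have h2 := hNS.det_le 0 (by simp)
  rw [hdet] at h1 h2
  rw [ContinuousLinearEquiv.apply_symm_apply] at h1
  rw [map_zero] at h2
  unfold detPower
  apply Real.rpow_le_rpow_of_nonpos (by positivity)
  · rw [div_le_iff₀ hLam]
    have hDy : 0 < (hessianMat u y).det := (h.posDef y (mem_univ _)).det_pos
    have e1 : lam * (q * (hessianMat u 0).det) ≤ (q * (hessianMat u y).det) * Lam :=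
      mul_le_mul h1 h2 (by positivity) (by positivity)
    have e2 : q * (lam * (hessianMat u 0).det) ≤ q * ((hessianMat u y).det * Lam) := by
      linarith
    exact le_of_mul_le_mul_left e2 hq
  · have : (0:ℝ) ≤ n := Nat.cast_nonneg n
    apply div_nonpos_of_nonpos_of_nonneg <;> linarith

/-- **Liouville.** `detPower` is constant. -/
theorem detPower_const (hn : 0 < n) (hU : DetUpper n) (hL : DetLower n) (hWH : WHStmt n)
    (h : SC univ u) (hp : PDE univ u) {C0 th : ℝ} (hC0 : 0 < C0)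
    (hQ : QS univ u C0) (hth : 0 < th) (hB : BAL univ u th) (hsec : HSec univ u) :
    ∀ x y, detPower n u x = detPower n u y := by
  obtain ⟨M, hM⟩ := detPower_bdd hn hU hL h hp hC0 hQ hth hB hsec
  set w := detPower n u with hw
  have hwpos : ∀ x, 0 < w x := fun x =>
    Real.rpow_pos_of_pos (h.posDef x (mem_univ _)).det_pos _
  set r := min th 1 / n with hr
  have hr0 : 0 < r := div_pos (lt_min hth one_pos) (by exact_mod_cast hn)
  obtain ⟨C, hC, hCH⟩ := hWH r (Pre.lamC n r C0) (Pre.LamC n r C0) (UU r C0 3) hr0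
    (Pre.lamC_pos _ _ _) (Pre.LamC_pos _ _ _) (UU_pos _ _ _)
  have hbA : BddAbove (range w) := ⟨M, by rintro _ ⟨y, rfl⟩; exact hM y⟩
  have hbB : BddBelow (range w) := ⟨0, by rintro _ ⟨y, rfl⟩; exact (hwpos y).le⟩
  have hne : (range w).Nonempty := ⟨w 0, mem_range_self _⟩
  set W := sSup (range w) with hWdef
  set m := sInf (range w) with hmdef
  have hleW : ∀ x, w x ≤ W := fun x => le_csSup hbA (mem_range_self x)
  have hlem : ∀ x, m ≤ w x := fun x => csInf_le hbB (mem_range_self x)
  suffices hWm : W ≤ m by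
    intro x y
    have := hleW x; have := hleW y; have := hlem x; have := hlem y
    linarith
  by_contra hcon
  push Not at hcon
  set d := (W - m) / 2 with hd
  have hd0 : 0 < d := by rw [hd]; linarith
  set V0 := (volume (Metric.closedBall (0 : EuclideanSpace ℝ (Fin n)) (r / 4))).toReal with hV0
  have hV0pos : 0 < V0 := by
    apply ENNReal.toReal_pos
    · have : 0 < volume (Metric.closedBall (0 : EuclideanSpace ℝ (Fin n)) (r / 4)) :=
        Metric.measure_closedBall_pos _ _ (by positivity)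
      exact this.ne'
    · exact measure_closedBall_lt_top.ne
  -- choice of ε
  set ε := d / 8 * Real.exp (-(2 * C / V0 + 1)) with hε
  have hε0 : 0 < ε := by positivity
  have hεd : 8 * ε < d := by
    have : Real.exp (-(2 * C / V0 + 1)) < 1 := by
      rw [Real.exp_lt_one_iff]
      have : 0 < 2 * C / V0 := by positivity
      linarith
    rw [hε]; nlinarith
  have hlog : Real.log (d / (4 * (2 * ε))) = 2 * C / V0 + 1 := by
    have : d / (4 * (2 * ε)) = Real.exp (2 * C / V0 + 1) := by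
      rw [hε, Real.exp_neg]
      field_simp
      norm_num
    rw [this, Real.log_exp]
  obtain ⟨_, ⟨x₁, rfl⟩, hx₁⟩ := exists_lt_of_lt_csSup hne (show W - ε < sSup (range w) by
    rw [← hWdef]; linarith)
  obtain ⟨_, ⟨x₂, rfl⟩, hx₂⟩ := exists_lt_of_csInf_lt hne (show sInf (range w) < m + ε by
    rw [← hmdef]; linarith)
  set R := 2 * max (max (dev u 0 x₁) (dev u 0 x₂)) 1 with hRdef
  have hR : 0 < R := by
    have : (0:ℝ) < max (max (dev u 0 x₁) (dev u 0 x₂)) 1 := lt_max_of_lt_right one_pos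
    linarith
  obtain ⟨L, q, κ, hq, hκ, hNS, hpde, hdet, hdp⟩ := norm_data hn hU hL h hp hC0 hQ hth hB hsec hR
  set v := fun y => dev u 0 (L y) / R with hv
  have hz₁ : v (L.symm x₁) ≤ 1 / 2 := by
    simp only [hv, ContinuousLinearEquiv.apply_symm_apply]
    rw [div_le_iff₀ hR]
    have : dev u 0 x₁ ≤ max (max (dev u 0 x₁) (dev u 0 x₂)) 1 :=
      (le_max_left _ _).trans (le_max_left _ _)
    linarith
  have hz₂ : v (L.symm x₂) ≤ 1 / 2 := by
    simp only [hv, ContinuousLinearEquiv.apply_symm_apply]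
    rw [div_le_iff₀ hR]
    have : dev u 0 x₂ ≤ max (max (dev u 0 x₁) (dev u 0 x₂)) 1 :=
      (le_max_right _ _).trans (le_max_left _ _)
    linarith
  set f := detPower n v with hf
  have hfw : ∀ y, κ⁻¹ * f y = w (L y) := by
    intro y
    rw [hdp, ← mul_assoc, inv_mul_cancel₀ hκ.ne', one_mul]
  have hfs : ContDiff ℝ ∞ f := by
    rw [← contDiffOn_univ]
    intro x _
    exact (Inv.contDiffAt_detPower (hNS.sc.contDiffAt (mem_univ x))
      (hNS.sc.posDef x (mem_univ _))).contDiffWithinAt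
  have hop : ∀ x, ∑ i, ∑ j, (hessianMat v x).adjugate i j * hessianMat f x i j = 0 := by
    intro x
    have h1 := hpde x (mem_univ _)
    unfold affineMaximalOp at h1
    rw [← h1]
    refine Finset.sum_congr rfl fun i _ => Finset.sum_congr rfl fun j _ => ?_
    congr 1
    have hdet0 : (hessianMat v x).det ≠ 0 := (hNS.sc.posDef x (mem_univ _)).det_pos.ne'
    rw [Matrix.inv_def, Matrix.smul_apply, smul_eq_mul, Ring.inverse_eq_inv', ← mul_assoc,
      mul_inv_cancel₀ hdet0, one_mul]
  have hopv : ∀ a c : ℝ, ∀ x, ∑ i, ∑ j, (hessianMat v x).adjugate i j *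
      hessianMat (fun z => a + c * f z) x i j ≤ 0 := by
    intro a c x
    have h1 : ∑ i, ∑ j, (hessianMat v x).adjugate i j *
      hessianMat (fun z => a + c * f z) x i j = c * ∑ i, ∑ j, (hessianMat v x).adjugate i j *
        hessianMat f x i j := by
      rw [Finset.mul_sum]
      refine Finset.sum_congr rfl fun i _ => ?_
      rw [Finset.mul_sum]
      refine Finset.sum_congr rfl fun j _ => ?_
      rw [hess_add_mul hfs]
      ring
    rw [h1, hop, mul_zero]
  -- first function
  have k1 := hCH v hNS (fun z => (W + ε) + (-κ⁻¹) * f z)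
    (contDiff_const.add (contDiff_const.mul hfs)) (fun x => by
      have := hfw x
      have := hleW (L x)
      nlinarith) (fun x _ => hopv _ _ x) (L.symm x₁) hz₁ (2 * ε) d (by positivity) (by
      have e := hfw (L.symm x₁)
      rw [ContinuousLinearEquiv.apply_symm_apply] at e
      rw [neg_mul, e]
      linarith) (by linarith)
  have k2 := hCH v hNS (fun z => (ε - m) + κ⁻¹ * f z)
    (contDiff_const.add (contDiff_const.mul hfs)) (fun x => by
      have := hfw x
      have := hlem (L x)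
      linarith) (fun x _ => hopv _ _ x) (L.symm x₂) hz₂ (2 * ε) d (by positivity) (by
      have e := hfw (L.symm x₂)
      rw [ContinuousLinearEquiv.apply_symm_apply] at e
      rw [e]
      linarith) (by linarith)
  rw [hlog] at k1 k2
  set S1 := {x | v x ≤ 1 / 2 ∧ d ≤ (W + ε) + (-κ⁻¹) * f x} with hS1
  set S2 := {x | v x ≤ 1 / 2 ∧ d ≤ (ε - m) + κ⁻¹ * f x} with hS2
  have hfin : ∀ S : Set (EuclideanSpace ℝ (Fin n)), S ⊆ {x | v x ≤ 1 / 2} → volume S ≠ ⊤ := by
    intro S hS
    have : S ⊆ Metric.closedBall 0 1 := by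
      intro x hx
      rw [mem_closedBall_zero_iff]
      have hx' : v x ≤ 1 / 2 := hS hx
      exact hNS.bdd x (by linarith)
    exact ((measure_mono this).trans_lt measure_closedBall_lt_top).ne
  have hcover : Metric.closedBall (0 : EuclideanSpace ℝ (Fin n)) (r / 4) ⊆ S1 ∪ S2 := by
    intro x hx
    rw [mem_closedBall_zero_iff] at hx
    have hx2 : v x ≤ 1 / 2 := by
      have h1 := hNS.sc.convex_comb_le (x := 0) (y := (4:ℝ) • x) (mem_univ _) (mem_univ _)
        (t := 1 / 4) (by norm_num) (by norm_num)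
      rw [hNS.zero, zero_add, sub_zero, smul_smul] at h1
      have h2 := hNS.ball ((4:ℝ) • x) (by
        rw [norm_smul, Real.norm_of_nonneg (by norm_num)]; linarith)
      norm_num at h1
      linarith
    by_cases hc : d ≤ (W + ε) + (-κ⁻¹) * f x
    · exact Or.inl ⟨hx2, hc⟩
    · right
      refine ⟨hx2, ?_⟩
      push Not at hc
      have e := hfw x
      rw [neg_mul, e] at hc
      rw [e]
      rw [hd] at hc ⊢
      linarith
  have hvol : V0 ≤ (volume S1).toReal + (volume S2).toReal := by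
    have h1 : volume (Metric.closedBall (0 : EuclideanSpace ℝ (Fin n)) (r / 4)) ≤
        volume S1 + volume S2 := (measure_mono hcover).trans (measure_union_le _ _)
    have f1 := hfin S1 (fun x hx => hx.1)
    have f2 := hfin S2 (fun x hx => hx.1)
    rw [hV0, ← ENNReal.toReal_add f1 f2]
    exact ENNReal.toReal_mono (ENNReal.add_ne_top.mpr ⟨f1, f2⟩) h1
  have hpos : 0 < 2 * C / V0 + 1 := by positivity
  have hfinal : V0 * (2 * C / V0 + 1) ≤ 2 * C := by
    calc V0 * (2 * C / V0 + 1) ≤ ((volume S1).toReal + (volume S2).toReal) * (2 * C / V0 + 1) :=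
          mul_le_mul_of_nonneg_right hvol hpos.le
      _ ≤ 2 * C := by linarith
  have : V0 * (2 * C / V0 + 1) = 2 * C + V0 := by field_simp
  linarith

/-- **The determinant is constant.** -/
theorem det_const {Ω : Set (EuclideanSpace ℝ (Fin n))} (hn : 0 < n) (hU : DetUpper n)
    (hL : DetLower n) (hWH : WHStmt n) (h : SC Ω u) (hne : Ω.Nonempty) (hp : PDE Ω u)
    {C0 th : ℝ} (hC0 : 0 < C0)
    (hQ : QS Ω u C0) (hth : 0 < th) (hB : BAL Ω u th) (hsec : HSec Ω u) :
    Ω = univ ∧ ∃ c : ℝ, ∀ x, (hessianMat u x).det = c := by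
  have hΩ : Ω = univ := eq_univ h hne hQ hsec
  subst hΩ
  refine ⟨rfl, (hessianMat u 0).det, fun x => ?_⟩
  have h1 := detPower_const hn hU hL hWH h hp hC0 hQ hth hB hsec x 0
  unfold detPower at h1
  have hx : 0 < (hessianMat u x).det := (h.posDef x (mem_univ _)).det_pos
  have h0 : 0 < (hessianMat u 0).det := (h.posDef 0 (mem_univ _)).det_pos
  have hexp : -((n : ℝ) + 1) / ((n : ℝ) + 2) ≠ 0 := by
    have : (0:ℝ) ≤ n := Nat.cast_nonneg n
    apply div_ne_zero
    · apply ne_of_lt; linarith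
    · apply ne_of_gt; linarith
  exact (Real.rpow_left_inj hx.le h0.le hexp).mp h1

end

end Crest.Agent.R236.Sec
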