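import Crest.Agent.R236.Asm
import Crest.Agent.R236.ADefs
import Crest.Agent.R236.AUlim
import Crest.Agent.R236.AAuer
import Crest.Agent.R236.ARec
import Crest.Agent.R236.AInvB
import Crest.Agent.R236.CalcA
import Crest.Agent.R236.SecDefs
import Crest.Agent.R236.ABP
import Crest.Agent.R236.Poinc

-- ▼ part R236/Top0
section

/-! Row 236: S0365 from Part A, Part B, Liouville and JCP (helper850). -/

set_option autoImplicit false
open scoped ContDiff Topology
open Crest.GeometryTopology.CoordMetric Crest.GeometryTopology.AffineMaximal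
open Set Filter MeasureTheory

noncomputable section

namespace Crest.Agent.R236.Top0

open Crest.Agent.R236

/-- everything together -/
theorem S0365_of_parts (hA : A.PartA) (hB : ∀ n : ℕ, 3 ≤ n → n ≤ 9 → A.STRUCT n → False)
    (hC : ∀ n : ℕ, 3 ≤ n → n ≤ 9 → Asm.ConstStmt n)
    (hJ : ∀ n : ℕ, 3 ≤ n → n ≤ 9 → Asm.JcpStmt n) :
    ∀ n : ℕ, 3 ≤ n → n ≤ 9 → Asm.S0365Stmt n := by
  intro n h3 h9
  have hBAL : A.BAL n := by
    by_contra hcon
    exact hB n h3 h9 (hA n (by omega) hcon)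
  exact Asm.S0365_of hBAL (hC n h3 h9) (hJ n h3 h9)

end Crest.Agent.R236.Top0
end
end

-- ▼ part R236/ABlow1
section

/-!
# Row 236, Part A, node A4: cones and coordinates
-/

set_option autoImplicit false

namespace Crest.Agent.R236.A

open Module Set Filter Topology

section cone
variable {Y : Type*} [NormedAddCommGroup Y] [NormedSpace ℝ Y] [FiniteDimensional ℝ Y]

/-- a functional which is coercive on a pointed closed convex cone -/
theorem exists_coercive {R : Set Y} (hcl : IsClosed R) (h0 : (0 : Y) ∈ R)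
    (hsm : ∀ v ∈ R, ∀ t : ℝ, 0 ≤ t → t • v ∈ R) (hadd : ∀ v ∈ R, ∀ w ∈ R, v + w ∈ R)
    (hpt : ∀ v ∈ R, -v ∈ R → v = 0) :
    ∃ (l : Y →L[ℝ] ℝ) (c0 : ℝ), 0 < c0 ∧ ∀ v ∈ R, c0 * ‖v‖ ≤ l v := by
  classical
  set S : Set Y := R ∩ Metric.sphere (0 : Y) 1 with hS
  have hScomp : IsCompact S := (isCompact_sphere (0 : Y) 1).inter_left hcl
  have hRconv : Convex ℝ R := by
    intro x hx y hy a b ha hb hab
    exact hadd _ (hsm x hx a ha) _ (hsm y hy b hb)
  -- for each point of the sphere a functional, nonnegative on `R`, positive at the point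
  have hex : ∀ s ∈ S, ∃ f : Y →L[ℝ] ℝ, (∀ b ∈ R, 0 ≤ f b) ∧ 0 < f s := by
    intro s hs
    have hns : -s ∉ R := by
      intro h
      have := hpt s hs.1 h
      have hn : ‖s‖ = 1 := by simpa using hs.2
      rw [this] at hn
      simp at hn
    obtain ⟨f, u, hu0, hu⟩ := geometric_hahn_banach_point_closed hRconv hcl hns
    have hu1 : u < 0 := by simpa using hu 0 h0
    refine ⟨f, fun b hb => ?_, ?_⟩
    · by_contra hcon
      push Not at hcon
      have h1 := hu _ (hsm b hb (u / f b) (div_nonneg_of_nonpos hu1.le hcon.le))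
      rw [map_smul, smul_eq_mul, div_mul_cancel₀ _ hcon.ne] at h1
      exact lt_irrefl _ h1
    · rw [map_neg] at hu0
      linarith
  choose! f hf0 hf1 using hex
  obtain ⟨t, htS, htcov⟩ := hScomp.elim_nhds_subcover (fun s => {x | 0 < f s x}) (by
    intro s hs
    exact (isOpen_lt continuous_const (f s).continuous).mem_nhds (hf1 s hs))
  set l : Y →L[ℝ] ℝ := ∑ s ∈ t, f s with hl
  have hlv : ∀ v, l v = ∑ s ∈ t, f s v := by
    intro v
    rw [hl]
    simp
  have hlpos : ∀ x ∈ S, 0 < l x := by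
    intro x hx
    have hx' := htcov hx
    simp only [mem_iUnion, mem_ofPred_eq] at hx'
    obtain ⟨s, hst, hsx⟩ := hx'
    rw [hlv]
    exact Finset.sum_pos' (fun i hi => hf0 i (htS i hi) x hx.1) ⟨s, hst, hsx⟩
  -- the minimum on the compact set
  obtain ⟨c0, hc0, hc⟩ : ∃ c0 : ℝ, 0 < c0 ∧ ∀ x ∈ S, c0 ≤ l x := by
    rcases S.eq_empty_or_nonempty with h | h
    · exact ⟨1, one_pos, by simp [h]⟩
    · obtain ⟨x0, hx0, hmin⟩ := hScomp.exists_isMinOn h l.continuous.continuousOn
      exact ⟨l x0, hlpos x0 hx0, fun x hx => hmin hx⟩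
  refine ⟨l, c0, hc0, fun v hv => ?_⟩
  by_cases hv0 : v = 0
  · simp [hv0]
  have hvn : 0 < ‖v‖ := norm_pos_iff.mpr hv0
  have hmem : (‖v‖⁻¹ • v) ∈ S := by
    refine ⟨hsm v hv _ (inv_nonneg.mpr hvn.le), ?_⟩
    simp [norm_smul, hvn.ne']
  have h1 := hc _ hmem
  rw [map_smul, smul_eq_mul] at h1
  have h2 : c0 * ‖v‖ ≤ ‖v‖⁻¹ * l v * ‖v‖ := mul_le_mul_of_nonneg_right h1 hvn.le
  have h3 : ‖v‖⁻¹ * l v * ‖v‖ = l v := by field_simp
  linarith [h2, h3.le]

/-- a spanning closed convex cone has interior -/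
theorem cone_interior {R : Set Y} (h0 : (0 : Y) ∈ R) (hconv : Convex ℝ R)
    (hsp : Submodule.span ℝ R = ⊤) : (interior R).Nonempty := by
  rw [hconv.interior_nonempty_iff_affineSpan_eq_top]
  rw [← AffineSubspace.coe_eq_univ_iff, eq_univ_iff_forall]
  intro x
  have h1 : (0 : Y) ∈ affineSpan ℝ R := subset_affineSpan ℝ R h0
  have hx : x ∈ Submodule.span ℝ R := by rw [hsp]; trivial
  have : x ∈ (affineSpan ℝ R).direction := by
    rw [direction_affineSpan]
    have hle : Submodule.span ℝ R ≤ vectorSpan ℝ R := by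
      rw [Submodule.span_le]
      intro y hy
      have := vsub_mem_vectorSpan ℝ hy h0
      simpa using this
    exact hle hx
  have := AffineSubspace.vadd_mem_of_mem_direction this h1
  simpa using this

/-- all cone data from a pointed spanning closed convex cone -/
theorem exists_coneData {D : ℕ} (hD : 1 ≤ D) {R : Set (EE D)} (hcl : IsClosed R)
    (h0 : (0 : EE D) ∈ R)
    (hsm : ∀ v ∈ R, ∀ t : ℝ, 0 ≤ t → t • v ∈ R) (hadd : ∀ v ∈ R, ∀ w ∈ R, v + w ∈ R)
    (hpt : ∀ v ∈ R, -v ∈ R → v = 0) (hsp : Submodule.span ℝ R = ⊤) :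
    ∃ (l : EE D →L[ℝ] ℝ) (e : EE D) (c0 : ℝ), ConeData R l e c0 := by
  have hRconv : Convex ℝ R := by
    intro x hx y hy a b ha hb hab
    exact hadd _ (hsm x hx a ha) _ (hsm y hy b hb)
  obtain ⟨l, c0, hc0, hl⟩ := exists_coercive hcl h0 hsm hadd hpt
  obtain ⟨e', he'⟩ := cone_interior h0 hRconv hsp
  have he'0 : e' ≠ 0 := by
    rintro rfl
    -- zero in the interior: everything is in R
    have huniv : ∀ v : EE D, v ∈ R := by
      intro v
      rw [mem_interior_iff_mem_nhds] at he'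
      have h1 : Tendsto (fun t : ℝ => t • v) (𝓝[>] 0) (𝓝 0) := by
        have : Tendsto (fun t : ℝ => t • v) (𝓝 0) (𝓝 ((0 : ℝ) • v)) :=
          (continuous_id.smul continuous_const).tendsto 0
        rw [zero_smul] at this
        exact this.mono_left nhdsWithin_le_nhds
      have h2 := (h1.eventually he').and (self_mem_nhdsWithin (s := Ioi (0 : ℝ)))
      obtain ⟨t, ht, htpos⟩ := h2.exists
      have := hsm _ ht t⁻¹ (inv_nonneg.mpr (le_of_lt htpos))
      rwa [smul_smul, inv_mul_cancel₀ (ne_of_gt htpos), one_smul] at this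
    have hD' : 0 < D := hD
    have hv := hpt (EuclideanSpace.single (⟨0, hD'⟩ : Fin D) (1 : ℝ)) (huniv _) (huniv _)
    have := congrArg (fun x : EE D => x ⟨0, hD'⟩) hv
    simp at this
  have hle : 0 < l e' := by
    have := hl e' (interior_subset he')
    have h2 : 0 < c0 * ‖e'‖ := mul_pos hc0 (norm_pos_iff.mpr he'0)
    linarith
  refine ⟨l, (l e')⁻¹ • e', c0, ⟨hcl, hRconv, h0, hsm, hadd, ?_, ?_, hc0, hl⟩⟩
  · have hinv : (l e')⁻¹ ≠ 0 := inv_ne_zero hle.ne'
    have hop : IsOpenMap fun x : EE D => (l e')⁻¹ • x := isOpenMap_smul₀ hinv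
    have h2 : (fun x : EE D => (l e')⁻¹ • x) '' interior R ⊆ R := by
      rintro _ ⟨v, hv, rfl⟩
      exact hsm v (interior_subset hv) _ (inv_nonneg.mpr hle.le)
    exact interior_maximal h2 (hop _ isOpen_interior) ⟨e', he', rfl⟩
  · rw [map_smul, smul_eq_mul, inv_mul_cancel₀ hle.ne']

end cone

end Crest.Agent.R236.A
end

-- ▼ part R236/ABlow2
section

/-!
# Row 236, Part A, node A4: the blow-down in coordinates
-/

set_option autoImplicit false

namespace Crest.Agent.R236.A

open Module Set Filter Topology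

section recs
variable {W : Type*} [NormedAddCommGroup W] [NormedSpace ℝ W]

theorem rec_of_tendsto' {ι : Type*} {F : Filter ι} [F.NeBot] {C : Set W} (hcl : IsClosed C)
    (hc : Convex ℝ C) {x : ι → W} {t : ι → ℝ} {v : W} (hx : ∀ᶠ j in F, x j ∈ C)
    (ht : Tendsto t F atTop) (hv : Tendsto (fun j => (t j)⁻¹ • x j) F (𝓝 v)) : v ∈ Rec C := by
  intro y hy s hs
  have h1 : Tendsto (fun j => (1 - s * (t j)⁻¹) • y + s • ((t j)⁻¹ • x j)) F
      (𝓝 ((1 - s * 0) • y + s • v)) := by
    have hi : Tendsto (fun j => (t j)⁻¹) F (𝓝 0) := tendsto_inv_atTop_zero.comp ht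
    exact ((tendsto_const_nhds.sub (hi.const_mul s)).smul_const y).add (hv.const_smul s)
  rw [mul_zero, sub_zero, one_smul] at h1
  refine hcl.mem_of_tendsto h1 ?_
  filter_upwards [hx, ht.eventually_ge_atTop (max s 1)] with j hj htj
  have ht1 : 1 ≤ t j := (le_max_right _ _).trans htj
  have ht0 : 0 < t j := by linarith
  have hst : s ≤ t j := (le_max_left _ _).trans htj
  have h2 : s * (t j)⁻¹ ≤ 1 := by
    rw [← div_eq_mul_inv, div_le_one ht0]; exact hst
  rw [smul_smul]
  exact hc hy hj (by linarith) (mul_nonneg hs (inv_nonneg.mpr ht0.le)) (by ring)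


end recs

section blow
variable {m D : ℕ}

/-- the situation after the choice of coordinates -/
structure Pre (C : Set (EE m × EE D × ℝ)) (R : Set (EE D)) (l : EE D →L[ℝ] ℝ) (e : EE D)
    (c0 : ℝ) : Prop where
  cl : IsClosed C
  cv : Convex ℝ C
  zero : (0 : EE m × EE D × ℝ) ∈ C
  nonneg : ∀ X ∈ C, 0 ≤ X.2.2
  vert : ∃ ζ : ℝ, 0 < ζ ∧ ((0 : EE m), (0 : EE D), ζ) ∈ interior C
  recR : ∀ y, y ∈ R ↔ ((0 : EE m), y, (0 : ℝ)) ∈ Rec C
  rec0 : ∀ v ∈ Rec C, v.2.2 = 0 → v.1 = 0
  cone : ConeData R l e c0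

variable {C : Set (EE m × EE D × ℝ)} {R : Set (EE D)} {l : EE D →L[ℝ] ℝ} {e : EE D} {c0 : ℝ}

/-- no unbounded sequence of `C` stays low -/
theorem Pre.key (h : Pre C R l e c0) (U : Ultrafilter ℕ) {X : ℕ → EE m × EE D × ℝ}
    (hX : ∀ᶠ j in (U : Filter ℕ), X j ∈ C) (hn : Tendsto (fun j => ‖X j‖) U atTop)
    (hl : ∀ ε : ℝ, 0 < ε → ∀ᶠ j in (U : Filter ℕ), l (X j).2.1 ≤ ε * ‖X j‖)
    (hz : ∀ ε : ℝ, 0 < ε → ∀ᶠ j in (U : Filter ℕ), (X j).2.2 ≤ ε * ‖X j‖) : False := by
  set V : ℕ → EE m × EE D × ℝ := fun j => ‖X j‖⁻¹ • X j with hV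
  have hVn : ∀ᶠ j in (U : Filter ℕ), ‖V j‖ = 1 := by
    filter_upwards [hn.eventually_gt_atTop 0] with j hj
    rw [hV]
    simp only [norm_smul, norm_inv, norm_norm]
    exact inv_mul_cancel₀ hj.ne'
  obtain ⟨v, -, hv⟩ := exists_limit (U := U) (hVn.mono fun j hj => hj.le)
  have hv1 : ‖v‖ = 1 := by
    have h1 : Tendsto (fun j => ‖V j‖) U (𝓝 ‖v‖) := hv.norm
    have h2 : Tendsto (fun j => ‖V j‖) U (𝓝 1) := by
      refine Tendsto.congr' ?_ tendsto_const_nhds
      filter_upwards [hVn] with j hj using hj.symm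
    exact tendsto_nhds_unique h1 h2
  have hrec : v ∈ Rec C := rec_of_tendsto' h.cl h.cv hX hn hv
  have hlV : l v.2.1 ≤ 0 := by
    refine le_of_forall_pos_le_add fun ε hε => ?_
    have h1 : Tendsto (fun j => l (V j).2.1) U (𝓝 (l v.2.1)) :=
      (l.continuous.comp (continuous_fst.comp continuous_snd)).continuousAt.tendsto.comp hv
    refine le_of_tendsto h1 ?_
    filter_upwards [hl ε hε, hn.eventually_gt_atTop 0] with j hj hj0
    have : l (V j).2.1 = ‖X j‖⁻¹ * l (X j).2.1 := by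
      simp [hV]
    rw [this, zero_add, inv_mul_le_iff₀ hj0]
    linarith [mul_comm ε ‖X j‖]
  have hzV : v.2.2 ≤ 0 := by
    refine le_of_forall_pos_le_add fun ε hε => ?_
    have h1 : Tendsto (fun j => (V j).2.2) U (𝓝 v.2.2) :=
      (continuous_snd.comp continuous_snd).continuousAt.tendsto.comp hv
    refine le_of_tendsto h1 ?_
    filter_upwards [hz ε hε, hn.eventually_gt_atTop 0] with j hj hj0
    have : (V j).2.2 = ‖X j‖⁻¹ * (X j).2.2 := by
      simp [hV]
    rw [this, zero_add, inv_mul_le_iff₀ hj0]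
    linarith [mul_comm ε ‖X j‖]
  have hz0 : 0 ≤ v.2.2 := by
    have := hrec 0 h.zero 1 zero_le_one
    have := h.nonneg _ this
    simpa using this
  have hz1 : v.2.2 = 0 := le_antisymm hzV hz0
  have ht0 : v.1 = 0 := h.rec0 v hrec hz1
  have hvR : v.2.1 ∈ R := by
    rw [h.recR]
    have : v = (0, v.2.1, 0) := by
      ext1
      · exact ht0
      · ext1
        · rfl
        · exact hz1
    rw [← this]; exact hrec
  have h1 := h.cone.l_ge _ hvR
  have h2 : ‖v.2.1‖ = 0 := by
    have hc := h.cone.c0_pos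
    have : c0 * ‖v.2.1‖ ≤ 0 := h1.trans hlV
    have h3 : ‖v.2.1‖ ≤ 0 := by
      by_contra hcon
      push Not at hcon
      have := mul_pos hc hcon
      linarith
    exact le_antisymm h3 (norm_nonneg _)
  have h3 : v = 0 := by
    ext1
    · exact ht0
    · ext1
      · exact norm_eq_zero.mp h2
      · exact hz1
  rw [h3, norm_zero] at hv1
  exact zero_ne_one hv1

theorem ultra_bdd_or_tendsto (U : Ultrafilter ℕ) (a : ℕ → ℝ) :
    (∃ M : ℝ, ∀ᶠ j in (U : Filter ℕ), a j ≤ M) ∨ Tendsto a U atTop := by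
  by_cases h : ∃ M : ℝ, ∀ᶠ j in (U : Filter ℕ), a j ≤ M
  · exact Or.inl h
  · right
    push Not at h
    rw [tendsto_atTop]
    intro b
    filter_upwards [h b] with j hj
    exact hj.le

/-- low points at scale `s j` are bounded at scale `s j` -/
theorem Pre.bdd (h : Pre C R l e c0) (U : Ultrafilter ℕ) {X : ℕ → EE m × EE D × ℝ}
    {s : ℕ → ℝ} (hs : Tendsto s U atTop)
    (hX : ∀ᶠ j in (U : Filter ℕ), X j ∈ C) (a b : ℝ)
    (hl : ∀ᶠ j in (U : Filter ℕ), l (X j).2.1 ≤ a * s j)
    (hz : ∀ᶠ j in (U : Filter ℕ), (X j).2.2 ≤ b) :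
    ∃ M : ℝ, ∀ᶠ j in (U : Filter ℕ), ‖(s j)⁻¹ • X j‖ ≤ M := by
  rcases ultra_bdd_or_tendsto U (fun j => ‖(s j)⁻¹ • X j‖) with h1 | h1
  · exact h1
  · exfalso
    have hs0 : ∀ᶠ j in (U : Filter ℕ), 1 ≤ s j := hs.eventually_ge_atTop 1
    have hmul : ∀ᶠ j in (U : Filter ℕ), ‖X j‖ = s j * ‖(s j)⁻¹ • X j‖ := by
      filter_upwards [hs0] with j hj
      rw [norm_smul, norm_inv, Real.norm_of_nonneg (by linarith), ← mul_assoc,
        mul_inv_cancel₀ (by linarith), one_mul]
    have hn : Tendsto (fun j => ‖X j‖) U atTop := by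
      refine tendsto_atTop_mono' _ ?_ h1
      filter_upwards [hs0, hmul] with j hj hj2
      rw [hj2]
      nlinarith [norm_nonneg ((s j)⁻¹ • X j)]
    refine h.key U hX hn (fun ε hε => ?_) (fun ε hε => ?_)
    · filter_upwards [hl, hs0, hmul, h1.eventually_ge_atTop (|a| / ε)] with j hj hj1 hj2 hj3
      rw [hj2]
      have h3 : |a| ≤ ε * ‖(s j)⁻¹ • X j‖ := by
        rw [div_le_iff₀ hε] at hj3
        linarith [mul_comm ε ‖(s j)⁻¹ • X j‖]
      have h4 : a ≤ |a| := le_abs_self a
      have h5 : a * s j ≤ (ε * ‖(s j)⁻¹ • X j‖) * s j :=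
        mul_le_mul_of_nonneg_right (h4.trans h3) (by linarith)
      calc l (X j).2.1 ≤ a * s j := hj
        _ ≤ _ := h5
        _ = ε * (s j * ‖(s j)⁻¹ • X j‖) := by ring
    · filter_upwards [hz, hn.eventually_ge_atTop (|b| / ε)] with j hj hj3
      have h3 : |b| ≤ ε * ‖X j‖ := by
        rw [div_le_iff₀ hε] at hj3
        linarith [mul_comm ε ‖X j‖]
      linarith [le_abs_self b]

/-- the `y`-components of limits are in `R` -/
theorem Pre.limR (h : Pre C R l e c0) (U : Ultrafilter ℕ) {X : ℕ → EE m × EE D × ℝ}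
    {s : ℕ → ℝ} (hs : Tendsto s U atTop)
    (hX : ∀ᶠ j in (U : Filter ℕ), X j ∈ C) {y : EE D}
    (hy : Tendsto (fun j => (s j)⁻¹ • (X j).2.1) U (𝓝 y)) (b : ℝ)
    (hz : ∀ᶠ j in (U : Filter ℕ), (X j).2.2 ≤ b) : y ∈ R := by
  have hs0 : ∀ᶠ j in (U : Filter ℕ), 1 ≤ s j := hs.eventually_ge_atTop 1
  have hl : ∀ᶠ j in (U : Filter ℕ), l (X j).2.1 ≤ (l y + 1) * s j := by
    have h1 : Tendsto (fun j => l ((s j)⁻¹ • (X j).2.1)) U (𝓝 (l y)) :=
      l.continuous.continuousAt.tendsto.comp hy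
    filter_upwards [hs0, h1.eventually_lt_const (show l y < l y + 1 by linarith)] with j hj hj2
    rw [map_smul, smul_eq_mul, inv_mul_lt_iff₀ (by linarith)] at hj2
    linarith [mul_comm (s j) (l y + 1)]
  obtain ⟨M, hM⟩ := h.bdd U hs hX _ b hl hz
  obtain ⟨v, -, hv⟩ := exists_limit (U := U) hM
  have hrec : v ∈ Rec C := rec_of_tendsto' h.cl h.cv hX hs hv
  have hv1 : v.2.1 = y := by
    have h1 : Tendsto (fun j => ((s j)⁻¹ • X j).2.1) U (𝓝 v.2.1) :=
      (continuous_fst.comp continuous_snd).continuousAt.tendsto.comp hv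
    exact tendsto_nhds_unique h1 hy
  have hv2 : v.2.2 = 0 := by
    have h1 : Tendsto (fun j => ((s j)⁻¹ • X j).2.2) U (𝓝 v.2.2) :=
      (continuous_snd.comp continuous_snd).continuousAt.tendsto.comp hv
    have hi : Tendsto (fun j => (s j)⁻¹ * b) U (𝓝 (0 * b)) :=
      (tendsto_inv_atTop_zero.comp hs).mul_const b
    rw [zero_mul] at hi
    refine le_antisymm (le_of_tendsto_of_tendsto h1 hi ?_) (ge_of_tendsto h1 ?_)
    · filter_upwards [hz, hs0] with j hj hj1
      simp only [Prod.smul_snd, smul_eq_mul]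
      exact mul_le_mul_of_nonneg_left hj (inv_nonneg.mpr (by linarith))
    · filter_upwards [hX, hs0] with j hj hj1
      simp only [Prod.smul_snd, smul_eq_mul]
      exact mul_nonneg (inv_nonneg.mpr (by linarith)) (h.nonneg _ hj)
  have hv0 := h.rec0 v hrec hv2
  rw [h.recR, ← hv1]
  have : v = (0, v.2.1, 0) := by
    ext1
    · exact hv0
    · ext1
      · rfl
      · exact hv2
  rw [← this]; exact hrec

end blow

end Crest.Agent.R236.A
end

-- ▼ part R236/ABlow3
section

/-!
# Row 236, Part A, node A4: the limit of the blow-down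
-/

set_option autoImplicit false

namespace Crest.Agent.R236.A

open Module Set Filter Topology

section blow
variable {m D : ℕ}

/-- the scaling map `(t, y, z) ↦ (B t, y / s, s z)` -/
noncomputable def scal (B : EE m ≃L[ℝ] EE m) (s : ℝ) (hs : s ≠ 0) :
    (EE m × EE D × ℝ) ≃ₗ[ℝ] (EE m × EE D × ℝ) :=
  B.toLinearEquiv.prodCongr
    ((LinearEquiv.smulOfNeZero ℝ (EE D) s⁻¹ (inv_ne_zero hs)).prodCongr
      (LinearEquiv.smulOfNeZero ℝ ℝ s hs))

@[simp] theorem scal_apply (B : EE m ≃L[ℝ] EE m) (s : ℝ) (hs : s ≠ 0) (X : EE m × EE D × ℝ) :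
    scal B s hs X = (B X.1, s⁻¹ • X.2.1, s * X.2.2) := rfl

variable {C : Set (EE m × EE D × ℝ)} {R : Set (EE D)} {l : EE D →L[ℝ] ℝ} {e : EE D} {c0 : ℝ}

/-- the low part of `C` at scale `s` -/
def low (C : Set (EE m × EE D × ℝ)) (l : EE D →L[ℝ] ℝ) (s : ℝ) : Set (EE m × EE D × ℝ) :=
  {X | X ∈ C ∧ l X.2.1 ≤ s ∧ X.2.2 ≤ s⁻¹}

theorem low_eq (C : Set (EE m × EE D × ℝ)) (l : EE D →L[ℝ] ℝ) (s : ℝ) :
    low C l s = C ∩ ({X : EE m × EE D × ℝ | l X.2.1 ≤ s} ∩
      {X : EE m × EE D × ℝ | X.2.2 ≤ s⁻¹}) := by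
  ext X
  simp only [low, mem_ofPred_eq, mem_inter_iff]

theorem Pre.low_compact (h : Pre C R l e c0) (s : ℝ) : IsCompact (low C l s) := by
  have : ProperSpace (EE m × EE D × ℝ) := FiniteDimensional.proper_real _
  have hcl : IsClosed (low C l s) := by
    rw [low_eq]
    refine h.cl.inter ((isClosed_le ?_ continuous_const).inter (isClosed_le ?_ continuous_const))
    · exact l.continuous.comp (continuous_fst.comp continuous_snd)
    · exact continuous_snd.comp continuous_snd
  refine Metric.isCompact_of_isClosed_isBounded hcl ?_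
  by_contra hb
  rw [isBounded_iff_forall_norm_le] at hb
  push Not at hb
  choose x hx hxn using fun j : ℕ => hb j
  have hn : Tendsto (fun j => ‖x j‖) ((hyperfilter ℕ : Ultrafilter ℕ) : Filter ℕ) atTop := by
    have h1 : Tendsto (fun j => ‖x j‖) atTop atTop :=
      tendsto_atTop_mono (fun j => (hxn j).le) tendsto_natCast_atTop_atTop
    exact h1.mono_left Nat.hyperfilter_le_atTop
  refine h.key (hyperfilter ℕ) (Eventually.of_forall fun j => (hx j).1) hn
    (fun ε hε => ?_) (fun ε hε => ?_)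
  · filter_upwards [hn.eventually_ge_atTop (|s| / ε)] with j hj
    rw [div_le_iff₀ hε] at hj
    have := (hx j).2.1
    linarith [le_abs_self s, mul_comm ε ‖x j‖]
  · filter_upwards [hn.eventually_ge_atTop (|s⁻¹| / ε)] with j hj
    rw [div_le_iff₀ hε] at hj
    have := (hx j).2.2
    linarith [le_abs_self s⁻¹, mul_comm ε ‖x j‖]

theorem Pre.smul_mem (h : Pre C R l e c0) {X : EE m × EE D × ℝ} (hX : X ∈ C) {a : ℝ}
    (ha : 0 ≤ a) (ha1 : a ≤ 1) : a • X ∈ C := by
  have := h.cv h.zero hX (show 0 ≤ 1 - a by linarith) ha (by ring)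
  simpa using this

theorem Pre.low_interior (h : Pre C R l e c0) {s : ℝ} (hs : 0 < s) :
    (interior (low C l s)).Nonempty := by
  obtain ⟨ζ, hζ, hQ⟩ := h.vert
  set Q : EE m × EE D × ℝ := (0, 0, ζ) with hQd
  have hsi : 0 < s⁻¹ := inv_pos.mpr hs
  set a : ℝ := min 1 (s⁻¹ / (2 * ζ)) with ha
  have ha0 : 0 < a := lt_min one_pos (by positivity)
  have ha1 : a ≤ 1 := min_le_left _ _
  have ha2 : a * ζ < s⁻¹ := by
    have : a ≤ s⁻¹ / (2 * ζ) := min_le_right _ _
    calc a * ζ ≤ s⁻¹ / (2 * ζ) * ζ := mul_le_mul_of_nonneg_right this hζ.le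
      _ = s⁻¹ / 2 := by field_simp
      _ < s⁻¹ := by linarith
  have hop : IsOpenMap fun x : EE m × EE D × ℝ => a • x := isOpenMap_smul₀ ha0.ne'
  have hsub : (fun x : EE m × EE D × ℝ => a • x) '' interior C ⊆ C := by
    rintro _ ⟨v, hv, rfl⟩
    exact h.smul_mem (interior_subset hv) ha0.le ha1
  have hopen : IsOpen ((fun x : EE m × EE D × ℝ => a • x) '' interior C ∩
      ({X : EE m × EE D × ℝ | l X.2.1 < s} ∩ {X : EE m × EE D × ℝ | X.2.2 < s⁻¹})) := by
    refine (hop _ isOpen_interior).inter ((isOpen_lt ?_ continuous_const).inter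
      (isOpen_lt ?_ continuous_const))
    · exact l.continuous.comp (continuous_fst.comp continuous_snd)
    · exact continuous_snd.comp continuous_snd
  refine ⟨a • Q, interior_maximal ?_ hopen ⟨⟨Q, hQ, rfl⟩, ?_, ?_⟩⟩
  · rintro X ⟨h1, h2, h3⟩
    exact ⟨hsub h1, le_of_lt h2, le_of_lt h3⟩
  · simp [hQd, hs]
  · simpa [hQd] using ha2

theorem Pre.exists_B (h : Pre C R l e c0) {s : ℝ} (hs : 0 < s) :
    ∃ B : EE m ≃L[ℝ] EE m, (∀ i, ∃ X ∈ low C l s, B X.1 = EuclideanSpace.single i (1 : ℝ)) ∧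
      ∀ X ∈ low C l s, ∀ i, |B X.1 i| ≤ 1 := by
  have hlc : Convex ℝ (low C l s) := by
    rw [low_eq]
    refine h.cv.inter (Convex.inter ?_ ?_)
    · have : {a : EE m × EE D × ℝ | l a.2.1 ≤ s} =
          (fun X : EE m × EE D × ℝ => l X.2.1) ⁻¹' Iic s := rfl
      exact (convex_Iic s).is_linear_preimage
        (f := fun X : EE m × EE D × ℝ => l X.2.1)
        ⟨fun x y => by simp, fun c x => by simp⟩
    · exact (convex_Iic s⁻¹).is_linear_preimage
        (f := fun X : EE m × EE D × ℝ => X.2.2)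
        ⟨fun x y => by simp, fun c x => by simp⟩
  have h0 : (0 : EE m × EE D × ℝ) ∈ low C l s :=
    ⟨h.zero, by simp [hs.le], by simpa using hs.le⟩
  obtain ⟨B, hB1, hB2⟩ := auerbachStmt m (Prod.fst '' low C l s)
    ((h.low_compact s).image continuous_fst) (hlc.linear_image (LinearMap.fst ℝ _ _))
    ⟨0, h0, rfl⟩ (by
      obtain ⟨x, hx⟩ := h.low_interior hs
      refine ⟨x.1, interior_maximal (image_mono interior_subset)
        (isOpenMap_fst _ isOpen_interior) ⟨x, hx, rfl⟩⟩)
  refine ⟨B, fun i => ?_, fun X hX i => hB2 _ ⟨X.1, ⟨X, hX, rfl⟩, rfl⟩ i⟩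
  obtain ⟨_, ⟨X, hX, rfl⟩, hXB⟩ := hB1 i
  exact ⟨X, hX, hXB⟩

/-- the blow-down limit belongs to the class -/
theorem Pre.blowdown {n : ℕ} (h : Pre C R l e c0)
    (happr : ∀ A : (EE m × EE D × ℝ) ≃ₗ[ℝ] (EE m × EE D × ℝ), Appr n (A '' C)) :
    ∃ C' : Set (EE m × EE D × ℝ), ClassR n R C' := by
  set s : ℕ → ℝ := fun j => (j : ℝ) + 1 with hsd
  have hs0 : ∀ j, 0 < s j := fun j => by positivity
  have hs1 : ∀ j, 1 ≤ s j := fun j => by simp [hsd]
  choose B hB1 hB2 using fun j : ℕ => h.exists_B (hs0 j)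
  set U : Ultrafilter ℕ := hyperfilter ℕ with hU
  have hUs : Tendsto s U atTop := by
    have h1 : Tendsto s atTop atTop := tendsto_atTop_add_const_right _ _
      tendsto_natCast_atTop_atTop
    exact h1.mono_left Nat.hyperfilter_le_atTop
  set Cj : ℕ → Set (EE m × EE D × ℝ) := fun j => scal (B j) (s j) (hs0 j).ne' '' C with hCj
  have hap : ∀ j, Appr n (Cj j) := fun j => happr _
  have hclj : ∀ j, IsClosed (Cj j) := fun j => (hap j).1
  set C1 : Set (EE m × EE D × ℝ) := ulim U Cj with hC1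
  have hC1a : Appr n C1 := appr_ulim hap
  have hC1cl : IsClosed C1 := hC1a.1
  have hC1cv : Convex ℝ C1 := hC1a.2.1
  -- membership
  have hmem : ∀ j (X : EE m × EE D × ℝ), X ∈ C →
      (B j X.1, (s j)⁻¹ • X.2.1, s j * X.2.2) ∈ Cj j := fun j X hX => ⟨X, hX, rfl⟩
  -- horizontal part
  have hhor : ∀ y ∈ R, ((0 : EE m), y, (0 : ℝ)) ∈ C1 := by
    intro y hy
    refine mem_ulim_of_tendsto (x := fun _ => ((0 : EE m), y, (0 : ℝ)))
      (Eventually.of_forall fun j => ?_) tendsto_const_nhds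
    have h1 := (h.recR y).1 hy 0 h.zero (s j) (hs0 j).le
    have h2 := hmem j _ h1
    simpa [smul_smul, inv_mul_cancel₀ (hs0 j).ne'] using h2
  have h0C1 : (0 : EE m × EE D × ℝ) ∈ C1 := hhor 0 h.cone.R_zero
  -- vertical ray
  have hver : ∀ σ : ℝ, 0 ≤ σ → ((0 : EE m), (0 : EE D), σ) ∈ C1 := by
    intro σ hσ
    obtain ⟨ζ, hζ, hQ⟩ := h.vert
    refine mem_ulim_of_tendsto (x := fun _ => ((0 : EE m), (0 : EE D), σ)) ?_ tendsto_const_nhds
    filter_upwards [hUs.eventually_ge_atTop (σ / ζ)] with j hj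
    have hle : σ / (ζ * s j) ≤ 1 := by
      rw [div_le_one (mul_pos hζ (hs0 j))]
      rw [div_le_iff₀ hζ] at hj
      linarith [mul_comm ζ (s j)]
    have h1 := h.smul_mem (interior_subset hQ) (div_nonneg hσ (mul_pos hζ (hs0 j)).le) hle
    have h2 := hmem j _ h1
    have h3 : s j * (σ / (ζ * s j) * ζ) = σ := by
      have := (hs0 j).ne'
      field_simp
    simpa [h3] using h2
  have hrecV : ((0 : EE m), (0 : EE D), (1 : ℝ)) ∈ Rec C1 := by
    refine mem_rec_of_ray hC1cl hC1cv (x0 := 0) fun t ht => ?_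
    have := hver t ht
    simpa using this
  -- sequences
  have hseq : ∀ X ∈ C1, ∃ x : ℕ → EE m × EE D × ℝ, (∀ᶠ j in (U : Filter ℕ), x j ∈ C) ∧
      Tendsto (fun j => (B j (x j).1, (s j)⁻¹ • (x j).2.1, s j * (x j).2.2)) U (𝓝 X) := by
    intro X hX
    obtain ⟨y, hy, hly⟩ := exists_seq_of_mem_ulim hclj hX
    have hch : ∀ j, ∃ x : EE m × EE D × ℝ, y j ∈ Cj j →
        x ∈ C ∧ (B j x.1, (s j)⁻¹ • x.2.1, s j * x.2.2) = y j := by
      intro j
      by_cases hj : y j ∈ Cj j
      · obtain ⟨x, hx, hxy⟩ := hj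
        exact ⟨x, fun _ => ⟨hx, hxy⟩⟩
      · exact ⟨0, fun h => absurd h hj⟩
    choose x hx using hch
    refine ⟨x, ?_, ?_⟩
    · filter_upwards [hy] with j hj using (hx j hj).1
    · refine hly.congr' ?_
      filter_upwards [hy] with j hj using ((hx j hj).2).symm
  -- position of the limit
  have hpos : ∀ X ∈ C1, X.2.1 ∈ R ∧ 0 ≤ X.2.2 := by
    intro X hX
    obtain ⟨x, hx, hlx⟩ := hseq X hX
    have h1 : Tendsto (fun j => (s j)⁻¹ • (x j).2.1) U (𝓝 X.2.1) :=
      (continuous_fst.comp continuous_snd).continuousAt.tendsto.comp hlx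
    have h2 : Tendsto (fun j => s j * (x j).2.2) U (𝓝 X.2.2) :=
      (continuous_snd.comp continuous_snd).continuousAt.tendsto.comp hlx
    refine ⟨h.limR U hUs hx h1 (|X.2.2| + 1) ?_, ?_⟩
    · filter_upwards [h2.eventually_lt_const (show X.2.2 < |X.2.2| + 1 by
        linarith [le_abs_self X.2.2]), hx] with j hj hjx
      have h3 := h.nonneg _ hjx
      have h4 : (x j).2.2 ≤ s j * (x j).2.2 := by nlinarith [hs1 j]
      linarith
    · refine ge_of_tendsto h2 ?_
      filter_upwards [hx] with j hj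
      exact mul_nonneg (hs0 j).le (h.nonneg _ hj)
  -- bounded part
  have hbd : ∀ X ∈ C1, l X.2.1 < 1 → X.2.2 < 1 → ∀ i, |X.1 i| ≤ 1 := by
    intro X hX hXl hXz i
    obtain ⟨x, hx, hlx⟩ := hseq X hX
    have h0 : Tendsto (fun j => B j (x j).1) U (𝓝 X.1) :=
      continuous_fst.continuousAt.tendsto.comp hlx
    have h1 : Tendsto (fun j => l ((s j)⁻¹ • (x j).2.1)) U (𝓝 (l X.2.1)) :=
      (l.continuous.comp (continuous_fst.comp continuous_snd)).continuousAt.tendsto.comp hlx
    have h2 : Tendsto (fun j => s j * (x j).2.2) U (𝓝 X.2.2) :=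
      (continuous_snd.comp continuous_snd).continuousAt.tendsto.comp hlx
    have h3 : Tendsto (fun j => |(B j (x j).1) i|) U (𝓝 |X.1 i|) := by
      have hc : Continuous fun w : EE m => |w i| :=
        (EuclideanSpace.proj (𝕜 := ℝ) i).continuous.abs
      exact hc.continuousAt.tendsto.comp h0
    refine le_of_tendsto h3 ?_
    filter_upwards [hx, h1.eventually_lt_const hXl, h2.eventually_lt_const hXz] with j hj h4 h5
    refine hB2 j (x j) ⟨hj, ?_, ?_⟩ i
    · rw [map_smul, smul_eq_mul, inv_mul_lt_iff₀ (hs0 j)] at h4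
      linarith
    · rw [← one_div, le_div_iff₀ (hs0 j)]
      linarith [mul_comm (s j) (x j).2.2]
  -- spanning points
  have hsp1 : ∀ i : Fin m, ∃ y : EE D, ∃ z : ℝ, (EuclideanSpace.single i (1 : ℝ), y, z) ∈ C1 := by
    intro i
    choose x hxl hxB using fun j => hB1 j i
    obtain ⟨M, hM⟩ := h.bdd U hUs (X := x) (Eventually.of_forall fun j => (hxl j).1) 1 1
      (Eventually.of_forall fun j => by simpa using (hxl j).2.1)
      (Eventually.of_forall fun j => (hxl j).2.2.trans (inv_le_one_of_one_le₀ (hs1 j)))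
    obtain ⟨y, -, hy⟩ := exists_limit (U := U) (x := fun j => (s j)⁻¹ • (x j).2.1) (R := M) (by
      filter_upwards [hM] with j hj
      refine le_trans ?_ hj
      exact (norm_fst_le ((s j)⁻¹ • x j).2).trans (norm_snd_le ((s j)⁻¹ • x j)))
    obtain ⟨z, -, hz⟩ := exists_limit (U := U) (x := fun j => s j * (x j).2.2) (R := 1)
      (Eventually.of_forall fun j => by
        have h1 := (hxl j).2.2
        have h2 := h.nonneg _ (hxl j).1
        rw [Real.norm_of_nonneg (mul_nonneg (hs0 j).le h2)]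
        calc s j * (x j).2.2 ≤ s j * (s j)⁻¹ := mul_le_mul_of_nonneg_left h1 (hs0 j).le
          _ = 1 := mul_inv_cancel₀ (hs0 j).ne')
    refine ⟨y, z, mem_ulim_of_tendsto
      (x := fun j => (B j (x j).1, (s j)⁻¹ • (x j).2.1, s j * (x j).2.2))
      (Eventually.of_forall fun j => hmem j _ (hxl j).1) ?_⟩
    have hB' : (fun j => B j (x j).1) = fun _ => EuclideanSpace.single i (1 : ℝ) := by
      funext j; exact hxB j
    have : Tendsto (fun j => B j (x j).1) U (𝓝 (EuclideanSpace.single i (1 : ℝ))) := by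
      rw [hB']; exact tendsto_const_nhds
    exact this.prodMk_nhds (hy.prodMk_nhds hz)
  have hspan : Submodule.span ℝ C1 = ⊤ := by
    rw [eq_top_iff]
    rintro ⟨t, y, z⟩ -
    have hZ : ∀ z : ℝ, ((0 : EE m), (0 : EE D), z) ∈ Submodule.span ℝ C1 := by
      intro z
      have h1 := (Submodule.span ℝ C1).smul_mem z (Submodule.subset_span (hver 1 zero_le_one))
      simpa using h1
    have hY : ∀ y : EE D, ((0 : EE m), y, (0 : ℝ)) ∈ Submodule.span ℝ C1 := by
      intro y
      have hR : Submodule.span ℝ R = ⊤ := by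
        apply Submodule.eq_top_of_nonempty_interior'
        exact ⟨e, interior_mono Submodule.subset_span h.cone.e_int⟩
      have hy : y ∈ Submodule.span ℝ R := by rw [hR]; trivial
      have hle : Submodule.span ℝ R ≤ (Submodule.span ℝ C1).comap
          ((LinearMap.inr ℝ (EE m) (EE D × ℝ)).comp (LinearMap.inl ℝ (EE D) ℝ)) := by
        rw [Submodule.span_le]
        intro w hw
        exact Submodule.subset_span (hhor w hw)
      exact hle hy
    have hT1 : ∀ i : Fin m, (EuclideanSpace.single i (1 : ℝ), (0 : EE D), (0 : ℝ)) ∈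
        Submodule.span ℝ C1 := by
      intro i
      obtain ⟨y, z, hyz⟩ := hsp1 i
      have h1 := Submodule.sub_mem _ (Submodule.sub_mem _ (Submodule.subset_span hyz) (hY y)) (hZ z)
      have h6 : ((EuclideanSpace.single i (1 : ℝ) : EE m), (0 : EE D), (0 : ℝ)) =
          ((EuclideanSpace.single i (1 : ℝ) : EE m), y, z) - ((0 : EE m), y, (0 : ℝ)) -
            ((0 : EE m), (0 : EE D), z) := by
        ext1
        · simp
        · ext1 <;> simp
      rw [h6]
      exact h1
    have hT : (t, (0 : EE D), (0 : ℝ)) ∈ Submodule.span ℝ C1 := by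
      have h2 : (t, (0 : EE D), (0 : ℝ)) =
          ∑ i : Fin m, t i • (EuclideanSpace.single i (1 : ℝ), (0 : EE D), (0 : ℝ)) := by
        have h3 : t = ∑ i : Fin m, t i • (EuclideanSpace.single i (1 : ℝ) : EE m) := by
          ext k
          simp [Finset.sum_apply, Pi.single_apply]
        ext1
        · simp only [Prod.fst_sum, Prod.smul_fst]
          exact h3
        · simp [Prod.snd_sum]
      rw [h2]
      exact Submodule.sum_mem _ fun i _ => Submodule.smul_mem _ _ (hT1 i)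
    have h5 := Submodule.add_mem _ (Submodule.add_mem _ hT (hY y)) (hZ z)
    simpa using h5
  refine ⟨C1, ⟨⟨hC1a, int_of_span hC1cv h0C1 hspan, ?_⟩, ?_, hpos⟩⟩
  · intro v hv hv'
    have hp : ∀ t : ℝ, 0 ≤ t → t • v ∈ C1 := fun t ht => by simpa using hv 0 h0C1 t ht
    have hm : ∀ t : ℝ, 0 ≤ t → -(t • v) ∈ C1 := fun t ht => by simpa using hv' 0 h0C1 t ht
    have h1 := hpos _ (hp 1 zero_le_one)
    have h2 := hpos _ (hm 1 zero_le_one)
    simp only [one_smul, Prod.fst_neg, Prod.snd_neg] at h1 h2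
    have hz0 : v.2.2 = 0 := le_antisymm (by linarith [h2.2]) h1.2
    have hy0 : v.2.1 = 0 := by
      have h3 := h.cone.l_ge _ h1.1
      have h4 := h.cone.l_ge _ h2.1
      rw [map_neg, norm_neg] at h4
      have hc := h.cone.c0_pos
      have h5 : c0 * ‖v.2.1‖ ≤ 0 := by linarith
      have h6 : ‖v.2.1‖ ≤ 0 := by
        by_contra hcon
        push Not at hcon
        have := mul_pos hc hcon
        linarith
      exact norm_eq_zero.mp (le_antisymm h6 (norm_nonneg _))
    have ht0 : v.1 = 0 := by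
      ext i
      by_contra hne
      have hne' : 0 < |v.1 i| := abs_pos.mpr hne
      have h3 := hbd _ (hp (2 / |v.1 i|) (by positivity)) (by simp [hy0]) (by simp [hz0]) i
      simp only [Prod.smul_fst, PiLp.smul_apply, smul_eq_mul, abs_mul] at h3
      rw [abs_of_pos (show 0 < 2 / |v.1 i| by positivity), div_mul_cancel₀ _ hne'.ne'] at h3
      norm_num at h3
    ext1
    · exact ht0
    · ext1
      · exact hy0
      · exact hz0
  · intro y hy z hz
    have := hrecV _ (hhor y hy) z hz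
    simpa using this

end blow

end Crest.Agent.R236.A
end

-- ▼ part R236/ABlow4
section

/-!
# Row 236, Part A, node A4: assembly
-/

set_option autoImplicit false

namespace Crest.Agent.R236.A

open Module Set Filter Topology

/-- the coordinate lemma -/
def CoordStmt : Prop := ∀ (n D : ℕ) (ξ : (EE n × ℝ) →L[ℝ] ℝ), ξ ≠ 0 →
  ∀ V : Submodule ℝ (EE n × ℝ), (∀ v ∈ V, ξ v = 0) → Module.finrank ℝ V = D →
    ∃ m : ℕ, m + D = n ∧ ∃ Φ : (EE n × ℝ) ≃L[ℝ] (EE m × EE D × ℝ),
      (∀ X, (Φ X).2.2 = -ξ X) ∧ ∀ X, X ∈ V ↔ ((Φ X).1 = 0 ∧ (Φ X).2.2 = 0)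

/-- shear `(t, y, z) ↦ (t - z a, y - z b, z)` -/
noncomputable def shear {m D : ℕ} (a : EE m) (b : EE D) :
    (EE m × EE D × ℝ) ≃ₗ[ℝ] (EE m × EE D × ℝ) where
  toFun X := (X.1 - X.2.2 • a, X.2.1 - X.2.2 • b, X.2.2)
  invFun X := (X.1 + X.2.2 • a, X.2.1 + X.2.2 • b, X.2.2)
  map_add' X Y := by
    ext1
    · simp only [Prod.fst_add, Prod.snd_add, add_smul]; abel
    · ext1
      · simp only [Prod.fst_add, Prod.snd_add, add_smul]; abel
      · rfl
  map_smul' c X := by
    ext1
    · simp only [Prod.smul_fst, Prod.smul_snd, smul_sub, smul_smul, smul_eq_mul,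
        RingHom.id_apply]
    · ext1
      · simp only [Prod.smul_fst, Prod.smul_snd, smul_sub, smul_smul, smul_eq_mul,
          RingHom.id_apply]
      · rfl
  left_inv X := by
    ext1
    · simp
    · ext1 <;> simp
  right_inv X := by
    ext1
    · simp
    · ext1 <;> simp

theorem shear_apply {m D : ℕ} (a : EE m) (b : EE D) (X : EE m × EE D × ℝ) :
    shear a b X = (X.1 - X.2.2 • a, X.2.1 - X.2.2 • b, X.2.2) := rfl

/-- coordinates adapted to an additional vector -/
theorem coord_adapted (hco : CoordStmt) (n D : ℕ) (ξ : (EE n × ℝ) →L[ℝ] ℝ) (hξ : ξ ≠ 0)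
    (V : Submodule ℝ (EE n × ℝ)) (hV : ∀ v ∈ V, ξ v = 0) (hD : Module.finrank ℝ V = D)
    (q : EE n × ℝ) (hq : ξ q < 0) :
    ∃ m : ℕ, m + D = n ∧ ∃ Φ : (EE n × ℝ) ≃L[ℝ] (EE m × EE D × ℝ),
      (∀ X, (Φ X).2.2 = -ξ X) ∧ (∀ X, X ∈ V ↔ ((Φ X).1 = 0 ∧ (Φ X).2.2 = 0)) ∧
        Φ q = (0, 0, -ξ q) := by
  obtain ⟨m, hm, Φ, hΦ1, hΦ2⟩ := hco n D ξ hξ V hV hD
  set ζ : ℝ := -ξ q with hζ
  have hζ0 : ζ ≠ 0 := by
    have : 0 < ζ := by rw [hζ]; linarith
    exact this.ne'
  set S := shear (ζ⁻¹ • (Φ q).1) (ζ⁻¹ • (Φ q).2.1) with hS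
  refine ⟨m, hm, Φ.trans S.toContinuousLinearEquiv, fun X => ?_, fun X => ?_, ?_⟩
  · simpa [hS, shear_apply] using hΦ1 X
  · rw [hΦ2]
    constructor
    · rintro ⟨h1, h2⟩
      refine ⟨?_, ?_⟩
      · simp [hS, shear_apply, h1, h2]
      · simpa [hS, shear_apply] using h2
    · rintro ⟨h1, h2⟩
      have h2' : (Φ X).2.2 = 0 := by simpa [hS, shear_apply] using h2
      refine ⟨?_, h2'⟩
      simpa [hS, shear_apply, h2'] using h1
  · have h3 : (Φ q).2.2 = ζ := hΦ1 q
    ext1
    · simp [hS, shear_apply, h3, smul_smul, mul_inv_cancel₀ hζ0]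
    · ext1
      · simp [hS, shear_apply, h3, smul_smul, mul_inv_cancel₀ hζ0]
      · simpa [hS, shear_apply] using h3

theorem a4_of (hco : CoordStmt)
    (happ : ∀ (n : ℕ) (W W' : Type) [NormedAddCommGroup W] [NormedSpace ℝ W]
      [FiniteDimensional ℝ W] [NormedAddCommGroup W'] [NormedSpace ℝ W'] [FiniteDimensional ℝ W']
      (C : Set W) (A : W ≃ᵃ[ℝ] W'), Appr n C → Appr n (A '' C))
    (hrec : ∀ (W W' : Type) [NormedAddCommGroup W] [NormedSpace ℝ W]
      [FiniteDimensional ℝ W] [NormedAddCommGroup W'] [NormedSpace ℝ W'] [FiniteDimensional ℝ W']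
      (C : Set W) (A : W ≃ᵃ[ℝ] W'), Rec (A '' C) = A.linear '' Rec C) : A4Stmt := by
  classical
  intro n D hD hR hnR
  obtain ⟨C0, hgood, ξ, hξ, X0, hX0, hmax, v, hli, hv⟩ := hR
  set RW : Set (EE n × ℝ) := {w | w ∈ Rec C0 ∧ ξ w = 0} with hRW
  set V : Submodule ℝ (EE n × ℝ) := Submodule.span ℝ RW with hVd
  have hV0 : ∀ w ∈ V, ξ w = 0 := by
    intro w hw
    have : V ≤ LinearMap.ker ξ.toLinearMap := by
      rw [hVd, Submodule.span_le]
      intro x hx
      exact hx.2
    exact this hw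
  have hfin : finrank ℝ V = D := by
    apply le_antisymm
    · by_contra hcon
      push Not at hcon
      apply hnR
      obtain ⟨b, hbR, hbspan, hbli⟩ := exists_linearIndependent ℝ RW
      have hbfin : Finite b := hbli.finite
      have := Fintype.ofFinite b
      have hcard : Fintype.card b = finrank ℝ V := by
        have := finrank_span_set_eq_card (R := ℝ) (s := b) hbli
        rw [hVd, ← hbspan, this, Set.toFinset_card]
      have hle : D + 1 ≤ Fintype.card b := by omega
      obtain ⟨f⟩ : Nonempty (Fin (D + 1) ↪ b) := by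
        apply Function.Embedding.nonempty_of_card_le
        simpa using hle
      refine ⟨C0, hgood, ξ, hξ, X0, hX0, hmax, fun i => (f i : EE n × ℝ), ?_, fun i => ?_⟩
      · exact hbli.comp f f.injective
      · exact hbR (f i).2
    · have h1 : LinearIndependent ℝ (fun i => (⟨v i, Submodule.subset_span (hv i)⟩ : V)) := by
        apply LinearIndependent.of_comp V.subtype
        simpa [Function.comp_def] using hli
      simpa using h1.fintype_card_le_finrank
  -- an interior point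
  obtain ⟨Q, hQ⟩ := hgood.int
  have hξQ : ξ (Q - X0) < 0 := by
    rw [map_sub]
    have h1 : ξ Q ≤ ξ X0 := hmax Q (interior_subset hQ)
    rcases h1.lt_or_eq with h | h
    · linarith
    · exfalso
      obtain ⟨w, hw⟩ : ∃ w, ξ w ≠ 0 := by
        by_contra hcon
        push Not at hcon
        exact hξ (ContinuousLinearMap.ext hcon)
      have hcont : Tendsto (fun t : ℝ => Q + t • w) (𝓝 0) (𝓝 (Q + (0 : ℝ) • w)) :=
        (continuous_const.add (continuous_id.smul continuous_const)).tendsto 0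
      rw [zero_smul, add_zero] at hcont
      have h2 := hcont.eventually (mem_interior_iff_mem_nhds.mp hQ)
      rw [Metric.eventually_nhds_iff] at h2
      obtain ⟨ε, hε, h3⟩ := h2
      have h4 : ∀ t : ℝ, |t| < ε → t * ξ w ≤ 0 := by
        intro t ht
        have := hmax _ (h3 (y := t) (by simpa [Real.dist_eq] using ht))
        rw [map_add, map_smul, smul_eq_mul, h] at this
        linarith
      have h5 := h4 (ε / 2) (by rw [abs_of_pos (by linarith)]; linarith)
      have h6 := h4 (-(ε / 2)) (by rw [abs_neg, abs_of_pos (by linarith)]; linarith)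
      apply hw
      nlinarith
  obtain ⟨m, hm, Φ, hΦ1, hΦ2, hΦq⟩ := coord_adapted hco n D ξ hξ V hV0 hfin _ hξQ
  -- the affine map
  set A : (EE n × ℝ) ≃ᵃ[ℝ] (EE m × EE D × ℝ) :=
    (AffineEquiv.constVAdd ℝ (EE n × ℝ) (-X0)).trans Φ.toLinearEquiv.toAffineEquiv with hA
  have hAap : ∀ X, A X = Φ (X - X0) := by
    intro X
    simp [hA, neg_add_eq_sub]
  have hAlin : ∀ X, A.linear X = Φ X := by
    intro X
    rfl
  set C' : Set (EE m × EE D × ℝ) := A '' C0 with hC'
  have hC'a : Appr n C' := happ n _ _ C0 A hgood.appr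
  have hrecC' : Rec C' = A.linear '' Rec C0 := hrec _ _ C0 A
  set R : Set (EE D) := {y | ((0 : EE m), y, (0 : ℝ)) ∈ Rec C'} with hRd
  have hrec0 : ∀ w ∈ Rec C', w.2.2 = 0 → w.1 = 0 := by
    intro w hw hw2
    rw [hrecC'] at hw
    obtain ⟨x, hx, rfl⟩ := hw
    rw [hAlin] at hw2 ⊢
    rw [hΦ1] at hw2
    have hxV : x ∈ V := Submodule.subset_span ⟨hx, by linarith⟩
    exact ((hΦ2 x).1 hxV).1
  have hRcl : IsClosed R := by
    have hc : Continuous fun y : EE D => ((0 : EE m), y, (0 : ℝ)) := by fun_prop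
    exact (isClosed_rec hC'a.1).preimage hc
  have hR0 : (0 : EE D) ∈ R := by
    have : ((0 : EE m), (0 : EE D), (0 : ℝ)) = 0 := rfl
    rw [hRd]
    simp only [mem_ofPred_eq, this]
    exact rec_zero
  have hRsm : ∀ y ∈ R, ∀ t : ℝ, 0 ≤ t → t • y ∈ R := by
    intro y hy t ht
    have := rec_smul (C := C') hy ht
    simpa [hRd] using this
  have hRadd : ∀ y ∈ R, ∀ w ∈ R, y + w ∈ R := by
    intro y hy w hw
    have := rec_add (C := C') hy hw
    simpa [hRd] using this
  have hpt' : ∀ w, w ∈ Rec C' → -w ∈ Rec C' → w = 0 := by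
    intro w hw hw'
    rw [hrecC'] at hw hw'
    obtain ⟨x, hx, rfl⟩ := hw
    obtain ⟨x', hx', hxx'⟩ := hw'
    rw [hAlin, hAlin, ← map_neg] at hxx'
    have : x' = -x := Φ.injective hxx'
    rw [this] at hx'
    rw [hgood.pointed x hx hx', map_zero]
  have hRpt : ∀ y ∈ R, -y ∈ R → y = 0 := by
    intro y hy hy'
    have h1 := hpt' ((0 : EE m), y, (0 : ℝ)) hy (by
      have : -((0 : EE m), y, (0 : ℝ)) = ((0 : EE m), -y, (0 : ℝ)) := by simp
      rw [this]; exact hy')
    have := congrArg (fun X : EE m × EE D × ℝ => X.2.1) h1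
    simpa using this
  have hRsp : Submodule.span ℝ R = ⊤ := by
    rw [eq_top_iff]
    rintro y -
    set π : (EE n × ℝ) →ₗ[ℝ] EE D :=
      (LinearMap.fst ℝ (EE D) ℝ).comp ((LinearMap.snd ℝ (EE m) (EE D × ℝ)).comp
        Φ.toLinearEquiv.toLinearMap) with hπ
    have hle : V ≤ (Submodule.span ℝ R).comap π := by
      rw [hVd, Submodule.span_le]
      intro w hw
      refine Submodule.subset_span ?_
      have h1 : Φ w ∈ Rec C' := by rw [hrecC']; exact ⟨w, hw.1, hAlin w⟩
      have h2 := (hΦ2 w).1 (Submodule.subset_span hw)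
      have h3 : Φ w = ((0 : EE m), (Φ w).2.1, (0 : ℝ)) := by
        ext1
        · exact h2.1
        · ext1
          · rfl
          · exact h2.2
      rw [h3] at h1
      exact h1
    have hy : Φ.symm ((0 : EE m), y, (0 : ℝ)) ∈ V := by
      rw [hΦ2]; simp
    have := hle hy
    simpa [hπ] using this
  obtain ⟨l, e, c0, hcone⟩ := exists_coneData hD hRcl hR0 hRsm hRadd hRpt hRsp
  have hpre : Pre C' R l e c0 := by
    refine ⟨hC'a.1, hC'a.2.1, ⟨X0, hX0, by rw [hAap]; simp⟩, ?_, ⟨-ξ (Q - X0), by linarith, ?_⟩,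
      fun y => Iff.rfl, hrec0, hcone⟩
    · rintro _ ⟨X, hX, rfl⟩
      rw [hAap, hΦ1, map_sub]
      linarith [hmax X hX]
    · have hop : IsOpenMap A := by
        have h1 : IsOpenMap fun X : EE n × ℝ => Φ (X - X0) :=
          Φ.toHomeomorph.isOpenMap.comp (Homeomorph.subRight X0).isOpenMap
        have h2 : (A : EE n × ℝ → EE m × EE D × ℝ) = fun X => Φ (X - X0) := funext hAap
        rw [h2]; exact h1
      refine interior_maximal (image_mono interior_subset) (hop _ isOpen_interior) ⟨Q, hQ, ?_⟩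
      rw [hAap, hΦq]
  obtain ⟨C1, hC1⟩ := hpre.blowdown (n := n) fun B => happ n _ _ C' B.toAffineEquiv hC'a
  exact ⟨m, R, l, e, c0, C1, hm, hcone, hC1⟩

end Crest.Agent.R236.A
end

-- ▼ part R236/ACoordB
section

/-!
# Row 236, Part A, node A4: the coordinate lemma
-/

set_option autoImplicit false

namespace Crest.Agent.R236.A

open Module Set

theorem coordStmt : CoordStmt := by
  intro n D ξ hξ V hV hD
  set K : Submodule ℝ (EE n × ℝ) := LinearMap.ker ξ.toLinearMap with hK
  have hVK : V ≤ K := fun x hx => hV x hx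
  have hW : finrank ℝ (EE n × ℝ) = n + 1 := by simp
  have hKn : finrank ℝ K = n := by
    have hne : (ξ.toLinearMap : Module.Dual ℝ (EE n × ℝ)) ≠ 0 := by
      intro h
      apply hξ
      refine ContinuousLinearMap.ext fun x => ?_
      exact congrArg (fun f : Module.Dual ℝ (EE n × ℝ) => f x) h
    have := Module.Dual.finrank_ker_add_one_of_ne_zero hne
    rw [hW] at this
    exact Nat.add_right_cancel this
  set V' : Submodule ℝ K := V.comap K.subtype with hV'
  have hV'D : finrank ℝ V' = D := by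
    rw [← hD]
    exact (Submodule.comapSubtypeEquivOfLe hVK).finrank_eq
  have hq := Submodule.finrank_quotient_add_finrank V'
  rw [hV'D, hKn] at hq
  refine ⟨finrank ℝ (K ⧸ V'), hq, ?_⟩
  -- f
  let f0 : (K ⧸ V') ≃ₗ[ℝ] EE (finrank ℝ (K ⧸ V')) :=
    LinearEquiv.ofFinrankEq _ _ (by simp)
  obtain ⟨f, hf⟩ := LinearMap.exists_extend (f0.toLinearMap.comp V'.mkQ)
  let g0 : V ≃ₗ[ℝ] EE D := LinearEquiv.ofFinrankEq _ _ (by simp [hD])
  obtain ⟨g, hg⟩ := LinearMap.exists_extend g0.toLinearMap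
  have hfK : ∀ x : K, f x = f0 (V'.mkQ x) := fun x => by
    have := congrArg (fun h => h x) hf
    simpa using this
  have hgV : ∀ x : V, g x = g0 x := fun x => by
    have := congrArg (fun h => h x) hg
    simpa using this
  have hfV : ∀ x ∈ K, (f x = 0 ↔ x ∈ V) := by
    intro x hx
    rw [hfK ⟨x, hx⟩, LinearEquiv.map_eq_zero_iff, Submodule.mkQ_apply,
      Submodule.Quotient.mk_eq_zero]
    simp [hV']
  let Φ0 : (EE n × ℝ) →ₗ[ℝ] (EE (finrank ℝ (K ⧸ V')) × EE D × ℝ) :=
    f.prod (g.prod (-ξ.toLinearMap))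
  have hinj : Function.Injective Φ0 := by
    rw [← LinearMap.ker_eq_bot, LinearMap.ker_eq_bot']
    intro x hx
    have h1 : f x = 0 := congrArg (fun X => X.1) hx
    have h2 : g x = 0 := congrArg (fun X => X.2.1) hx
    have h3 : -ξ x = 0 := congrArg (fun X => X.2.2) hx
    have hxK : x ∈ K := by
      rw [hK, LinearMap.mem_ker]
      have : ξ x = 0 := by linarith
      exact this
    have hxV : x ∈ V := (hfV x hxK).1 h1
    rw [hgV ⟨x, hxV⟩, LinearEquiv.map_eq_zero_iff] at h2
    exact congrArg Subtype.val h2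
  let Φ : (EE n × ℝ) ≃ₗ[ℝ] (EE (finrank ℝ (K ⧸ V')) × EE D × ℝ) :=
    LinearEquiv.ofInjectiveOfFinrankEq Φ0 hinj (by simp; omega)
  have hΦ : ∀ x, Φ x = (f x, g x, -ξ x) := fun x => rfl
  refine ⟨Φ.toContinuousLinearEquiv, fun x => ?_, fun x => ?_⟩
  · simp [hΦ]
  · simp only [LinearEquiv.coe_toContinuousLinearEquiv', hΦ, neg_eq_zero]
    constructor
    · intro hx
      exact ⟨(hfV x (hVK hx)).2 hx, hV x hx⟩
    · rintro ⟨h1, h2⟩
      exact (hfV x h2).1 h1

end Crest.Agent.R236.A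
end

-- ▼ part R236/A4
section

/-!
# Row 236, Part A, node A4: `A4Stmt`
-/

set_option autoImplicit false

namespace Crest.Agent.R236.A

theorem a4 : A4Stmt :=
  a4_of coordStmt (fun _ _ _ _ _ _ _ _ _ _ A h => h.image' A) (fun _ _ _ _ _ _ _ _ _ A => rec_image' A)

end Crest.Agent.R236.A
end

-- ▼ part R236/WH1
section

/-! Row 236: the weak Harnack inequality in measure, part 1: integrations by parts with
truncated powers of `2 - u` (helper770). -/

set_option autoImplicit false
open scoped ContDiff Topology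
open MeasureTheory Set
open Crest.GeometryTopology.CoordMetric Crest.GeometryTopology.AffineMaximal

noncomputable section

namespace Crest.Agent.R236.WH

variable {n : ℕ}

theorem integral_pderiv_eq_zero {Y : EuclideanSpace ℝ (Fin n) → ℝ} (hY : ContDiff ℝ 1 Y)
    (hc : HasCompactSupport Y) (i : Fin n) : ∫ x, pderiv i Y x = 0 := by
  have hcd : Continuous (fun x => fderiv ℝ Y x (EuclideanSpace.single i 1)) :=
    (hY.continuous_fderiv (by norm_num)).clm_apply continuous_const
  have hcs : HasCompactSupport (fun x => fderiv ℝ Y x (EuclideanSpace.single i 1)) :=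
    hc.fderiv_apply ℝ _
  have h := integral_mul_fderiv_eq_neg_fderiv_mul_of_integrable (𝕜 := ℝ) (μ := volume)
    (f := fun _ : EuclideanSpace ℝ (Fin n) => (1 : ℝ)) (g := Y) (v := EuclideanSpace.single i 1)
    (by simp) (by simpa using hcd.integrable_of_hasCompactSupport hcs)
    (by simpa using hY.continuous.integrable_of_hasCompactSupport hc)
    (fun x _ => differentiableAt_const _) (fun x _ => (hY.differentiable (by norm_num)) x)
  simpa [pderiv] using h

/-- the bilinear form of the cofactor matrix -/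
def Uq (u : EuclideanSpace ℝ (Fin n) → ℝ) (x : EuclideanSpace ℝ (Fin n)) (p q : Fin n → ℝ) : ℝ :=
  ∑ i, ∑ j, cof u x i j * p i * q j

theorem contDiff_pderiv {f : EuclideanSpace ℝ (Fin n) → ℝ} {m k : WithTop ℕ∞}
    (hf : ContDiff ℝ k f) (hmk : m + 1 ≤ k) (i : Fin n) : ContDiff ℝ m (pderiv i f) := by
  have := contDiffOn_pderiv (Ω := univ) isOpen_univ (contDiffOn_univ.mpr hf) hmk i
  exact contDiffOn_univ.mp this

theorem contDiff_cof {u : EuclideanSpace ℝ (Fin n) → ℝ} (h : SC univ u) (i j : Fin n) :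
    ContDiff ℝ ∞ (fun x => cof u x i j) := contDiffOn_univ.mp (h.contDiffOn_cof i j)

theorem contDiff_hess {f : EuclideanSpace ℝ (Fin n) → ℝ} (hf : ContDiff ℝ 2 f) (i j : Fin n) :
    Continuous (fun x => hessianMat f x i j) :=
  (contDiff_pderiv (m := 0) (contDiff_pderiv (m := 1) hf (by norm_num) j) (by norm_num) i).continuous

/-- integration by parts against the cofactor matrix -/
theorem ibp {u : EuclideanSpace ℝ (Fin n) → ℝ} (h : SC univ u)
    {φ f : EuclideanSpace ℝ (Fin n) → ℝ} (hφ : ContDiff ℝ 1 φ) (hc : HasCompactSupport φ)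
    (hf : ContDiff ℝ 2 f) :
    ∫ x, φ x * (∑ i, ∑ j, cof u x i j * hessianMat f x i j)
      = - ∫ x, Uq u x (fun i => pderiv i φ x) (fun j => pderiv j f x) := by
  set Y : Fin n → EuclideanSpace ℝ (Fin n) → ℝ :=
    fun i y => φ y * ∑ j, cof u y i j * pderiv j f y with hYdef
  have hYc : ∀ i, ContDiff ℝ 1 (Y i) := by
    intro i
    refine hφ.mul (ContDiff.sum fun j _ => ?_)
    exact ((contDiff_cof h i j).of_le (by norm_cast)).mul (contDiff_pderiv hf (by norm_num) j)
  have hYs : ∀ i, HasCompactSupport (Y i) := fun i => hc.mul_right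
  have h0 : ∑ i, ∫ x, pderiv i (Y i) x = 0 :=
    Finset.sum_eq_zero fun i _ => integral_pderiv_eq_zero (hYc i) (hYs i) i
  have hint : ∀ i, Integrable (fun x => pderiv i (Y i) x) := by
    intro i
    have hcd : Continuous (fun x => fderiv ℝ (Y i) x (EuclideanSpace.single i 1)) :=
      ((hYc i).continuous_fderiv (by norm_num)).clm_apply continuous_const
    exact hcd.integrable_of_hasCompactSupport ((hYs i).fderiv_apply ℝ _)
  rw [← integral_finsetSum _ fun i _ => hint i] at h0
  have hpt : ∀ x, ∑ i, pderiv i (Y i) x = φ x * (∑ i, ∑ j, cof u x i j * hessianMat f x i j)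
      + Uq u x (fun i => pderiv i φ x) (fun j => pderiv j f x) := by
    intro x
    exact h.div_cof_grad (mem_univ x) ((hφ.differentiable (by norm_num)) x) hf.contDiffAt
  simp_rw [hpt] at h0
  have hc1 : Continuous (fun x => φ x * (∑ i, ∑ j, cof u x i j * hessianMat f x i j)) := by
    refine hφ.continuous.mul (continuous_finsetSum _ fun i _ => continuous_finsetSum _ fun j _ => ?_)
    exact (contDiff_cof h i j).continuous.mul (contDiff_hess hf i j)
  have hi1 : Integrable (fun x => φ x * (∑ i, ∑ j, cof u x i j * hessianMat f x i j)) :=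
    hc1.integrable_of_hasCompactSupport hc.mul_right
  have hc2 : Continuous (fun x => Uq u x (fun i => pderiv i φ x) (fun j => pderiv j f x)) := by
    unfold Uq
    refine continuous_finsetSum _ fun i _ => continuous_finsetSum _ fun j _ => ?_
    refine ((contDiff_cof h i j).continuous.mul ?_).mul ?_
    · exact (contDiff_pderiv (m := 0) hφ (by norm_num) i).continuous
    · exact (contDiff_pderiv (m := 1) hf (by norm_num) j).continuous
  have hs2 : HasCompactSupport (fun x => Uq u x (fun i => pderiv i φ x) (fun j => pderiv j f x)) := by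
    refine HasCompactSupport.intro' (K := tsupport φ) hc (isClosed_tsupport φ) fun x hx => ?_
    have hz : ∀ i, pderiv i φ x = 0 := by
      intro i
      have : x ∉ tsupport (fun y => fderiv ℝ φ y) := fun hh => hx (tsupport_fderiv_subset ℝ hh)
      have h1 : fderiv ℝ φ x = 0 := image_eq_zero_of_notMem_tsupport this
      unfold pderiv; rw [h1]; simp
    unfold Uq
    simp [hz]
  have hi2 : Integrable (fun x => Uq u x (fun i => pderiv i φ x) (fun j => pderiv j f x)) :=
    hc2.integrable_of_hasCompactSupport hs2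
  rw [integral_add hi1 hi2] at h0
  linarith

/-- integration by parts for the Euclidean Laplacian -/
theorem ibp_id {φ f : EuclideanSpace ℝ (Fin n) → ℝ} (hφ : ContDiff ℝ 1 φ)
    (hc : HasCompactSupport φ) (hf : ContDiff ℝ 2 f) :
    ∫ x, φ x * (∑ i, hessianMat f x i i) = - ∫ x, ∑ i, pderiv i φ x * pderiv i f x := by
  set Y : Fin n → EuclideanSpace ℝ (Fin n) → ℝ := fun i y => φ y * pderiv i f y with hYdef
  have hpd : ∀ i, ContDiff ℝ 1 (pderiv i f) := fun i => contDiff_pderiv hf (by norm_num) i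
  have hYc : ∀ i, ContDiff ℝ 1 (Y i) := fun i => hφ.mul (hpd i)
  have hYs : ∀ i, HasCompactSupport (Y i) := fun i => hc.mul_right
  have h0 : ∑ i, ∫ x, pderiv i (Y i) x = 0 :=
    Finset.sum_eq_zero fun i _ => integral_pderiv_eq_zero (hYc i) (hYs i) i
  have hint : ∀ i, Integrable (fun x => pderiv i (Y i) x) := by
    intro i
    have hcd : Continuous (fun x => fderiv ℝ (Y i) x (EuclideanSpace.single i 1)) :=
      ((hYc i).continuous_fderiv (by norm_num)).clm_apply continuous_const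
    exact hcd.integrable_of_hasCompactSupport ((hYs i).fderiv_apply ℝ _)
  rw [← integral_finsetSum _ fun i _ => hint i] at h0
  have hpt : ∀ x, ∑ i, pderiv i (Y i) x = φ x * (∑ i, hessianMat f x i i)
      + ∑ i, pderiv i φ x * pderiv i f x := by
    intro x
    rw [Finset.mul_sum, ← Finset.sum_add_distrib]
    refine Finset.sum_congr rfl fun i _ => ?_
    simp only [hYdef]
    rw [pderiv_mul ((hφ.differentiable (by norm_num)) x) ((hpd i).differentiable (by norm_num) x)]
    unfold hessianMat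
    ring
  simp_rw [hpt] at h0
  have hi1 : Integrable (fun x => φ x * (∑ i, hessianMat f x i i)) :=
    (hφ.continuous.mul (continuous_finsetSum _ fun i _ =>
      contDiff_hess hf i i)).integrable_of_hasCompactSupport hc.mul_right
  have hc2 : Continuous (fun x => ∑ i, pderiv i φ x * pderiv i f x) :=
    continuous_finsetSum _ fun i _ =>
      (contDiff_pderiv (m := 0) hφ (by norm_num) i).continuous.mul (hpd i).continuous
  have hs2 : HasCompactSupport (fun x => ∑ i, pderiv i φ x * pderiv i f x) := by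
    refine HasCompactSupport.intro' (K := tsupport φ) hc (isClosed_tsupport φ) fun x hx => ?_
    have hz : ∀ i, pderiv i φ x = 0 := by
      intro i
      have : x ∉ tsupport (fun y => fderiv ℝ φ y) := fun hh => hx (tsupport_fderiv_subset ℝ hh)
      have h1 : fderiv ℝ φ x = 0 := image_eq_zero_of_notMem_tsupport this
      unfold pderiv; rw [h1]; simp
    simp [hz]
  have hi2 : Integrable (fun x => ∑ i, pderiv i φ x * pderiv i f x) :=
    hc2.integrable_of_hasCompactSupport hs2
  rw [integral_add hi1 hi2] at h0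
  linarith

/-- truncated power -/
def tp (k : ℕ) (s : ℝ) : ℝ := (max s 0) ^ k

theorem hasDerivAt_tp (k : ℕ) (s : ℝ) :
    HasDerivAt (tp (k + 2)) ((k + 2 : ℕ) * tp (k + 1) s) s := by
  rcases lt_trichotomy s 0 with hs | hs | hs
  · have h1 : tp (k + 2) =ᶠ[𝓝 s] fun _ => 0 := by
      filter_upwards [Iio_mem_nhds hs] with y hy
      simp [tp, max_eq_right (le_of_lt (mem_Iio.mp hy))]
    have h2 : ((k + 2 : ℕ) : ℝ) * tp (k + 1) s = 0 := by
      simp [tp, max_eq_right hs.le]
    rw [h2]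
    exact (hasDerivAt_const s (0 : ℝ)).congr_of_eventuallyEq h1
  · subst hs
    have h2 : ((k + 2 : ℕ) : ℝ) * tp (k + 1) 0 = 0 := by simp [tp]
    rw [h2]
    have h3 : HasDerivAt (fun y : ℝ => y ^ 2) 0 0 := by
      simpa using hasDerivAt_pow 2 (0 : ℝ)
    rw [hasDerivAt_iff_isLittleO_nhds_zero] at h3 ⊢
    simp only [zero_add, ne_eq, OfNat.ofNat_ne_zero, not_false_eq_true, zero_pow, sub_zero, smul_zero]
      at h3 ⊢
    have h4 : tp (k + 2) 0 = 0 := by simp [tp]
    rw [h4]
    simp only [sub_zero]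
    refine (Asymptotics.IsBigO.of_bound 1 ?_).trans_isLittleO h3
    filter_upwards [Iio_mem_nhds (show (0 : ℝ) < 1 by norm_num)] with y hy
    have hm0 : 0 ≤ max y 0 := le_max_right _ _
    have hm1 : max y 0 ≤ 1 := max_le (le_of_lt hy) zero_le_one
    have hm2 : (max y 0) ^ 2 ≤ y ^ 2 := by
      rcases le_total y 0 with h | h
      · rw [max_eq_right h]; nlinarith [sq_nonneg y]
      · rw [max_eq_left h]
    have ha : 0 ≤ tp (k + 2) y := pow_nonneg hm0 _
    have hb : 0 ≤ y ^ 2 := sq_nonneg y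
    rw [one_mul, Real.norm_eq_abs, Real.norm_eq_abs, abs_of_nonneg ha, abs_of_nonneg hb]
    unfold tp
    calc (max y 0) ^ (k + 2) = (max y 0) ^ k * (max y 0) ^ 2 := by ring
      _ ≤ 1 * (max y 0) ^ 2 := by
          apply mul_le_mul_of_nonneg_right (pow_le_one₀ hm0 hm1) (by positivity)
      _ ≤ y ^ 2 := by rw [one_mul]; exact hm2
  · have h1 : tp (k + 2) =ᶠ[𝓝 s] fun y => y ^ (k + 2) := by
      filter_upwards [Ioi_mem_nhds hs] with y hy
      simp [tp, max_eq_left (le_of_lt (mem_Ioi.mp hy))]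
    have h2 : tp (k + 1) s = s ^ (k + 1) := by simp [tp, max_eq_left hs.le]
    rw [h2]
    have h3 := hasDerivAt_pow (k + 2) s
    simpa using h3.congr_of_eventuallyEq h1

theorem continuous_tp (k : ℕ) : Continuous (tp k) := by
  unfold tp; fun_prop

theorem contDiff_tp (k : ℕ) : ContDiff ℝ 1 (tp (k + 2)) := by
  rw [contDiff_one_iff_deriv]
  refine ⟨fun s => (hasDerivAt_tp k s).differentiableAt, ?_⟩
  have : deriv (tp (k + 2)) = fun s => ((k + 2 : ℕ) : ℝ) * tp (k + 1) s := by
    ext s; exact (hasDerivAt_tp k s).deriv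
  rw [this]
  exact continuous_const.mul (continuous_tp _)

end Crest.Agent.R236.WH
end
end

-- ▼ part R236/Growth
section

/-! Row 236: critical density lemma (ABP with `v + A (u - h)`), helper770. -/

set_option autoImplicit false
open scoped ContDiff Topology
open MeasureTheory
open Crest.GeometryTopology.CoordMetric Crest.GeometryTopology.AffineMaximal

noncomputable section

namespace Crest.Agent.R236.ABP

variable {n : ℕ}

/-- determinant of a positive semidefinite matrix at most `(trace / n)^n`. -/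
theorem det_le_trace_pow (hn : 0 < n) {P : Matrix (Fin n) (Fin n) ℝ}
    (hP : P.PosSemidef) : P.det ≤ (P.trace / n) ^ n := by
  have h1 := hP.1.det_eq_prod_eigenvalues
  have h2 := hP.1.trace_eq_sum_eigenvalues
  simp only [RCLike.ofReal_real_eq_id, id_eq] at h1 h2
  rw [h1, h2]
  have hr' : (0 : ℝ) < n := by exact_mod_cast hn
  have hnn : ∀ i, 0 ≤ hP.1.eigenvalues i := fun i => hP.eigenvalues_nonneg i
  have h3 := Real.geom_mean_le_arith_mean_weighted Finset.univ
    (fun _ : Fin n => (1 : ℝ) / n) (fun i => hP.1.eigenvalues i)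
    (fun i _ => by positivity)
    (by simp only [Finset.sum_const, Finset.card_univ, nsmul_eq_mul, Fintype.card_fin]; field_simp)
    (fun i _ => hnn i)
  have h4 : (∏ i, hP.1.eigenvalues i ^ ((1 : ℝ) / n)) ^ n =
      ∏ i, hP.1.eigenvalues i := by
    rw [← Finset.prod_pow]
    refine Finset.prod_congr rfl fun i _ => ?_
    rw [← Real.rpow_natCast, ← Real.rpow_mul (hnn i), one_div,
      inv_mul_cancel₀ hr'.ne', Real.rpow_one]
  rw [← h4]
  have h5 : (∑ i, (1 : ℝ) / n * hP.1.eigenvalues i) = (∑ i, hP.1.eigenvalues i) / n := by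
    rw [← Finset.mul_sum]; ring
  rw [← h5]
  exact pow_le_pow_left₀ (Finset.prod_nonneg fun i _ => Real.rpow_nonneg (hnn i) _) h3 _

section factor
open scoped MatrixOrder

theorem exists_factor {A : Matrix (Fin n) (Fin n) ℝ} (hA : A.PosSemidef) :
    ∃ B : Matrix (Fin n) (Fin n) ℝ, A = B.conjTranspose * B := by
  obtain ⟨B, hB⟩ := CStarAlgebra.nonneg_iff_eq_star_mul_self.mp hA.nonneg
  exact ⟨B, hB⟩

end factor

/-- Matrix AM-GM: `H > 0`, `P ≥ 0`, `tr(H⁻¹ P) ≤ n A` implies `det P ≤ A^n det H`. -/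
theorem det_le_of_trace_le (hn : 0 < n) {H P : Matrix (Fin n) (Fin n) ℝ} (hH : H.PosDef)
    (hP : P.PosSemidef) {A : ℝ} (htr : (H⁻¹ * P).trace ≤ n * A) :
    P.det ≤ A ^ n * H.det := by
  obtain ⟨B, hB⟩ := exists_factor hH.inv.posSemidef
  have hHd : 0 < H.det := hH.det_pos
  have hQ : (B * P * B.conjTranspose).PosSemidef := hP.mul_mul_conjTranspose_same B
  have h1 := det_le_trace_pow hn hQ
  have h2 : (B * P * B.conjTranspose).trace = (H⁻¹ * P).trace := by
    rw [Matrix.trace_mul_comm, ← Matrix.mul_assoc, ← hB]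
  have h3 : (B * P * B.conjTranspose).det = (H⁻¹ * P).det := by
    rw [Matrix.det_mul_comm, ← Matrix.mul_assoc, ← hB]
  rw [h2, h3, Matrix.det_mul, Matrix.det_nonsing_inv, Ring.inverse_eq_inv'] at h1
  have hn' : (0 : ℝ) < n := by exact_mod_cast hn
  have h0 : 0 ≤ (H⁻¹ * P).trace := by rw [← h2]; exact hQ.trace_nonneg
  have h4 : ((H⁻¹ * P).trace / n) ^ n ≤ A ^ n := by
    apply pow_le_pow_left₀ (by positivity)
    rw [div_le_iff₀ hn']; linarith [mul_comm A (n:ℝ)]
  have h5 : H.det⁻¹ * P.det ≤ A ^ n := h1.trans h4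
  rwa [inv_mul_le_iff₀ hHd, mul_comm] at h5

/-- The linearised Monge-Ampère operator `U^{ij} v_ij`. -/
def Lop (u v : EuclideanSpace ℝ (Fin n) → ℝ) (x : EuclideanSpace ℝ (Fin n)) : ℝ :=
  ∑ i, ∑ j, (hessianMat u x).det * (hessianMat u x)⁻¹ i j * hessianMat v x i j

theorem Lop_eq (u v : EuclideanSpace ℝ (Fin n) → ℝ) (x : EuclideanSpace ℝ (Fin n))
    (hs : (hessianMat v x).IsHermitian) :
    Lop u v x = (hessianMat u x).det * ((hessianMat u x)⁻¹ * hessianMat v x).trace := by
  unfold Lop Matrix.trace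
  rw [Finset.mul_sum]
  refine Finset.sum_congr rfl fun i _ => ?_
  simp only [Matrix.diag_apply, Matrix.mul_apply]
  rw [Finset.mul_sum]
  refine Finset.sum_congr rfl fun j _ => ?_
  have : hessianMat v x i j = hessianMat v x j i := by
    have := congrFun (congrFun hs j) i
    simpa [Matrix.conjTranspose_apply] using this
  rw [this]; ring

theorem hessianMat_add_smul {S : Set (EuclideanSpace ℝ (Fin n))} (hS : IsOpen S)
    {u v : EuclideanSpace ℝ (Fin n) → ℝ} (hu : ContDiffOn ℝ 2 u S) (hv : ContDiffOn ℝ 2 v S)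
    (A h : ℝ) {x : EuclideanSpace ℝ (Fin n)} (hx : x ∈ S) :
    hessianMat (fun y => v y + A * (u y - h)) x = hessianMat v x + A • hessianMat u x := by
  ext i j
  have hp : ∀ y ∈ S, pderiv j (fun y => v y + A * (u y - h)) y = pderiv j v y + A * pderiv j u y := by
    intro y hy
    have h1 : DifferentiableAt ℝ u y :=
      (hu.contDiffAt (hS.mem_nhds hy)).differentiableAt (by norm_num)
    have h2 : DifferentiableAt ℝ v y :=
      (hv.contDiffAt (hS.mem_nhds hy)).differentiableAt (by norm_num)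
    have h3 := h2.hasFDerivAt.add (((h1.hasFDerivAt).sub_const h).const_mul A)
    unfold pderiv
    have h4 : HasFDerivAt (fun y => v y + A * (u y - h)) (fderiv ℝ v y + A • fderiv ℝ u y) y := h3
    rw [h4.fderiv]
    simp
  have hev : (fun y => pderiv j (fun y => v y + A * (u y - h)) y)
      =ᶠ[𝓝 x] fun y => pderiv j v y + A * pderiv j u y := by
    filter_upwards [hS.mem_nhds hx] with y hy using hp y hy
  have d1 := (diff_pderiv hS hv hx j).hasFDerivAt
  have d2 := (diff_pderiv hS hu hx j).hasFDerivAt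
  have d3 : HasFDerivAt (fun y => pderiv j v y + A * pderiv j u y) _ x := d1.add (d2.const_mul A)
  have d4 := d3.congr_of_eventuallyEq hev
  rw [Matrix.add_apply, Matrix.smul_apply]
  change fderiv ℝ (fun y => pderiv j (fun y => v y + A * (u y - h)) y) x _
    = fderiv ℝ (fun y => pderiv j v y) x _ + A • fderiv ℝ (fun y => pderiv j u y) x _
  rw [d4.fderiv]
  simp

/-- **Critical density lemma.** -/
theorem crit_density (hn : 0 < n) {K S : Set (EuclideanSpace ℝ (Fin n))} (hK : IsCompact K)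
    (hS : IsOpen S) (hSK : S ⊆ K) {u v : EuclideanSpace ℝ (Fin n) → ℝ}
    (huc : ContinuousOn u K) (hvc : ContinuousOn v K)
    (hu : ContDiffOn ℝ 2 u S) (hv : ContDiffOn ℝ 2 v S)
    (hpd : ∀ x ∈ S, (hessianMat u x).PosDef) {Λ : ℝ} (hΛ : ∀ x ∈ S, (hessianMat u x).det ≤ Λ)
    (hL : ∀ x ∈ S, Lop u v x ≤ 0) (hv0 : ∀ x ∈ K, 0 ≤ v x) {h A d : ℝ} (hh : 0 < h) (hA : 0 < A)
    (hd : 0 < d) (hu0 : ∀ x ∈ S, 0 ≤ u x) (hub : ∀ x ∈ K, x ∉ S → h ≤ u x)
    {x0 : EuclideanSpace ℝ (Fin n)} (hx0 : x0 ∈ S) (hux : u x0 ≤ h / 2)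
    (hvx : v x0 ≤ A * h / 4) (hKd : ∀ x ∈ K, dist x x0 ≤ d) :
    volume (Metric.ball (0 : EuclideanSpace ℝ (Fin n)) (h / (4 * d)))
      ≤ ENNReal.ofReal Λ * volume {x | x ∈ S ∧ v x < A * h} := by
  set φ : EuclideanSpace ℝ (Fin n) → ℝ := fun y => v y + A * (u y - h) with hφ
  have hφc : ContinuousOn φ K := hvc.add ((huc.sub continuousOn_const).const_smul A)
  have hφ2 : ContDiffOn ℝ 2 φ S := hv.add ((contDiffOn_const).mul (hu.sub contDiffOn_const))
  have hφb : ∀ x ∈ K, x ∉ S → 0 ≤ φ x := fun x hx hxS => by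
    have h1 := hv0 x hx
    have h2 := hub x hx hxS
    have : 0 ≤ A * (u x - h) := mul_nonneg hA.le (by linarith)
    simp only [hφ]; linarith
  have hφx : φ x0 ≤ -(A * h / 4) := by
    simp only [hφ]
    have : A * (u x0 - h) ≤ A * (-(h / 2)) := mul_le_mul_of_nonneg_left (by linarith) hA.le
    linarith
  have hABP := abp hK hS hSK hφc hφ2 hφb hx0 (m := A * h / 4) (by positivity) hφx hd hKd
  have hC : ∀ x ∈ contact S φ, v x < A * h ∧ (hessianMat φ x).det ≤ A ^ n * Λ := by
    intro x hx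
    obtain ⟨hxS, hneg, hpsd⟩ := hx
    constructor
    · have h1 := hu0 x hxS
      have : 0 ≤ A * u x := mul_nonneg hA.le h1
      have h2 : v x + A * (u x - h) < 0 := hneg
      nlinarith
    · have hH := hpd x hxS
      have hdet := hH.det_pos
      have hmat := hessianMat_add_smul hS hu hv A h hxS
      have htr : ((hessianMat u x)⁻¹ * hessianMat φ x).trace ≤ n * A := by
        have e1 : hessianMat φ x = hessianMat v x + A • hessianMat u x := hmat
        rw [e1, Matrix.mul_add, Matrix.trace_add, Matrix.mul_smul,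
          Matrix.nonsing_inv_mul _ (isUnit_iff_ne_zero.mpr hdet.ne'), Matrix.trace_smul,
          Matrix.trace_one, Fintype.card_fin, smul_eq_mul]
        have h3 := hL x hxS
        rw [Lop_eq u v x (hessianMat_symm hS hv hxS)] at h3
        have h4 : ((hessianMat u x)⁻¹ * hessianMat v x).trace ≤ 0 := by
          by_contra hcon
          push Not at hcon
          have := mul_pos hdet hcon
          linarith
        linarith [mul_comm A (n : ℝ)]
      have h5 := det_le_of_trace_le hn hH hpsd htr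
      exact h5.trans (mul_le_mul_of_nonneg_left (hΛ x hxS) (by positivity))
  have hmeas := measurableSet_contact hS hφ2
  have hΛ0 : 0 ≤ Λ := (hpd x0 hx0).det_pos.le.trans (hΛ x0 hx0)
  have hint : ∫⁻ x in contact S φ, ENNReal.ofReal (hessianMat φ x).det
      ≤ ENNReal.ofReal (A ^ n * Λ) * volume {x | x ∈ S ∧ v x < A * h} := by
    calc ∫⁻ x in contact S φ, ENNReal.ofReal (hessianMat φ x).det
        ≤ ∫⁻ x in contact S φ, ENNReal.ofReal (A ^ n * Λ) := by
          refine setLIntegral_mono' hmeas fun x hx => ENNReal.ofReal_le_ofReal (hC x hx).2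
      _ = ENNReal.ofReal (A ^ n * Λ) * volume (contact S φ) := by
          rw [setLIntegral_const]
      _ ≤ _ := by
          gcongr
          intro x hx
          exact ⟨hx.1, (hC x hx).1⟩
  have hball : volume (Metric.ball (0 : EuclideanSpace ℝ (Fin n)) (A * h / 4 / d))
      = ENNReal.ofReal (A ^ n) * volume (Metric.ball (0 : EuclideanSpace ℝ (Fin n)) (h / (4 * d))) := by
    have : A * h / 4 / d = A * (h / (4 * d)) := by field_simp
    rw [this, Measure.addHaar_ball_mul_of_pos volume 0 hA]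
    simp
  rw [hball] at hABP
  have hAn : ENNReal.ofReal (A ^ n) ≠ 0 := by
    simp only [ne_eq, ENNReal.ofReal_eq_zero, not_le]; positivity
  have h6 := hABP.trans hint
  rw [ENNReal.ofReal_mul (by positivity), mul_assoc] at h6
  exact (ENNReal.mul_le_mul_iff_right hAn ENNReal.ofReal_ne_top).mp h6

end Crest.Agent.R236.ABP
end
end

-- ▼ part R236/WH2
section

/-! Row 236: the weak Harnack inequality in measure, part 2: energy bounds on a normalised
section (helper770). -/

set_option autoImplicit false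
open scoped ContDiff Topology
open MeasureTheory Set
open Crest.GeometryTopology.CoordMetric Crest.GeometryTopology.AffineMaximal
open Crest.Agent.R236.Sec

noncomputable section

namespace Crest.Agent.R236.WH

variable {n : ℕ}

/-! ### matrices -/

open Matrix in
theorem form_factor (C : Matrix (Fin n) (Fin n) ℝ) (x y : Fin n → ℝ) :
    x ⬝ᵥ (C.conjTranspose * C) *ᵥ y = (C *ᵥ x) ⬝ᵥ (C *ᵥ y) := by
  rw [← Matrix.mulVec_mulVec, Matrix.dotProduct_mulVec, Matrix.conjTranspose_eq_transpose_of_trivial,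
    Matrix.vecMul_transpose]

open Matrix in
theorem dot_sq_le (x y : Fin n → ℝ) : (x ⬝ᵥ y) ^ 2 ≤ (x ⬝ᵥ x) * (y ⬝ᵥ y) := by
  have h := Finset.sum_mul_sq_le_sq_mul_sq Finset.univ x y
  simpa [dotProduct, pow_two] using h

open Matrix in
theorem form_eq_sum (M : Matrix (Fin n) (Fin n) ℝ) (p q : Fin n → ℝ) :
    p ⬝ᵥ M *ᵥ q = ∑ i, ∑ j, M i j * p i * q j := by
  simp only [dotProduct, mulVec]
  refine Finset.sum_congr rfl fun i _ => ?_
  rw [Finset.mul_sum]
  refine Finset.sum_congr rfl fun j _ => by ring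

open Matrix in
/-- `|p|² ≤ (pᵀ H⁻¹ p) tr H` for positive definite `H`. -/
theorem sq_le_inv_form_mul_trace {H : Matrix (Fin n) (Fin n) ℝ} (hH : H.PosDef) (p : Fin n → ℝ) :
    ∑ i, p i ^ 2 ≤ (∑ i, ∑ j, H⁻¹ i j * p i * p j) * H.trace := by
  obtain ⟨B, hB⟩ := ABP.exists_factor hH.posSemidef
  obtain ⟨C, hC⟩ := ABP.exists_factor hH.inv.posSemidef
  have hHd : IsUnit H.det := isUnit_iff_ne_zero.mpr hH.det_pos.ne'
  have hP : ∑ i, p i ^ 2 = p ⬝ᵥ p := by simp [dotProduct, pow_two]
  rw [hP, ← form_eq_sum]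
  have h1 : p ⬝ᵥ p = (C *ᵥ p) ⬝ᵥ (C *ᵥ (H *ᵥ p)) := by
    rw [← form_factor, ← hC, Matrix.mulVec_mulVec, Matrix.nonsing_inv_mul _ hHd, Matrix.one_mulVec]
  have h2 : (C *ᵥ (H *ᵥ p)) ⬝ᵥ (C *ᵥ (H *ᵥ p)) = p ⬝ᵥ H *ᵥ p := by
    rw [← form_factor, ← hC, Matrix.mulVec_mulVec, Matrix.nonsing_inv_mul _ hHd, Matrix.one_mulVec,
      dotProduct_comm]
  have h3 : (C *ᵥ p) ⬝ᵥ (C *ᵥ p) = p ⬝ᵥ H⁻¹ *ᵥ p := by
    rw [← form_factor, ← hC]
  have h4 : (p ⬝ᵥ p) ^ 2 ≤ (p ⬝ᵥ H⁻¹ *ᵥ p) * (p ⬝ᵥ H *ᵥ p) := by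
    have := dot_sq_le (C *ᵥ p) (C *ᵥ (H *ᵥ p))
    rwa [← h1, h2, h3] at this
  have hP0 : 0 ≤ p ⬝ᵥ p := by rw [← hP]; exact Finset.sum_nonneg fun i _ => sq_nonneg _
  have hI0 : 0 ≤ p ⬝ᵥ H⁻¹ *ᵥ p := by
    rw [← h3]; exact Finset.sum_nonneg fun i _ => mul_self_nonneg _
  have htr : H.trace = ∑ k, ∑ i, B k i ^ 2 := by
    rw [hB, Matrix.trace, Finset.sum_comm]
    refine Finset.sum_congr rfl fun i _ => ?_
    rw [Matrix.diag_apply, Matrix.mul_apply]
    refine Finset.sum_congr rfl fun k _ => ?_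
    simp [Matrix.conjTranspose_apply, pow_two]
  have htr0 : 0 ≤ H.trace := by
    rw [htr]; exact Finset.sum_nonneg fun k _ => Finset.sum_nonneg fun i _ => sq_nonneg _
  have h5 : p ⬝ᵥ H *ᵥ p ≤ H.trace * (p ⬝ᵥ p) := by
    have e : p ⬝ᵥ H *ᵥ p = ∑ k, (∑ i, B k i * p i) ^ 2 := by
      conv_lhs => rw [hB]
      rw [form_factor]
      simp [dotProduct, mulVec, pow_two]
    rw [e, htr, ← hP, Finset.sum_mul]
    exact Finset.sum_le_sum fun k _ => Finset.sum_mul_sq_le_sq_mul_sq Finset.univ _ _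
  rcases hP0.eq_or_lt with h0 | h0
  · rw [← h0]; exact mul_nonneg hI0 htr0
  · have h6 : (p ⬝ᵥ p) ^ 2 ≤ ((p ⬝ᵥ H⁻¹ *ᵥ p) * H.trace) * (p ⬝ᵥ p) := by
      calc (p ⬝ᵥ p) ^ 2 ≤ (p ⬝ᵥ H⁻¹ *ᵥ p) * (p ⬝ᵥ H *ᵥ p) := h4
        _ ≤ (p ⬝ᵥ H⁻¹ *ᵥ p) * (H.trace * (p ⬝ᵥ p)) := mul_le_mul_of_nonneg_left h5 hI0
        _ = _ := by ring
    rw [pow_two] at h6
    exact le_of_mul_le_mul_right h6 h0

/-! ### the quadratic form of the cofactor matrix -/

variable {u : EuclideanSpace ℝ (Fin n) → ℝ}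

theorem Uq_eq (x : EuclideanSpace ℝ (Fin n)) (p q : Fin n → ℝ) :
    Uq u x p q = ∑ i, ∑ j, cof u x i j * p i * q j := rfl

open Matrix in
theorem Uq_nonneg (h : SC univ u) (x : EuclideanSpace ℝ (Fin n)) (p : Fin n → ℝ) :
    0 ≤ Uq u x p p := by
  obtain ⟨C, hC⟩ := ABP.exists_factor (h.cof_posDef (mem_univ x)).posSemidef
  rw [Uq_eq, ← form_eq_sum, hC, form_factor]
  exact Finset.sum_nonneg fun i _ => mul_self_nonneg _

open Matrix in
theorem Uq_cs (h : SC univ u) (x : EuclideanSpace ℝ (Fin n)) (p q : Fin n → ℝ) :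
    (Uq u x p q) ^ 2 ≤ Uq u x p p * Uq u x q q := by
  obtain ⟨C, hC⟩ := ABP.exists_factor (h.cof_posDef (mem_univ x)).posSemidef
  rw [Uq_eq, Uq_eq, Uq_eq, ← form_eq_sum, ← form_eq_sum, ← form_eq_sum, hC, form_factor,
    form_factor, form_factor]
  exact dot_sq_le _ _

theorem Uq_smul_left (x : EuclideanSpace ℝ (Fin n)) (c : ℝ) (p q : Fin n → ℝ) :
    Uq u x (fun i => c * p i) q = c * Uq u x p q := by
  unfold Uq
  rw [Finset.mul_sum]
  refine Finset.sum_congr rfl fun i _ => ?_
  rw [Finset.mul_sum]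
  refine Finset.sum_congr rfl fun j _ => by ring

/-- `|p|² det ≤ U(p,p) tr H`. -/
theorem sq_det_le (h : SC univ u) (x : EuclideanSpace ℝ (Fin n)) (p : Fin n → ℝ) :
    (hessianMat u x).det * ∑ i, p i ^ 2 ≤ Uq u x p p * ∑ i, hessianMat u x i i := by
  have h1 := sq_le_inv_form_mul_trace (h.posDef x (mem_univ x)) p
  have hd := h.det_pos (mem_univ x)
  have e : Uq u x p p = (hessianMat u x).det * ∑ i, ∑ j, (hessianMat u x)⁻¹ i j * p i * p j := by
    unfold Uq
    rw [Finset.mul_sum]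
    refine Finset.sum_congr rfl fun i _ => ?_
    rw [Finset.mul_sum]
    refine Finset.sum_congr rfl fun j _ => ?_
    rw [h.cof_eq (mem_univ x)]; ring
  rw [e, mul_assoc]
  exact mul_le_mul_of_nonneg_left h1 hd.le

end Crest.Agent.R236.WH
end
end

-- ▼ part R236/WH3
section

/-! Row 236: the weak Harnack inequality in measure, part 3: energy bounds (helper770). -/

set_option autoImplicit false
open scoped ContDiff Topology
open MeasureTheory Set
open Crest.GeometryTopology.CoordMetric Crest.GeometryTopology.AffineMaximal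
open Crest.Agent.R236.Sec

noncomputable section

namespace Crest.Agent.R236.WH

variable {n : ℕ} {u : EuclideanSpace ℝ (Fin n) → ℝ} {r lam Lam G : ℝ}

theorem tp_nonneg (k : ℕ) (s : ℝ) : 0 ≤ tp k s := pow_nonneg (le_max_right _ _) _

theorem tp_zero_of_nonpos {k : ℕ} (hk : k ≠ 0) {s : ℝ} (hs : s ≤ 0) : tp k s = 0 := by
  simp [tp, max_eq_right hs, hk]

theorem tp_le {s b : ℝ} (k : ℕ) (hs : s ≤ b) (hb : 0 ≤ b) : tp k s ≤ b ^ k :=
  pow_le_pow_left₀ (le_max_right _ _) (max_le hs hb) k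

/-- the cutoff functions -/
def cut (k : ℕ) (u : EuclideanSpace ℝ (Fin n) → ℝ) (x : EuclideanSpace ℝ (Fin n)) : ℝ :=
  tp k (2 - u x)

section nsec

theorem nonneg (h : NSec n r lam Lam G u) (x : EuclideanSpace ℝ (Fin n)) : 0 ≤ u x := by
  have h1 := h.sc.tangent_le (mem_univ (0 : EuclideanSpace ℝ (Fin n))) (mem_univ x)
  rw [h.zero, h.dzero] at h1
  simpa using h1

theorem contDiff_u (h : NSec n r lam Lam G u) : ContDiff ℝ ∞ u := contDiffOn_univ.mp h.sc.smooth

theorem contDiff_cut (h : NSec n r lam Lam G u) (k : ℕ) : ContDiff ℝ 1 (cut (k + 2) u) :=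
  (contDiff_tp k).comp (contDiff_const.sub ((contDiff_u h).of_le (by norm_cast)))

theorem continuous_cut (h : NSec n r lam Lam G u) (k : ℕ) : Continuous (cut k u) :=
  (continuous_tp k).comp (continuous_const.sub (contDiff_u h).continuous)

theorem cut_zero (h : NSec n r lam Lam G u) {k : ℕ} (hk : k ≠ 0) {x : EuclideanSpace ℝ (Fin n)}
    (hx : x ∉ Metric.closedBall (0 : EuclideanSpace ℝ (Fin n)) 1) : cut k u x = 0 := by
  apply tp_zero_of_nonpos hk
  by_contra hcon
  push Not at hcon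
  apply hx
  rw [mem_closedBall_zero_iff]
  exact h.bdd x (by linarith)

theorem compactSupport_of (g : EuclideanSpace ℝ (Fin n) → ℝ)
    (hg : ∀ x ∉ Metric.closedBall (0 : EuclideanSpace ℝ (Fin n)) 1, g x = 0) :
    HasCompactSupport g :=
  HasCompactSupport.intro (isCompact_closedBall _ _) hg

theorem cut_compact (h : NSec n r lam Lam G u) {k : ℕ} (hk : k ≠ 0) :
    HasCompactSupport (cut k u) :=
  compactSupport_of _ fun _ hx => cut_zero h hk hx

theorem cut_nonneg (k : ℕ) (x : EuclideanSpace ℝ (Fin n)) : 0 ≤ cut k u x := tp_nonneg _ _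

theorem cut_le (h : NSec n r lam Lam G u) (k : ℕ) (x : EuclideanSpace ℝ (Fin n)) :
    cut k u x ≤ 2 ^ k := tp_le k (by linarith [nonneg h x]) (by norm_num)

theorem one_le_cut {k : ℕ} {x : EuclideanSpace ℝ (Fin n)} (hx : u x ≤ 1) : 1 ≤ cut k u x := by
  unfold cut tp
  exact one_le_pow₀ (le_max_of_le_left (by linarith))

theorem le_two_of_cut_ne {k : ℕ} (hk : k ≠ 0) {x : EuclideanSpace ℝ (Fin n)}
    (hx : cut k u x ≠ 0) : u x ≤ 2 := by
  by_contra hcon
  push Not at hcon
  exact hx (tp_zero_of_nonpos hk (by linarith))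

theorem pderiv_cut (h : NSec n r lam Lam G u) (k : ℕ) (x : EuclideanSpace ℝ (Fin n)) (i : Fin n) :
    pderiv i (cut (k + 2) u) x = (-((k + 2 : ℕ) : ℝ) * cut (k + 1) u x) * pderiv i u x := by
  have hd : DifferentiableAt ℝ u x := (contDiff_u h).differentiable (by simp) x
  have h1 : HasDerivAt (fun s : ℝ => tp (k + 2) (2 - s)) (-((k + 2 : ℕ) : ℝ) * tp (k + 1) (2 - u x))
      (u x) := by
    have h2 : HasDerivAt (fun s : ℝ => 2 - s) (-1) (u x) := by
      simpa using (hasDerivAt_id (u x)).const_sub 2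
    exact ((hasDerivAt_tp k (2 - u x)).comp (u x) h2).congr_deriv (by push_cast; ring)
  exact pderiv_comp h1 hd i

/-- integral bound by a constant times the volume of the unit ball -/
theorem integral_le_const {g : EuclideanSpace ℝ (Fin n) → ℝ} (hg : Integrable g) {c : ℝ}
    (h1 : ∀ x ∈ Metric.closedBall (0 : EuclideanSpace ℝ (Fin n)) 1, g x ≤ c)
    (h2 : ∀ x ∉ Metric.closedBall (0 : EuclideanSpace ℝ (Fin n)) 1, g x ≤ 0) :
    ∫ x, g x ≤ c * (volume (Metric.closedBall (0 : EuclideanSpace ℝ (Fin n)) 1)).toReal := by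
  have hm : MeasurableSet (Metric.closedBall (0 : EuclideanSpace ℝ (Fin n)) 1) :=
    measurableSet_closedBall
  have hfin : volume (Metric.closedBall (0 : EuclideanSpace ℝ (Fin n)) 1) ≠ ⊤ :=
    (isCompact_closedBall _ _).measure_lt_top.ne
  have hi : Integrable ((Metric.closedBall (0 : EuclideanSpace ℝ (Fin n)) 1).indicator
      (fun _ => c)) := (integrable_indicator_iff hm).mpr (integrableOn_const hfin)
  calc ∫ x, g x ≤ ∫ x, (Metric.closedBall (0 : EuclideanSpace ℝ (Fin n)) 1).indicator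
        (fun _ => c) x := by
        refine integral_mono hg hi fun x => ?_
        by_cases hx : x ∈ Metric.closedBall (0 : EuclideanSpace ℝ (Fin n)) 1
        · simpa [hx] using h1 x hx
        · simpa [hx] using h2 x hx
    _ = c * (volume (Metric.closedBall (0 : EuclideanSpace ℝ (Fin n)) 1)).toReal := by
        rw [integral_indicator hm, setIntegral_const, smul_eq_mul, mul_comm]
        rfl

/-- abbreviation for the volume of the unit ball -/
def V1 (n : ℕ) : ℝ := (volume (Metric.closedBall (0 : EuclideanSpace ℝ (Fin n)) 1)).toReal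

theorem V1_nonneg : 0 ≤ V1 n := ENNReal.toReal_nonneg

theorem sum_cof_hess (x : EuclideanSpace ℝ (Fin n)) (h : SC univ u) :
    ∑ i, ∑ j, cof u x i j * hessianMat u x i j = n * (hessianMat u x).det := by
  have : ∀ i, ∑ j, cof u x i j * hessianMat u x i j = (hessianMat u x).det := by
    intro i
    have h1 := SC.cof_mul_hess u x i i
    rw [if_pos rfl] at h1
    rw [← h1]
    exact Finset.sum_congr rfl fun j _ => by rw [h.hess_symm (mem_univ x) i j]
  simp_rw [this]
  simp

theorem continuous_Uq (h : NSec n r lam Lam G u) {f g : EuclideanSpace ℝ (Fin n) → ℝ}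
    (hf : ContDiff ℝ 1 f) (hg : ContDiff ℝ 1 g) :
    Continuous (fun x => Uq u x (fun i => pderiv i f x) (fun j => pderiv j g x)) := by
  unfold Uq
  refine continuous_finsetSum _ fun i _ => continuous_finsetSum _ fun j _ => ?_
  refine ((contDiff_cof h.sc i j).continuous.mul ?_).mul ?_
  · exact (contDiff_pderiv (m := 0) hf (by norm_num) i).continuous
  · exact (contDiff_pderiv (m := 0) hg (by norm_num) j).continuous

/-- first energy bound: `∫ (2-u)₊² U(du,du) ≤ (8/3) n Λ |B|`. -/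
theorem energy_a (h : NSec n r lam Lam G u) (hLam : 0 < Lam) :
    ∫ x, cut 2 u x * Uq u x (fun i => pderiv i u x) (fun i => pderiv i u x)
      ≤ 8 / 3 * n * Lam * V1 n := by
  have hu2 : ContDiff ℝ 2 u := (contDiff_u h).of_le (by norm_cast)
  have h1 := ibp h.sc (contDiff_cut h 1) (cut_compact h (by norm_num)) hu2
  have h2 : ∀ x, Uq u x (fun i => pderiv i (cut (1 + 2) u) x) (fun i => pderiv i u x)
      = -3 * (cut 2 u x * Uq u x (fun i => pderiv i u x) (fun i => pderiv i u x)) := by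
    intro x
    simp_rw [pderiv_cut h 1 x]
    rw [Uq_smul_left]
    push_cast
    ring
  simp_rw [h2, sum_cof_hess _ h.sc] at h1
  rw [integral_const_mul] at h1
  have hdet : Continuous (fun x => (hessianMat u x).det) :=
    (contDiffOn_univ.mp h.sc.contDiffOn_det).continuous
  have h3 : ∫ x, cut (1 + 2) u x * (n * (hessianMat u x).det) ≤ (8 * (n * Lam)) * V1 n := by
    refine integral_le_const ?_ ?_ ?_
    · exact ((continuous_cut h _).mul (continuous_const.mul hdet)).integrable_of_hasCompactSupport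
        (cut_compact h (by norm_num)).mul_right
    · intro x _
      by_cases hc : cut (1 + 2) u x = 0
      · rw [hc, zero_mul]; positivity
      · have hx2 := le_two_of_cut_ne (by norm_num) hc
        have h4 := h.det_le x hx2
        have h5 : cut (1 + 2) u x ≤ 8 := by
          have := cut_le h (1 + 2) x
          norm_num at this ⊢; exact this
        have h6 := (h.sc.det_pos (mem_univ x)).le
        apply mul_le_mul h5 (mul_le_mul_of_nonneg_left h4 (by positivity)) (by positivity)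
          (by norm_num)
    · intro x hx
      rw [cut_zero h (by norm_num) hx, zero_mul]
  linarith

/-- second energy bound: `∫ (2-u)₊² Δu ≤ 4 G² |B|`. -/
theorem energy_c (h : NSec n r lam Lam G u) (hG : 0 < G) :
    ∫ x, cut 2 u x * (∑ i, hessianMat u x i i) ≤ 4 * G ^ 2 * V1 n := by
  have hu2 : ContDiff ℝ 2 u := (contDiff_u h).of_le (by norm_cast)
  have h1 := ibp_id (contDiff_cut h 0) (cut_compact h (by norm_num)) hu2
  have h2 : ∀ x, ∑ i, pderiv i (cut (0 + 2) u) x * pderiv i u x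
      = -2 * (cut 1 u x * ∑ i, (pderiv i u x) ^ 2) := by
    intro x
    simp_rw [pderiv_cut h 0 x]
    rw [Finset.mul_sum, Finset.mul_sum]
    refine Finset.sum_congr rfl fun i _ => ?_
    push_cast
    ring
  simp_rw [h2] at h1
  rw [integral_const_mul] at h1
  have hgr : ∀ x, ∑ i, (pderiv i u x) ^ 2 ≤ ‖fderiv ℝ u x‖ ^ 2 := by
    intro x
    have e1 : fderiv ℝ u x (ABP.gradE u x) = ∑ i, (pderiv i u x) ^ 2 := by
      rw [ABP.fderiv_apply_eq_sum]
      refine Finset.sum_congr rfl fun i _ => ?_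
      simp [ABP.gradE, pow_two]
    have e2 : ‖ABP.gradE u x‖ ^ 2 = ∑ i, (pderiv i u x) ^ 2 := by
      rw [EuclideanSpace.real_norm_sq_eq]
      simp [ABP.gradE]
    have e3 : ‖ABP.gradE u x‖ ^ 2 ≤ ‖fderiv ℝ u x‖ * ‖ABP.gradE u x‖ := by
      rw [e2, ← e1]
      exact (le_abs_self _).trans ((fderiv ℝ u x).le_opNorm _)
    have e4 : ‖ABP.gradE u x‖ ≤ ‖fderiv ℝ u x‖ := by
      rcases (norm_nonneg (ABP.gradE u x)).eq_or_lt with h0 | h0
      · rw [← h0]; exact norm_nonneg _
      · rw [pow_two] at e3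
        exact le_of_mul_le_mul_right e3 h0
    rw [← e2]
    exact pow_le_pow_left₀ (norm_nonneg _) e4 2
  have hcg : Continuous (fun x => ∑ i, (pderiv i u x) ^ 2) :=
    continuous_finsetSum _ fun i _ =>
      ((contDiff_pderiv (m := 1) hu2 (by norm_num) i).continuous).pow 2
  have h3 : ∫ x, cut 1 u x * ∑ i, (pderiv i u x) ^ 2 ≤ (2 * G ^ 2) * V1 n := by
    refine integral_le_const ?_ ?_ ?_
    · exact ((continuous_cut h _).mul hcg).integrable_of_hasCompactSupport
        (cut_compact h (by norm_num)).mul_right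
    · intro x _
      by_cases hc : cut 1 u x = 0
      · rw [hc, zero_mul]; positivity
      · have hx2 := le_two_of_cut_ne (by norm_num) hc
        have h4 := h.grad x hx2
        have h5 : cut 1 u x ≤ 2 := by
          have := cut_le h 1 x
          norm_num at this ⊢; exact this
        have h6 : ∑ i, (pderiv i u x) ^ 2 ≤ G ^ 2 :=
          (hgr x).trans (pow_le_pow_left₀ (norm_nonneg _) h4 2)
        exact mul_le_mul h5 h6 (Finset.sum_nonneg fun i _ => sq_nonneg _) (by norm_num)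
    · intro x hx
      rw [cut_zero h (by norm_num) hx, zero_mul]
  linarith

/-- the logarithm of a positive function -/
theorem contDiff_log {v : EuclideanSpace ℝ (Fin n) → ℝ} (hv : ContDiff ℝ ∞ v) (hp : ∀ x, 0 < v x) :
    ContDiff ℝ ∞ (fun x => Real.log (v x)) := hv.log fun x => (hp x).ne'

theorem pderiv_log {v : EuclideanSpace ℝ (Fin n) → ℝ} (hv : ContDiff ℝ ∞ v) (hp : ∀ x, 0 < v x)
    (i : Fin n) (x : EuclideanSpace ℝ (Fin n)) :
    pderiv i (fun y => Real.log (v y)) x = (v x)⁻¹ * pderiv i v x :=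
  pderiv_comp (Real.hasDerivAt_log (hp x).ne') (hv.differentiable (by simp) x) i

theorem hess_log {v : EuclideanSpace ℝ (Fin n) → ℝ} (hv : ContDiff ℝ ∞ v) (hp : ∀ x, 0 < v x)
    (i j : Fin n) (x : EuclideanSpace ℝ (Fin n)) :
    hessianMat (fun y => Real.log (v y)) x i j = (v x)⁻¹ * hessianMat v x i j
      - pderiv i (fun y => Real.log (v y)) x * pderiv j (fun y => Real.log (v y)) x := by
  have hvd : DifferentiableAt ℝ v x := hv.differentiable (by simp) x
  have hpd : DifferentiableAt ℝ (pderiv j v) x :=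
    (contDiff_pderiv (m := 1) (hv.of_le (by norm_cast) : ContDiff ℝ 2 v) (by norm_num) j).differentiable
      (by norm_num) x
  have h1 : (fun y => pderiv j (fun z => Real.log (v z)) y) = fun y => (v y)⁻¹ * pderiv j v y := by
    ext y; exact pderiv_log hv hp j y
  have hinv : HasDerivAt (fun s : ℝ => s⁻¹) (-((v x) ^ 2)⁻¹) (v x) := hasDerivAt_inv (hp x).ne'
  have h2 : pderiv i (fun y => (v y)⁻¹) x = -((v x) ^ 2)⁻¹ * pderiv i v x :=
    pderiv_comp hinv hvd i
  have hd : DifferentiableAt ℝ (fun y => (v y)⁻¹) x := hvd.inv (hp x).ne'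
  change pderiv i (fun y => pderiv j (fun z => Real.log (v z)) y) x = _
  rw [h1, pderiv_mul hd hpd, h2, pderiv_log hv hp, pderiv_log hv hp]
  have hne := (hp x).ne'
  unfold hessianMat
  field_simp
  ring

/-- the logarithmic energy bound -/
theorem energy_b (h : NSec n r lam Lam G u) (hLam : 0 < Lam) {v : EuclideanSpace ℝ (Fin n) → ℝ}
    (hv : ContDiff ℝ ∞ v) (hp : ∀ x, 0 < v x)
    (hL : ∀ x, u x ≤ 2 → ∑ i, ∑ j, (hessianMat u x).adjugate i j * hessianMat v x i j ≤ 0) :
    ∫ x, cut 4 u x * Uq u x (fun i => pderiv i (fun y => Real.log (v y)) x)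
        (fun i => pderiv i (fun y => Real.log (v y)) x) ≤ 128 / 3 * n * Lam * V1 n := by
  set f : EuclideanSpace ℝ (Fin n) → ℝ := fun y => Real.log (v y) with hf
  have hfs : ContDiff ℝ ∞ f := contDiff_log hv hp
  have hf2 : ContDiff ℝ 2 f := hfs.of_le (by norm_cast)
  have hf1 : ContDiff ℝ 1 f := hfs.of_le (by norm_cast)
  have hu2 : ContDiff ℝ 2 u := (contDiff_u h).of_le (by norm_cast)
  have hu1 : ContDiff ℝ 1 u := (contDiff_u h).of_le (by norm_cast)
  have h1 := ibp h.sc (contDiff_cut h 2) (cut_compact h (by norm_num)) hf2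
  set F : EuclideanSpace ℝ (Fin n) → ℝ := fun x => Uq u x (fun i => pderiv i f x)
    (fun i => pderiv i f x) with hF
  set M : EuclideanSpace ℝ (Fin n) → ℝ := fun x => Uq u x (fun i => pderiv i u x)
    (fun i => pderiv i f x) with hM
  set A : EuclideanSpace ℝ (Fin n) → ℝ := fun x => Uq u x (fun i => pderiv i u x)
    (fun i => pderiv i u x) with hA
  have cF : Continuous F := continuous_Uq h hf1 hf1
  have cM : Continuous M := continuous_Uq h hu1 hf1
  have cA : Continuous A := continuous_Uq h hu1 hu1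
  have h2 : ∀ x, Uq u x (fun i => pderiv i (cut (2 + 2) u) x) (fun i => pderiv i f x)
      = -4 * (cut 3 u x * M x) := by
    intro x
    simp_rw [pderiv_cut h 2 x]
    rw [Uq_smul_left]
    push_cast
    simp only [hM]
    ring
  simp_rw [h2] at h1
  rw [integral_const_mul] at h1
  -- L f ≤ - F
  have h3 : ∀ x, cut (2 + 2) u x * (∑ i, ∑ j, cof u x i j * hessianMat f x i j)
      ≤ - (cut 4 u x * F x) := by
    intro x
    by_cases hc : cut (2 + 2) u x = 0
    · rw [hc]; simp
    · have hx2 := le_two_of_cut_ne (by norm_num) hc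
      have h4 : ∑ i, ∑ j, cof u x i j * hessianMat f x i j
          = (v x)⁻¹ * (∑ i, ∑ j, (hessianMat u x).adjugate i j * hessianMat v x i j) - F x := by
        simp only [hF, Uq]
        rw [Finset.mul_sum, ← Finset.sum_sub_distrib]
        refine Finset.sum_congr rfl fun i _ => ?_
        rw [Finset.mul_sum, ← Finset.sum_sub_distrib]
        refine Finset.sum_congr rfl fun j _ => ?_
        rw [hess_log hv hp i j x]
        unfold cof
        ring
      have h5 := hL x hx2
      have h6 : (v x)⁻¹ * (∑ i, ∑ j, (hessianMat u x).adjugate i j * hessianMat v x i j) ≤ 0 :=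
        mul_nonpos_of_nonneg_of_nonpos (inv_nonneg.mpr (hp x).le) h5
      have h7 := cut_nonneg (u := u) (2 + 2) x
      rw [h4]
      have : cut 4 u x = cut (2 + 2) u x := rfl
      rw [this]
      nlinarith
  -- integrability
  have i4F : Integrable (fun x => cut 4 u x * F x) :=
    ((continuous_cut h _).mul cF).integrable_of_hasCompactSupport
      (cut_compact h (by norm_num)).mul_right
  have i3M : Integrable (fun x => cut 3 u x * M x) :=
    ((continuous_cut h _).mul cM).integrable_of_hasCompactSupport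
      (cut_compact h (by norm_num)).mul_right
  have i2A : Integrable (fun x => cut 2 u x * A x) :=
    ((continuous_cut h _).mul cA).integrable_of_hasCompactSupport
      (cut_compact h (by norm_num)).mul_right
  have iL : Integrable (fun x => cut (2 + 2) u x * (∑ i, ∑ j, cof u x i j * hessianMat f x i j)) := by
    refine ((continuous_cut h _).mul ?_).integrable_of_hasCompactSupport
      (cut_compact h (by norm_num)).mul_right
    exact continuous_finsetSum _ fun i _ => continuous_finsetSum _ fun j _ =>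
      (contDiff_cof h.sc i j).continuous.mul (contDiff_hess hf2 i j)
  have h8 : ∫ x, cut (2 + 2) u x * (∑ i, ∑ j, cof u x i j * hessianMat f x i j)
      ≤ - ∫ x, cut 4 u x * F x := by
    rw [← integral_neg]
    exact integral_mono iL i4F.neg h3
  -- Young
  have h9 : ∀ x, -4 * (cut 3 u x * M x) ≤ 1 / 2 * (cut 4 u x * F x) + 8 * (cut 2 u x * A x) := by
    intro x
    set s := max (2 - u x) 0 with hs
    have e2 : cut 2 u x = s ^ 2 := rfl
    have e3 : cut 3 u x = s ^ 3 := rfl
    have e4 : cut 4 u x = s ^ 4 := rfl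
    have hs0 : 0 ≤ s := le_max_right _ _
    have hcs : (M x) ^ 2 ≤ A x * F x := Uq_cs h.sc x _ _
    have hA0 : 0 ≤ A x := Uq_nonneg h.sc x _
    have hF0 : 0 ≤ F x := Uq_nonneg h.sc x _
    have hsq : (8 * s * M x) ^ 2 ≤ (s ^ 2 * F x + 16 * A x) ^ 2 := by
      have : (8 * s * M x) ^ 2 ≤ 64 * s ^ 2 * (A x * F x) := by
        have : (8 * s * M x) ^ 2 = 64 * s ^ 2 * (M x) ^ 2 := by ring
        rw [this]
        exact mul_le_mul_of_nonneg_left hcs (by positivity)
      nlinarith [sq_nonneg (s ^ 2 * F x - 16 * A x)]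
    have hab := (abs_le_of_sq_le_sq' hsq (by positivity)).1
    rw [e2, e3, e4]
    have : 0 ≤ s ^ 2 * (s ^ 2 * F x + 16 * A x + 8 * s * M x) :=
      mul_nonneg (by positivity) (by linarith)
    nlinarith
  have h10 : -4 * ∫ x, cut 3 u x * M x
      ≤ 1 / 2 * (∫ x, cut 4 u x * F x) + 8 * ∫ x, cut 2 u x * A x := by
    rw [← integral_const_mul, ← integral_const_mul, ← integral_const_mul,
      ← integral_add (i4F.const_mul _) (i2A.const_mul _)]
    exact integral_mono (i3M.const_mul _) ((i4F.const_mul _).add (i2A.const_mul _)) h9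
  have h11 : ∫ x, cut 2 u x * A x ≤ 8 / 3 * n * Lam * V1 n := energy_a h hLam
  linarith

end nsec

end Crest.Agent.R236.WH
end
end

-- ▼ part R236/WH

/-! Row 236: the weak Harnack inequality in measure (`WHStmt`), helper770. -/

set_option autoImplicit false
open scoped ContDiff Topology ENNReal
open MeasureTheory Set
open Crest.GeometryTopology.CoordMetric Crest.GeometryTopology.AffineMaximal
open Crest.Agent.R236.Sec

noncomputable section

namespace Crest.Agent.R236.WH

variable {n : ℕ} {u : EuclideanSpace ℝ (Fin n) → ℝ} {r lam Lam G : ℝ}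

theorem norm_fderiv_sq_le (f : EuclideanSpace ℝ (Fin n) → ℝ) (x : EuclideanSpace ℝ (Fin n)) :
    ‖fderiv ℝ f x‖ ^ 2 ≤ ∑ i, (pderiv i f x) ^ 2 := by
  have e2 : ‖ABP.gradE f x‖ ^ 2 = ∑ i, (pderiv i f x) ^ 2 := by
    rw [EuclideanSpace.real_norm_sq_eq]
    simp [ABP.gradE]
  rw [← e2]
  apply pow_le_pow_left₀ (norm_nonneg _)
  refine ContinuousLinearMap.opNorm_le_bound _ (norm_nonneg _) fun h => ?_
  rw [ABP.fderiv_apply_eq_sum, Real.norm_eq_abs]
  have h1 := abs_real_inner_le_norm (ABP.gradE f x) h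
  refine le_trans (le_of_eq ?_) h1
  congr 1
  simp only [PiLp.inner_apply, RCLike.inner_apply, conj_trivial, ABP.gradE]
  exact Finset.sum_congr rfl fun j _ => by ring

/-- the total variation bound for `log v` on `{u < 1}` -/
theorem tv_bound (h : NSec n r lam Lam G u) (hlam : 0 < lam) (hLam : 0 < Lam) (hG : 0 < G)
    {v : EuclideanSpace ℝ (Fin n) → ℝ} (hv : ContDiff ℝ ∞ v) (hp : ∀ x, 0 < v x)
    (hL : ∀ x, u x ≤ 2 → ∑ i, ∑ j, (hessianMat u x).adjugate i j * hessianMat v x i j ≤ 0) :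
    ∫⁻ x in {x | u x < 1}, ‖fderiv ℝ (fun y => Real.log (v y)) x‖ₑ
      ≤ ENNReal.ofReal (1 / 2 * (128 / 3 * n * Lam * V1 n + lam⁻¹ * (4 * G ^ 2 * V1 n))) := by
  set f : EuclideanSpace ℝ (Fin n) → ℝ := fun y => Real.log (v y) with hf
  have hfs : ContDiff ℝ ∞ f := contDiff_log hv hp
  have hf1 : ContDiff ℝ 1 f := hfs.of_le (by norm_cast)
  have hu2 : ContDiff ℝ 2 u := (contDiff_u h).of_le (by norm_cast)
  set F : EuclideanSpace ℝ (Fin n) → ℝ := fun x => Uq u x (fun i => pderiv i f x)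
    (fun i => pderiv i f x) with hF
  set T : EuclideanSpace ℝ (Fin n) → ℝ := fun x => ∑ i, hessianMat u x i i with hT
  have cF : Continuous F := continuous_Uq h hf1 hf1
  have cT : Continuous T := continuous_finsetSum _ fun i _ => contDiff_hess hu2 i i
  have hF0 : ∀ x, 0 ≤ F x := fun x => Uq_nonneg h.sc x _
  have hT0 : ∀ x, 0 ≤ T x := fun x => by
    have := (h.sc.posDef x (mem_univ x)).posSemidef.trace_nonneg
    simpa [Matrix.trace, hT] using this
  have i4F : Integrable (fun x => cut 4 u x * F x) :=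
    ((continuous_cut h _).mul cF).integrable_of_hasCompactSupport
      (cut_compact h (by norm_num)).mul_right
  have i2T : Integrable (fun x => cut 2 u x * T x) :=
    ((continuous_cut h _).mul cT).integrable_of_hasCompactSupport
      (cut_compact h (by norm_num)).mul_right
  set W : EuclideanSpace ℝ (Fin n) → ℝ :=
    fun x => 1 / 2 * (cut 4 u x * F x + lam⁻¹ * (cut 2 u x * T x)) with hW
  have iW : Integrable W := (i4F.add (i2T.const_mul _)).const_mul _
  have hW0 : ∀ x, 0 ≤ W x := fun x => by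
    simp only [hW]
    have h1 := cut_nonneg (u := u) 4 x
    have h2 := cut_nonneg (u := u) 2 x
    have h3 := hF0 x
    have h4 := hT0 x
    positivity
  have hpt : ∀ x ∈ {x | u x < 1}, ‖fderiv ℝ f x‖ ≤ W x := by
    intro x hx
    have hx1 : u x ≤ 1 := le_of_lt hx
    have hD := h.det_ge x (by linarith)
    have hDpos := h.sc.det_pos (mem_univ x)
    have h1 := sq_det_le h.sc x (fun i => pderiv i f x)
    have h2 := norm_fderiv_sq_le f x
    have h3 : lam * ‖fderiv ℝ f x‖ ^ 2 ≤ F x * T x := by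
      calc lam * ‖fderiv ℝ f x‖ ^ 2 ≤ (hessianMat u x).det * ∑ i, (pderiv i f x) ^ 2 :=
            mul_le_mul hD h2 (sq_nonneg _) hDpos.le
        _ ≤ F x * T x := h1
    have h4 : ‖fderiv ℝ f x‖ ^ 2 ≤ F x * (lam⁻¹ * T x) := by
      rw [← mul_le_mul_iff_right₀ hlam]
      calc lam * ‖fderiv ℝ f x‖ ^ 2 ≤ F x * T x := h3
        _ = lam * (F x * (lam⁻¹ * T x)) := by field_simp
    have h5 : ‖fderiv ℝ f x‖ ≤ 1 / 2 * (F x + lam⁻¹ * T x) := by
      apply abs_le_of_sq_le_sq' _ _ |>.2
      · nlinarith [sq_nonneg (F x - lam⁻¹ * T x)]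
      · have := hF0 x
        have := hT0 x
        positivity
    refine h5.trans ?_
    simp only [hW]
    have h6 : F x ≤ cut 4 u x * F x := le_mul_of_one_le_left (hF0 x) (one_le_cut hx1)
    have h7 : T x ≤ cut 2 u x * T x := le_mul_of_one_le_left (hT0 x) (one_le_cut hx1)
    have h8 : lam⁻¹ * T x ≤ lam⁻¹ * (cut 2 u x * T x) :=
      mul_le_mul_of_nonneg_left h7 (inv_nonneg.mpr hlam.le)
    linarith
  have hS : MeasurableSet {x | u x < 1} :=
    (isOpen_lt (contDiff_u h).continuous continuous_const).measurableSet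
  calc ∫⁻ x in {x | u x < 1}, ‖fderiv ℝ f x‖ₑ ≤ ∫⁻ x in {x | u x < 1}, ENNReal.ofReal (W x) := by
        refine setLIntegral_mono' hS fun x hx => ?_
        rw [← ofReal_norm]
        exact ENNReal.ofReal_le_ofReal (hpt x hx)
    _ ≤ ∫⁻ x, ENNReal.ofReal (W x) := setLIntegral_le_lintegral _ _
    _ = ENNReal.ofReal (∫ x, W x) :=
        (ofReal_integral_eq_lintegral_ofReal iW (Filter.Eventually.of_forall hW0)).symm
    _ ≤ _ := by
        apply ENNReal.ofReal_le_ofReal
        simp only [hW]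
        rw [integral_const_mul, integral_add i4F (i2T.const_mul _), integral_const_mul]
        have e1 : ∫ x, cut 4 u x * F x ≤ 128 / 3 * n * Lam * V1 n := energy_b h hLam hv hp hL
        have e2 : ∫ x, cut 2 u x * T x ≤ 4 * G ^ 2 * V1 n := energy_c h hG
        have e3 : lam⁻¹ * ∫ x, cut 2 u x * T x ≤ lam⁻¹ * (4 * G ^ 2 * V1 n) :=
          mul_le_mul_of_nonneg_left e2 (inv_nonneg.mpr hlam.le)
        linarith

/-- **Weak Harnack inequality in measure.** -/
theorem wh (hn : 0 < n) : WHStmt n := by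
  intro r lam Lam G hr hlam hLam hG
  set b0 : ℝ := (volume (Metric.ball (0 : EuclideanSpace ℝ (Fin n)) (1 / (4 * 2)))).toReal with hb0
  have hb0pos : 0 < b0 := by
    rw [hb0]
    apply ENNReal.toReal_pos
    · exact (Metric.measure_ball_pos volume _ (by norm_num)).ne'
    · exact measure_ball_lt_top.ne
  set TV : ℝ := 1 / 2 * (128 / 3 * n * Lam * V1 n + lam⁻¹ * (4 * G ^ 2 * V1 n)) with hTV
  have hV : 0 ≤ V1 n := V1_nonneg
  have hTV0 : 0 ≤ TV := by rw [hTV]; positivity
  set C0 : ℝ := Lam * (2 * (2 ^ n * V1 n * TV)) / b0 with hC0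
  have hC0n : 0 ≤ C0 := by rw [hC0]; positivity
  refine ⟨C0 + 1, by positivity, ?_⟩
  intro u h v hv hp hL z hz eps d heps hvz hd
  have huc : Continuous u := (contDiff_u h).continuous
  have hu2 : ContDiff ℝ 2 u := (contDiff_u h).of_le (by norm_cast)
  have hv2 : ContDiff ℝ 2 v := hv.of_le (by norm_cast)
  set S : Set (EuclideanSpace ℝ (Fin n)) := {x | u x < 1} with hS
  set K : Set (EuclideanSpace ℝ (Fin n)) := {x | u x ≤ 1} with hK
  have hSo : IsOpen S := isOpen_lt huc continuous_const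
  have hKb : K ⊆ Metric.closedBall 0 1 := fun x hx => by
    rw [mem_closedBall_zero_iff]
    exact h.bdd x (le_trans hx (by norm_num))
  have hKc : IsCompact K :=
    (isCompact_closedBall (0 : EuclideanSpace ℝ (Fin n)) 1).of_isClosed_subset
      (isClosed_le huc continuous_const) hKb
  have hSK : S ⊆ K := by
    intro x hx
    have h' : u x < 1 := hx
    show u x ≤ 1
    exact h'.le
  have hSc : Convex ℝ S := by
    have := h.sc.convexOn.convex_lt 1
    simpa [hS] using this
  have hdist : ∀ x ∈ K, ∀ y ∈ K, dist x y ≤ 2 := by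
    intro x hx y hy
    have h1 := hKb hx
    have h2 := hKb hy
    rw [Metric.mem_closedBall] at h1 h2
    calc dist x y ≤ dist x 0 + dist y 0 := dist_triangle_right _ _ _
      _ ≤ 2 := by linarith
  have hzS : z ∈ S := by
    show u z < 1
    linarith
  -- critical density
  have hcd := ABP.crit_density hn hKc hSo hSK huc.continuousOn hv.continuous.continuousOn
    hu2.contDiffOn hv2.contDiffOn (fun x _ => h.sc.posDef x (mem_univ x))
    (Λ := Lam) (fun x hx => h.det_le x (by have : u x < 1 := hx; linarith))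
    (fun x hx => by
      have h1 := hL x (by have : u x < 1 := hx; linarith)
      refine le_trans (le_of_eq ?_) h1
      unfold ABP.Lop
      refine Finset.sum_congr rfl fun i _ => Finset.sum_congr rfl fun j _ => ?_
      rw [← h.sc.cof_eq (mem_univ x)]
      rfl)
    (fun x _ => (hp x).le) (h := 1) (A := 4 * eps) (d := 2) one_pos (by positivity) (by norm_num)
    (fun x _ => nonneg h x) (fun x hx hxS => not_lt.mp hxS) hzS (by linarith)
    (by linarith) (fun x hx => hdist x hx z (hSK hzS))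
  -- Poincaré
  set f : EuclideanSpace ℝ (Fin n) → ℝ := fun y => Real.log (v y) with hf
  have hf1 : ContDiff ℝ 1 f := (contDiff_log hv hp).of_le (by norm_cast)
  have hpo := Poinc.poincare_sets hSo hSc hf1.contDiffOn (d := 2)
    (fun x hx y hy => hdist x (hSK hx) y (hSK hy)) (Real.log (4 * eps)) (Real.log d)
  have htv := tv_bound h hlam hLam hG hv hp hL
  -- the two sets
  set Aset : Set (EuclideanSpace ℝ (Fin n)) := {x | x ∈ S ∧ v x < 4 * eps * 1} with hA
  set Bset : Set (EuclideanSpace ℝ (Fin n)) := {x | u x ≤ 1 / 2 ∧ d ≤ v x} with hB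
  have hAsub : Aset ⊆ {x | x ∈ S ∧ f x ≤ Real.log (4 * eps)} := by
    intro x hx
    exact ⟨hx.1, Real.log_le_log (hp x) (by linarith [hx.2])⟩
  have hBsub : Bset ⊆ {x | x ∈ S ∧ Real.log d ≤ f x} := by
    intro x hx
    refine ⟨?_, Real.log_le_log (by linarith) hx.2⟩
    show u x < 1
    linarith [hx.1]
  have hlog : Real.log d - Real.log (4 * eps) = Real.log (d / (4 * eps)) := by
    rw [Real.log_div (by linarith) (by positivity)]
  have hlogpos : 0 < Real.log (d / (4 * eps)) := by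
    apply Real.log_pos
    rw [one_lt_div (by positivity)]
    exact hd
  have hmain : ENNReal.ofReal (Real.log (d / (4 * eps))) * volume Aset * volume Bset
      ≤ ENNReal.ofReal 2 * (2 ^ n * volume S * ENNReal.ofReal TV) := by
    calc ENNReal.ofReal (Real.log (d / (4 * eps))) * volume Aset * volume Bset
        ≤ ENNReal.ofReal (Real.log d - Real.log (4 * eps)) *
          volume {x | x ∈ S ∧ f x ≤ Real.log (4 * eps)} * volume {x | x ∈ S ∧ Real.log d ≤ f x} := by
          rw [hlog]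
          gcongr
      _ ≤ _ := hpo
      _ ≤ _ := by gcongr
  -- to real numbers
  have hSfin : volume S ≠ ⊤ := (measure_mono (hSK.trans hKb)).trans_lt
    (isCompact_closedBall _ _).measure_lt_top |>.ne
  have hAfin : volume Aset ≠ ⊤ := (measure_mono (fun x hx => hx.1)).trans_lt
    (lt_top_iff_ne_top.mpr hSfin) |>.ne
  have hBfin : volume Bset ≠ ⊤ := (measure_mono (hBsub.trans fun x hx => hx.1)).trans_lt
    (lt_top_iff_ne_top.mpr hSfin) |>.ne
  have hVS : (volume S).toReal ≤ V1 n :=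
    ENNReal.toReal_mono (isCompact_closedBall _ _).measure_lt_top.ne (measure_mono (hSK.trans hKb))
  have hreal : Real.log (d / (4 * eps)) * (volume Aset).toReal * (volume Bset).toReal
      ≤ 2 * (2 ^ n * (volume S).toReal * TV) := by
    have := ENNReal.toReal_mono (by finiteness) hmain
    simpa [ENNReal.toReal_mul, ENNReal.toReal_ofReal hlogpos.le, ENNReal.toReal_ofReal hTV0]
      using this
  have hcdr : b0 ≤ Lam * (volume Aset).toReal := by
    have := ENNReal.toReal_mono (by finiteness) hcd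
    rwa [ENNReal.toReal_mul, ENNReal.toReal_ofReal hLam.le] at this
  -- conclusion
  have hAr : b0 / Lam ≤ (volume Aset).toReal := by
    rw [div_le_iff₀ hLam]; linarith [mul_comm Lam (volume Aset).toReal]
  set vb := (volume Bset).toReal with hvb
  have hvb0 : 0 ≤ vb := ENNReal.toReal_nonneg
  have h1 : Real.log (d / (4 * eps)) * (b0 / Lam) * vb ≤ 2 * (2 ^ n * V1 n * TV) := by
    calc Real.log (d / (4 * eps)) * (b0 / Lam) * vb
        ≤ Real.log (d / (4 * eps)) * (volume Aset).toReal * vb := by gcongr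
      _ ≤ 2 * (2 ^ n * (volume S).toReal * TV) := hreal
      _ ≤ 2 * (2 ^ n * V1 n * TV) := by gcongr
  have h2 : vb * Real.log (d / (4 * eps)) ≤ C0 := by
    rw [hC0, le_div_iff₀ hb0pos]
    calc vb * Real.log (d / (4 * eps)) * b0
        = Lam * (Real.log (d / (4 * eps)) * (b0 / Lam) * vb) := by field_simp
      _ ≤ Lam * (2 * (2 ^ n * V1 n * TV)) := mul_le_mul_of_nonneg_left h1 hLam.le
  linarith

end Crest.Agent.R236.WH
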