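import Crest.Agent.R236.Liou
import Crest.Agent.R236.Asm
import Crest.Agent.R236.Bl3
import Crest.Agent.R236.BFinal
import Crest.Agent.R236.BCor3
import Crest.Agent.R236.BVolF
import Mathlib
import Crest.Agent.R236.GP_Mg
import Crest.Agent.R236.WH_Mg
import Crest.Agent.R236.Jcp6_Mg
import Crest.Agent.R236.BApxW

-- ▼ part R236/Const
section

/-! Row 236: `Asm.ConstStmt` from the determinant bounds and the weak Harnack inequality
(helper202). -/

set_option autoImplicit false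
open scoped ContDiff Topology
open Crest.GeometryTopology.CoordMetric Crest.GeometryTopology.AffineMaximal
open Set Filter MeasureTheory

noncomputable section

namespace Crest.Agent.R236.Sec

theorem constStmt {n : ℕ} (hn : 0 < n) (hU : DetUpper n) (hL : DetLower n) (hWH : WHStmt n) :
    Asm.ConstStmt n := by
  intro Ω u th hS hth hB
  have hC0 : 0 < Qs.C0 th := lt_of_lt_of_le one_pos (Qs.one_le_C0 hth)
  obtain ⟨-, c, hc⟩ := det_const hn hU hL hWH hS.sc hS.ne hS.pde hC0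
    (Qs.sec_qs_of_bal hS.sc hth hB) hth hB hS.cap
  exact ⟨c, fun x _ => hc x⟩

end Crest.Agent.R236.Sec
end
end

-- ▼ part R236/CertThm
section

/-! Row 236: the certificate inequality `CertStmt` (C4). (helper796) -/

set_option autoImplicit false

namespace Crest.Agent.R236

/-- node C4 of Part B. -/
theorem certStmt (n : ℕ) (h3 : 3 ≤ n) (h9 : n ≤ 9) : BF.CertStmt n := by
  obtain ⟨K, _, hmain⟩ := Bl.cert n h3 h9
  exact ⟨K, fun Ω u hsc hpde P0 W0 pc wc eP eW h1 h2 h3 h4 ζ hζ hζc hζs =>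
    hmain Ω u P0 W0 pc wc eP eW hsc hpde h1 h2 h3 h4 ζ hζ hζc hζs⟩

end Crest.Agent.R236
end

-- ▼ part R236/EnergyThm
section

/-! Row 236 (helper418): `EnergyStmt n` from the mass bound. -/

set_option autoImplicit false
open scoped ContDiff
open MeasureTheory Set
open Crest.GeometryTopology.CoordMetric Crest.GeometryTopology.AffineMaximal

namespace Crest.Agent.R236.BCor

open Crest.Agent.R236.B (VV APX Grid sg)
open Crest.Agent.R236.A (EE epi SOL)

/-- the mass bound `∫_{D_s} N(e_*)^{-n/2} dx/ρ ≤ C` -/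
def MassStmt (n : ℕ) : Prop := ∀ Θ K c2 C0 : ℝ, 16 ≤ Θ → 0 < K → 0 < c2 → 1 ≤ C0 →
  ∃ Cm : ℝ, 0 ≤ Cm ∧
  ∀ (N : ℕ) (ε0 : ℝ), 0 < ε0 → ε0 ≤ 1 → ∀ (Ω : Set (EE n)) (u : EE n → ℝ) (P0 W0 : VV n →L[ℝ] ℝ)
    (pc wc : ℝ) (eP eW O : VV n) (es Q : ℝ → ℝ → VV n) (nrm : ℝ → ℝ → Seminorm ℝ (VV n)),
    APX n Θ K c2 C0 N ε0 Ω u P0 W0 pc wc eP eW O es Q nrm →
    ∀ lam tau : ℝ, Grid N lam tau →
    ∫⁻ x in {x | x ∈ Ω ∧ B.aff P0 pc (x, u x) / lam + B.aff W0 wc (x, u x) / tau < Θ},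
      ENNReal.ofReal (Bla.Nv u (es lam tau) x ^ (-(n : ℝ) / 2) * (1 / Bla.rho u x))
        ≤ ENNReal.ofReal Cm

/-- pointwise: `N^{-n/2}/ρ = (N/ρ)^{1/2} (N^{-(n+1)}/ρ)^{1/2}` -/
theorem mass_pointwise {n : ℕ} {Ω : Set (EE n)} {u : EE n → ℝ} (h : SC Ω u) {x : EE n} (hx : x ∈ Ω)
    {s : ℝ} (hs : 0 < s) :
    (Bla.rho u x * s) ^ (-(n : ℝ) / 2) * (1 / Bla.rho u x) =
      s ^ ((1 : ℝ) / 2) * ((hessianMat u x).det / s ^ (n + 1)) ^ ((1 : ℝ) / 2) := by
  have hr := Bla.rho_pos h hx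
  have hd := h.det_pos hx
  have h1 := Bla.rho_pow_det h hx
  have e1 : (hessianMat u x).det = Bla.rho u x ^ (-((n : ℝ) + 2)) := by
    have e2 : Bla.rho u x ^ (-((n : ℝ) + 2)) = (Bla.rho u x ^ (n + 2))⁻¹ := by
      rw [Real.rpow_neg hr.le]
      congr 1
      rw [← Real.rpow_natCast]
      push_cast
      rfl
    rw [e2]
    exact eq_inv_of_mul_eq_one_right h1
  have e3 : (hessianMat u x).det / s ^ (n + 1) =
      Bla.rho u x ^ (-((n : ℝ) + 2)) * s ^ (-((n : ℝ) + 1)) := by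
    rw [e1, div_eq_mul_inv]
    congr 1
    rw [Real.rpow_neg hs.le]
    congr 1
    rw [← Real.rpow_natCast]
    push_cast
    rfl
  rw [e3, Real.mul_rpow hr.le hs.le, Real.mul_rpow (by positivity) (by positivity),
    ← Real.rpow_mul hr.le, ← Real.rpow_mul hs.le, one_div, ← Real.rpow_neg_one]
  have e4 : Bla.rho u x ^ (-(n : ℝ) / 2) * s ^ (-(n : ℝ) / 2) * Bla.rho u x ^ (-1 : ℝ)
      = (Bla.rho u x ^ (-(n : ℝ) / 2) * Bla.rho u x ^ (-1 : ℝ)) * s ^ (-(n : ℝ) / 2) := by ring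
  have e5 : s ^ ((1 / 2 : ℝ)) * (Bla.rho u x ^ (-((n : ℝ) + 2) * (1 / 2 : ℝ)) *
      s ^ (-((n : ℝ) + 1) * (1 / 2 : ℝ)))
      = Bla.rho u x ^ (-((n : ℝ) + 2) * (1 / 2 : ℝ)) *
        (s ^ ((1 / 2 : ℝ)) * s ^ (-((n : ℝ) + 1) * (1 / 2 : ℝ))) := by ring
  rw [e4, e5, ← Real.rpow_add hr, ← Real.rpow_add hs]
  congr 2 <;> ring

theorem massStmt (n : ℕ) : MassStmt n := by
  intro Θ K c2 C0 hΘ hK hc2 hC0
  have hA : 0 ≤ (K + C0) ^ (n + 1) := by positivity
  have hB : 0 ≤ ((n : ℝ) + 1) * (4 * C0) ^ (n + 1) := by positivity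
  refine ⟨((K + C0) ^ (n + 1) * (((n : ℝ) + 1) * (4 * C0) ^ (n + 1))) ^ ((1 : ℝ) / 2),
    by positivity, ?_⟩
  intro N ε0 hε0 hε1 Ω u P0 W0 pc wc eP eW O es Q nrm h lam tau hg
  have hsc := h.sol.sc
  have hsub : {x | x ∈ Ω ∧ B.aff P0 pc (x, u x) / lam + B.aff W0 wc (x, u x) / tau < Θ} ⊆
      BVolC.DD Ω u P0 W0 pc wc Θ lam tau := fun x hx => ⟨hx.1, hx.2.le⟩
  refine (lintegral_mono_set hsub).trans ?_
  have hDm := BVolC.measurableSet_DD (P0 := P0) (W0 := W0) (pc := pc) (wc := wc) (Θ := Θ)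
    hsc lam tau
  have m1 := BVolC.M1 h hg
  have m2 := BVolC.M2 h hg
  set D := BVolC.DD Ω u P0 W0 pc wc Θ lam tau with hD
  have hk : 0 < BVolC.kap (nrm lam tau) := BVolC.kap_pos _ (h.definite lam tau hg)
  set kp := BVolC.kap (nrm lam tau) with hkp
  have hDΩ : D ⊆ Ω := fun x hx => hx.1
  have hf : AEMeasurable (fun x => ENNReal.ofReal (sg u (es lam tau) x)) (volume.restrict D) :=
    (((BVolC.continuousOn_sg hsc (es lam tau)).mono hDΩ).aemeasurable hDm).ennreal_ofReal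
  have hspos : ∀ x ∈ D, 0 < sg u (es lam tau) x := fun x hx => h.sg_es lam tau hg x hx.1 hx.2
  have hgm : AEMeasurable (fun x => ENNReal.ofReal
      ((hessianMat u x).det / (sg u (es lam tau) x) ^ (n + 1))) (volume.restrict D) := by
    have hc : ContinuousOn (fun x => (hessianMat u x).det / (sg u (es lam tau) x) ^ (n + 1)) D := by
      apply ContinuousOn.div
      · exact hsc.contDiffOn_det.continuousOn.mono hDΩ
      · exact ((BVolC.continuousOn_sg hsc (es lam tau)).mono hDΩ).pow _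
      · intro x hx; exact pow_ne_zero _ (hspos x hx).ne'
    exact (hc.aemeasurable hDm).ennreal_ofReal
  have hold := ENNReal.lintegral_mul_norm_pow_le (μ := volume.restrict D)
    (f := fun x => ENNReal.ofReal (sg u (es lam tau) x))
    (g := fun x => ENNReal.ofReal ((hessianMat u x).det / (sg u (es lam tau) x) ^ (n + 1)))
    hf hgm (p := 1 / 2) (q := 1 / 2) (by norm_num) (by norm_num) (by norm_num)
  have e0 : ∫⁻ x in D, ENNReal.ofReal (Bla.Nv u (es lam tau) x ^ (-(n : ℝ) / 2) *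
      (1 / Bla.rho u x)) = ∫⁻ x in D, ENNReal.ofReal (sg u (es lam tau) x) ^ ((1 : ℝ) / 2) *
        ENNReal.ofReal ((hessianMat u x).det / (sg u (es lam tau) x) ^ (n + 1)) ^ ((1 : ℝ) / 2) := by
    refine setLIntegral_congr_fun hDm fun x hx => ?_
    have hs := hspos x hx
    have hd := hsc.det_pos (hDΩ hx)
    rw [ENNReal.ofReal_rpow_of_pos hs, ENNReal.ofReal_rpow_of_pos (by positivity),
      ← ENNReal.ofReal_mul (by positivity)]
    congr 1
    exact mass_pointwise hsc (hDΩ hx) hs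
  rw [e0]
  refine hold.trans ?_
  calc (∫⁻ x in D, ENNReal.ofReal (sg u (es lam tau) x)) ^ ((1 : ℝ) / 2) *
        (∫⁻ x in D, ENNReal.ofReal ((hessianMat u x).det / (sg u (es lam tau) x) ^ (n + 1))) ^
          ((1 : ℝ) / 2)
      ≤ ENNReal.ofReal ((K + C0) ^ (n + 1) * kp) ^ ((1 : ℝ) / 2) *
        ENNReal.ofReal (((n : ℝ) + 1) * (4 * C0) ^ (n + 1) / kp) ^ ((1 : ℝ) / 2) := by
        gcongr
    _ = ENNReal.ofReal (((K + C0) ^ (n + 1) * (((n : ℝ) + 1) * (4 * C0) ^ (n + 1))) ^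
          ((1 : ℝ) / 2)) := by
        rw [ENNReal.ofReal_rpow_of_nonneg (by positivity) (by norm_num),
          ENNReal.ofReal_rpow_of_nonneg (by positivity) (by norm_num),
          ← ENNReal.ofReal_mul (by positivity), ← Real.mul_rpow (by positivity) (by positivity)]
        congr 2
        field_simp

theorem energyStmt_of_mass {n : ℕ} (hM : MassStmt n) : BF.EnergyStmt n := by
  intro Θ K c2 C0 hΘ hK hc2 hC0
  obtain ⟨Cm, hCm, hm⟩ := hM Θ K c2 C0 hΘ hK hc2 hC0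
  refine ⟨Cbox n Θ Θ * (C0 ^ ((n : ℝ) / 2) * Cm), ?_⟩
  intro N ε0 hε0 hε1 Ω u P0 W0 pc wc eP eW O es Q nrm h a b ha hb
  have hg : Grid N ((2 : ℝ) ^ a) ((2 : ℝ) ^ b) := ⟨a, b, ha, hb, rfl, rfl⟩
  have hmass := hm N ε0 hε0 hε1 Ω u P0 W0 pc wc eP eW O es Q nrm h _ _ hg
  have key := energy_apx h hε0.le hε1 hg hCm hmass
  refine le_trans ?_ key
  have hsub : {x | x ∈ Ω ∧ B.aff P0 pc (x, u x) / (2:ℝ)^a + B.aff W0 wc (x, u x) / (2:ℝ)^b ≤ 2} ⊆
      {x | x ∈ Ω ∧ B.aff P0 pc (x, u x) / (2:ℝ)^a + B.aff W0 wc (x, u x) / (2:ℝ)^b < Θ / 4} := by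
    intro x hx
    refine ⟨hx.1, ?_⟩
    have := hx.2
    linarith
  refine le_trans (le_of_eq ?_) (lintegral_mono_set hsub)
  congr 1

theorem energyStmt (n : ℕ) : BF.EnergyStmt n := energyStmt_of_mass (massStmt n)

end Crest.Agent.R236.BCor
end

-- ▼ part R236/LowerThm
section

/-!
# Row 236, Part B, node B6: `LowerStmt`  (helper218)
-/

set_option autoImplicit false
noncomputable section
open MeasureTheory Set
open scoped ENNReal ContDiff
open Crest.GeometryTopology.CoordMetric Crest.GeometryTopology.AffineMaximal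

namespace Crest.Agent.R236.BmassF

open Crest.Agent.R236.A (EE epi SOL STRUCT IsStruct ConeData Appr)
open Crest.Agent.R236.B Crest.Agent.R236.BA Crest.Agent.R236.BVol Crest.Agent.R236.BmassM

theorem exists_B5Hyp (n : ℕ) (hn : 1 ≤ n) : ∃ c : ℝ, 0 < c ∧ B5Hyp n c := by
  obtain ⟨c, hc, H⟩ := GP.capArea n hn
  refine ⟨c, hc, ?_⟩
  intro Ω u hsc hpde l b h hK hh ⟨x0, hx0, he⟩ hle
  exact H Ω u hsc hpde l b hK x0 hx0 h he.ge

theorem m2Hyp (n : ℕ) (Θ K c2 C0 : ℝ) (hC0 : 1 ≤ C0) :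
    M2Hyp n Θ K c2 C0 (2 * ((n : ℝ) + 1) * (8 * C0) ^ (n + 1)) := by
  intro N ε0 Ω u P0 W0 pc wc eP eW O es Q nrm h lam tau hg
  have hkap : 0 < BVolC.kap (nrm lam tau) := BVolC.kap_pos _ (h.definite lam tau hg)
  have hsub : Dr Ω u P0 W0 pc wc lam tau Θ ⊆ BVolC.DD Ω u P0 W0 pc wc Θ lam tau :=
    fun x hx => ⟨hx.1, hx.2.le⟩
  refine ⟨hkap, ?_, fun δ hδ => ⟨?_, ?_⟩⟩
  · refine (lintegral_mono_set hsub).trans ((BVolC.M2 h hg).trans
      (ENNReal.ofReal_le_ofReal ?_))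
    have h1 : ((n : ℝ) + 1) * (4 * C0) ^ (n + 1) ≤ 2 * ((n : ℝ) + 1) * (8 * C0) ^ (n + 1) := by
      have h2 : (4 * C0) ^ (n + 1) ≤ (8 * C0) ^ (n + 1) :=
        pow_le_pow_left₀ (by linarith) (by linarith) _
      have h3 : 0 ≤ (4 * C0) ^ (n + 1) := by positivity
      have h4 : (0 : ℝ) ≤ (n : ℝ) + 1 := by positivity
      nlinarith [mul_le_mul_of_nonneg_left h2 h4, mul_nonneg h4 h3]
    exact div_le_div_of_nonneg_right h1 hkap.le
  · exact (lintegral_mono_set (inter_subset_inter_left _ hsub)).trans (BVolC.M2P h hg hδ)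
  · exact (lintegral_mono_set (inter_subset_inter_left _ hsub)).trans (BVolC.M2W h hg hδ)

/-- **B6**. -/
theorem lowerStmt (n : ℕ) (hn : 2 ≤ n) : BF.LowerStmt n := by
  intro Θ K c2 C0 hΘ hK hc2 hC0
  obtain ⟨cB, hcB, hB⟩ := exists_B5Hyp n (by omega)
  obtain ⟨ε0, ⟨hε0, hε1⟩, c4, hc4, H⟩ := lower n hn Θ K c2 C0 (by linarith) hK hc2 hC0 cB hcB hB
    (2 * ((n : ℝ) + 1) * (8 * C0) ^ (n + 1)) (by positivity) (m2Hyp n Θ K c2 C0 hC0)
  refine ⟨ε0, c4, Θ, hε0, hε1, hc4, by linarith, ?_⟩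
  intro N Ω u P0 W0 pc wc eP eW O es Q nrm h a b ha hb
  exact H N Ω u P0 W0 pc wc eP eW O es Q nrm h ((2:ℝ) ^ a) ((2:ℝ) ^ b) ⟨a, b, ha, hb, rfl, rfl⟩

end Crest.Agent.R236.BmassF
end
end

-- ▼ part R236/Top
section

/-! Row 236: link of `S0365` with the open nodes as hypotheses (helper709, linker). -/

set_option autoImplicit false
open scoped ContDiff Topology
open Crest.GeometryTopology.CoordMetric Crest.GeometryTopology.AffineMaximal
open Set Filter MeasureTheory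

noncomputable section

namespace Crest.Agent.R236.Top

open Crest.Agent.R236

/-- Part A -/
theorem partA : A.PartA := A.partA_of_a4 A.a4

/-- lower determinant bound, in the form of `SecPre`. -/
theorem detLower {n : ℕ} (hn : 1 ≤ n) : Sec.DetLower n := by
  intro u h hp x₀ G hG hK hb
  have := Det.det_lower_base hn h hp (x0 := x₀) (mem_univ _) one_pos
    (by simpa [Sec.dev] using hK) hG (fun x _ hx => hb x hx)
  simpa using this

/-- `S0365` from the leaves. -/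
theorem S0365_of_leaves (hJ : ∀ n : ℕ, 3 ≤ n → n ≤ 9 → Jcp.CubicCore n) :
    ∀ n : ℕ, 3 ≤ n → n ≤ 9 → Asm.S0365Stmt n :=
  Top0.S0365_of_parts partA
    (fun n h3 h9 hS => BF.struct_false (by omega) (B.apx_of_stmts B.geo B.apxW) (certStmt n h3 h9)
      (BCor.energyStmt n) (BmassF.lowerStmt n (by omega)) hS)
    (fun n h3 h9 => Sec.constStmt (by omega) (Sec.detUpper (by omega)) (detLower (by omega))
      (WH.wh (by omega)))
    (fun n h3 h9 Ω u c h hne hdet hsec => Jcp.jcp_of (hJ n h3 h9) h hne hdet hsec)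

end Crest.Agent.R236.Top
end
end

-- ▼ part R236/TopFinal

/-! Row 236: final link of `S0365` (helper709, linker). -/

set_option autoImplicit false
open scoped ContDiff Topology
open Crest.GeometryTopology.CoordMetric Crest.GeometryTopology.AffineMaximal
open Set Filter MeasureTheory

noncomputable section

namespace Crest.Agent.R236.TopFinal

open Crest.Agent.R236

theorem final : ∀ n : ℕ, 3 ≤ n → n ≤ 9 → Asm.S0365Stmt n :=
  Top.S0365_of_leaves fun n _ _ => Jcp.cubic_core n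

end Crest.Agent.R236.TopFinal
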